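import Vale.Agent.Lib.P058.GroupTower

/-! # The alternating group on five letters as a token group -/

namespace Vale.Agent.Lib.P058.A5

/-- The token group. -/
abbrev G : Type := ↥(alternatingGroup (Fin 5))

/-- Label alphabet of the towers. -/
abbrev A : ℕ := 30

/-- Table key of a token: an even permutation is determined by its first three values. -/
def key (t : G) : ℕ := (t.1 0).val + 5 * (t.1 1).val + 25 * (t.1 2).val

/-- A column given by a table. -/
def bT (tbl : List ℕ) (t : G) : Fin A := Fin.ofNat A (tbl.getD (key t) 0)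

/-- Decoding table, with the default letter removed. -/
def decT (δ : Fin A) (D : List (List ℕ)) (l : Fin A) : List (Fin A) :=
  ((D.getD l.val []).map (Fin.ofNat A)).filter (· ≠ δ)

theorem decT_not_mem (δ : Fin A) (D : List (List ℕ)) (l : Fin A) : δ ∉ decT δ D l := by
  simp [decT]

def e0 : G := ⟨⟨![0,1,2,3,4], ![0,1,2,3,4], by decide, by decide⟩, Equiv.Perm.mem_alternatingGroup.mpr (by decide)⟩
def e1 : G := ⟨⟨![0,1,3,4,2], ![0,1,4,2,3], by decide, by decide⟩, Equiv.Perm.mem_alternatingGroup.mpr (by decide)⟩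
def e2 : G := ⟨⟨![0,1,4,2,3], ![0,1,3,4,2], by decide, by decide⟩, Equiv.Perm.mem_alternatingGroup.mpr (by decide)⟩
def e3 : G := ⟨⟨![0,2,1,4,3], ![0,2,1,4,3], by decide, by decide⟩, Equiv.Perm.mem_alternatingGroup.mpr (by decide)⟩
def e4 : G := ⟨⟨![0,2,3,1,4], ![0,3,1,2,4], by decide, by decide⟩, Equiv.Perm.mem_alternatingGroup.mpr (by decide)⟩
def e6 : G := ⟨⟨![0,3,1,2,4], ![0,2,3,1,4], by decide, by decide⟩, Equiv.Perm.mem_alternatingGroup.mpr (by decide)⟩
def e11 : G := ⟨⟨![0,4,3,2,1], ![0,4,3,2,1], by decide, by decide⟩, Equiv.Perm.mem_alternatingGroup.mpr (by decide)⟩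
def e13 : G := ⟨⟨![1,0,3,2,4], ![1,0,3,2,4], by decide, by decide⟩, Equiv.Perm.mem_alternatingGroup.mpr (by decide)⟩
def e15 : G := ⟨⟨![1,2,0,3,4], ![2,0,1,3,4], by decide, by decide⟩, Equiv.Perm.mem_alternatingGroup.mpr (by decide)⟩
def e16 : G := ⟨⟨![1,2,3,4,0], ![4,0,1,2,3], by decide, by decide⟩, Equiv.Perm.mem_alternatingGroup.mpr (by decide)⟩
def e21 : G := ⟨⟨![1,4,0,2,3], ![2,0,3,4,1], by decide, by decide⟩, Equiv.Perm.mem_alternatingGroup.mpr (by decide)⟩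
def e24 : G := ⟨⟨![2,0,1,3,4], ![1,2,0,3,4], by decide, by decide⟩, Equiv.Perm.mem_alternatingGroup.mpr (by decide)⟩
def e27 : G := ⟨⟨![2,1,0,4,3], ![2,1,0,4,3], by decide, by decide⟩, Equiv.Perm.mem_alternatingGroup.mpr (by decide)⟩
def e28 : G := ⟨⟨![2,1,3,0,4], ![3,1,0,2,4], by decide, by decide⟩, Equiv.Perm.mem_alternatingGroup.mpr (by decide)⟩
def e30 : G := ⟨⟨![2,3,0,1,4], ![2,3,0,1,4], by decide, by decide⟩, Equiv.Perm.mem_alternatingGroup.mpr (by decide)⟩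
def e32 : G := ⟨⟨![2,3,4,0,1], ![3,4,0,1,2], by decide, by decide⟩, Equiv.Perm.mem_alternatingGroup.mpr (by decide)⟩
def e39 : G := ⟨⟨![3,1,0,2,4], ![2,1,3,0,4], by decide, by decide⟩, Equiv.Perm.mem_alternatingGroup.mpr (by decide)⟩
def e45 : G := ⟨⟨![3,4,0,1,2], ![2,3,4,0,1], by decide, by decide⟩, Equiv.Perm.mem_alternatingGroup.mpr (by decide)⟩
def e47 : G := ⟨⟨![3,4,2,0,1], ![3,4,2,0,1], by decide, by decide⟩, Equiv.Perm.mem_alternatingGroup.mpr (by decide)⟩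
def e48 : G := ⟨⟨![4,0,1,2,3], ![1,2,3,4,0], by decide, by decide⟩, Equiv.Perm.mem_alternatingGroup.mpr (by decide)⟩
def e53 : G := ⟨⟨![4,1,3,2,0], ![4,1,3,2,0], by decide, by decide⟩, Equiv.Perm.mem_alternatingGroup.mpr (by decide)⟩

end Vale.Agent.Lib.P058.A5
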