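import Vale.Agent.Lib.P058.A5Base

/-! # A tower for the column of left cosets of a subgroup of prime order 2 of the alternating group -/

namespace Vale.Agent.Lib.P058.A5.K2

open Vale.Agent.Lib.P058

/-- The generator of the subgroup. -/
def k : G := e13

def t0 : List ℕ := [0,0,0,0,0,0,0,15,12,24,0,6,0,19,27,0,3,18,0,28,0,9,21,22,0,0,0,12,15,24,0,0,0,0,0,3,0,0,18,28,6,0,19,0,27,9,0,22,21,0,0,1,0,16,25,0,0,0,13,26,0,0,0,0,0,7,4,0,0,29,10,11,0,23,0,0,0,13,0,26,1,0,16,0,25,4,7,0,0,29,0,0,0,0,0,11,10,23,0,0,0,2,14,17,0,2,0,17,14,0,5,8,0,20,0,8,5,20,0,0,0,0,0,0,0]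
def t1 : List ℕ := [0,0,0,0,0,0,0,14,11,23,0,5,0,18,26,0,2,17,0,27,0,8,20,21,0,0,0,11,14,23,0,0,0,0,0,2,0,0,17,27,5,0,18,0,26,8,0,21,20,0,0,1,0,15,24,0,0,0,12,25,0,0,0,0,0,6,3,0,0,28,9,10,0,22,0,0,0,12,0,25,1,0,15,0,24,3,6,0,0,28,0,0,0,0,0,10,9,22,0,0,0,1,13,16,0,1,0,16,13,0,4,7,0,19,0,7,4,19,0,0,0,0,0,0,0]
def t2 : List ℕ := [0,0,0,0,0,0,0,13,11,22,0,5,0,17,25,0,2,16,0,26,0,8,19,20,0,0,0,11,13,22,0,0,0,0,0,2,0,0,16,26,5,0,17,0,25,8,0,20,19,0,0,1,0,14,23,0,0,0,12,24,0,0,0,0,0,6,3,0,0,27,9,10,0,21,0,0,0,12,0,24,1,0,14,0,23,3,6,0,0,27,0,0,0,0,0,10,9,21,0,0,0,1,2,15,0,1,0,15,2,0,4,7,0,18,0,7,4,18,0,0,0,0,0,0,0]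
def t3 : List ℕ := [0,0,0,0,0,0,0,12,3,21,0,5,0,16,24,0,2,15,0,25,0,8,18,19,0,0,0,3,12,21,0,0,0,0,0,2,0,0,15,25,5,0,16,0,24,8,0,19,18,0,0,1,0,13,22,0,0,0,11,23,0,0,0,0,0,6,3,0,0,26,9,10,0,20,0,0,0,11,0,23,1,0,13,0,22,3,6,0,0,26,0,0,0,0,0,10,9,20,0,0,0,1,2,14,0,1,0,14,2,0,4,7,0,17,0,7,4,17,0,0,0,0,0,0,0]
def t4 : List ℕ := [0,0,0,0,0,0,0,11,3,20,0,5,0,15,23,0,2,14,0,24,0,8,17,18,0,0,0,3,11,20,0,0,0,0,0,2,0,0,14,24,5,0,15,0,23,8,0,18,17,0,0,1,0,12,21,0,0,0,4,22,0,0,0,0,0,6,3,0,0,25,9,10,0,19,0,0,0,4,0,22,1,0,12,0,21,3,6,0,0,25,0,0,0,0,0,10,9,19,0,0,0,1,2,13,0,1,0,13,2,0,4,7,0,16,0,7,4,16,0,0,0,0,0,0,0]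
def t5 : List ℕ := [0,0,0,0,0,0,0,11,3,19,0,5,0,14,22,0,2,13,0,23,0,8,16,17,0,0,0,3,11,19,0,0,0,0,0,2,0,0,13,23,5,0,14,0,22,8,0,17,16,0,0,1,0,5,20,0,0,0,4,21,0,0,0,0,0,6,3,0,0,24,9,10,0,18,0,0,0,4,0,21,1,0,5,0,20,3,6,0,0,24,0,0,0,0,0,10,9,18,0,0,0,1,2,12,0,1,0,12,2,0,4,7,0,15,0,7,4,15,0,0,0,0,0,0,0]
def t6 : List ℕ := [0,0,0,0,0,0,0,11,3,18,0,5,0,13,21,0,2,12,0,22,0,8,15,16,0,0,0,3,11,18,0,0,0,0,0,2,0,0,12,22,5,0,13,0,21,8,0,16,15,0,0,1,0,5,19,0,0,0,4,20,0,0,0,0,0,6,3,0,0,23,9,10,0,17,0,0,0,4,0,20,1,0,5,0,19,3,6,0,0,23,0,0,0,0,0,10,9,17,0,0,0,1,2,6,0,1,0,6,2,0,4,7,0,14,0,7,4,14,0,0,0,0,0,0,0]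
def t7 : List ℕ := [0,0,0,0,0,0,0,7,3,17,0,5,0,12,20,0,2,11,0,21,0,8,14,15,0,0,0,3,7,17,0,0,0,0,0,2,0,0,11,21,5,0,12,0,20,8,0,15,14,0,0,1,0,5,18,0,0,0,4,19,0,0,0,0,0,6,3,0,0,22,9,10,0,16,0,0,0,4,0,19,1,0,5,0,18,3,6,0,0,22,0,0,0,0,0,10,9,16,0,0,0,1,2,6,0,1,0,6,2,0,4,7,0,13,0,7,4,13,0,0,0,0,0,0,0]
def t8 : List ℕ := [0,0,0,0,0,0,0,7,3,17,0,5,0,12,19,0,2,11,0,20,0,8,14,15,0,0,0,3,7,17,0,0,0,0,0,2,0,0,11,20,5,0,12,0,19,8,0,15,14,0,0,1,0,5,18,0,0,0,4,8,0,0,0,0,0,6,3,0,0,21,9,10,0,16,0,0,0,4,0,8,1,0,5,0,18,3,6,0,0,21,0,0,0,0,0,10,9,16,0,0,0,1,2,6,0,1,0,6,2,0,4,7,0,13,0,7,4,13,0,0,0,0,0,0,0]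
def t9 : List ℕ := [0,0,0,0,0,0,0,7,3,9,0,5,0,12,18,0,2,11,0,19,0,8,14,15,0,0,0,3,7,9,0,0,0,0,0,2,0,0,11,19,5,0,12,0,18,8,0,15,14,0,0,1,0,5,17,0,0,0,4,8,0,0,0,0,0,6,3,0,0,20,9,10,0,16,0,0,0,4,0,8,1,0,5,0,17,3,6,0,0,20,0,0,0,0,0,10,9,16,0,0,0,1,2,6,0,1,0,6,2,0,4,7,0,13,0,7,4,13,0,0,0,0,0,0,0]
def t10 : List ℕ := [0,0,0,0,0,0,0,7,3,9,0,5,0,12,17,0,2,11,0,18,0,8,14,15,0,0,0,3,7,9,0,0,0,0,0,2,0,0,11,18,5,0,12,0,17,8,0,15,14,0,0,1,0,5,10,0,0,0,4,8,0,0,0,0,0,6,3,0,0,19,9,10,0,16,0,0,0,4,0,8,1,0,5,0,10,3,6,0,0,19,0,0,0,0,0,10,9,16,0,0,0,1,2,6,0,1,0,6,2,0,4,7,0,13,0,7,4,13,0,0,0,0,0,0,0]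
def t11 : List ℕ := [0,0,0,0,0,0,0,7,3,9,0,5,0,12,16,0,2,11,0,17,0,8,13,14,0,0,0,3,7,9,0,0,0,0,0,2,0,0,11,17,5,0,12,0,16,8,0,14,13,0,0,1,0,5,10,0,0,0,4,8,0,0,0,0,0,6,3,0,0,18,9,10,0,15,0,0,0,4,0,8,1,0,5,0,10,3,6,0,0,18,0,0,0,0,0,10,9,15,0,0,0,1,2,6,0,1,0,6,2,0,4,7,0,12,0,7,4,12,0,0,0,0,0,0,0]
def t12 : List ℕ := [0,0,0,0,0,0,0,7,3,9,0,5,0,12,16,0,2,11,0,17,0,8,13,14,0,0,0,3,7,9,0,0,0,0,0,2,0,0,11,17,5,0,12,0,16,8,0,14,13,0,0,1,0,5,10,0,0,0,4,8,0,0,0,0,0,6,3,0,0,13,9,10,0,15,0,0,0,4,0,8,1,0,5,0,10,3,6,0,0,13,0,0,0,0,0,10,9,15,0,0,0,1,2,6,0,1,0,6,2,0,4,7,0,12,0,7,4,12,0,0,0,0,0,0,0]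
def t13 : List ℕ := [0,0,0,0,0,0,0,7,3,9,0,5,0,12,14,0,2,11,0,16,0,8,13,14,0,0,0,3,7,9,0,0,0,0,0,2,0,0,11,16,5,0,12,0,14,8,0,14,13,0,0,1,0,5,10,0,0,0,4,8,0,0,0,0,0,6,3,0,0,13,9,10,0,15,0,0,0,4,0,8,1,0,5,0,10,3,6,0,0,13,0,0,0,0,0,10,9,15,0,0,0,1,2,6,0,1,0,6,2,0,4,7,0,12,0,7,4,12,0,0,0,0,0,0,0]
def t14 : List ℕ := [0,0,0,0,0,0,0,7,3,9,0,5,0,12,14,0,2,11,0,15,0,8,13,14,0,0,0,3,7,9,0,0,0,0,0,2,0,0,11,15,5,0,12,0,14,8,0,14,13,0,0,1,0,5,10,0,0,0,4,8,0,0,0,0,0,6,3,0,0,13,9,10,0,15,0,0,0,4,0,8,1,0,5,0,10,3,6,0,0,13,0,0,0,0,0,10,9,15,0,0,0,1,2,6,0,1,0,6,2,0,4,7,0,12,0,7,4,12,0,0,0,0,0,0,0]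
def t15 : List ℕ := [0,0,0,0,0,0,0,7,3,9,0,5,0,12,1,0,2,11,0,14,0,8,13,1,0,0,0,3,7,9,0,0,0,0,0,2,0,0,11,14,5,0,12,0,1,8,0,1,13,0,0,1,0,5,10,0,0,0,4,8,0,0,0,0,0,6,3,0,0,13,9,10,0,14,0,0,0,4,0,8,1,0,5,0,10,3,6,0,0,13,0,0,0,0,0,10,9,14,0,0,0,1,2,6,0,1,0,6,2,0,4,7,0,12,0,7,4,12,0,0,0,0,0,0,0]
def t16 : List ℕ := [0,0,0,0,0,0,0,7,3,8,0,5,0,11,1,0,2,10,0,13,0,2,12,1,0,0,0,3,7,8,0,0,0,0,0,2,0,0,10,13,5,0,11,0,1,2,0,1,12,0,0,1,0,5,9,0,0,0,4,2,0,0,0,0,0,6,3,0,0,12,8,9,0,13,0,0,0,4,0,2,1,0,5,0,9,3,6,0,0,12,0,0,0,0,0,9,8,13,0,0,0,1,2,6,0,1,0,6,2,0,4,7,0,11,0,7,4,11,0,0,0,0,0,0,0]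
def t17 : List ℕ := [0,0,0,0,0,0,0,7,3,8,0,5,0,11,1,0,2,10,0,4,0,2,12,1,0,0,0,3,7,8,0,0,0,0,0,2,0,0,10,4,5,0,11,0,1,2,0,1,12,0,0,1,0,5,9,0,0,0,4,2,0,0,0,0,0,6,3,0,0,12,8,9,0,4,0,0,0,4,0,2,1,0,5,0,9,3,6,0,0,12,0,0,0,0,0,9,8,4,0,0,0,1,2,6,0,1,0,6,2,0,4,7,0,11,0,7,4,11,0,0,0,0,0,0,0]
def t18 : List ℕ := [0,0,0,0,0,0,0,7,3,8,0,5,0,11,1,0,2,10,0,4,0,2,6,1,0,0,0,3,7,8,0,0,0,0,0,2,0,0,10,4,5,0,11,0,1,2,0,1,6,0,0,1,0,5,9,0,0,0,4,2,0,0,0,0,0,6,3,0,0,6,8,9,0,4,0,0,0,4,0,2,1,0,5,0,9,3,6,0,0,6,0,0,0,0,0,9,8,4,0,0,0,1,2,6,0,1,0,6,2,0,4,7,0,11,0,7,4,11,0,0,0,0,0,0,0]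
def t19 : List ℕ := [0,0,0,0,0,0,0,7,3,7,0,5,0,10,1,0,2,9,0,4,0,2,6,1,0,0,0,3,7,7,0,0,0,0,0,2,0,0,9,4,5,0,10,0,1,2,0,1,6,0,0,1,0,5,8,0,0,0,4,2,0,0,0,0,0,6,3,0,0,6,7,8,0,4,0,0,0,4,0,2,1,0,5,0,8,3,6,0,0,6,0,0,0,0,0,8,7,4,0,0,0,1,2,6,0,1,0,6,2,0,4,7,0,10,0,7,4,10,0,0,0,0,0,0,0]
def t20 : List ℕ := [0,0,0,0,0,0,0,7,3,7,0,5,0,8,1,0,2,9,0,4,0,2,6,1,0,0,0,3,7,7,0,0,0,0,0,2,0,0,9,4,5,0,8,0,1,2,0,1,6,0,0,1,0,5,8,0,0,0,4,2,0,0,0,0,0,6,3,0,0,6,7,8,0,4,0,0,0,4,0,2,1,0,5,0,8,3,6,0,0,6,0,0,0,0,0,8,7,4,0,0,0,1,2,6,0,1,0,6,2,0,4,7,0,8,0,7,4,8,0,0,0,0,0,0,0]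
def t21 : List ℕ := [0,0,0,0,0,0,0,7,3,7,0,5,0,8,1,0,2,0,0,4,0,2,6,1,0,0,0,3,7,7,0,0,0,0,0,2,0,0,0,4,5,0,8,0,1,2,0,1,6,0,0,1,0,5,8,0,0,0,4,2,0,0,0,0,0,6,3,0,0,6,7,8,0,4,0,0,0,4,0,2,1,0,5,0,8,3,6,0,0,6,0,0,0,0,0,8,7,4,0,0,0,1,2,6,0,1,0,6,2,0,4,7,0,8,0,7,4,8,0,0,0,0,0,0,0]
def t22 : List ℕ := [0,0,0,0,0,0,0,6,2,6,0,4,0,7,1,0,1,0,0,3,0,1,5,1,0,0,0,2,6,6,0,0,0,0,0,1,0,0,0,3,4,0,7,0,1,1,0,1,5,0,0,1,0,4,7,0,0,0,3,1,0,0,0,0,0,5,2,0,0,5,6,7,0,3,0,0,0,3,0,1,1,0,4,0,7,2,5,0,0,5,0,0,0,0,0,7,6,3,0,0,0,1,1,5,0,1,0,5,1,0,3,6,0,7,0,6,3,7,0,0,0,0,0,0,0]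
def t23 : List ℕ := [0,0,0,0,0,0,0,1,2,1,0,4,0,6,1,0,1,0,0,3,0,1,5,1,0,0,0,2,1,1,0,0,0,0,0,1,0,0,0,3,4,0,6,0,1,1,0,1,5,0,0,1,0,4,6,0,0,0,3,1,0,0,0,0,0,5,2,0,0,5,1,6,0,3,0,0,0,3,0,1,1,0,4,0,6,2,5,0,0,5,0,0,0,0,0,6,1,3,0,0,0,1,1,5,0,1,0,5,1,0,3,1,0,6,0,1,3,6,0,0,0,0,0,0,0]
def t24 : List ℕ := [0,0,0,0,0,0,0,1,2,1,0,4,0,5,1,0,1,0,0,3,0,1,3,1,0,0,0,2,1,1,0,0,0,0,0,1,0,0,0,3,4,0,5,0,1,1,0,1,3,0,0,1,0,4,5,0,0,0,3,1,0,0,0,0,0,3,2,0,0,3,1,5,0,3,0,0,0,3,0,1,1,0,4,0,5,2,3,0,0,3,0,0,0,0,0,5,1,3,0,0,0,1,1,3,0,1,0,3,1,0,3,1,0,5,0,1,3,5,0,0,0,0,0,0,0]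
def t25 : List ℕ := [0,0,0,0,0,0,0,1,2,1,0,4,0,3,1,0,1,0,0,3,0,1,3,1,0,0,0,2,1,1,0,0,0,0,0,1,0,0,0,3,4,0,3,0,1,1,0,1,3,0,0,1,0,4,3,0,0,0,3,1,0,0,0,0,0,3,2,0,0,3,1,3,0,3,0,0,0,3,0,1,1,0,4,0,3,2,3,0,0,3,0,0,0,0,0,3,1,3,0,0,0,1,1,3,0,1,0,3,1,0,3,1,0,3,0,1,3,3,0,0,0,0,0,0,0]
def t26 : List ℕ := [0,0,0,0,0,0,0,1,2,1,0,0,0,3,1,0,1,0,0,3,0,1,3,1,0,0,0,2,1,1,0,0,0,0,0,1,0,0,0,3,0,0,3,0,1,1,0,1,3,0,0,1,0,0,3,0,0,0,3,1,0,0,0,0,0,3,2,0,0,3,1,3,0,3,0,0,0,3,0,1,1,0,0,0,3,2,3,0,0,3,0,0,0,0,0,3,1,3,0,0,0,1,1,3,0,1,0,3,1,0,3,1,0,3,0,1,3,3,0,0,0,0,0,0,0]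
def t27 : List ℕ := [0,0,0,0,0,0,0,1,0,1,0,0,0,2,1,0,1,0,0,2,0,1,2,1,0,0,0,0,1,1,0,0,0,0,0,1,0,0,0,2,0,0,2,0,1,1,0,1,2,0,0,1,0,0,2,0,0,0,2,1,0,0,0,0,0,2,0,0,0,2,1,2,0,2,0,0,0,2,0,1,1,0,0,0,2,0,2,0,0,2,0,0,0,0,0,2,1,2,0,0,0,1,1,2,0,1,0,2,1,0,2,1,0,2,0,1,2,2,0,0,0,0,0,0,0]
def t28 : List ℕ := [0,0,0,0,0,0,0,1,0,2,0,0,0,1,1,0,1,0,0,2,0,2,0,2,0,0,0,0,1,2,0,0,0,0,0,1,0,0,0,2,0,0,1,0,1,2,0,2,0,0,0,1,0,0,2,0,0,0,1,1,0,0,0,0,0,1,0,0,0,1,1,2,0,2,0,0,0,1,0,1,1,0,0,0,2,0,1,0,0,1,0,0,0,0,0,2,1,2,0,0,0,2,2,0,0,2,0,0,2,0,0,2,0,0,0,2,0,0,0,0,0,0,0,0,0]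
def t29 : List ℕ := [0,0,0,0,0,0,0,0,0,1,0,0,0,0,0,0,0,0,0,1,0,1,0,1,0,0,0,0,0,1,0,0,0,0,0,0,0,0,0,1,0,0,0,0,0,1,0,1,0,0,0,0,0,0,1,0,0,0,0,0,0,0,0,0,0,0,0,0,0,0,0,1,0,1,0,0,0,0,0,0,0,0,0,0,1,0,0,0,0,0,0,0,0,0,0,1,0,1,0,0,0,1,1,0,0,1,0,0,1,0,0,1,0,0,0,1,0,0,0,0,0,0,0,0,0]
def t30 : List ℕ := [0,0,0,0,0,0,0,0,1,0,0,0,0,0,1,0,1,0,0,0,0,0,1,0,0,0,0,1,0,0,0,0,0,0,0,1,0,0,0,0,0,0,0,0,1,0,0,0,1,0,0,1,0,0,0,0,0,0,0,1,0,0,0,0,0,1,1,0,0,1,1,0,0,0,0,0,0,0,0,1,1,0,0,0,0,1,1,0,0,1,0,0,0,0,0,0,1,0,0,0,0,0,0,1,0,0,0,1,0,0,0,2,0,0,0,2,0,0,0,0,0,0,0,0,0]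
def t31 : List ℕ := [0,0,0,0,0,0,0,0,0,0,0,0,0,0,3,0,1,0,0,0,0,0,0,0,0,0,0,0,0,0,0,0,0,0,0,1,0,0,0,0,0,0,0,0,3,0,0,0,0,0,0,0,0,0,0,0,0,0,0,0,0,0,0,0,0,0,0,0,0,0,0,0,0,0,0,0,0,0,0,0,0,0,0,0,0,0,0,0,0,0,0,0,0,0,0,0,0,0,0,0,0,0,0,0,0,0,0,0,0,0,0,2,0,0,0,2,0,0,0,0,0,0,0,0,0]
def t32 : List ℕ := [0,0,0,0,0,0,0,0,0,0,0,0,0,0,2,0,1,0,0,0,0,0,0,0,0,0,0,0,0,0,0,0,0,0,0,1,0,0,0,0,0,0,0,0,2,0,0,0,0,0,0,0,0,0,0,0,0,0,0,0,0,0,0,0,0,0,0,0,0,0,0,0,0,0,0,0,0,0,0,0,0,0,0,0,0,0,0,0,0,0,0,0,0,0,0,0,0,0,0,0,0,0,0,0,0,0,0,0,0,0,0,1,0,0,0,1,0,0,0,0,0,0,0,0,0]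
def t33 : List ℕ := [0,0,0,0,0,0,0,0,0,0,0,0,0,0,1,0,1,0,0,0,0,0,0,0,0,0,0,0,0,0,0,0,0,0,0,1,0,0,0,0,0,0,0,0,1,0,0,0,0,0,0,0,0,0,0,0,0,0,0,0,0,0,0,0,0,0,0,0,0,0,0,0,0,0,0,0,0,0,0,0,0,0,0,0,0,0,0,0,0,0,0,0,0,0,0,0,0,0,0,0,0,0,0,0,0,0,0,0,0,0,0,1,0,0,0,1,0,0,0,0,0,0,0,0,0]
def t34 : List ℕ := [0,0,0,0,0,0,0,0,0,0,0,0,0,1,1,0,1,1,0,0,0,0,0,0,0,0,0,0,0,0,0,0,0,0,0,1,0,0,1,0,0,0,1,0,1,0,0,0,0,0,0,0,0,0,0,0,0,0,0,0,0,0,0,0,0,0,0,0,0,0,0,0,0,0,0,0,0,0,0,0,0,0,0,0,0,0,0,0,0,0,0,0,0,0,0,0,0,0,0,0,0,0,0,0,0,0,0,0,0,0,0,1,0,1,0,1,0,1,0,0,0,0,0,0,0]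
def t35 : List ℕ := [0,0,0,0,0,0,0,0,0,0,0,0,0,0,0,0,0,0,0,0,0,0,0,0,0,0,0,0,0,0,0,0,0,0,0,0,0,0,0,0,0,0,0,0,0,0,0,0,0,0,0,0,0,0,0,0,0,0,0,0,0,0,0,0,0,0,0,0,0,0,0,0,0,0,0,0,0,0,0,0,0,0,0,0,0,0,0,0,0,0,0,0,0,0,0,0,0,0,0,0,0,0,0,0,0,0,0,0,0,0,0,0,0,0,0,0,0,0,0,0,0,0,0,0,0]
def d0 : List (List ℕ) := [[0,0],[2],[3,14],[4,12],[5,13],[6,16],[7,17],[8,15],[9,26],[10,24],[11,25],[12,4],[13,5],[14,3],[15,8],[16,6],[17,7],[18,18],[19,20],[20,19],[21,29],[22,27],[23,28],[24,10],[25,11],[26,9],[27,22],[28,23],[29,21]]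
def L0 : List G := [e0,e13]
def d1 : List (List ℕ) := [[0,0],[1,1],[13],[3,11],[4,12],[5,15],[6,16],[7,14],[8,25],[9,23],[10,24],[11,3],[12,4],[14,7],[15,5],[16,6],[17,17],[18,19],[19,18],[20,28],[21,26],[22,27],[23,9],[24,10],[25,8],[26,21],[27,22],[28,20]]
def L1 : List G := [e0,e13]
def d2 : List (List ℕ) := [[0,0],[1,1],[2,2],[11],[4,12],[5,14],[6,15],[7,13],[8,24],[9,22],[10,23],[12,4],[13,7],[14,5],[15,6],[16,16],[17,18],[18,17],[19,27],[20,25],[21,26],[22,9],[23,10],[24,8],[25,20],[26,21],[27,19]]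
def L2 : List G := [e0,e13]
def d3 : List (List ℕ) := [[0,0],[1,1],[2,2],[3,3],[11],[5,13],[6,14],[7,12],[8,23],[9,21],[10,22],[12,7],[13,5],[14,6],[15,15],[16,17],[17,16],[18,26],[19,24],[20,25],[21,9],[22,10],[23,8],[24,19],[25,20],[26,18]]
def L3 : List G := [e0,e13]
def d4 : List (List ℕ) := [[0,0],[1,1],[2,2],[3,3],[4,4],[12],[6,13],[7,11],[8,22],[9,20],[10,21],[11,7],[13,6],[14,14],[15,16],[16,15],[17,25],[18,23],[19,24],[20,9],[21,10],[22,8],[23,18],[24,19],[25,17]]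
def L4 : List G := [e0,e13]
def d5 : List (List ℕ) := [[0,0],[1,1],[2,2],[3,3],[4,4],[5,5],[12],[7,11],[8,21],[9,19],[10,20],[11,7],[13,13],[14,15],[15,14],[16,24],[17,22],[18,23],[19,9],[20,10],[21,8],[22,17],[23,18],[24,16]]
def L5 : List G := [e0,e13]
def d6 : List (List ℕ) := [[0,0],[1,1],[2,2],[3,3],[4,4],[5,5],[6,6],[11],[8,20],[9,18],[10,19],[12,12],[13,14],[14,13],[15,23],[16,21],[17,22],[18,9],[19,10],[20,8],[21,16],[22,17],[23,15]]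
def L6 : List G := [e0,e13]
def d7 : List (List ℕ) := [[0,0],[1,1],[2,2],[3,3],[4,4],[5,5],[6,6],[7,7],[19],[9,17],[10,18],[11,11],[12,13],[13,12],[14,22],[15,20],[16,21],[17,9],[18,10],[20,15],[21,16],[22,14]]
def L7 : List G := [e0,e13]
def d8 : List (List ℕ) := [[0,0],[1,1],[2,2],[3,3],[4,4],[5,5],[6,6],[7,7],[8,8],[17],[10,18],[11,11],[12,13],[13,12],[14,21],[15,19],[16,20],[18,10],[19,15],[20,16],[21,14]]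
def L8 : List G := [e0,e13]
def d9 : List (List ℕ) := [[0,0],[1,1],[2,2],[3,3],[4,4],[5,5],[6,6],[7,7],[8,8],[9,9],[17],[11,11],[12,13],[13,12],[14,20],[15,18],[16,19],[18,15],[19,16],[20,14]]
def L9 : List G := [e0,e13]
def d10 : List (List ℕ) := [[0,0],[1,1],[2,2],[3,3],[4,4],[5,5],[6,6],[7,7],[8,8],[9,9],[10,10],[11,11],[13],[14,19],[15,17],[16,18],[17,15],[18,16],[19,14]]
def L10 : List G := [e0,e13]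
def d11 : List (List ℕ) := [[0,0],[1,1],[2,2],[3,3],[4,4],[5,5],[6,6],[7,7],[8,8],[9,9],[10,10],[11,11],[12,12],[18],[14,16],[15,17],[16,14],[17,15]]
def L11 : List G := [e0,e13]
def d12 : List (List ℕ) := [[0,0],[1,1],[2,2],[3,3],[4,4],[5,5],[6,6],[7,7],[8,8],[9,9],[10,10],[11,11],[12,12],[13,13],[14],[15,17],[17,15]]
def L12 : List G := [e0,e13]
def d13 : List (List ℕ) := [[0,0],[1,1],[2,2],[3,3],[4,4],[5,5],[6,6],[7,7],[8,8],[9,9],[10,10],[11,11],[12,12],[13,13],[14,14],[15]]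
def L13 : List G := [e0,e13]
def d14 : List (List ℕ) := [[0,11],[14],[2,8],[3,3],[4,15],[5,5],[6,13],[7,9],[8,2],[9,7],[10,12],[11,0],[12,10],[13,6],[15,4]]
def L14 : List G := [e0,e30]
def d15 : List (List ℕ) := [[0,11],[1,1],[8],[3,3],[4,14],[5,5],[6,13],[7,9],[9,7],[10,12],[11,0],[12,10],[13,6],[14,4]]
def L15 : List G := [e0,e30]
def d16 : List (List ℕ) := [[0,10],[1,1],[2,2],[3,3],[13],[5,5],[6,12],[7,8],[8,7],[9,11],[10,0],[11,9],[12,6]]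
def L16 : List G := [e0,e30]
def d17 : List (List ℕ) := [[0,10],[1,1],[2,2],[3,3],[4,4],[5,5],[12],[7,8],[8,7],[9,11],[10,0],[11,9]]
def L17 : List G := [e0,e30]
def d18 : List (List ℕ) := [[0,10],[1,1],[2,2],[3,3],[4,4],[5,5],[6,6],[8],[9,11],[10,0],[11,9]]
def L18 : List G := [e0,e30]
def d19 : List (List ℕ) := [[0,9],[1,1],[2,2],[3,3],[4,4],[5,5],[6,6],[7,7],[8],[9,0]]
def L19 : List G := [e0,e30]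
def d20 : List (List ℕ) := [[9],[1,1],[2,2],[3,3],[4,4],[5,5],[6,6],[7,7],[8,8]]
def L20 : List G := [e0,e30]
def d21 : List (List ℕ) := [[0,5,3],[2,7],[3,0,5],[4,6,8],[5,3,0],[6,8,4],[7,2],[8,4,6]]
def L21 : List G := [e0,e15,e24]
def d22 : List (List ℕ) := [[0,4,2],[6],[2,0,4],[3,5,7],[4,2,0],[5,7,3],[7,3,5]]
def L22 : List G := [e0,e15,e24]
def d23 : List (List ℕ) := [[0,4,2],[1,1,1],[2,0,4],[5,6],[4,2,0],[6,5]]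
def L23 : List G := [e0,e15,e24]
def d24 : List (List ℕ) := [[0,4,2],[1,1,1],[2,0,4],[5],[4,2,0]]
def L24 : List G := [e0,e15,e24]
def d25 : List (List ℕ) := [[4,2],[1,1,1],[2,4],[3,3,3]]
def L25 : List G := [e0,e15,e24]
def d26 : List (List ℕ) := [[2],[1,1,1],[3,3,3]]
def L26 : List G := [e0,e15,e24]
def d27 : List (List ℕ) := [[0,1,1],[1,1,0],[1,0,1]]
def L27 : List G := [e0,e45,e32,e53,e21]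
def d28 : List (List ℕ) := [[1],[2,2]]
def L28 : List G := [e0,e27]
def d29 : List (List ℕ) := [[1],[],[1,1]]
def L29 : List G := [e0,e47]
def d30 : List (List ℕ) := [[1],[1,2,1],[2,1,1],[1,1,2]]
def L30 : List G := [e0,e28,e39]
def d31 : List (List ℕ) := [[0,0,0],[2,3],[3,2]]
def L31 : List G := [e0,e28,e39]
def d32 : List (List ℕ) := [[0,0,0],[2]]
def L32 : List G := [e0,e28,e39]
def d33 : List (List ℕ) := [[],[1]]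
def L33 : List G := [e0,e53]
def d34 : List (List ℕ) := [[1]]
def L34 : List G := [e0,e16,e32,e45,e48]

theorem top_const (t t' : G) : bT t35 t = bT t35 t' := by
  have : ∀ t : G, bT t35 t = 0 := by decide +kernel
  rw [this t, this t']

theorem chk0 : ∀ t : G, (L0.map fun γ => bT t0 (t * γ)).filter (· ≠ (1 : Fin A)) = decT 1 d0 (bT t1 t) := by
  decide +kernel

theorem chk1 : ∀ t : G, (L1.map fun γ => bT t1 (t * γ)).filter (· ≠ (2 : Fin A)) = decT 2 d1 (bT t2 t) := by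
  decide +kernel

theorem chk2 : ∀ t : G, (L2.map fun γ => bT t2 (t * γ)).filter (· ≠ (3 : Fin A)) = decT 3 d2 (bT t3 t) := by
  decide +kernel

theorem chk3 : ∀ t : G, (L3.map fun γ => bT t3 (t * γ)).filter (· ≠ (4 : Fin A)) = decT 4 d3 (bT t4 t) := by
  decide +kernel

theorem chk4 : ∀ t : G, (L4.map fun γ => bT t4 (t * γ)).filter (· ≠ (5 : Fin A)) = decT 5 d4 (bT t5 t) := by
  decide +kernel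

theorem chk5 : ∀ t : G, (L5.map fun γ => bT t5 (t * γ)).filter (· ≠ (6 : Fin A)) = decT 6 d5 (bT t6 t) := by
  decide +kernel

theorem chk6 : ∀ t : G, (L6.map fun γ => bT t6 (t * γ)).filter (· ≠ (7 : Fin A)) = decT 7 d6 (bT t7 t) := by
  decide +kernel

theorem chk7 : ∀ t : G, (L7.map fun γ => bT t7 (t * γ)).filter (· ≠ (8 : Fin A)) = decT 8 d7 (bT t8 t) := by
  decide +kernel

theorem chk8 : ∀ t : G, (L8.map fun γ => bT t8 (t * γ)).filter (· ≠ (9 : Fin A)) = decT 9 d8 (bT t9 t) := by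
  decide +kernel

theorem chk9 : ∀ t : G, (L9.map fun γ => bT t9 (t * γ)).filter (· ≠ (10 : Fin A)) = decT 10 d9 (bT t10 t) := by
  decide +kernel

theorem chk10 : ∀ t : G, (L10.map fun γ => bT t10 (t * γ)).filter (· ≠ (12 : Fin A)) = decT 12 d10 (bT t11 t) := by
  decide +kernel

theorem chk11 : ∀ t : G, (L11.map fun γ => bT t11 (t * γ)).filter (· ≠ (13 : Fin A)) = decT 13 d11 (bT t12 t) := by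
  decide +kernel

theorem chk12 : ∀ t : G, (L12.map fun γ => bT t12 (t * γ)).filter (· ≠ (16 : Fin A)) = decT 16 d12 (bT t13 t) := by
  decide +kernel

theorem chk13 : ∀ t : G, (L13.map fun γ => bT t13 (t * γ)).filter (· ≠ (16 : Fin A)) = decT 16 d13 (bT t14 t) := by
  decide +kernel

theorem chk14 : ∀ t : G, (L14.map fun γ => bT t14 (t * γ)).filter (· ≠ (1 : Fin A)) = decT 1 d14 (bT t15 t) := by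
  decide +kernel

theorem chk15 : ∀ t : G, (L15.map fun γ => bT t15 (t * γ)).filter (· ≠ (2 : Fin A)) = decT 2 d15 (bT t16 t) := by
  decide +kernel

theorem chk16 : ∀ t : G, (L16.map fun γ => bT t16 (t * γ)).filter (· ≠ (4 : Fin A)) = decT 4 d16 (bT t17 t) := by
  decide +kernel

theorem chk17 : ∀ t : G, (L17.map fun γ => bT t17 (t * γ)).filter (· ≠ (6 : Fin A)) = decT 6 d17 (bT t18 t) := by
  decide +kernel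

theorem chk18 : ∀ t : G, (L18.map fun γ => bT t18 (t * γ)).filter (· ≠ (7 : Fin A)) = decT 7 d18 (bT t19 t) := by
  decide +kernel

theorem chk19 : ∀ t : G, (L19.map fun γ => bT t19 (t * γ)).filter (· ≠ (10 : Fin A)) = decT 10 d19 (bT t20 t) := by
  decide +kernel

theorem chk20 : ∀ t : G, (L20.map fun γ => bT t20 (t * γ)).filter (· ≠ (0 : Fin A)) = decT 0 d20 (bT t21 t) := by
  decide +kernel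

theorem chk21 : ∀ t : G, (L21.map fun γ => bT t21 (t * γ)).filter (· ≠ (1 : Fin A)) = decT 1 d21 (bT t22 t) := by
  decide +kernel

theorem chk22 : ∀ t : G, (L22.map fun γ => bT t22 (t * γ)).filter (· ≠ (1 : Fin A)) = decT 1 d22 (bT t23 t) := by
  decide +kernel

theorem chk23 : ∀ t : G, (L23.map fun γ => bT t23 (t * γ)).filter (· ≠ (3 : Fin A)) = decT 3 d23 (bT t24 t) := by
  decide +kernel

theorem chk24 : ∀ t : G, (L24.map fun γ => bT t24 (t * γ)).filter (· ≠ (3 : Fin A)) = decT 3 d24 (bT t25 t) := by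
  decide +kernel

theorem chk25 : ∀ t : G, (L25.map fun γ => bT t25 (t * γ)).filter (· ≠ (0 : Fin A)) = decT 0 d25 (bT t26 t) := by
  decide +kernel

theorem chk26 : ∀ t : G, (L26.map fun γ => bT t26 (t * γ)).filter (· ≠ (0 : Fin A)) = decT 0 d26 (bT t27 t) := by
  decide +kernel

theorem chk27 : ∀ t : G, (L27.map fun γ => bT t27 (t * γ)).filter (· ≠ (2 : Fin A)) = decT 2 d27 (bT t28 t) := by
  decide +kernel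

theorem chk28 : ∀ t : G, (L28.map fun γ => bT t28 (t * γ)).filter (· ≠ (0 : Fin A)) = decT 0 d28 (bT t29 t) := by
  decide +kernel

theorem chk29 : ∀ t : G, (L29.map fun γ => bT t29 (t * γ)).filter (· ≠ (0 : Fin A)) = decT 0 d29 (bT t30 t) := by
  decide +kernel

theorem chk30 : ∀ t : G, (L30.map fun γ => bT t30 (t * γ)).filter (· ≠ (0 : Fin A)) = decT 0 d30 (bT t31 t) := by
  decide +kernel

theorem chk31 : ∀ t : G, (L31.map fun γ => bT t31 (t * γ)).filter (· ≠ (1 : Fin A)) = decT 1 d31 (bT t32 t) := by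
  decide +kernel

theorem chk32 : ∀ t : G, (L32.map fun γ => bT t32 (t * γ)).filter (· ≠ (1 : Fin A)) = decT 1 d32 (bT t33 t) := by
  decide +kernel

theorem chk33 : ∀ t : G, (L33.map fun γ => bT t33 (t * γ)).filter (· ≠ (0 : Fin A)) = decT 0 d33 (bT t34 t) := by
  decide +kernel

theorem chk34 : ∀ t : G, (L34.map fun γ => bT t34 (t * γ)).filter (· ≠ (0 : Fin A)) = decT 0 d34 (bT t35 t) := by
  decide +kernel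

theorem cert35 : CertG (bT t35) := CertG.of_const top_const

theorem cert34 : CertG (bT t34) :=
  CertG.step 0 L34 (by simp [L34]) (decT 0 d34) (decT_not_mem _ _) chk34 cert35

theorem cert33 : CertG (bT t33) :=
  CertG.step 0 L33 (by simp [L33]) (decT 0 d33) (decT_not_mem _ _) chk33 cert34

theorem cert32 : CertG (bT t32) :=
  CertG.step 1 L32 (by simp [L32]) (decT 1 d32) (decT_not_mem _ _) chk32 cert33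

theorem cert31 : CertG (bT t31) :=
  CertG.step 1 L31 (by simp [L31]) (decT 1 d31) (decT_not_mem _ _) chk31 cert32

theorem cert30 : CertG (bT t30) :=
  CertG.step 0 L30 (by simp [L30]) (decT 0 d30) (decT_not_mem _ _) chk30 cert31

theorem cert29 : CertG (bT t29) :=
  CertG.step 0 L29 (by simp [L29]) (decT 0 d29) (decT_not_mem _ _) chk29 cert30

theorem cert28 : CertG (bT t28) :=
  CertG.step 0 L28 (by simp [L28]) (decT 0 d28) (decT_not_mem _ _) chk28 cert29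

theorem cert27 : CertG (bT t27) :=
  CertG.step 2 L27 (by simp [L27]) (decT 2 d27) (decT_not_mem _ _) chk27 cert28

theorem cert26 : CertG (bT t26) :=
  CertG.step 0 L26 (by simp [L26]) (decT 0 d26) (decT_not_mem _ _) chk26 cert27

theorem cert25 : CertG (bT t25) :=
  CertG.step 0 L25 (by simp [L25]) (decT 0 d25) (decT_not_mem _ _) chk25 cert26

theorem cert24 : CertG (bT t24) :=
  CertG.step 3 L24 (by simp [L24]) (decT 3 d24) (decT_not_mem _ _) chk24 cert25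

theorem cert23 : CertG (bT t23) :=
  CertG.step 3 L23 (by simp [L23]) (decT 3 d23) (decT_not_mem _ _) chk23 cert24

theorem cert22 : CertG (bT t22) :=
  CertG.step 1 L22 (by simp [L22]) (decT 1 d22) (decT_not_mem _ _) chk22 cert23

theorem cert21 : CertG (bT t21) :=
  CertG.step 1 L21 (by simp [L21]) (decT 1 d21) (decT_not_mem _ _) chk21 cert22

theorem cert20 : CertG (bT t20) :=
  CertG.step 0 L20 (by simp [L20]) (decT 0 d20) (decT_not_mem _ _) chk20 cert21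

theorem cert19 : CertG (bT t19) :=
  CertG.step 10 L19 (by simp [L19]) (decT 10 d19) (decT_not_mem _ _) chk19 cert20

theorem cert18 : CertG (bT t18) :=
  CertG.step 7 L18 (by simp [L18]) (decT 7 d18) (decT_not_mem _ _) chk18 cert19

theorem cert17 : CertG (bT t17) :=
  CertG.step 6 L17 (by simp [L17]) (decT 6 d17) (decT_not_mem _ _) chk17 cert18

theorem cert16 : CertG (bT t16) :=
  CertG.step 4 L16 (by simp [L16]) (decT 4 d16) (decT_not_mem _ _) chk16 cert17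

theorem cert15 : CertG (bT t15) :=
  CertG.step 2 L15 (by simp [L15]) (decT 2 d15) (decT_not_mem _ _) chk15 cert16

theorem cert14 : CertG (bT t14) :=
  CertG.step 1 L14 (by simp [L14]) (decT 1 d14) (decT_not_mem _ _) chk14 cert15

theorem cert13 : CertG (bT t13) :=
  CertG.step 16 L13 (by simp [L13]) (decT 16 d13) (decT_not_mem _ _) chk13 cert14

theorem cert12 : CertG (bT t12) :=
  CertG.step 16 L12 (by simp [L12]) (decT 16 d12) (decT_not_mem _ _) chk12 cert13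

theorem cert11 : CertG (bT t11) :=
  CertG.step 13 L11 (by simp [L11]) (decT 13 d11) (decT_not_mem _ _) chk11 cert12

theorem cert10 : CertG (bT t10) :=
  CertG.step 12 L10 (by simp [L10]) (decT 12 d10) (decT_not_mem _ _) chk10 cert11

theorem cert9 : CertG (bT t9) :=
  CertG.step 10 L9 (by simp [L9]) (decT 10 d9) (decT_not_mem _ _) chk9 cert10

theorem cert8 : CertG (bT t8) :=
  CertG.step 9 L8 (by simp [L8]) (decT 9 d8) (decT_not_mem _ _) chk8 cert9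

theorem cert7 : CertG (bT t7) :=
  CertG.step 8 L7 (by simp [L7]) (decT 8 d7) (decT_not_mem _ _) chk7 cert8

theorem cert6 : CertG (bT t6) :=
  CertG.step 7 L6 (by simp [L6]) (decT 7 d6) (decT_not_mem _ _) chk6 cert7

theorem cert5 : CertG (bT t5) :=
  CertG.step 6 L5 (by simp [L5]) (decT 6 d5) (decT_not_mem _ _) chk5 cert6

theorem cert4 : CertG (bT t4) :=
  CertG.step 5 L4 (by simp [L4]) (decT 5 d4) (decT_not_mem _ _) chk4 cert5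

theorem cert3 : CertG (bT t3) :=
  CertG.step 4 L3 (by simp [L3]) (decT 4 d3) (decT_not_mem _ _) chk3 cert4

theorem cert2 : CertG (bT t2) :=
  CertG.step 3 L2 (by simp [L2]) (decT 3 d2) (decT_not_mem _ _) chk2 cert3

theorem cert1 : CertG (bT t1) :=
  CertG.step 2 L1 (by simp [L1]) (decT 2 d1) (decT_not_mem _ _) chk1 cert2

theorem cert0 : CertG (bT t0) :=
  CertG.step 1 L0 (by simp [L0]) (decT 1 d0) (decT_not_mem _ _) chk0 cert1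

/-- Equal labels of the bottom column mean the same left coset. -/
theorem left_coset : ∀ t t' : G, bT t0 t = bT t0 t' → ∃ i : Fin 5, k ^ i.val * t = t' := by
  decide +kernel

end Vale.Agent.Lib.P058.A5.K2
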