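import Vale.Agent.Lib.P058.A5Base

/-! # A tower for the column of left cosets of a subgroup of prime order 3 of the alternating group -/

namespace Vale.Agent.Lib.P058.A5.K3

open Vale.Agent.Lib.P058

/-- The generator of the subgroup. -/
def k : G := e15

def t0 : List ℕ := [0,0,0,0,0,0,0,3,13,17,0,0,0,12,16,0,7,6,0,19,0,10,9,15,0,0,0,0,12,16,0,0,0,0,0,3,0,0,13,17,6,0,7,0,19,9,0,10,15,0,0,3,0,13,17,0,0,0,12,16,0,0,0,0,0,7,6,0,0,19,10,9,0,15,0,0,4,1,0,18,1,0,4,0,18,4,1,0,0,18,0,0,0,0,0,11,11,11,0,0,0,5,2,14,0,2,0,5,14,0,5,2,0,14,0,8,8,8,0,0,0,0,0,0,0]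
def t1 : List ℕ := [0,0,0,0,0,0,0,2,12,16,0,0,0,11,15,0,6,5,0,18,0,9,8,14,0,0,0,0,11,15,0,0,0,0,0,2,0,0,12,16,5,0,6,0,18,8,0,9,14,0,0,2,0,12,16,0,0,0,11,15,0,0,0,0,0,6,5,0,0,18,9,8,0,14,0,0,3,0,0,17,0,0,3,0,17,3,0,0,0,17,0,0,0,0,0,10,10,10,0,0,0,4,1,13,0,1,0,4,13,0,4,1,0,13,0,7,7,7,0,0,0,0,0,0,0]
def t2 : List ℕ := [0,0,0,0,0,0,0,2,11,15,0,0,0,10,14,0,6,5,0,17,0,8,7,13,0,0,0,0,10,14,0,0,0,0,0,2,0,0,11,15,5,0,6,0,17,7,0,8,13,0,0,2,0,11,15,0,0,0,10,14,0,0,0,0,0,6,5,0,0,17,8,7,0,13,0,0,3,0,0,16,0,0,3,0,16,3,0,0,0,16,0,0,0,0,0,9,9,9,0,0,0,4,1,12,0,1,0,4,12,0,4,1,0,12,0,0,0,0,0,0,0,0,0,0,0]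
def t3 : List ℕ := [0,0,0,0,0,0,0,2,11,14,0,0,0,10,13,0,6,5,0,16,0,8,7,0,0,0,0,0,10,13,0,0,0,0,0,2,0,0,11,14,5,0,6,0,16,7,0,8,0,0,0,2,0,11,14,0,0,0,10,13,0,0,0,0,0,6,5,0,0,16,8,7,0,0,0,0,3,0,0,15,0,0,3,0,15,3,0,0,0,15,0,0,0,0,0,9,9,9,0,0,0,4,1,12,0,1,0,4,12,0,4,1,0,12,0,0,0,0,0,0,0,0,0,0,0]
def t4 : List ℕ := [0,0,0,0,0,0,0,2,11,13,0,0,0,10,0,0,6,5,0,15,0,8,7,0,0,0,0,0,10,0,0,0,0,0,0,2,0,0,11,13,5,0,6,0,15,7,0,8,0,0,0,2,0,11,13,0,0,0,10,0,0,0,0,0,0,6,5,0,0,15,8,7,0,0,0,0,3,0,0,14,0,0,3,0,14,3,0,0,0,14,0,0,0,0,0,9,9,9,0,0,0,4,1,12,0,1,0,4,12,0,4,1,0,12,0,0,0,0,0,0,0,0,0,0,0]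
def t5 : List ℕ := [0,0,0,0,0,0,0,2,10,12,0,0,0,9,0,0,6,5,0,14,0,7,1,0,0,0,0,0,9,0,0,0,0,0,0,2,0,0,10,12,5,0,6,0,14,1,0,7,0,0,0,2,0,10,12,0,0,0,9,0,0,0,0,0,0,6,5,0,0,14,7,1,0,0,0,0,3,0,0,13,0,0,3,0,13,3,0,0,0,13,0,0,0,0,0,8,8,8,0,0,0,4,1,11,0,1,0,4,11,0,4,1,0,11,0,0,0,0,0,0,0,0,0,0,0]
def t6 : List ℕ := [0,0,0,0,0,0,0,2,10,12,0,0,0,9,0,0,6,5,0,13,0,7,1,0,0,0,0,0,9,0,0,0,0,0,0,2,0,0,10,12,5,0,6,0,13,1,0,7,0,0,0,2,0,10,12,0,0,0,9,0,0,0,0,0,0,6,5,0,0,13,7,1,0,0,0,0,3,0,0,1,0,0,3,0,1,3,0,0,0,1,0,0,0,0,0,8,8,8,0,0,0,4,1,11,0,1,0,4,11,0,4,1,0,11,0,0,0,0,0,0,0,0,0,0,0]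
def t7 : List ℕ := [0,0,0,0,0,0,0,2,9,11,0,0,0,8,0,0,5,1,0,12,0,6,1,0,0,0,0,0,8,0,0,0,0,0,0,2,0,0,9,11,1,0,5,0,12,1,0,6,0,0,0,2,0,9,11,0,0,0,8,0,0,0,0,0,0,5,1,0,0,12,6,1,0,0,0,0,3,0,0,1,0,0,3,0,1,3,0,0,0,1,0,0,0,0,0,7,7,7,0,0,0,4,1,10,0,1,0,4,10,0,4,1,0,10,0,0,0,0,0,0,0,0,0,0,0]
def t8 : List ℕ := [0,0,0,0,0,0,0,2,8,10,0,0,0,1,0,0,5,1,0,11,0,6,1,0,0,0,0,0,1,0,0,0,0,0,0,2,0,0,8,10,1,0,5,0,11,1,0,6,0,0,0,2,0,8,10,0,0,0,1,0,0,0,0,0,0,5,1,0,0,11,6,1,0,0,0,0,3,0,0,1,0,0,3,0,1,3,0,0,0,1,0,0,0,0,0,7,7,7,0,0,0,4,1,9,0,1,0,4,9,0,4,1,0,9,0,0,0,0,0,0,0,0,0,0,0]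
def t9 : List ℕ := [0,0,0,0,0,0,0,2,7,9,0,0,0,1,0,0,4,1,0,10,0,5,1,0,0,0,0,0,1,0,0,0,0,0,0,2,0,0,7,9,1,0,4,0,10,1,0,5,0,0,0,2,0,7,9,0,0,0,1,0,0,0,0,0,0,4,1,0,0,10,5,1,0,0,0,0,3,0,0,1,0,0,3,0,1,3,0,0,0,1,0,0,0,0,0,6,6,6,0,0,0,2,1,8,0,1,0,2,8,0,2,1,0,8,0,0,0,0,0,0,0,0,0,0,0]
def t10 : List ℕ := [0,0,0,0,0,0,0,2,6,8,0,0,0,1,0,0,4,1,0,9,0,5,1,0,0,0,0,0,1,0,0,0,0,0,0,2,0,0,6,8,1,0,4,0,9,1,0,5,0,0,0,2,0,6,8,0,0,0,1,0,0,0,0,0,0,4,1,0,0,9,5,1,0,0,0,0,3,0,0,1,0,0,3,0,1,3,0,0,0,1,0,0,0,0,0,2,2,2,0,0,0,2,1,7,0,1,0,2,7,0,2,1,0,7,0,0,0,0,0,0,0,0,0,0,0]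
def t11 : List ℕ := [0,0,0,0,0,0,0,2,6,8,0,0,0,1,0,0,4,1,0,2,0,5,1,0,0,0,0,0,1,0,0,0,0,0,0,2,0,0,6,8,1,0,4,0,2,1,0,5,0,0,0,2,0,6,8,0,0,0,1,0,0,0,0,0,0,4,1,0,0,2,5,1,0,0,0,0,3,0,0,1,0,0,3,0,1,3,0,0,0,1,0,0,0,0,0,2,2,2,0,0,0,2,1,7,0,1,0,2,7,0,2,1,0,7,0,0,0,0,0,0,0,0,0,0,0]
def t12 : List ℕ := [0,0,0,0,0,0,0,2,2,7,0,0,0,1,0,0,4,1,0,2,0,5,1,0,0,0,0,0,1,0,0,0,0,0,0,2,0,0,2,7,1,0,4,0,2,1,0,5,0,0,0,2,0,2,7,0,0,0,1,0,0,0,0,0,0,4,1,0,0,2,5,1,0,0,0,0,3,0,0,1,0,0,3,0,1,3,0,0,0,1,0,0,0,0,0,2,2,2,0,0,0,2,1,6,0,1,0,2,6,0,2,1,0,6,0,0,0,0,0,0,0,0,0,0,0]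
def t13 : List ℕ := [0,0,0,0,0,0,0,2,2,6,0,0,0,1,0,0,3,1,0,2,0,4,1,0,0,0,0,0,1,0,0,0,0,0,0,2,0,0,2,6,1,0,3,0,2,1,0,4,0,0,0,2,0,2,6,0,0,0,1,0,0,0,0,0,0,3,1,0,0,2,4,1,0,0,0,0,3,0,0,1,0,0,3,0,1,3,0,0,0,1,0,0,0,0,0,2,2,2,0,0,0,2,1,5,0,1,0,2,5,0,2,1,0,5,0,0,0,0,0,0,0,0,0,0,0]
def t14 : List ℕ := [0,0,0,0,0,0,0,2,2,5,0,0,0,1,0,0,3,1,0,2,0,4,1,0,0,0,0,0,1,0,0,0,0,0,0,2,0,0,2,5,1,0,3,0,2,1,0,4,0,0,0,2,0,2,5,0,0,0,1,0,0,0,0,0,0,3,1,0,0,2,4,1,0,0,0,0,3,0,0,1,0,0,3,0,1,3,0,0,0,1,0,0,0,0,0,2,2,2,0,0,0,2,1,3,0,1,0,2,3,0,2,1,0,3,0,0,0,0,0,0,0,0,0,0,0]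
def t15 : List ℕ := [0,0,0,0,0,0,0,2,2,4,0,0,0,1,0,0,3,1,0,2,0,3,1,0,0,0,0,0,1,0,0,0,0,0,0,2,0,0,2,4,1,0,3,0,2,1,0,3,0,0,0,2,0,2,4,0,0,0,1,0,0,0,0,0,0,3,1,0,0,2,3,1,0,0,0,0,3,0,0,1,0,0,3,0,1,3,0,0,0,1,0,0,0,0,0,2,2,2,0,0,0,2,1,3,0,1,0,2,3,0,2,1,0,3,0,0,0,0,0,0,0,0,0,0,0]
def t16 : List ℕ := [0,0,0,0,0,0,0,2,2,3,0,0,0,1,0,0,3,1,0,2,0,3,1,0,0,0,0,0,1,0,0,0,0,0,0,2,0,0,2,3,1,0,3,0,2,1,0,3,0,0,0,2,0,2,3,0,0,0,1,0,0,0,0,0,0,3,1,0,0,2,3,1,0,0,0,0,3,0,0,1,0,0,3,0,1,3,0,0,0,1,0,0,0,0,0,2,2,2,0,0,0,2,1,3,0,1,0,2,3,0,2,1,0,3,0,0,0,0,0,0,0,0,0,0,0]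
def t17 : List ℕ := [0,0,0,0,0,0,0,0,0,2,0,0,0,1,0,0,2,1,0,0,0,2,1,0,0,0,0,0,1,0,0,0,0,0,0,0,0,0,0,2,1,0,2,0,0,1,0,2,0,0,0,0,0,0,2,0,0,0,1,0,0,0,0,0,0,2,1,0,0,0,2,1,0,0,0,0,2,0,0,1,0,0,2,0,1,2,0,0,0,1,0,0,0,0,0,0,0,0,0,0,0,0,1,2,0,1,0,0,2,0,0,1,0,2,0,0,0,0,0,0,0,0,0,0,0]
def t18 : List ℕ := [0,0,0,0,0,0,0,0,0,1,0,0,0,1,0,0,1,1,0,0,0,1,1,0,0,0,0,0,1,0,0,0,0,0,0,0,0,0,0,1,1,0,1,0,0,1,0,1,0,0,0,0,0,0,1,0,0,0,1,0,0,0,0,0,0,1,1,0,0,0,1,1,0,0,0,0,1,0,0,1,0,0,1,0,1,1,0,0,0,1,0,0,0,0,0,0,0,0,0,0,0,0,1,1,0,1,0,0,1,0,0,1,0,1,0,0,0,0,0,0,0,0,0,0,0]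
def t19 : List ℕ := [0,0,0,0,0,0,0,0,0,0,0,0,0,0,0,0,0,0,0,0,0,0,0,0,0,0,0,0,0,0,0,0,0,0,0,0,0,0,0,0,0,0,0,0,0,0,0,0,0,0,0,0,0,0,0,0,0,0,0,0,0,0,0,0,0,0,0,0,0,0,0,0,0,0,0,0,0,0,0,0,0,0,0,0,0,0,0,0,0,0,0,0,0,0,0,0,0,0,0,0,0,0,0,0,0,0,0,0,0,0,0,0,0,0,0,0,0,0,0,0,0,0,0,0,0]
def d0 : List (List ℕ) := [[1,8,15,16],[2,9,18,6,12],[3,5,11,19,13],[4,7,14,10,17],[5,11,19,13,3],[6,12,2,9,18],[7,14,10,17,4],[8,15,16,1],[9,18,6,12,2],[10,17,4,7,14],[11,19,13,3,5],[12,2,9,18,6],[13,3,5,11,19],[14,10,17,4,7],[15,16,1,8],[16,1,8,15],[17,4,7,14,10],[18,6,12,2,9],[19,13,3,5,11]]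
def L0 : List G := [e0,e16,e32,e45,e48]
def d1 : List (List ℕ) := [[7,14,15],[1,8,17,5,11],[2,4,10,18,12],[3,6,13,9,16],[4,10,18,12,2],[5,11,1,8,17],[6,13,9,16,3],[8,17,5,11,1],[9,16,3,6,13],[10,18,12,2,4],[11,1,8,17,5],[12,2,4,10,18],[13,9,16,3,6],[14,15,7],[15,7,14],[16,3,6,13,9],[17,5,11,1,8],[18,12,2,4,10]]
def L1 : List G := [e0,e16,e32,e45,e48]
def d2 : List (List ℕ) := [[13,14],[1,7,16,5,10],[2,4,9,17,11],[3,6,12,8,15],[4,9,17,11,2],[5,10,1,7,16],[6,12,8,15,3],[7,16,5,10,1],[8,15,3,6,12],[9,17,11,2,4],[10,1,7,16,5],[11,2,4,9,17],[12,8,15,3,6],[14,13],[15,3,6,12,8],[16,5,10,1,7],[17,11,2,4,9]]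
def L2 : List G := [e0,e16,e32,e45,e48]
def d3 : List (List ℕ) := [[13],[1,7,15,5,10],[2,4,9,16,11],[3,6,12,8,14],[4,9,16,11,2],[5,10,1,7,15],[6,12,8,14,3],[7,15,5,10,1],[8,14,3,6,12],[9,16,11,2,4],[10,1,7,15,5],[11,2,4,9,16],[12,8,14,3,6],[14,3,6,12,8],[15,5,10,1,7],[16,11,2,4,9]]
def L3 : List G := [e0,e16,e32,e45,e48]
def d4 : List (List ℕ) := [[0,0,0,0,0],[7,14,5,10],[2,4,9,15,11],[3,6,12,8,13],[4,9,15,11,2],[5,10,7,14],[6,12,8,13,3],[8,13,3,6,12],[9,15,11,2,4],[10,7,14,5],[11,2,4,9,15],[12,8,13,3,6],[13,3,6,12,8],[14,5,10,7],[15,11,2,4,9]]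
def L4 : List G := [e0,e16,e32,e45,e48]
def d5 : List (List ℕ) := [[0,0,0,0,0],[13,5,9],[2,4,8,14,10],[3,6,11,7,12],[4,8,14,10,2],[5,9,13],[6,11,7,12,3],[7,12,3,6,11],[8,14,10,2,4],[9,13,5],[10,2,4,8,14],[11,7,12,3,6],[12,3,6,11,7],[14,10,2,4,8]]
def L5 : List G := [e0,e16,e32,e45,e48]
def d6 : List (List ℕ) := [[0,0,0,0,0],[5,9],[2,4,8,13,10],[3,6,11,7,12],[4,8,13,10,2],[6,11,7,12,3],[7,12,3,6,11],[8,13,10,2,4],[9,5],[10,2,4,8,13],[11,7,12,3,6],[12,3,6,11,7],[13,10,2,4,8]]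
def L6 : List G := [e0,e16,e32,e45,e48]
def d7 : List (List ℕ) := [[0,0,0,0,0],[8],[2,4,7,12,9],[3,5,10,6,11],[4,7,12,9,2],[5,10,6,11,3],[6,11,3,5,10],[7,12,9,2,4],[9,2,4,7,12],[10,6,11,3,5],[11,3,5,10,6],[12,9,2,4,7]]
def L7 : List G := [e0,e16,e32,e45,e48]
def d8 : List (List ℕ) := [[0,0,0,0,0],[1,1,1,1,1],[4,7,11,8],[3,5,9,6,10],[5,9,6,10,3],[6,10,3,5,9],[7,11,8,4],[8,4,7,11],[9,6,10,3,5],[10,3,5,9,6],[11,8,4,7]]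
def L8 : List G := [e0,e16,e32,e45,e48]
def d9 : List (List ℕ) := [[0,0,0,0,0],[1,1,1,1,1],[6,10,7],[3,4,8,5,9],[4,8,5,9,3],[5,9,3,4,8],[7,6,10],[8,5,9,3,4],[9,3,4,8,5],[10,7,6]]
def L9 : List G := [e0,e16,e32,e45,e48]
def d10 : List (List ℕ) := [[0,0,0,0,0],[1,1,1,1,1],[9,6],[3,4,7,5,8],[4,7,5,8,3],[5,8,3,4,7],[6,9],[7,5,8,3,4],[8,3,4,7,5]]
def L10 : List G := [e0,e16,e32,e45,e48]
def d11 : List (List ℕ) := [[0,0,0,0,0],[1,1,1,1,1],[6],[3,4,7,5,8],[4,7,5,8,3],[5,8,3,4,7],[7,5,8,3,4],[8,3,4,7,5]]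
def L11 : List G := [e0,e16,e32,e45,e48]
def d12 : List (List ℕ) := [[0,0,0,0,0],[1,1,1,1,1],[2,2,2,2,2],[4,6,5,7],[5,7,4,6],[6,5,7,4],[7,4,6,5]]
def L12 : List G := [e0,e16,e32,e45,e48]
def d13 : List (List ℕ) := [[0,0,0,0,0],[1,1,1,1,1],[2,2,2,2,2],[5,4,6],[4,6,5],[6,5,4]]
def L13 : List G := [e0,e16,e32,e45,e48]
def d14 : List (List ℕ) := [[0,0,0,0,0],[1,1,1,1,1],[2,2,2,2,2],[4,5],[5,4]]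
def L14 : List G := [e0,e16,e32,e45,e48]
def d15 : List (List ℕ) := [[0,0,0,0,0],[1,1,1,1,1],[2,2,2,2,2],[4]]
def L15 : List G := [e0,e16,e32,e45,e48]
def d16 : List (List ℕ) := [[2],[1,3],[3,1]]
def L16 : List G := [e0,e11]
def d17 : List (List ℕ) := [[0,0],[2]]
def L17 : List G := [e0,e11]
def d18 : List (List ℕ) := [[1,1,1]]
def L18 : List G := [e0,e1,e2,e3,e4,e6]

theorem top_const (t t' : G) : bT t19 t = bT t19 t' := by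
  have : ∀ t : G, bT t19 t = 0 := by decide +kernel
  rw [this t, this t']

theorem chk0 : ∀ t : G, (L0.map fun γ => bT t0 (t * γ)).filter (· ≠ (0 : Fin A)) = decT 0 d0 (bT t1 t) := by
  decide +kernel

theorem chk1 : ∀ t : G, (L1.map fun γ => bT t1 (t * γ)).filter (· ≠ (0 : Fin A)) = decT 0 d1 (bT t2 t) := by
  decide +kernel

theorem chk2 : ∀ t : G, (L2.map fun γ => bT t2 (t * γ)).filter (· ≠ (0 : Fin A)) = decT 0 d2 (bT t3 t) := by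
  decide +kernel

theorem chk3 : ∀ t : G, (L3.map fun γ => bT t3 (t * γ)).filter (· ≠ (0 : Fin A)) = decT 0 d3 (bT t4 t) := by
  decide +kernel

theorem chk4 : ∀ t : G, (L4.map fun γ => bT t4 (t * γ)).filter (· ≠ (1 : Fin A)) = decT 1 d4 (bT t5 t) := by
  decide +kernel

theorem chk5 : ∀ t : G, (L5.map fun γ => bT t5 (t * γ)).filter (· ≠ (1 : Fin A)) = decT 1 d5 (bT t6 t) := by
  decide +kernel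

theorem chk6 : ∀ t : G, (L6.map fun γ => bT t6 (t * γ)).filter (· ≠ (1 : Fin A)) = decT 1 d6 (bT t7 t) := by
  decide +kernel

theorem chk7 : ∀ t : G, (L7.map fun γ => bT t7 (t * γ)).filter (· ≠ (1 : Fin A)) = decT 1 d7 (bT t8 t) := by
  decide +kernel

theorem chk8 : ∀ t : G, (L8.map fun γ => bT t8 (t * γ)).filter (· ≠ (2 : Fin A)) = decT 2 d8 (bT t9 t) := by
  decide +kernel

theorem chk9 : ∀ t : G, (L9.map fun γ => bT t9 (t * γ)).filter (· ≠ (2 : Fin A)) = decT 2 d9 (bT t10 t) := by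
  decide +kernel

theorem chk10 : ∀ t : G, (L10.map fun γ => bT t10 (t * γ)).filter (· ≠ (2 : Fin A)) = decT 2 d10 (bT t11 t) := by
  decide +kernel

theorem chk11 : ∀ t : G, (L11.map fun γ => bT t11 (t * γ)).filter (· ≠ (2 : Fin A)) = decT 2 d11 (bT t12 t) := by
  decide +kernel

theorem chk12 : ∀ t : G, (L12.map fun γ => bT t12 (t * γ)).filter (· ≠ (3 : Fin A)) = decT 3 d12 (bT t13 t) := by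
  decide +kernel

theorem chk13 : ∀ t : G, (L13.map fun γ => bT t13 (t * γ)).filter (· ≠ (3 : Fin A)) = decT 3 d13 (bT t14 t) := by
  decide +kernel

theorem chk14 : ∀ t : G, (L14.map fun γ => bT t14 (t * γ)).filter (· ≠ (3 : Fin A)) = decT 3 d14 (bT t15 t) := by
  decide +kernel

theorem chk15 : ∀ t : G, (L15.map fun γ => bT t15 (t * γ)).filter (· ≠ (3 : Fin A)) = decT 3 d15 (bT t16 t) := by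
  decide +kernel

theorem chk16 : ∀ t : G, (L16.map fun γ => bT t16 (t * γ)).filter (· ≠ (0 : Fin A)) = decT 0 d16 (bT t17 t) := by
  decide +kernel

theorem chk17 : ∀ t : G, (L17.map fun γ => bT t17 (t * γ)).filter (· ≠ (1 : Fin A)) = decT 1 d17 (bT t18 t) := by
  decide +kernel

theorem chk18 : ∀ t : G, (L18.map fun γ => bT t18 (t * γ)).filter (· ≠ (0 : Fin A)) = decT 0 d18 (bT t19 t) := by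
  decide +kernel

theorem cert19 : CertG (bT t19) := CertG.of_const top_const

theorem cert18 : CertG (bT t18) :=
  CertG.step 0 L18 (by simp [L18]) (decT 0 d18) (decT_not_mem _ _) chk18 cert19

theorem cert17 : CertG (bT t17) :=
  CertG.step 1 L17 (by simp [L17]) (decT 1 d17) (decT_not_mem _ _) chk17 cert18

theorem cert16 : CertG (bT t16) :=
  CertG.step 0 L16 (by simp [L16]) (decT 0 d16) (decT_not_mem _ _) chk16 cert17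

theorem cert15 : CertG (bT t15) :=
  CertG.step 3 L15 (by simp [L15]) (decT 3 d15) (decT_not_mem _ _) chk15 cert16

theorem cert14 : CertG (bT t14) :=
  CertG.step 3 L14 (by simp [L14]) (decT 3 d14) (decT_not_mem _ _) chk14 cert15

theorem cert13 : CertG (bT t13) :=
  CertG.step 3 L13 (by simp [L13]) (decT 3 d13) (decT_not_mem _ _) chk13 cert14

theorem cert12 : CertG (bT t12) :=
  CertG.step 3 L12 (by simp [L12]) (decT 3 d12) (decT_not_mem _ _) chk12 cert13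

theorem cert11 : CertG (bT t11) :=
  CertG.step 2 L11 (by simp [L11]) (decT 2 d11) (decT_not_mem _ _) chk11 cert12

theorem cert10 : CertG (bT t10) :=
  CertG.step 2 L10 (by simp [L10]) (decT 2 d10) (decT_not_mem _ _) chk10 cert11

theorem cert9 : CertG (bT t9) :=
  CertG.step 2 L9 (by simp [L9]) (decT 2 d9) (decT_not_mem _ _) chk9 cert10

theorem cert8 : CertG (bT t8) :=
  CertG.step 2 L8 (by simp [L8]) (decT 2 d8) (decT_not_mem _ _) chk8 cert9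

theorem cert7 : CertG (bT t7) :=
  CertG.step 1 L7 (by simp [L7]) (decT 1 d7) (decT_not_mem _ _) chk7 cert8

theorem cert6 : CertG (bT t6) :=
  CertG.step 1 L6 (by simp [L6]) (decT 1 d6) (decT_not_mem _ _) chk6 cert7

theorem cert5 : CertG (bT t5) :=
  CertG.step 1 L5 (by simp [L5]) (decT 1 d5) (decT_not_mem _ _) chk5 cert6

theorem cert4 : CertG (bT t4) :=
  CertG.step 1 L4 (by simp [L4]) (decT 1 d4) (decT_not_mem _ _) chk4 cert5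

theorem cert3 : CertG (bT t3) :=
  CertG.step 0 L3 (by simp [L3]) (decT 0 d3) (decT_not_mem _ _) chk3 cert4

theorem cert2 : CertG (bT t2) :=
  CertG.step 0 L2 (by simp [L2]) (decT 0 d2) (decT_not_mem _ _) chk2 cert3

theorem cert1 : CertG (bT t1) :=
  CertG.step 0 L1 (by simp [L1]) (decT 0 d1) (decT_not_mem _ _) chk1 cert2

theorem cert0 : CertG (bT t0) :=
  CertG.step 0 L0 (by simp [L0]) (decT 0 d0) (decT_not_mem _ _) chk0 cert1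

/-- Equal labels of the bottom column mean the same left coset. -/
theorem left_coset : ∀ t t' : G, bT t0 t = bT t0 t' → ∃ i : Fin 5, k ^ i.val * t = t' := by
  decide +kernel

end Vale.Agent.Lib.P058.A5.K3
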