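import Vale.Agent.Lib.P058.A5Base

/-! # A tower for the column of left cosets of a subgroup of prime order 5 of the alternating group -/

namespace Vale.Agent.Lib.P058.A5.K5

open Vale.Agent.Lib.P058

/-- The generator of the subgroup. -/
def k : G := e16

def t0 : List ℕ := [0,0,0,0,0,0,0,11,7,3,0,2,0,10,6,0,5,1,0,9,0,8,4,0,0,0,0,8,4,0,0,0,0,0,0,3,0,0,11,7,6,0,2,0,10,9,0,5,1,0,0,9,0,5,1,0,0,0,8,4,0,0,0,0,0,7,3,0,0,11,10,6,0,2,0,0,10,6,0,2,1,0,9,0,5,4,0,0,0,8,0,0,0,0,0,11,7,3,0,0,0,11,7,3,0,2,0,10,6,0,5,1,0,9,0,8,4,0,0,0,0,0,0,0,0]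
def t1 : List ℕ := [0,0,0,0,0,0,0,10,7,3,0,2,0,0,6,0,5,1,0,9,0,8,4,0,0,0,0,8,4,0,0,0,0,0,0,3,0,0,10,7,6,0,2,0,0,9,0,5,1,0,0,9,0,5,1,0,0,0,8,4,0,0,0,0,0,7,3,0,0,10,0,6,0,2,0,0,0,6,0,2,1,0,9,0,5,4,0,0,0,8,0,0,0,0,0,10,7,3,0,0,0,10,7,3,0,2,0,0,6,0,5,1,0,9,0,8,4,0,0,0,0,0,0,0,0]
def t2 : List ℕ := [0,0,0,0,0,0,0,1,7,3,0,2,0,0,6,0,5,1,0,9,0,8,4,0,0,0,0,8,4,0,0,0,0,0,0,3,0,0,1,7,6,0,2,0,0,9,0,5,1,0,0,9,0,5,1,0,0,0,8,4,0,0,0,0,0,7,3,0,0,1,0,6,0,2,0,0,0,6,0,2,1,0,9,0,5,4,0,0,0,8,0,0,0,0,0,1,7,3,0,0,0,1,7,3,0,2,0,0,6,0,5,1,0,9,0,8,4,0,0,0,0,0,0,0,0]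
def t3 : List ℕ := [0,0,0,0,0,0,0,1,7,3,0,2,0,0,6,0,5,1,0,2,0,8,4,0,0,0,0,8,4,0,0,0,0,0,0,3,0,0,1,7,6,0,2,0,0,2,0,5,1,0,0,2,0,5,1,0,0,0,8,4,0,0,0,0,0,7,3,0,0,1,0,6,0,2,0,0,0,6,0,2,1,0,2,0,5,4,0,0,0,8,0,0,0,0,0,1,7,3,0,0,0,1,7,3,0,2,0,0,6,0,5,1,0,2,0,8,4,0,0,0,0,0,0,0,0]
def t4 : List ℕ := [0,0,0,0,0,0,0,1,3,3,0,2,0,0,6,0,5,1,0,2,0,7,4,0,0,0,0,7,4,0,0,0,0,0,0,3,0,0,1,3,6,0,2,0,0,2,0,5,1,0,0,2,0,5,1,0,0,0,7,4,0,0,0,0,0,3,3,0,0,1,0,6,0,2,0,0,0,6,0,2,1,0,2,0,5,4,0,0,0,7,0,0,0,0,0,1,3,3,0,0,0,1,3,3,0,2,0,0,6,0,5,1,0,2,0,7,4,0,0,0,0,0,0,0,0]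
def t5 : List ℕ := [0,0,0,0,0,0,0,1,3,3,0,2,0,0,6,0,5,1,0,2,0,4,4,0,0,0,0,4,4,0,0,0,0,0,0,3,0,0,1,3,6,0,2,0,0,2,0,5,1,0,0,2,0,5,1,0,0,0,4,4,0,0,0,0,0,3,3,0,0,1,0,6,0,2,0,0,0,6,0,2,1,0,2,0,5,4,0,0,0,4,0,0,0,0,0,1,3,3,0,0,0,1,3,3,0,2,0,0,6,0,5,1,0,2,0,4,4,0,0,0,0,0,0,0,0]
def t6 : List ℕ := [0,0,0,0,0,0,0,1,3,3,0,2,0,0,5,0,5,1,0,2,0,4,4,0,0,0,0,4,4,0,0,0,0,0,0,3,0,0,1,3,5,0,2,0,0,2,0,5,1,0,0,2,0,5,1,0,0,0,4,4,0,0,0,0,0,3,3,0,0,1,0,5,0,2,0,0,0,5,0,2,1,0,2,0,5,4,0,0,0,4,0,0,0,0,0,1,3,3,0,0,0,1,3,3,0,2,0,0,5,0,5,1,0,2,0,4,4,0,0,0,0,0,0,0,0]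
def t7 : List ℕ := [0,0,0,0,0,0,0,0,2,2,0,1,0,0,4,0,4,0,0,1,0,3,3,0,0,0,0,3,3,0,0,0,0,0,0,2,0,0,0,2,4,0,1,0,0,1,0,4,0,0,0,1,0,4,0,0,0,0,3,3,0,0,0,0,0,2,2,0,0,0,0,4,0,1,0,0,0,4,0,1,0,0,1,0,4,3,0,0,0,3,0,0,0,0,0,0,2,2,0,0,0,0,2,2,0,1,0,0,4,0,4,0,0,1,0,3,3,0,0,0,0,0,0,0,0]
def t8 : List ℕ := [0,0,0,0,0,0,0,0,2,2,0,1,0,0,1,0,1,0,0,1,0,3,3,0,0,0,0,3,3,0,0,0,0,0,0,2,0,0,0,2,1,0,1,0,0,1,0,1,0,0,0,1,0,1,0,0,0,0,3,3,0,0,0,0,0,2,2,0,0,0,0,1,0,1,0,0,0,1,0,1,0,0,1,0,1,3,0,0,0,3,0,0,0,0,0,0,2,2,0,0,0,0,2,2,0,1,0,0,1,0,1,0,0,1,0,3,3,0,0,0,0,0,0,0,0]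
def t9 : List ℕ := [0,0,0,0,0,0,0,0,2,2,0,1,0,0,1,0,1,0,0,1,0,2,2,0,0,0,0,2,2,0,0,0,0,0,0,2,0,0,0,2,1,0,1,0,0,1,0,1,0,0,0,1,0,1,0,0,0,0,2,2,0,0,0,0,0,2,2,0,0,0,0,1,0,1,0,0,0,1,0,1,0,0,1,0,1,2,0,0,0,2,0,0,0,0,0,0,2,2,0,0,0,0,2,2,0,1,0,0,1,0,1,0,0,1,0,2,2,0,0,0,0,0,0,0,0]
def t10 : List ℕ := [0,0,0,0,0,0,0,0,1,1,0,0,0,0,0,0,0,0,0,0,0,1,1,0,0,0,0,1,1,0,0,0,0,0,0,1,0,0,0,1,0,0,0,0,0,0,0,0,0,0,0,0,0,0,0,0,0,0,1,1,0,0,0,0,0,1,1,0,0,0,0,0,0,0,0,0,0,0,0,0,0,0,0,0,0,1,0,0,0,1,0,0,0,0,0,0,1,1,0,0,0,0,1,1,0,0,0,0,0,0,0,0,0,0,0,1,1,0,0,0,0,0,0,0,0]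
def t11 : List ℕ := [0,0,0,0,0,0,0,0,0,0,0,0,0,0,0,0,0,0,0,0,0,0,0,0,0,0,0,0,0,0,0,0,0,0,0,0,0,0,0,0,0,0,0,0,0,0,0,0,0,0,0,0,0,0,0,0,0,0,0,0,0,0,0,0,0,0,0,0,0,0,0,0,0,0,0,0,0,0,0,0,0,0,0,0,0,0,0,0,0,0,0,0,0,0,0,0,0,0,0,0,0,0,0,0,0,0,0,0,0,0,0,0,0,0,0,0,0,0,0,0,0,0,0,0,0]
def d0 : List (List ℕ) := [[10],[1,11],[2,9],[3,7],[4,8],[5,6],[6,5],[7,3],[8,4],[9,2],[11,1]]
def L0 : List G := [e0,e13]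
def d1 : List (List ℕ) := [[0,0],[10],[2,9],[3,7],[4,8],[5,6],[6,5],[7,3],[8,4],[9,2]]
def L1 : List G := [e0,e13]
def d2 : List (List ℕ) := [[0,0],[1,1],[9],[3,7],[4,8],[5,6],[6,5],[7,3],[8,4]]
def L2 : List G := [e0,e13]
def d3 : List (List ℕ) := [[0,0],[1,1],[2,2],[7],[4,8],[5,6],[6,5],[8,4]]
def L3 : List G := [e0,e13]
def d4 : List (List ℕ) := [[0,0],[1,1],[2,2],[3,3],[7],[5,6],[6,5]]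
def L4 : List G := [e0,e13]
def d5 : List (List ℕ) := [[0,0],[1,1],[2,2],[3,3],[4,4],[6]]
def L5 : List G := [e0,e13]
def d6 : List (List ℕ) := [[1],[2,5],[3,4],[4,3],[5,2]]
def L6 : List G := [e0,e30]
def d7 : List (List ℕ) := [[0,0],[4],[2,3],[3,2]]
def L7 : List G := [e0,e30]
def d8 : List (List ℕ) := [[0,0],[1,1],[3]]
def L8 : List G := [e0,e30]
def d9 : List (List ℕ) := [[1,2],[2,1]]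
def L9 : List G := [e0,e15,e24]
def d10 : List (List ℕ) := [[1]]
def L10 : List G := [e0,e15,e24]

theorem top_const (t t' : G) : bT t11 t = bT t11 t' := by
  have : ∀ t : G, bT t11 t = 0 := by decide +kernel
  rw [this t, this t']

theorem chk0 : ∀ t : G, (L0.map fun γ => bT t0 (t * γ)).filter (· ≠ (0 : Fin A)) = decT 0 d0 (bT t1 t) := by
  decide +kernel

theorem chk1 : ∀ t : G, (L1.map fun γ => bT t1 (t * γ)).filter (· ≠ (1 : Fin A)) = decT 1 d1 (bT t2 t) := by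
  decide +kernel

theorem chk2 : ∀ t : G, (L2.map fun γ => bT t2 (t * γ)).filter (· ≠ (2 : Fin A)) = decT 2 d2 (bT t3 t) := by
  decide +kernel

theorem chk3 : ∀ t : G, (L3.map fun γ => bT t3 (t * γ)).filter (· ≠ (3 : Fin A)) = decT 3 d3 (bT t4 t) := by
  decide +kernel

theorem chk4 : ∀ t : G, (L4.map fun γ => bT t4 (t * γ)).filter (· ≠ (4 : Fin A)) = decT 4 d4 (bT t5 t) := by
  decide +kernel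

theorem chk5 : ∀ t : G, (L5.map fun γ => bT t5 (t * γ)).filter (· ≠ (5 : Fin A)) = decT 5 d5 (bT t6 t) := by
  decide +kernel

theorem chk6 : ∀ t : G, (L6.map fun γ => bT t6 (t * γ)).filter (· ≠ (0 : Fin A)) = decT 0 d6 (bT t7 t) := by
  decide +kernel

theorem chk7 : ∀ t : G, (L7.map fun γ => bT t7 (t * γ)).filter (· ≠ (1 : Fin A)) = decT 1 d7 (bT t8 t) := by
  decide +kernel

theorem chk8 : ∀ t : G, (L8.map fun γ => bT t8 (t * γ)).filter (· ≠ (2 : Fin A)) = decT 2 d8 (bT t9 t) := by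
  decide +kernel

theorem chk9 : ∀ t : G, (L9.map fun γ => bT t9 (t * γ)).filter (· ≠ (0 : Fin A)) = decT 0 d9 (bT t10 t) := by
  decide +kernel

theorem chk10 : ∀ t : G, (L10.map fun γ => bT t10 (t * γ)).filter (· ≠ (0 : Fin A)) = decT 0 d10 (bT t11 t) := by
  decide +kernel

theorem cert11 : CertG (bT t11) := CertG.of_const top_const

theorem cert10 : CertG (bT t10) :=
  CertG.step 0 L10 (by simp [L10]) (decT 0 d10) (decT_not_mem _ _) chk10 cert11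

theorem cert9 : CertG (bT t9) :=
  CertG.step 0 L9 (by simp [L9]) (decT 0 d9) (decT_not_mem _ _) chk9 cert10

theorem cert8 : CertG (bT t8) :=
  CertG.step 2 L8 (by simp [L8]) (decT 2 d8) (decT_not_mem _ _) chk8 cert9

theorem cert7 : CertG (bT t7) :=
  CertG.step 1 L7 (by simp [L7]) (decT 1 d7) (decT_not_mem _ _) chk7 cert8

theorem cert6 : CertG (bT t6) :=
  CertG.step 0 L6 (by simp [L6]) (decT 0 d6) (decT_not_mem _ _) chk6 cert7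

theorem cert5 : CertG (bT t5) :=
  CertG.step 5 L5 (by simp [L5]) (decT 5 d5) (decT_not_mem _ _) chk5 cert6

theorem cert4 : CertG (bT t4) :=
  CertG.step 4 L4 (by simp [L4]) (decT 4 d4) (decT_not_mem _ _) chk4 cert5

theorem cert3 : CertG (bT t3) :=
  CertG.step 3 L3 (by simp [L3]) (decT 3 d3) (decT_not_mem _ _) chk3 cert4

theorem cert2 : CertG (bT t2) :=
  CertG.step 2 L2 (by simp [L2]) (decT 2 d2) (decT_not_mem _ _) chk2 cert3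

theorem cert1 : CertG (bT t1) :=
  CertG.step 1 L1 (by simp [L1]) (decT 1 d1) (decT_not_mem _ _) chk1 cert2

theorem cert0 : CertG (bT t0) :=
  CertG.step 0 L0 (by simp [L0]) (decT 0 d0) (decT_not_mem _ _) chk0 cert1

/-- Equal labels of the bottom column mean the same left coset. -/
theorem left_coset : ∀ t t' : G, bT t0 t = bT t0 t' → ∃ i : Fin 5, k ^ i.val * t = t' := by
  decide +kernel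

end Vale.Agent.Lib.P058.A5.K5
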