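import Vale.Agent.Lib.P058.A5Base

/-! # A tower for the letter column `(a,a,b,c,d)` on the alternating group of five letters -/

namespace Vale.Agent.Lib.P058.A5.Tail

open Vale.Agent.Lib.P058

def f0 : G := ⟨⟨![0,1,2,3,4], ![0,1,2,3,4], by decide, by decide⟩, Equiv.Perm.mem_alternatingGroup.mpr (by decide)⟩
def f1 : G := ⟨⟨![0,1,3,4,2], ![0,1,4,2,3], by decide, by decide⟩, Equiv.Perm.mem_alternatingGroup.mpr (by decide)⟩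
def f2 : G := ⟨⟨![0,1,4,2,3], ![0,1,3,4,2], by decide, by decide⟩, Equiv.Perm.mem_alternatingGroup.mpr (by decide)⟩
def f3 : G := ⟨⟨![0,2,1,4,3], ![0,2,1,4,3], by decide, by decide⟩, Equiv.Perm.mem_alternatingGroup.mpr (by decide)⟩
def f5 : G := ⟨⟨![0,2,4,3,1], ![0,4,1,3,2], by decide, by decide⟩, Equiv.Perm.mem_alternatingGroup.mpr (by decide)⟩
def f7 : G := ⟨⟨![0,3,2,4,1], ![0,4,2,1,3], by decide, by decide⟩, Equiv.Perm.mem_alternatingGroup.mpr (by decide)⟩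
def f10 : G := ⟨⟨![0,4,2,1,3], ![0,3,2,4,1], by decide, by decide⟩, Equiv.Perm.mem_alternatingGroup.mpr (by decide)⟩
def f16 : G := ⟨⟨![1,2,3,4,0], ![4,0,1,2,3], by decide, by decide⟩, Equiv.Perm.mem_alternatingGroup.mpr (by decide)⟩
def f27 : G := ⟨⟨![2,1,0,4,3], ![2,1,0,4,3], by decide, by decide⟩, Equiv.Perm.mem_alternatingGroup.mpr (by decide)⟩
def f32 : G := ⟨⟨![2,3,4,0,1], ![3,4,0,1,2], by decide, by decide⟩, Equiv.Perm.mem_alternatingGroup.mpr (by decide)⟩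
def f33 : G := ⟨⟨![2,4,0,3,1], ![2,4,0,3,1], by decide, by decide⟩, Equiv.Perm.mem_alternatingGroup.mpr (by decide)⟩
def f45 : G := ⟨⟨![3,4,0,1,2], ![2,3,4,0,1], by decide, by decide⟩, Equiv.Perm.mem_alternatingGroup.mpr (by decide)⟩
def f48 : G := ⟨⟨![4,0,1,2,3], ![1,2,3,4,0], by decide, by decide⟩, Equiv.Perm.mem_alternatingGroup.mpr (by decide)⟩
def f59 : G := ⟨⟨![4,3,2,1,0], ![4,3,2,1,0], by decide, by decide⟩, Equiv.Perm.mem_alternatingGroup.mpr (by decide)⟩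

def t0 : List ℕ := [0,0,0,0,0,0,0,2,3,1,0,3,0,0,2,0,1,3,0,0,0,2,0,1,0,0,0,3,1,2,0,0,0,0,0,2,0,0,3,0,3,0,0,0,1,1,0,2,0,0,0,2,0,3,0,3,0,0,0,2,0,0,0,0,0,0,3,0,0,0,2,0,0,0,0,0,3,0,0,1,1,0,3,0,0,3,0,0,0,0,0,0,0,0,0,0,1,0,0,0,0,1,2,0,0,2,0,0,1,0,0,2,0,0,0,1,0,0,0,0,0,0,0,0,0]
def t1 : List ℕ := [0,0,0,0,0,0,0,3,4,5,0,0,0,4,2,0,1,0,0,5,0,2,3,1,0,0,0,0,1,2,0,0,0,0,0,3,0,0,4,2,4,0,0,0,5,5,0,3,1,0,0,3,0,4,2,0,0,0,4,2,0,0,0,0,0,4,4,0,0,5,2,2,0,1,0,0,4,0,0,5,1,0,0,0,5,0,0,0,0,2,0,0,0,0,0,5,5,3,0,0,0,5,3,1,0,2,0,3,1,0,3,3,0,4,0,1,1,0,0,0,0,0,0,0,0]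
def t2 : List ℕ := [0,0,0,0,0,0,0,3,4,0,0,0,0,4,2,0,1,0,0,0,0,2,3,1,0,0,0,0,1,2,0,0,0,0,0,3,0,0,4,2,4,0,0,0,0,0,0,3,1,0,0,3,0,4,2,0,0,0,4,2,0,0,0,0,0,4,4,0,0,0,2,2,0,1,0,0,4,0,0,0,1,0,0,0,0,0,0,0,0,2,0,0,0,0,0,0,0,3,0,0,0,0,3,1,0,2,0,3,1,0,3,3,0,4,0,1,1,0,0,0,0,0,0,0,0]
def t3 : List ℕ := [0,0,0,0,0,0,0,1,3,0,0,0,0,3,2,0,1,0,0,0,0,2,1,1,0,0,0,0,1,2,0,0,0,0,0,1,0,0,3,2,3,0,0,0,0,0,0,1,1,0,0,1,0,3,2,0,0,0,3,2,0,0,0,0,0,3,3,0,0,0,2,2,0,1,0,0,3,0,0,0,1,0,0,0,0,0,0,0,0,2,0,0,0,0,0,0,0,1,0,0,0,0,1,1,0,2,0,1,1,0,1,1,0,3,0,1,1,0,0,0,0,0,0,0,0]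
def t4 : List ℕ := [0,0,0,0,0,0,0,1,2,0,0,0,0,2,2,0,1,0,0,0,0,2,1,1,0,0,0,0,1,2,0,0,0,0,0,1,0,0,2,2,2,0,0,0,0,0,0,1,1,0,0,1,0,2,2,0,0,0,2,2,0,0,0,0,0,2,2,0,0,0,2,2,0,1,0,0,2,0,0,0,1,0,0,0,0,0,0,0,0,2,0,0,0,0,0,0,0,1,0,0,0,0,1,1,0,2,0,1,1,0,1,1,0,2,0,1,1,0,0,0,0,0,0,0,0]
def t5 : List ℕ := [0,0,0,0,0,0,0,1,2,0,0,6,0,5,5,0,3,2,0,2,0,4,0,0,0,0,0,2,0,5,0,0,0,0,0,3,0,0,2,2,4,0,0,0,0,6,0,1,1,0,0,0,0,5,5,0,0,0,2,2,0,0,0,0,0,5,5,0,0,0,2,2,0,0,0,0,5,2,0,2,1,0,0,0,0,0,0,0,0,5,0,0,0,0,0,2,2,1,0,0,0,2,0,0,0,2,0,1,1,0,0,0,0,2,0,1,1,2,0,0,0,0,0,0,0]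
def t6 : List ℕ := [0,0,0,0,0,0,0,1,2,0,0,5,0,1,1,0,3,2,0,2,0,4,0,0,0,0,0,2,0,1,0,0,0,0,0,3,0,0,2,2,4,0,0,0,0,5,0,1,1,0,0,0,0,1,1,0,0,0,2,2,0,0,0,0,0,1,1,0,0,0,2,2,0,0,0,0,1,2,0,2,1,0,0,0,0,0,0,0,0,1,0,0,0,0,0,2,2,1,0,0,0,2,0,0,0,2,0,1,1,0,0,0,0,2,0,1,1,2,0,0,0,0,0,0,0]
def t7 : List ℕ := [0,0,0,0,0,0,0,0,1,1,0,5,0,0,0,0,6,1,0,1,0,7,1,1,0,0,0,1,0,0,0,0,0,0,0,2,0,0,1,1,3,0,0,0,0,4,0,0,0,0,0,1,0,0,0,0,0,0,1,1,0,0,0,0,0,0,0,0,0,1,1,1,0,0,0,0,0,1,0,1,0,0,1,0,0,0,1,0,0,0,0,0,0,0,0,1,1,0,0,0,0,1,0,1,0,1,0,0,0,0,0,1,0,1,0,0,0,1,0,0,0,0,0,0,0]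
def t8 : List ℕ := [0,0,0,0,0,0,0,4,4,4,0,5,0,4,4,0,6,4,0,4,0,7,4,4,0,0,0,0,0,0,0,0,0,0,0,1,0,0,0,0,2,0,0,0,0,3,0,0,0,0,0,4,0,0,4,0,0,0,0,4,0,0,0,0,0,0,4,0,0,4,0,4,0,0,0,0,4,4,0,0,0,0,4,0,0,0,4,0,0,0,0,0,0,0,0,0,4,4,0,0,0,4,0,4,0,0,0,0,4,0,0,4,0,4,0,0,4,0,0,0,0,0,0,0,0]
def t9 : List ℕ := [0,0,0,0,0,0,0,3,3,3,0,4,0,3,3,0,5,3,0,3,0,6,3,3,0,0,0,0,0,0,0,0,0,0,0,1,0,0,0,0,2,0,0,0,0,1,0,0,0,0,0,3,0,0,3,0,0,0,0,3,0,0,0,0,0,0,3,0,0,3,0,3,0,0,0,0,3,3,0,0,0,0,3,0,0,0,3,0,0,0,0,0,0,0,0,0,3,3,0,0,0,3,0,3,0,0,0,0,3,0,0,3,0,3,0,0,3,0,0,0,0,0,0,0,0]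
def t10 : List ℕ := [0,0,0,0,0,0,0,2,2,2,0,3,0,2,2,0,4,2,0,2,0,5,2,2,0,0,0,0,0,0,0,0,0,0,0,1,0,0,0,0,1,0,0,0,0,1,0,0,0,0,0,2,0,0,2,0,0,0,0,2,0,0,0,0,0,0,2,0,0,2,0,2,0,0,0,0,2,2,0,0,0,0,2,0,0,0,2,0,0,0,0,0,0,0,0,0,2,2,0,0,0,2,0,2,0,0,0,0,2,0,0,2,0,2,0,0,2,0,0,0,0,0,0,0,0]
def t11 : List ℕ := [0,0,0,0,0,0,0,2,2,2,0,3,0,2,2,0,3,2,0,2,0,4,2,2,0,0,0,0,0,0,0,0,0,0,0,1,0,0,0,0,1,0,0,0,0,1,0,0,0,0,0,2,0,0,2,0,0,0,0,2,0,0,0,0,0,0,2,0,0,2,0,2,0,0,0,0,2,2,0,0,0,0,2,0,0,0,2,0,0,0,0,0,0,0,0,0,2,2,0,0,0,2,0,2,0,0,0,0,2,0,0,2,0,2,0,0,2,0,0,0,0,0,0,0,0]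
def t12 : List ℕ := [0,0,0,0,0,0,0,2,2,2,0,3,0,2,2,0,3,2,0,2,0,3,2,2,0,0,0,0,0,0,0,0,0,0,0,1,0,0,0,0,1,0,0,0,0,1,0,0,0,0,0,2,0,0,2,0,0,0,0,2,0,0,0,0,0,0,2,0,0,2,0,2,0,0,0,0,2,2,0,0,0,0,2,0,0,0,2,0,0,0,0,0,0,0,0,0,2,2,0,0,0,2,0,2,0,0,0,0,2,0,0,2,0,2,0,0,2,0,0,0,0,0,0,0,0]
def t13 : List ℕ := [0,0,0,0,0,0,0,0,0,0,0,2,0,0,0,0,2,0,0,0,0,2,0,0,0,0,0,0,0,0,0,0,0,0,0,1,0,0,0,0,1,0,0,0,0,1,0,0,0,0,0,0,0,0,0,0,0,0,0,0,0,0,0,0,0,0,0,0,0,0,0,0,0,0,0,0,0,0,0,0,0,0,0,0,0,0,0,0,0,0,0,0,0,0,0,0,0,0,0,0,0,0,0,0,0,0,0,0,0,0,0,0,0,0,0,0,0,0,0,0,0,0,0,0,0]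
def t14 : List ℕ := [0,0,0,0,0,0,0,0,0,0,0,1,0,0,0,0,1,0,0,0,0,1,0,0,0,0,0,0,0,0,0,0,0,0,0,1,0,0,0,0,1,0,0,0,0,1,0,0,0,0,0,0,0,0,0,0,0,0,0,0,0,0,0,0,0,0,0,0,0,0,0,0,0,0,0,0,0,0,0,0,0,0,0,0,0,0,0,0,0,0,0,0,0,0,0,0,0,0,0,0,0,0,0,0,0,0,0,0,0,0,0,0,0,0,0,0,0,0,0,0,0,0,0,0,0]
def t15 : List ℕ := [0,0,0,0,0,0,0,1,1,1,0,0,0,1,1,0,0,1,0,1,0,0,1,1,0,0,0,1,1,1,0,0,0,0,0,0,0,0,1,1,0,0,1,0,1,0,0,1,1,0,0,0,0,1,1,0,0,0,1,1,0,0,0,0,0,1,1,0,0,1,1,1,0,1,0,0,0,1,0,1,0,0,1,0,1,1,1,0,0,1,0,0,0,0,0,1,1,1,0,0,0,0,1,1,0,0,0,1,1,0,1,1,0,1,0,1,1,1,0,0,0,0,0,0,0]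
def t16 : List ℕ := [0,0,0,0,0,0,0,0,0,0,0,0,0,0,0,0,0,0,0,0,0,0,0,0,0,0,0,0,0,0,0,0,0,0,0,0,0,0,0,0,0,0,0,0,0,0,0,0,0,0,0,0,0,0,0,0,0,0,0,0,0,0,0,0,0,0,0,0,0,0,0,0,0,0,0,0,0,0,0,0,0,0,0,0,0,0,0,0,0,0,0,0,0,0,0,0,0,0,0,0,0,0,0,0,0,0,0,0,0,0,0,0,0,0,0,0,0,0,0,0,0,0,0,0,0]
def d0 : List (List ℕ) := [[1,2,3],[2,3,1],[3,1,2],[1,3,2],[2,1,3],[3,2,1]]
def L0 : List G := [f16,f5,f1,f2,f0]
def d1 : List (List ℕ) := [[5],[1,3],[2,4],[3,1],[4,2]]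
def L1 : List G := [f0,f59]
def d2 : List (List ℕ) := [[0,0],[3],[2,4],[4,2]]
def L2 : List G := [f0,f59]
def d3 : List (List ℕ) := [[0,0],[1,1],[3]]
def L3 : List G := [f0,f59]
def d4 : List (List ℕ) := [[1],[1,2],[2],[1,1],[2,2],[2,1],[]]
def L4 : List G := [f0,f33]
def d5 : List (List ℕ) := [[0,0],[5],[2,2],[3,3],[4,4],[6,6]]
def L5 : List G := [f0,f33]
def d6 : List (List ℕ) := [[1,2],[2,1],[3,5,4],[4,3,5],[5,4,3],[5,3,4],[3,4,5],[4,5,3]]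
def L6 : List G := [f0,f7,f10]
def d7 : List (List ℕ) := [[1],[2,4,3],[3,2,4],[4,3,2],[1,1],[5,6,7],[6,7,5],[7,5,6]]
def L7 : List G := [f0,f7,f10]
def d8 : List (List ℕ) := [[0,0,0],[3,2],[2,3],[4,4,4],[5,6,7],[6,7,5],[7,5,6]]
def L8 : List G := [f0,f7,f10]
def d9 : List (List ℕ) := [[0,0,0],[2],[3,3,3],[4,5,6],[5,6,4],[6,4,5]]
def L9 : List G := [f0,f7,f10]
def d10 : List (List ℕ) := [[0,0,0],[1,1,1],[2,2,2],[4,5],[5,4]]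
def L10 : List G := [f0,f7,f10]
def d11 : List (List ℕ) := [[0,0,0],[1,1,1],[2,2,2],[4]]
def L11 : List G := [f0,f7,f10]
def d12 : List (List ℕ) := [[2],[1,3],[3,1]]
def L12 : List G := [f0,f27]
def d13 : List (List ℕ) := [[0,0],[2]]
def L13 : List G := [f0,f27]
def d14 : List (List ℕ) := [[1],[]]
def L14 : List G := [f0,f3]
def d15 : List (List ℕ) := [[0]]
def L15 : List G := [f0,f16,f32,f45,f48]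

theorem top_const (t t' : G) : bT t16 t = bT t16 t' := by
  have : ∀ t : G, bT t16 t = 0 := by decide +kernel
  rw [this t, this t']

theorem chk0 : ∀ t : G, (L0.map fun γ => bT t0 (t * γ)).filter (· ≠ (0 : Fin A)) = decT 0 d0 (bT t1 t) := by
  decide +kernel

theorem chk1 : ∀ t : G, (L1.map fun γ => bT t1 (t * γ)).filter (· ≠ (0 : Fin A)) = decT 0 d1 (bT t2 t) := by
  decide +kernel

theorem chk2 : ∀ t : G, (L2.map fun γ => bT t2 (t * γ)).filter (· ≠ (1 : Fin A)) = decT 1 d2 (bT t3 t) := by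
  decide +kernel

theorem chk3 : ∀ t : G, (L3.map fun γ => bT t3 (t * γ)).filter (· ≠ (2 : Fin A)) = decT 2 d3 (bT t4 t) := by
  decide +kernel

theorem chk4 : ∀ t : G, (L4.map fun γ => bT t4 (t * γ)).filter (· ≠ (0 : Fin A)) = decT 0 d4 (bT t5 t) := by
  decide +kernel

theorem chk5 : ∀ t : G, (L5.map fun γ => bT t5 (t * γ)).filter (· ≠ (1 : Fin A)) = decT 1 d5 (bT t6 t) := by
  decide +kernel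

theorem chk6 : ∀ t : G, (L6.map fun γ => bT t6 (t * γ)).filter (· ≠ (0 : Fin A)) = decT 0 d6 (bT t7 t) := by
  decide +kernel

theorem chk7 : ∀ t : G, (L7.map fun γ => bT t7 (t * γ)).filter (· ≠ (0 : Fin A)) = decT 0 d7 (bT t8 t) := by
  decide +kernel

theorem chk8 : ∀ t : G, (L8.map fun γ => bT t8 (t * γ)).filter (· ≠ (1 : Fin A)) = decT 1 d8 (bT t9 t) := by
  decide +kernel

theorem chk9 : ∀ t : G, (L9.map fun γ => bT t9 (t * γ)).filter (· ≠ (1 : Fin A)) = decT 1 d9 (bT t10 t) := by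
  decide +kernel

theorem chk10 : ∀ t : G, (L10.map fun γ => bT t10 (t * γ)).filter (· ≠ (3 : Fin A)) = decT 3 d10 (bT t11 t) := by
  decide +kernel

theorem chk11 : ∀ t : G, (L11.map fun γ => bT t11 (t * γ)).filter (· ≠ (3 : Fin A)) = decT 3 d11 (bT t12 t) := by
  decide +kernel

theorem chk12 : ∀ t : G, (L12.map fun γ => bT t12 (t * γ)).filter (· ≠ (0 : Fin A)) = decT 0 d12 (bT t13 t) := by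
  decide +kernel

theorem chk13 : ∀ t : G, (L13.map fun γ => bT t13 (t * γ)).filter (· ≠ (1 : Fin A)) = decT 1 d13 (bT t14 t) := by
  decide +kernel

theorem chk14 : ∀ t : G, (L14.map fun γ => bT t14 (t * γ)).filter (· ≠ (0 : Fin A)) = decT 0 d14 (bT t15 t) := by
  decide +kernel

theorem chk15 : ∀ t : G, (L15.map fun γ => bT t15 (t * γ)).filter (· ≠ (1 : Fin A)) = decT 1 d15 (bT t16 t) := by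
  decide +kernel

theorem cert16 : CertG (bT t16) := CertG.of_const top_const

theorem cert15 : CertG (bT t15) :=
  CertG.step 1 L15 (by simp [L15]) (decT 1 d15) (decT_not_mem _ _) chk15 cert16

theorem cert14 : CertG (bT t14) :=
  CertG.step 0 L14 (by simp [L14]) (decT 0 d14) (decT_not_mem _ _) chk14 cert15

theorem cert13 : CertG (bT t13) :=
  CertG.step 1 L13 (by simp [L13]) (decT 1 d13) (decT_not_mem _ _) chk13 cert14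

theorem cert12 : CertG (bT t12) :=
  CertG.step 0 L12 (by simp [L12]) (decT 0 d12) (decT_not_mem _ _) chk12 cert13

theorem cert11 : CertG (bT t11) :=
  CertG.step 3 L11 (by simp [L11]) (decT 3 d11) (decT_not_mem _ _) chk11 cert12

theorem cert10 : CertG (bT t10) :=
  CertG.step 3 L10 (by simp [L10]) (decT 3 d10) (decT_not_mem _ _) chk10 cert11

theorem cert9 : CertG (bT t9) :=
  CertG.step 1 L9 (by simp [L9]) (decT 1 d9) (decT_not_mem _ _) chk9 cert10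

theorem cert8 : CertG (bT t8) :=
  CertG.step 1 L8 (by simp [L8]) (decT 1 d8) (decT_not_mem _ _) chk8 cert9

theorem cert7 : CertG (bT t7) :=
  CertG.step 0 L7 (by simp [L7]) (decT 0 d7) (decT_not_mem _ _) chk7 cert8

theorem cert6 : CertG (bT t6) :=
  CertG.step 0 L6 (by simp [L6]) (decT 0 d6) (decT_not_mem _ _) chk6 cert7

theorem cert5 : CertG (bT t5) :=
  CertG.step 1 L5 (by simp [L5]) (decT 1 d5) (decT_not_mem _ _) chk5 cert6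

theorem cert4 : CertG (bT t4) :=
  CertG.step 0 L4 (by simp [L4]) (decT 0 d4) (decT_not_mem _ _) chk4 cert5

theorem cert3 : CertG (bT t3) :=
  CertG.step 2 L3 (by simp [L3]) (decT 2 d3) (decT_not_mem _ _) chk3 cert4

theorem cert2 : CertG (bT t2) :=
  CertG.step 1 L2 (by simp [L2]) (decT 1 d2) (decT_not_mem _ _) chk2 cert3

theorem cert1 : CertG (bT t1) :=
  CertG.step 0 L1 (by simp [L1]) (decT 0 d1) (decT_not_mem _ _) chk1 cert2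

theorem cert0 : CertG (bT t0) :=
  CertG.step 0 L0 (by simp [L0]) (decT 0 d0) (decT_not_mem _ _) chk0 cert1

/-- The letter map of the bottom column. -/
def psi (l : Fin 5) : Fin A := if l = 0 then 0 else if l = 1 then 0 else if l = 2 then 1 else if l = 3 then 2 else 3

/-- The bottom column reads the letter at the last position. -/
theorem bottom : ∀ t : G, bT t0 t = psi (t.1 4) := by
  decide +kernel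

end Vale.Agent.Lib.P058.A5.Tail
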