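import Mathlib

open Finset

namespace Vale.Agent.Lib.P058

set_option linter.unusedSectionVars false

variable {ι κ : Type*} [Fintype κ]

/-- Level of the column `n` in row `i`. -/
def lev (b : ι → κ → ℤ) (i : ι) (n : κ → ℤ) : ℤ := ∑ p, b i p * n p

/-- Marginal of the measure `τ` in row `i`. -/
noncomputable def mg (b : ι → κ → ℤ) (i : ι) : ((κ → ℤ) →₀ ℝ) →ₗ[ℝ] (ℤ →₀ ℝ) :=
  Finsupp.lmapDomain ℝ ℝ (lev b i)

lemma mg_single (b : ι → κ → ℤ) (i : ι) (n : κ → ℤ) (a : ℝ) (t : ℤ) :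
    mg b i (Finsupp.single n a) t = if lev b i n = t then a else 0 := by
  classical
  simp [mg, Finsupp.lmapDomain_apply, Finsupp.mapDomain_single, Finsupp.single_apply]

/-- Defect of `τ` at the level `t`. -/
noncomputable def dfc [Fintype ι] (b : ι → κ → ℤ) (τ : (κ → ℤ) →₀ ℝ) (t : ℤ) : ℝ :=
  ∑ i, ∑ j, |mg b i τ t - mg b j τ t|

lemma dfc_nonneg [Fintype ι] (b : ι → κ → ℤ) (τ : (κ → ℤ) →₀ ℝ) (t : ℤ) : 0 ≤ dfc b τ t :=
  Finset.sum_nonneg fun _ _ => Finset.sum_nonneg fun _ _ => abs_nonneg _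

lemma abs_sub_le_dfc [Fintype ι] (b : ι → κ → ℤ) (τ : (κ → ℤ) →₀ ℝ) (t : ℤ) (i j : ι) :
    |mg b i τ t - mg b j τ t| ≤ dfc b τ t := by
  unfold dfc
  calc |mg b i τ t - mg b j τ t|
      ≤ ∑ j', |mg b i τ t - mg b j' τ t| :=
        Finset.single_le_sum (f := fun j' => |mg b i τ t - mg b j' τ t|)
          (fun _ _ => abs_nonneg _) (Finset.mem_univ j)
    _ ≤ ∑ i', ∑ j', |mg b i' τ t - mg b j' τ t| :=
        Finset.single_le_sum (f := fun i' => ∑ j', |mg b i' τ t - mg b j' τ t|)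
          (fun _ _ => Finset.sum_nonneg fun _ _ => abs_nonneg _) (Finset.mem_univ i)

lemma dfc_eq_zero_iff [Fintype ι] (b : ι → κ → ℤ) (τ : (κ → ℤ) →₀ ℝ) (t : ℤ) :
    dfc b τ t = 0 ↔ ∀ i j, mg b i τ t = mg b j τ t := by
  constructor
  · intro h i j
    have := abs_sub_le_dfc b τ t i j
    rw [h] at this
    have h2 := abs_nonpos_iff.mp this
    linarith
  · intro h
    unfold dfc
    refine Finset.sum_eq_zero fun i _ => Finset.sum_eq_zero fun j _ => ?_
    rw [h i j, sub_self, abs_zero]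

/-- Squared norm of a column. -/
def nsq (n : κ → ℤ) : ℤ := ∑ p, n p ^ 2

/-- Total squared norm of a measure: the cost. -/
noncomputable def cost : ((κ → ℤ) →₀ ℝ) →ₗ[ℝ] ℝ :=
  Finsupp.linearCombination ℝ (fun n : κ → ℤ => ((nsq n : ℤ) : ℝ))

/-- Second moments of a measure. -/
noncomputable def mom (p q : κ) : ((κ → ℤ) →₀ ℝ) →ₗ[ℝ] ℝ :=
  Finsupp.linearCombination ℝ (fun n : κ → ℤ => ((n p : ℝ) * (n q : ℝ)))

lemma cost_single (n : κ → ℤ) (a : ℝ) : cost (Finsupp.single n a) = a * ((nsq n : ℤ) : ℝ) := by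
  simp [cost, Finsupp.linearCombination_single]

lemma mom_single (p q : κ) (n : κ → ℤ) (a : ℝ) :
    mom p q (Finsupp.single n a) = a * ((n p : ℝ) * (n q : ℝ)) := by
  simp [mom, Finsupp.linearCombination_single]

lemma cost_nonneg (τ : (κ → ℤ) →₀ ℝ) (hτ : ∀ n, 0 ≤ τ n) : 0 ≤ cost τ := by
  classical
  unfold cost
  rw [Finsupp.linearCombination_apply]
  refine Finset.sum_nonneg fun n _ => ?_
  simp only [smul_eq_mul]
  refine mul_nonneg (hτ n) ?_
  unfold nsq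
  exact_mod_cast Finset.sum_nonneg fun p _ => sq_nonneg (n p)

lemma abs_mul_le_nsq (n : κ → ℤ) (p q : κ) : |((n p : ℝ) * (n q : ℝ))| ≤ ((nsq n : ℤ) : ℝ) := by
  classical
  have h1 : ((n p : ℤ) : ℝ) ^ 2 ≤ ((nsq n : ℤ) : ℝ) := by
    unfold nsq
    have := Finset.single_le_sum (f := fun r => (n r) ^ 2) (fun r _ => sq_nonneg (n r))
      (Finset.mem_univ p)
    exact_mod_cast this
  have h2 : ((n q : ℤ) : ℝ) ^ 2 ≤ ((nsq n : ℤ) : ℝ) := by
    unfold nsq
    have := Finset.single_le_sum (f := fun r => (n r) ^ 2) (fun r _ => sq_nonneg (n r))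
      (Finset.mem_univ q)
    exact_mod_cast this
  rw [abs_mul]
  have h3 : |((n p : ℝ))| * |((n q : ℝ))| ≤ (|((n p : ℝ))| ^ 2 + |((n q : ℝ))| ^ 2) / 2 := by
    nlinarith [sq_nonneg (|((n p : ℝ))| - |((n q : ℝ))|)]
  rw [sq_abs, sq_abs] at h3
  by_cases hpq : p = q
  · subst hpq
    nlinarith [abs_mul_abs_self ((n p : ℝ))]
  · -- two distinct coordinates: the sum of the two squares is at most the total
    have h4 : ((n p : ℝ)) ^ 2 + ((n q : ℝ)) ^ 2 ≤ ((nsq n : ℤ) : ℝ) := by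
      unfold nsq
      have hsub : ({p, q} : Finset κ) ⊆ Finset.univ := Finset.subset_univ _
      have := Finset.sum_le_sum_of_subset_of_nonneg (f := fun r => (n r) ^ 2) hsub
        (fun r _ _ => sq_nonneg (n r))
      rw [Finset.sum_pair hpq] at this
      exact_mod_cast this
    linarith

lemma abs_mom_le_cost (p q : κ) (τ : (κ → ℤ) →₀ ℝ) (hτ : ∀ n, 0 ≤ τ n) :
    |mom p q τ| ≤ cost τ := by
  classical
  unfold mom cost
  rw [Finsupp.linearCombination_apply, Finsupp.linearCombination_apply]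
  refine (Finset.abs_sum_le_sum_abs _ _).trans ?_
  refine Finset.sum_le_sum fun n _ => ?_
  simp only [smul_eq_mul]
  rw [abs_mul (τ n), abs_of_nonneg (hτ n)]
  exact mul_le_mul_of_nonneg_left (abs_mul_le_nsq n p q) (hτ n)

end Vale.Agent.Lib.P058
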