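import Vale.Agent.Lib.P058.Step

/-! # Chains of subgroups and deletion towers

`G` acts on a finite set `U`. A column is a map `U → U` (labels are stored as representatives).
`Tow b`: the translates of `b` carry a `Copy`. `Red K`: every column reaches, with reading lists
inside `K`, a column constant on the `K`-orbits. If every `K₂`-orbit is a union of at most two
`K₁`-orbits then `Red K₁` gives `Red K₂`. -/

namespace Vale.Agent.Lib.P058.Chain

open Finset

section tower

variable {G U : Type} [Group G] [MulAction G U]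

/-- The translates of a column carry a copy. -/
def Tow [Fintype U] (G : Type) [Group G] [MulAction G U] (b : U → U) : Prop :=
  ∃ (κ : Type) (_ : Fintype κ) (_ : Nonempty κ) (m : κ → G),
    Copy (fun x : κ => fun t => b ((m x)⁻¹ • t))

variable [Fintype U] [DecidableEq U]

theorem Tow.of_const {b : U → U} (h : ∀ t t', b t = b t') : Tow G b := by
  refine ⟨Unit, inferInstance, inferInstance, fun _ => 1, ?_⟩
  exact Copy.of_const (fun _ t t' => h _ _)

/-- The deleted reading of a column along a list. -/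
def word (b : U → U) (δ : U) (L : List G) (t : U) : List U :=
  (L.map fun γ => b (γ⁻¹ • t)).filter (· ≠ δ)

/-- One level of the tower. -/
theorem Tow.step {b b' : U → U} (δ : U) (L : List G) (hL : L ≠ []) (dec : U → List U)
    (hdec : ∀ l, δ ∉ dec l) (h : ∀ t, word b δ L t = dec (b' t)) (hc : Tow G b') : Tow G b := by
  obtain ⟨κ, hκ, hne, m, hcopy⟩ := hc
  have hlen : 0 < L.length := List.length_pos_iff.mpr hL
  obtain ⟨k0⟩ := hne
  refine ⟨κ × Fin L.length, inferInstance, ⟨(k0, ⟨0, hlen⟩)⟩,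
    fun x => m x.1 * L.get x.2, ?_⟩
  have hstep := Copy.step δ dec hdec (M' := fun x : κ => fun t => b' ((m x)⁻¹ • t)) L.length
    (fun x j t => b ((L.get j)⁻¹ • (m x)⁻¹ • t))
    (by
      intro x t
      have h1 := h ((m x)⁻¹ • t)
      show _ = dec (b' ((m x)⁻¹ • t))
      rw [← h1]
      unfold word
      congr 1
      conv_rhs => rw [← List.ofFn_get L]
      rw [List.map_ofFn]
      rfl)
    hcopy
  convert hstep using 3 with x t
  rw [mul_inv_rev, mul_smul]

variable [Nonempty U]

/-- The column recording the deleted reading (through a representative). -/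
noncomputable def stepCol (b : U → U) (δ : U) (L : List G) : U → U :=
  fun t => Function.invFun (word b δ L) (word b δ L t)

theorem word_stepCol (b : U → U) (δ : U) (L : List G) (t : U) :
    word b δ L (stepCol b δ L t) = word b δ L t :=
  Function.invFun_eq (f := word b δ L) ⟨t, rfl⟩

theorem Tow.of_stepCol {b : U → U} {δ : U} {L : List G} (hL : L ≠ [])
    (hc : Tow G (stepCol b δ L)) : Tow G b := by
  refine Tow.step δ L hL (word b δ L) (fun l h => ?_) (fun t => (word_stepCol b δ L t).symm) hc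
  have := (List.mem_filter.mp h).2
  simp at this

/-- Reaching a column with reading lists inside `K`. -/
inductive Reach (K : Subgroup G) : (U → U) → (U → U) → Prop
  | refl (b : U → U) : Reach K b b
  | step {b b' : U → U} (δ : U) (L : List G) (hL : L ≠ []) (hLK : ∀ γ ∈ L, γ ∈ K)
      (h : Reach K b b') : Reach K b (stepCol b' δ L)

theorem Reach.tow {K : Subgroup G} {b b' : U → U} (h : Reach K b b') (hc : Tow G b') : Tow G b := by
  induction h with
  | refl => exact hc
  | step δ L hL _ _ ih => exact ih (Tow.of_stepCol hL hc)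

theorem Reach.trans {K : Subgroup G} {b b' b'' : U → U} (h : Reach K b b') (h' : Reach K b' b'') :
    Reach K b b'' := by
  induction h' with
  | refl => exact h
  | step δ L hL hLK _ ih => exact Reach.step δ L hL hLK ih

theorem Reach.mono {K K' : Subgroup G} (hK : K ≤ K') {b b' : U → U} (h : Reach K b b') :
    Reach K' b b' := by
  induction h with
  | refl => exact Reach.refl _
  | step δ L hL hLK _ ih => exact Reach.step δ L hL (fun γ hγ => hK (hLK γ hγ)) ih

/-- Constancy on a `K`-orbit persists along `Reach K`. -/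
theorem Reach.const_orbit {K : Subgroup G} {b b' : U → U} (h : Reach K b b') (t₀ : U)
    (hc : ∀ k ∈ K, b (k • t₀) = b t₀) : ∀ k ∈ K, b' (k • t₀) = b' t₀ := by
  induction h with
  | refl => exact hc
  | @step c δ L hL hLK _ ih =>
    intro k hk
    have hw : word c δ L (k • t₀) = word c δ L t₀ := by
      unfold word
      congr 1
      refine List.map_congr_left fun γ hγ => ?_
      have h1 : γ⁻¹ • k • t₀ = (γ⁻¹ * k) • t₀ := (mul_smul _ _ _).symm
      rw [h1, ih _ (K.mul_mem (K.inv_mem (hLK γ hγ)) hk), ih _ (K.inv_mem (hLK γ hγ))]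
    simp only [stepCol, hw]

/-- Every column reaches a column constant on the `K`-orbits. -/
def Red (G : Type) {U : Type} [Group G] [MulAction G U] [Fintype U] [DecidableEq U] [Nonempty U]
    (K : Subgroup G) : Prop :=
  ∀ b : U → U, ∃ b', Reach K b b' ∧ ∀ k ∈ K, ∀ t, b' (k • t) = b' t

theorem Red.bot : Red G (U := U) (⊥ : Subgroup G) := by
  intro b
  refine ⟨b, Reach.refl b, fun k hk t => ?_⟩
  rw [Subgroup.mem_bot.mp hk, one_smul]

/-- Deleting one of two labels while reading all of `K`. -/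
theorem two_label [Fintype G] (K : Subgroup G) (b : U → U) (t₀ : U) (l₁ l₂ : U)
    (h : ∀ k ∈ K, b (k • t₀) = l₁ ∨ b (k • t₀) = l₂) :
    ∃ L : List G, L ≠ [] ∧ (∀ γ ∈ L, γ ∈ K) ∧
      ∀ k ∈ K, stepCol b l₂ L (k • t₀) = stepCol b l₂ L t₀ := by
  classical
  let L : List G := (Finset.univ.filter (· ∈ K)).toList
  have hmem : ∀ γ, γ ∈ L ↔ γ ∈ K := by
    intro γ
    simp [L]
  have hnd : L.Nodup := Finset.nodup_toList _
  refine ⟨L, List.ne_nil_of_mem ((hmem 1).2 K.one_mem), fun γ hγ => (hmem γ).1 hγ, fun k hk => ?_⟩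
  -- the word at `t₀` only contains `l₁`
  have hw : ∀ c ∈ K, ∀ x ∈ word b l₂ L (c • t₀), x = l₁ := by
    intro c hc x hx
    rcases List.mem_filter.mp hx with ⟨h1, h2⟩
    obtain ⟨γ, hγ, rfl⟩ := List.mem_map.mp h1
    have h3 : γ⁻¹ • c • t₀ = (γ⁻¹ * c) • t₀ := (mul_smul _ _ _).symm
    rw [h3] at h2 ⊢
    rcases h _ (K.mul_mem (K.inv_mem ((hmem γ).1 hγ)) hc) with h4 | h4
    · exact h4
    · simp [h4] at h2
  -- the two words have the same length since the readings are permutations of each other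
  have hperm : (L.map fun γ => b (γ⁻¹ • k • t₀)).Perm (L.map fun γ => b (γ⁻¹ • t₀)) := by
    have h1 : (L.map fun γ => b (γ⁻¹ • k • t₀))
        = ((L.map fun γ => k⁻¹ * γ).map fun γ => b (γ⁻¹ • t₀)) := by
      rw [List.map_map]
      refine List.map_congr_left fun γ _ => ?_
      simp [mul_smul]
    rw [h1]
    refine List.Perm.map _ ?_
    refine (List.perm_ext_iff_of_nodup ?_ hnd).2 ?_
    · exact hnd.map (mul_right_injective _)
    · intro γ
      simp only [List.mem_map, hmem]
      constructor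
      · rintro ⟨c, hc, rfl⟩
        exact K.mul_mem (K.inv_mem hk) hc
      · intro hγ
        exact ⟨k * γ, K.mul_mem hk hγ, by simp⟩
  have hlen : (word b l₂ L (k • t₀)).length = (word b l₂ L t₀).length :=
    (hperm.filter _).length_eq
  have heq : word b l₂ L (k • t₀) = word b l₂ L t₀ := by
    have e1 := List.eq_replicate_of_mem (hw k hk)
    have e2 : ∀ x ∈ word b l₂ L t₀, x = l₁ := by
      intro x hx
      refine hw 1 K.one_mem x ?_
      rwa [one_smul]
    rw [e1, List.eq_replicate_of_mem e2, hlen]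
  simp only [stepCol, heq]

/-- The chain step. -/
theorem Red.step [Fintype G] {K₁ K₂ : Subgroup G} (hle : K₁ ≤ K₂)
    (hsplit : ∀ t : U, ∃ s₁ s₂ : U, ∀ k ∈ K₂, ∃ k' ∈ K₁, k • t = k' • s₁ ∨ k • t = k' • s₂)
    (hR : Red G (U := U) K₁) : Red G (U := U) K₂ := by
  classical
  intro b
  have key : ∀ S : Finset U, ∃ b', Reach K₂ b b' ∧ ∀ t ∈ S, ∀ k ∈ K₂, b' (k • t) = b' t := by
    intro S
    induction S using Finset.induction_on with
    | empty => exact ⟨b, Reach.refl b, by simp⟩
    | insert t₀ S _ ih =>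
      obtain ⟨b₀, hb₀, hS⟩ := ih
      obtain ⟨b₁, hb₁, hinv⟩ := hR b₀
      have hb₁' := hb₁.mono hle
      obtain ⟨s₁, s₂, hs⟩ := hsplit t₀
      have h2 : ∀ k ∈ K₂, b₁ (k • t₀) = b₁ s₁ ∨ b₁ (k • t₀) = b₁ s₂ := by
        intro k hk
        obtain ⟨k', hk', h | h⟩ := hs k hk
        · left; rw [h, hinv k' hk']
        · right; rw [h, hinv k' hk']
      obtain ⟨L, hL, hLK, hc⟩ := two_label K₂ b₁ t₀ (b₁ s₁) (b₁ s₂) h2
      refine ⟨stepCol b₁ (b₁ s₂) L, Reach.step _ L hL hLK (hb₀.trans hb₁'), ?_⟩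
      intro t ht k hk
      rcases Finset.mem_insert.mp ht with rfl | ht'
      · exact hc k hk
      · have h3 := (Reach.step (b₁ s₂) L hL hLK hb₁').const_orbit t (fun c hc => hS t ht' c hc)
        exact h3 k hk
  obtain ⟨b', hb', h⟩ := key Finset.univ
  exact ⟨b', hb', fun k hk t => h t (Finset.mem_univ t) k hk⟩

omit [Group G] [MulAction G U] [Fintype U] [Nonempty U] in
theorem filter_shift (δ : U) (f : ℕ → U) (n : ℕ) (h0 : f 0 = δ) (hn : f (n + 1) = δ) :
    ((List.range (n + 1)).map f).filter (· ≠ δ)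
      = ((List.range (n + 1)).map fun j => f (j + 1)).filter (· ≠ δ) := by
  have l : (List.range (n + 1)).map f = f 0 :: (List.range n).map (fun j => f (j + 1)) := by
    rw [List.range_succ_eq_map]
    simp [Function.comp_def]
  have r : (List.range (n + 1)).map (fun j => f (j + 1))
      = (List.range n).map (fun j => f (j + 1)) ++ [f (n + 1)] := by
    rw [List.range_succ]
    simp
  rw [l, r]
  simp [List.filter_cons, List.filter_append, h0, hn]

/-- Cyclic lemma: if `g` normalizes `K₁`, a column constant on `K₁`-orbits can be made constant on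
the orbit of `t₀` under `K₁ ⟨g⟩`, reading powers of `g` only. -/
theorem cyclic_run [Finite G] (K₁ K₂ : Subgroup G) (g : G) (hgK : g ∈ K₂)
    (hn : ∀ k ∈ K₁, g⁻¹ * k * g ∈ K₁) (t₀ : U) (ℓ : ℕ) (b : U → U)
    (hb : ∀ k ∈ K₁, ∀ i : ℕ, b (k • (g ^ i)⁻¹ • t₀) = b ((g ^ i)⁻¹ • t₀)) :
    ∃ b', Reach K₂ b b' ∧ (∀ k ∈ K₁, ∀ i : ℕ, b' (k • (g ^ i)⁻¹ • t₀) = b' ((g ^ i)⁻¹ • t₀)) ∧
      ∃ i₀ : ℕ, ∀ j ≤ ℓ, b' ((g ^ (i₀ + j))⁻¹ • t₀) = b' ((g ^ i₀)⁻¹ • t₀) := by
  classical
  have hs : 0 < orderOf g := orderOf_pos g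
  set s := orderOf g with hsdef
  have hgs : g ^ s = 1 := pow_orderOf_eq_one g
  -- conjugates by powers of g stay in K₁
  have hnp : ∀ (j : ℕ), ∀ k ∈ K₁, (g ^ j)⁻¹ * k * g ^ j ∈ K₁ := by
    intro j
    induction j with
    | zero => intro k hk; simpa using hk
    | succ j ih =>
      intro k hk
      have := hn _ (ih k hk)
      convert this using 1
      group
  -- the reading list
  let L : List G := (List.range s).map fun j => g ^ j
  have hLne : L ≠ [] := by
    simp only [L, ne_eq, List.map_eq_nil_iff, List.range_eq_nil]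
    omega
  have hLK : ∀ γ ∈ L, γ ∈ K₂ := by
    intro γ hγ
    obtain ⟨j, _, rfl⟩ := List.mem_map.mp hγ
    exact K₂.pow_mem hgK j
  -- a reading step keeps the invariant
  have hstep : ∀ (c : U → U) (δ : U),
      (∀ k ∈ K₁, ∀ i : ℕ, c (k • (g ^ i)⁻¹ • t₀) = c ((g ^ i)⁻¹ • t₀)) →
      ∀ k ∈ K₁, ∀ i : ℕ, stepCol c δ L (k • (g ^ i)⁻¹ • t₀) = stepCol c δ L ((g ^ i)⁻¹ • t₀) := by
    intro c δ hc k hk i
    have hw : word c δ L (k • (g ^ i)⁻¹ • t₀) = word c δ L ((g ^ i)⁻¹ • t₀) := by
      unfold word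
      congr 1
      refine List.map_congr_left fun γ hγ => ?_
      obtain ⟨j, _, rfl⟩ := List.mem_map.mp hγ
      have e0 : (g ^ j)⁻¹ * k * (g ^ i)⁻¹ = ((g ^ j)⁻¹ * k * g ^ j) * (g ^ (i + j))⁻¹ := by
        rw [add_comm i j, pow_add]
        group
      have e1 : (g ^ j)⁻¹ • k • (g ^ i)⁻¹ • t₀
          = ((g ^ j)⁻¹ * k * g ^ j) • (g ^ (i + j))⁻¹ • t₀ := by
        rw [← mul_smul, ← mul_smul, ← mul_smul, e0]
      have e2 : (g ^ j)⁻¹ • (g ^ i)⁻¹ • t₀ = (g ^ (i + j))⁻¹ • t₀ := by
        rw [← mul_smul, add_comm i j, pow_add, mul_inv_rev]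
        congr 1
        have : g ^ i * g ^ j = g ^ j * g ^ i := (pow_add g i j).symm.trans
          ((congrArg (g ^ ·) (add_comm i j)).trans (pow_add g j i))
        rw [← mul_inv_rev, ← mul_inv_rev, this]
      rw [e1, e2, hc _ (hnp j k hk)]
    simp only [stepCol, hw]
  -- the word at position `i` read through the periodic sequence
  have hword : ∀ (c : U → U) (δ : U) (i : ℕ), word c δ L ((g ^ i)⁻¹ • t₀)
      = ((List.range s).map fun j => c ((g ^ (i + j))⁻¹ • t₀)).filter (· ≠ δ) := by
    intro c δ i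
    unfold word
    congr 1
    simp only [L, List.map_map]
    refine List.map_congr_left fun j _ => ?_
    simp only [Function.comp]
    congr 1
    rw [smul_smul]
    congr 1
    rw [pow_add]
    group
  -- if the sequence has value δ at i then the words at i and i+1 agree
  have hshift : ∀ (c : U → U) (i : ℕ), word c (c ((g ^ i)⁻¹ • t₀)) L ((g ^ i)⁻¹ • t₀)
      = word c (c ((g ^ i)⁻¹ • t₀)) L ((g ^ (i + 1))⁻¹ • t₀) := by
    intro c i
    rw [hword, hword]
    obtain ⟨s', hs'⟩ : ∃ s', s = s' + 1 := ⟨s - 1, by omega⟩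
    have hper : g ^ (i + (s' + 1)) = g ^ i := by
      rw [pow_add, ← hs', hgs, mul_one]
    rw [hs']
    have key := filter_shift (c ((g ^ i)⁻¹ • t₀)) (fun j => c ((g ^ (i + j))⁻¹ • t₀)) s'
      (by simp) (by simp only [hper])
    rw [key]
    congr 1
    refine List.map_congr_left fun j _ => ?_
    have : i + 1 + j = i + (j + 1) := by omega
    simp only [this]
  induction ℓ with
  | zero =>
    refine ⟨b, Reach.refl b, hb, 0, fun j hj => ?_⟩
    have : j = 0 := by omega
    subst this
    simp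
  | succ ℓ ih =>
    obtain ⟨b₁, hb₁, hinv, i₀, hrun⟩ := ih
    set δ := b₁ ((g ^ i₀)⁻¹ • t₀) with hδ
    refine ⟨stepCol b₁ δ L, Reach.step δ L hLne hLK hb₁, hstep b₁ δ hinv, i₀, ?_⟩
    -- the words at `i₀ + j`, `j ≤ ℓ + 1`, agree
    have hw : ∀ j ≤ ℓ + 1, word b₁ δ L ((g ^ (i₀ + j))⁻¹ • t₀) = word b₁ δ L ((g ^ i₀)⁻¹ • t₀) := by
      intro j
      induction j with
      | zero => intro _; rfl
      | succ j ihj =>
        intro hj
        rw [← ihj (by omega)]
        have hval : b₁ ((g ^ (i₀ + j))⁻¹ • t₀) = δ := hrun j (by omega)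
        have := hshift b₁ (i₀ + j)
        rw [hval] at this
        exact this.symm
    intro j hj
    simp only [stepCol, hw j hj]

end tower

section chain

variable {G U : Type} [Group G] [MulAction G U] [Fintype U] [DecidableEq U] [Nonempty U]

/-- Chain step by the cyclic lemma. -/
theorem Red.step_cyclic [Fintype G] {K₁ K₂ : Subgroup G} (hle : K₁ ≤ K₂) (g : G) (hgK : g ∈ K₂)
    (hn : ∀ k ∈ K₁, g⁻¹ * k * g ∈ K₁)
    (hgen : ∀ k ∈ K₂, ∃ k' ∈ K₁, ∃ i : ℕ, k = k' * (g ^ i)⁻¹)
    (hR : Red G (U := U) K₁) : Red G (U := U) K₂ := by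
  classical
  intro b
  have key : ∀ S : Finset U, ∃ b', Reach K₂ b b' ∧ ∀ t ∈ S, ∀ k ∈ K₂, b' (k • t) = b' t := by
    intro S
    induction S using Finset.induction_on with
    | empty => exact ⟨b, Reach.refl b, by simp⟩
    | insert t₀ S _ ih =>
      obtain ⟨b₀, hb₀, hS⟩ := ih
      obtain ⟨b₁, hb₁, hinv⟩ := hR b₀
      have hb₁' := hb₁.mono hle
      obtain ⟨b₂, hb₂, hinv₂, i₀, hrun⟩ := cyclic_run K₁ K₂ g hgK hn t₀ (orderOf g) b₁
        (fun k hk i => hinv k hk _)
      have hall : ∀ i : ℕ, b₂ ((g ^ i)⁻¹ • t₀) = b₂ ((g ^ i₀)⁻¹ • t₀) := by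
        intro i
        have hs : 0 < orderOf g := orderOf_pos g
        -- every power of g is a power `i₀ + j` with `j ≤ order`
        obtain ⟨j, hj, hpow⟩ : ∃ j ≤ orderOf g, g ^ (i₀ + j) = g ^ i := by
          refine ⟨(i + (orderOf g - i₀ % orderOf g)) % orderOf g, (Nat.mod_lt _ hs).le, ?_⟩
          apply (pow_eq_pow_iff_modEq).2
          have h1 : (i₀ + (i + (orderOf g - i₀ % orderOf g)) % orderOf g) ≡
              i₀ + (i + (orderOf g - i₀ % orderOf g)) [MOD orderOf g] :=
            Nat.ModEq.add_left _ (Nat.mod_modEq _ _)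
          refine h1.trans ?_
          have h2 : i₀ + (i + (orderOf g - i₀ % orderOf g))
              = i + (i₀ % orderOf g + (orderOf g - i₀ % orderOf g)) + orderOf g * (i₀ / orderOf g) := by
            have := Nat.div_add_mod i₀ (orderOf g)
            omega
          have h3 : i₀ % orderOf g + (orderOf g - i₀ % orderOf g) = orderOf g := by
            have := Nat.mod_lt i₀ hs
            omega
          rw [h2, h3]
          simp [Nat.ModEq]
        rw [← hpow]
        exact hrun j hj
      have h2 : ∀ k ∈ K₂, b₂ (k • t₀) = b₂ t₀ := by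
        intro k hk
        obtain ⟨k', hk', i, rfl⟩ := hgen k hk
        rw [mul_smul, hinv₂ k' hk' i, hall i]
        have := hall 0
        simpa using this.symm
      refine ⟨b₂, (hb₀.trans hb₁').trans hb₂, ?_⟩
      intro t ht k hk
      rcases Finset.mem_insert.mp ht with rfl | ht'
      · exact h2 k hk
      · have h3 := (hb₁'.trans hb₂).const_orbit t (fun c hc => hS t ht' c hc)
        exact h3 k hk
  obtain ⟨b', hb', h⟩ := key Finset.univ
  exact ⟨b', hb', fun k hk t => h t (Finset.mem_univ t) k hk⟩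

/-- `Red ⊤` with a transitive action solves the identity column. -/
theorem Tow.of_red_top [MulAction.IsPretransitive G U] (h : Red G (U := U) (⊤ : Subgroup G)) :
    Tow G (id : U → U) := by
  obtain ⟨b', hb', hinv⟩ := h id
  refine hb'.tow (Tow.of_const fun t t' => ?_)
  obtain ⟨g, rfl⟩ := MulAction.exists_smul_eq G t' t
  exact hinv g (Subgroup.mem_top g) t'

end chain

end Vale.Agent.Lib.P058.Chain
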