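import Vale.Agent.Lib.P058.X3Func

/-! # P058: reduction along the stabiliser of a parallel class -/

namespace Vale.Agent.Lib.P058.X3

open Finset

/-- Two families with the same kernel differ by a permutation. -/
theorem exists_perm_of_ker {α ι : Type} [Fintype α] [DecidableEq α] (x x' : ι → α)
    (h : ∀ j k, x j = x k ↔ x' j = x' k) : ∃ π : Equiv.Perm α, ∀ j, π (x j) = x' j := by
  classical
  let f : {a // a ∈ Set.range x} → {a // a ∈ Set.range x'} := fun a =>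
    ⟨x' (Classical.choose a.2), ⟨_, rfl⟩⟩
  have hf : ∀ j, f ⟨x j, ⟨j, rfl⟩⟩ = ⟨x' j, ⟨j, rfl⟩⟩ := by
    intro j
    apply Subtype.ext
    have hc : x (Classical.choose (show x j ∈ Set.range x from ⟨j, rfl⟩)) = x j :=
      Classical.choose_spec (show x j ∈ Set.range x from ⟨j, rfl⟩)
    exact (h _ _).mp hc
  have hbij : Function.Bijective f := by
    constructor
    · rintro ⟨a, j, rfl⟩ ⟨b, k, rfl⟩ hab
      rw [hf, hf] at hab
      apply Subtype.ext
      exact (h j k).mpr (congrArg Subtype.val hab)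
    · rintro ⟨a, j, rfl⟩
      exact ⟨⟨x j, ⟨j, rfl⟩⟩, hf j⟩
  let e := Equiv.ofBijective f hbij
  refine ⟨e.extendSubtype, fun j => ?_⟩
  rw [Equiv.extendSubtype_apply_of_mem e (x j) ⟨j, rfl⟩]
  exact congrArg Subtype.val (hf j)

section wreath

variable {F : Type} [DecidableEq F]

/-- Permuting the points of the line `ℓ` of the vertical class. -/
def lineP (ℓ : F) (ρ : Equiv.Perm F) : Equiv.Perm (F × F) where
  toFun p := (p.1, if p.1 = ℓ then ρ p.2 else p.2)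
  invFun p := (p.1, if p.1 = ℓ then ρ.symm p.2 else p.2)
  left_inv := by
    rintro ⟨x, y⟩
    by_cases h : x = ℓ <;> simp [h]
  right_inv := by
    rintro ⟨x, y⟩
    by_cases h : x = ℓ <;> simp [h]

omit [DecidableEq F] in
/-- Permuting the lines of the vertical class. -/
def topP (π : Equiv.Perm F) : Equiv.Perm (F × F) := Equiv.prodCongr π (Equiv.refl F)

theorem lineP_apply (ℓ : F) (ρ : Equiv.Perm F) (p : F × F) :
    lineP ℓ ρ p = (p.1, if p.1 = ℓ then ρ p.2 else p.2) := rfl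

omit [DecidableEq F] in
theorem topP_apply (π : Equiv.Perm F) (p : F × F) : topP π p = (π p.1, p.2) := rfl

theorem lineP_mul (ℓ : F) (ρ' ρ : Equiv.Perm F) : lineP ℓ (ρ' * ρ) = lineP ℓ ρ' * lineP ℓ ρ := by
  ext p <;> by_cases h : p.1 = ℓ <;> simp [lineP_apply, h]

theorem lineP_comm {ℓ ℓ' : F} (h : ℓ ≠ ℓ') (ρ ρ' : Equiv.Perm F) :
    lineP ℓ' ρ' * lineP ℓ ρ = lineP ℓ ρ * lineP ℓ' ρ' := by
  ext p
  · simp [lineP_apply]
  · by_cases h1 : p.1 = ℓ
    · simp [lineP_apply, h1, h]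
    · by_cases h2 : p.1 = ℓ' <;> simp [lineP_apply, h1, h2, h.symm]

theorem topP_line (π : Equiv.Perm F) (ℓ : F) (ρ : Equiv.Perm F) :
    topP π * lineP ℓ ρ = lineP (π ℓ) ρ * topP π := by
  ext p
  · simp [lineP_apply, topP_apply]
  · by_cases h : p.1 = ℓ <;> simp [lineP_apply, topP_apply, h]

/-- One line: reduction by the permutations of this line. -/
theorem line_step [Fintype F] (hF : R F) (ℓ₀ : F) (c : (Fin 3 → F × F) → ℕ) :
    ∃ Φ : (Equiv.Perm F → ℕ) → ℕ, CR Φ ∧ ∀ ρ t,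
      ap (fun ρ t => tact (lineP ℓ₀ ρ) t) Φ c (tact (lineP ℓ₀ ρ) t)
        = ap (fun ρ t => tact (lineP ℓ₀ ρ) t) Φ c t := by
  let ψ : (Fin 3 → F × F) → (Fin 3 → F) → (Fin 3 → F × F) :=
    fun s x j => if (s j).1 = ℓ₀ then (ℓ₀, x j) else s j
  have hψ : ∀ s k x, ψ s (tact k x) = tact (lineP ℓ₀ k) (ψ s x) := by
    intro s k x
    funext j
    by_cases h : (s j).1 = ℓ₀
    · simp [ψ, tact, h, lineP_apply]
    · simp [ψ, tact, h, lineP_apply]
  obtain ⟨Φ, h1, h2⟩ := cover (X := Fin 3 → F) (K := Equiv.Perm F) tact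
    (fun ρ t => tact (lineP ℓ₀ ρ) t)
    (fun g' g t => by rw [lineP_mul, tact_mul]) ψ hψ hF c
  refine ⟨Φ, h1, fun ρ t => ?_⟩
  let x : Fin 3 → F := fun j => (t j).2
  have hx : ψ t x = t := by
    funext j
    by_cases h : (t j).1 = ℓ₀
    · simp only [ψ, h, if_true, x]
      exact Prod.ext h.symm rfl
    · simp [ψ, h]
  have := h2 t ρ x
  rw [hψ, hx] at this
  exact this

/-- All lines. -/
theorem all_lines [Fintype F] (hF : R F) (c : (Fin 3 → F × F) → ℕ) :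
    ∃ Φ : (Equiv.Perm (F × F) → ℕ) → ℕ, CR Φ ∧ ∀ ℓ ρ t,
      ap tact Φ c (tact (lineP ℓ ρ) t) = ap tact Φ c t := by
  suffices H : ∀ A : Finset F, ∃ Φ : (Equiv.Perm (F × F) → ℕ) → ℕ, CR Φ ∧ ∀ ℓ ∈ A, ∀ ρ t,
      ap tact Φ c (tact (lineP ℓ ρ) t) = ap tact Φ c t by
    obtain ⟨Φ, h1, h2⟩ := H Finset.univ
    exact ⟨Φ, h1, fun ℓ => h2 ℓ (Finset.mem_univ ℓ)⟩
  intro A
  induction A using Finset.induction_on with
  | empty => exact ⟨idF, CR.idF, by simp⟩
  | insert ℓ₁ A hℓ ih =>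
    obtain ⟨Φ₀, h0, ih⟩ := ih
    set c₀ := ap tact Φ₀ c with hc₀
    obtain ⟨Φ₁, h1, h2⟩ := line_step hF ℓ₁ c₀
    refine ⟨cmp (pull (lineP ℓ₁) Φ₁) Φ₀, (h1.pull _).cmp h0, ?_⟩
    rw [ap_cmp _ tact_mul, ← hc₀]
    have key : ∀ t, ap tact (pull (lineP ℓ₁) Φ₁) c₀ t
        = ap (fun ρ t => tact (lineP ℓ₁ ρ) t) Φ₁ c₀ t := fun t => rfl
    intro ℓ hℓ' ρ t
    rcases Finset.mem_insert.mp hℓ' with rfl | hA
    · rw [key, key]
      exact h2 ρ t
    · have hne : ℓ ≠ ℓ₁ := fun h => hℓ (h ▸ hA)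
      simp only [ap, pull]
      congr 1
      funext ρ'
      rw [← tact_mul, lineP_comm hne, tact_mul]
      exact ih ℓ hA ρ _

/-- Permuting lines. -/
theorem top_step [Fintype F] (hF : R F) (c : (Fin 3 → F × F) → ℕ) :
    ∃ Φ : (Equiv.Perm F → ℕ) → ℕ, CR Φ ∧ ∀ π t,
      ap (fun π t => tact (topP π) t) Φ c (tact (topP π) t)
        = ap (fun π t => tact (topP π) t) Φ c t := by
  let ψ : (Fin 3 → F) → (Fin 3 → F) → (Fin 3 → F × F) := fun x l j => (l j, x j)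
  have hψ : ∀ s k x, ψ s (tact k x) = tact (topP k) (ψ s x) := fun s k x => rfl
  obtain ⟨Φ, h1, h2⟩ := cover (X := Fin 3 → F) (K := Equiv.Perm F) tact
    (fun π t => tact (topP π) t)
    (fun g' g t => rfl) ψ hψ hF c
  refine ⟨Φ, h1, fun π t => ?_⟩
  have hx : ψ (fun j => (t j).2) (fun j => (t j).1) = t := rfl
  have := h2 (fun j => (t j).2) π (fun j => (t j).1)
  rw [hψ, hx] at this
  exact this

/-- Reduction along the whole wreath product. -/
theorem inner [Fintype F] (hF : R F) (c : (Fin 3 → F × F) → ℕ) :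
    ∃ Φ : (Equiv.Perm (F × F) → ℕ) → ℕ, CR Φ ∧
      (∀ ℓ ρ t, ap tact Φ c (tact (lineP ℓ ρ) t) = ap tact Φ c t) ∧
      (∀ π t, ap tact Φ c (tact (topP π) t) = ap tact Φ c t) := by
  obtain ⟨Φ₀, h0, hl⟩ := all_lines hF c
  set c₀ := ap tact Φ₀ c with hc₀
  obtain ⟨Φ₁, h1, h2⟩ := top_step hF c₀
  refine ⟨cmp (pull topP Φ₁) Φ₀, (h1.pull _).cmp h0, ?_, ?_⟩
  · rw [ap_cmp _ tact_mul, ← hc₀]
    intro ℓ ρ t
    simp only [ap, pull]
    congr 1
    funext π
    rw [← tact_mul, topP_line, tact_mul]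
    exact hl _ ρ _
  · rw [ap_cmp _ tact_mul, ← hc₀]
    intro π t
    exact h2 π t

/-- A column invariant under the wreath product depends only on the partition by lines. -/
theorem pattern [Fintype F] (c : (Fin 3 → F × F) → ℕ)
    (hl : ∀ ℓ ρ t, c (tact (lineP ℓ ρ) t) = c t) (ht : ∀ π t, c (tact (topP π) t) = c t)
    (t t' : Fin 3 → F × F) (hi : Function.Injective t) (hi' : Function.Injective t')
    (hk : ∀ j k, (t j).1 = (t k).1 ↔ (t' j).1 = (t' k).1) : c t = c t' := by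
  obtain ⟨π, hπ⟩ := exists_perm_of_ker (fun j => (t j).1) (fun j => (t' j).1) hk
  set t₁ := tact (topP π) t with ht₁
  have h1 : c t = c t₁ := (ht π t).symm
  rw [h1]
  have hfst : ∀ j, (t₁ j).1 = (t' j).1 := hπ
  have hi₁ : Function.Injective t₁ := fun a b hab => hi ((topP π).injective hab)
  -- a permutation of each line
  have hρ : ∀ ℓ, ∃ ρ : Equiv.Perm F, ∀ j, (t₁ j).1 = ℓ → ρ (t₁ j).2 = (t' j).2 := by
    intro ℓ
    obtain ⟨ρ, hρ⟩ := exists_perm_of_ker (ι := {j // (t₁ j).1 = ℓ})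
      (fun j => (t₁ j.1).2) (fun j => (t' j.1).2) (by
        intro j k
        constructor
        · intro h
          have : t₁ j.1 = t₁ k.1 := Prod.ext (j.2.trans k.2.symm) h
          rw [hi₁ this]
        · intro h
          have : t' j.1 = t' k.1 := Prod.ext (by rw [← hfst, ← hfst, j.2, k.2]) h
          rw [hi' this])
    exact ⟨ρ, fun j hj => hρ ⟨j, hj⟩⟩
  choose ρ hρ using hρ
  suffices H : ∀ A : Finset F, c (fun j => if (t₁ j).1 ∈ A then t' j else t₁ j) = c t₁ by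
    have := H Finset.univ
    simp only [Finset.mem_univ, if_true] at this
    exact this.symm
  intro A
  induction A using Finset.induction_on with
  | empty => simp
  | insert ℓ A hℓ ih =>
    rw [← ih, ← hl ℓ (ρ ℓ) (fun j => if (t₁ j).1 ∈ A then t' j else t₁ j)]
    congr 1
    funext j
    show (if (t₁ j).1 ∈ insert ℓ A then t' j else t₁ j)
      = lineP ℓ (ρ ℓ) (if (t₁ j).1 ∈ A then t' j else t₁ j)
    by_cases h1 : (t₁ j).1 = ℓ
    · have h2 : (t₁ j).1 ∉ A := h1 ▸ hℓ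
      have h3 : (t₁ j).1 ∈ insert ℓ A := Finset.mem_insert.mpr (Or.inl h1)
      rw [if_neg h2, if_pos h3, lineP_apply, if_pos h1]
      exact Prod.ext (hfst j).symm (hρ ℓ j h1).symm
    · by_cases h2 : (t₁ j).1 ∈ A
      · have h3 : (t₁ j).1 ∈ insert ℓ A := Finset.mem_insert_of_mem h2
        have h4 : (t' j).1 ≠ ℓ := by rw [← hfst]; exact h1
        rw [if_pos h2, if_pos h3, lineP_apply, if_neg h4]
      · have h3 : (t₁ j).1 ∉ insert ℓ A := by
          simp [Finset.mem_insert, h1, h2]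
        rw [if_neg h2, if_neg h3, lineP_apply, if_neg h1]

end wreath

end Vale.Agent.Lib.P058.X3
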