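import Vale.Agent.Lib.P058.ChainS
import Vale.Agent.Lib.P058.X3Wreath

/-! # P058: two explicit families from the chain theorem

Signed arrangements of `(a,…,a,b,c,d)`, and the orbits of matrices under permutations of rows and
columns, when all rows but three agree and all columns but three agree. -/

namespace Vale.Agent.Lib.P058.ChainEx

open Vale.Agent.Lib.P058 Vale.Agent.Lib.P058.X3 Vale.Agent.Lib.P058.ChainS

theorem perm_inv_self {α : Type} (σ : Equiv.Perm α) (x : α) : σ⁻¹ (σ x) = x := by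
  rw [Equiv.Perm.inv_eq_iff_eq]

section signed

variable {N : ℕ}

/-- The signs, with coordinates permuted. -/
def phi (N : ℕ) : Equiv.Perm (Fin N) →* MulAut (Fin N → ℤˣ) where
  toFun σ :=
    { toFun := fun f i => f (σ⁻¹ i)
      invFun := fun f i => f (σ i)
      left_inv := fun f => by funext i; simp
      right_inv := fun f => by funext i; simp
      map_mul' := fun _ _ => rfl }
  map_one' := by
    ext f i
    rfl
  map_mul' σ τ := by
    ext f i
    rfl

/-- The group of signed permutations. -/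
abbrev SP (N : ℕ) := (Fin N → ℤˣ) ⋊[phi N] Equiv.Perm (Fin N)

instance : Finite (SP N) :=
  Finite.of_equiv _ (SemidirectProduct.equivProd (φ := phi N)).symm

/-- The signed vectors with three special places. -/
def X3Signed (N : ℕ) (a b c d : ℝ) : Set (EuclideanSpace ℝ (Fin N)) :=
  {x | ∃ i j k : Fin N, i ≠ j ∧ i ≠ k ∧ j ≠ k ∧ |x i| = |b| ∧ |x j| = |c| ∧ |x k| = |d| ∧
    ∀ l, l ≠ i → l ≠ j → l ≠ k → |x l| = |a|}

/-- The action on vectors. -/
noncomputable def actV (g : SP N) (y : EuclideanSpace ℝ (Fin N)) : EuclideanSpace ℝ (Fin N) :=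
  WithLp.toLp 2 (fun l => ((g.left l : ℤ) : ℝ) * y (g.right⁻¹ l))

theorem actV_apply (g : SP N) (y : EuclideanSpace ℝ (Fin N)) (l : Fin N) :
    actV g y l = ((g.left l : ℤ) : ℝ) * y (g.right⁻¹ l) := rfl

theorem abs_sgn (s : ℤˣ) (v : ℝ) : |((s : ℤ) : ℝ) * v| = |v| := by
  rw [abs_mul]
  rcases Int.units_eq_one_or s with rfl | rfl <;> simp

/-- A sign carrying a number to another of the same absolute value. -/
theorem exists_sgn {v w : ℝ} (h : |v| = |w|) : ∃ s : ℤˣ, ((s : ℤ) : ℝ) * v = w := by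
  rcases abs_eq_abs.mp h with h | h
  · exact ⟨1, by simp [h]⟩
  · exact ⟨-1, by simp [h]⟩

theorem actV_mem {a b c d : ℝ} (g : SP N) {y : EuclideanSpace ℝ (Fin N)}
    (hy : y ∈ X3Signed N a b c d) : actV g y ∈ X3Signed N a b c d := by
  obtain ⟨i, j, k, hij, hik, hjk, hi, hj, hk, hl⟩ := hy
  refine ⟨g.right i, g.right j, g.right k, fun h => hij (g.right.injective h),
    fun h => hik (g.right.injective h), fun h => hjk (g.right.injective h), ?_, ?_, ?_, ?_⟩
  · rw [actV_apply, abs_sgn, perm_inv_self, hi]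
  · rw [actV_apply, abs_sgn, perm_inv_self, hj]
  · rw [actV_apply, abs_sgn, perm_inv_self, hk]
  · intro l h1 h2 h3
    rw [actV_apply, abs_sgn]
    refine hl _ (fun h => h1 ?_) (fun h => h2 ?_) (fun h => h3 ?_)
    · rw [← h]; simp
    · rw [← h]; simp
    · rw [← h]; simp

theorem actV_one (y : EuclideanSpace ℝ (Fin N)) : actV (1 : SP N) y = y := by
  ext l
  simp [actV_apply]
  rfl

theorem actV_mul (g h : SP N) (y : EuclideanSpace ℝ (Fin N)) :
    actV (g * h) y = actV g (actV h y) := by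
  ext l
  simp only [actV_apply, SemidirectProduct.mul_left, SemidirectProduct.mul_right, Pi.mul_apply,
    mul_inv_rev, Equiv.Perm.mul_apply]
  have e : ((phi N g.right) h.left) l = h.left (g.right⁻¹ l) := rfl
  rw [e]
  push_cast
  ring

theorem actV_dist (g : SP N) (p q : EuclideanSpace ℝ (Fin N)) :
    dist (actV g p) (actV g q) = dist p q := by
  rw [EuclideanSpace.dist_eq, EuclideanSpace.dist_eq]
  congr 1
  have h1 : ∀ l, dist (actV g p l) (actV g q l) ^ 2
      = dist (p (g.right⁻¹ l)) (q (g.right⁻¹ l)) ^ 2 := by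
    intro l
    rw [actV_apply, actV_apply, Real.dist_eq, Real.dist_eq, sq_abs, sq_abs, ← mul_sub, mul_pow]
    have : (((g.left l : ℤ) : ℝ)) ^ 2 = 1 := by
      rcases Int.units_eq_one_or (g.left l) with h | h <;> simp [h]
    rw [this, one_mul]
  rw [Finset.sum_congr rfl fun l _ => h1 l]
  exact Equiv.sum_comp (g.right⁻¹ : Equiv.Perm (Fin N)) (fun l => dist (p l) (q l) ^ 2)

/-- Signed arrangements of `(a,…,a,b,c,d)` are Ramsey. -/
theorem isRamsey_X3Signed (N : ℕ) (a b c d : ℝ) : IsRamsey (X3Signed N a b c d) := by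
  classical
  letI inst : MulAction (SP N) (X3Signed N a b c d) :=
    { smul := fun g y => ⟨actV g y.1, actV_mem g y.2⟩
      one_smul := fun y => Subtype.ext (actV_one y.1)
      mul_smul := fun g h y => Subtype.ext (actV_mul g h y.1) }
  have hsm : ∀ (g : SP N) (y : X3Signed N a b c d), ((g • y : X3Signed N a b c d) : EuclideanSpace ℝ (Fin N))
      = actV g y.1 := fun _ _ => rfl
  let K : ℕ → Subgroup (SP N) := fun i =>
    match i with
    | 0 => ⊥
    | 1 => (SemidirectProduct.rightHom (φ := phi N)).ker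
    | _ => ⊤
  refine chain_master (Γ := SP N) (fun g p q => ?_) (fun p q => ?_) 2 K rfl rfl ?_
  · rw [hsm, hsm]
    exact actV_dist g p.1 q.1
  · -- transitivity
    obtain ⟨i, j, k, hij, hik, hjk, hi, hj, hk, hl⟩ := p.2
    obtain ⟨i', j', k', hij', hik', hjk', hi', hj', hk', hl'⟩ := q.2
    let x : Fin 3 → Fin N := ![i, j, k]
    let x' : Fin 3 → Fin N := ![i', j', k']
    obtain ⟨σ, hσ⟩ := exists_perm_of_ker x x' (by
      intro u v
      fin_cases u <;> fin_cases v <;>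
        simp [x, x', hij, hik, hjk, hij', hik', hjk', hij.symm, hik.symm, hjk.symm, hij'.symm,
          hik'.symm, hjk'.symm])
    have h0 : σ i = i' := hσ 0
    have h1 : σ j = j' := hσ 1
    have h2 : σ k = k' := hσ 2
    have habs : ∀ l, |p.1 (σ⁻¹ l)| = |q.1 l| := by
      intro l
      by_cases w1 : l = i'
      · subst w1
        rw [← h0, perm_inv_self, hi, h0, hi']
      by_cases w2 : l = j'
      · subst w2
        rw [← h1, perm_inv_self, hj, h1, hj']
      by_cases w3 : l = k'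
      · subst w3
        rw [← h2, perm_inv_self, hk, h2, hk']
      rw [hl' l w1 w2 w3]
      refine hl _ (fun h => w1 ?_) (fun h => w2 ?_) (fun h => w3 ?_)
      · rw [← h0, ← h]; simp
      · rw [← h1, ← h]; simp
      · rw [← h2, ← h]; simp
    choose s hs using fun l => exists_sgn (habs l)
    refine ⟨⟨s, σ⟩, Subtype.ext ?_⟩
    rw [hsm]
    ext l
    exact hs l
  · intro i hi
    interval_cases i
    · -- the signs commute
      refine ⟨bot_le, Or.inr (Or.inl fun u hu v hv => ?_)⟩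
      have hu' : u.right = 1 := hu
      have hv' : v.right = 1 := hv
      have hc : u * v = v * u := by
        apply SemidirectProduct.ext
        · simp only [SemidirectProduct.mul_left, hu', hv', map_one, MulAut.one_apply]
          exact mul_comm _ _
        · simp only [SemidirectProduct.mul_right, hu', hv']
      show u * v * u⁻¹ * v⁻¹ = 1
      rw [hc]
      group
    · -- the top step
      refine ⟨le_top, Or.inr (Or.inr ?_)⟩
      refine ⟨N, (SemidirectProduct.rightHom (φ := phi N)).comp (⊤ : Subgroup (SP N)).subtype,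
        fun σ => ⟨⟨⟨1, σ⟩, Subgroup.mem_top _⟩, rfl⟩, fun k hk => hk, fun p => ?_⟩
      obtain ⟨i, j, k, hij, hik, hjk, hi, hj, hk, hl⟩ := p.2
      refine ⟨i, j, k, fun τ h0 h1 h2 => ?_⟩
      have hinv : ∀ u, τ u = u → τ⁻¹ u = u := fun u hu => by
        rw [Equiv.Perm.inv_eq_iff_eq]
        exact hu.symm
      have habs : ∀ l, |p.1 (τ⁻¹ l)| = |p.1 l| := by
        intro l
        by_cases w1 : l = i
        · rw [w1, hinv i h0]
        by_cases w2 : l = j
        · rw [w2, hinv j h1]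
        by_cases w3 : l = k
        · rw [w3, hinv k h2]
        rw [hl l w1 w2 w3]
        refine hl _ (fun h => w1 ?_) (fun h => w2 ?_) (fun h => w3 ?_)
        · rw [← h0, ← h]; simp
        · rw [← h1, ← h]; simp
        · rw [← h2, ← h]; simp
      choose s hs using fun l => exists_sgn (habs l)
      refine ⟨⟨⟨s, τ⟩, Subgroup.mem_top _⟩, rfl, Subtype.ext ?_⟩
      show actV ⟨s, τ⟩ p.1 = p.1
      ext l
      exact hs l

end signed

section matrix

variable {N M : ℕ}

/-- All matrices obtained from `A` by permuting rows and columns. -/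
def MatOrbit (A : Fin N → Fin M → ℝ) : Set (EuclideanSpace ℝ (Fin N × Fin M)) :=
  {B | ∃ (σ : Equiv.Perm (Fin N)) (τ : Equiv.Perm (Fin M)), ∀ i j, B (i, j) = A (σ i) (τ j)}

/-- The action on matrices. -/
noncomputable def actM (g : Equiv.Perm (Fin N) × Equiv.Perm (Fin M))
    (y : EuclideanSpace ℝ (Fin N × Fin M)) : EuclideanSpace ℝ (Fin N × Fin M) :=
  WithLp.toLp 2 (fun l => y (g.1⁻¹ l.1, g.2⁻¹ l.2))

theorem actM_apply (g : Equiv.Perm (Fin N) × Equiv.Perm (Fin M))
    (y : EuclideanSpace ℝ (Fin N × Fin M)) (l : Fin N × Fin M) :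
    actM g y l = y (g.1⁻¹ l.1, g.2⁻¹ l.2) := rfl

theorem actM_dist (g : Equiv.Perm (Fin N) × Equiv.Perm (Fin M))
    (p q : EuclideanSpace ℝ (Fin N × Fin M)) : dist (actM g p) (actM g q) = dist p q := by
  rw [EuclideanSpace.dist_eq, EuclideanSpace.dist_eq]
  congr 1
  exact Equiv.sum_comp (Equiv.prodCongr g.1⁻¹ g.2⁻¹) (fun l => dist (p l) (q l) ^ 2)

/-- If all rows of `A` but the rows `r₁,r₂,r₃` agree and all columns of `A` but the columns
`s₁,s₂,s₃` agree, then all matrices obtained from `A` by permuting rows and columns form a Ramsey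
set. -/
theorem isRamsey_MatOrbit (A : Fin N → Fin M → ℝ) (r₁ r₂ r₃ : Fin N) (s₁ s₂ s₃ : Fin M)
    (hrow : ∀ i i', i ≠ r₁ → i ≠ r₂ → i ≠ r₃ → i' ≠ r₁ → i' ≠ r₂ → i' ≠ r₃ → ∀ j, A i j = A i' j)
    (hcol : ∀ j j', j ≠ s₁ → j ≠ s₂ → j ≠ s₃ → j' ≠ s₁ → j' ≠ s₂ → j' ≠ s₃ → ∀ i, A i j = A i j') :
    IsRamsey (MatOrbit A) := by
  classical
  let Γ := Equiv.Perm (Fin N) × Equiv.Perm (Fin M)
  have hmem : ∀ (g : Γ) (y : EuclideanSpace ℝ (Fin N × Fin M)), y ∈ MatOrbit A →
      actM g y ∈ MatOrbit A := by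
    rintro g y ⟨σ, τ, h⟩
    refine ⟨g.1⁻¹.trans σ, g.2⁻¹.trans τ, fun i j => ?_⟩
    rw [actM_apply, h]
    rfl
  letI inst : MulAction Γ (MatOrbit A) :=
    { smul := fun g y => ⟨actM g y.1, hmem g y.1 y.2⟩
      one_smul := fun y => Subtype.ext (by ext l; rfl)
      mul_smul := fun g h y => Subtype.ext (by ext l; rfl) }
  have hsm : ∀ (g : Γ) (y : MatOrbit A), ((g • y : MatOrbit A) : EuclideanSpace ℝ (Fin N × Fin M))
      = actM g y.1 := fun _ _ => rfl
  let K : ℕ → Subgroup Γ := fun i =>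
    match i with
    | 0 => ⊥
    | 1 => (MonoidHom.snd (Equiv.Perm (Fin N)) (Equiv.Perm (Fin M))).ker
    | _ => ⊤
  refine chain_master (Γ := Γ) (fun g p q => ?_) (fun p q => ?_) 2 K rfl rfl ?_
  · rw [hsm, hsm]
    exact actM_dist g p.1 q.1
  · obtain ⟨σ, τ, h⟩ := p.2
    obtain ⟨σ', τ', h'⟩ := q.2
    refine ⟨((σ⁻¹ * σ')⁻¹, (τ⁻¹ * τ')⁻¹), Subtype.ext ?_⟩
    rw [hsm]
    ext ⟨i, j⟩
    rw [actM_apply, h, h']
    show A (σ (((σ⁻¹ * σ')⁻¹)⁻¹ i)) (τ (((τ⁻¹ * τ')⁻¹)⁻¹ j)) = _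
    rw [inv_inv, inv_inv]
    simp [Equiv.Perm.mul_apply]
  · intro i hi
    interval_cases i
    · -- permuting rows
      refine ⟨bot_le, Or.inr (Or.inr ?_)⟩
      let π : (K 1) →* Equiv.Perm (Fin N) :=
        (MonoidHom.fst (Equiv.Perm (Fin N)) (Equiv.Perm (Fin M))).comp (K 1).subtype
      refine ⟨N, π, fun σ => ⟨⟨(σ, 1), rfl⟩, rfl⟩, fun k hk => ?_, fun p => ?_⟩
      · have h2 : (k : Γ).2 = 1 := k.2
        have h1 : (k : Γ).1 = 1 := hk
        show (k : Γ) = 1
        exact Prod.ext h1 h2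
      · obtain ⟨σ, τ, h⟩ := p.2
        refine ⟨σ⁻¹ r₁, σ⁻¹ r₂, σ⁻¹ r₃, fun ρ h0 h1 h2 => ?_⟩
        refine ⟨⟨(ρ, 1), rfl⟩, rfl, Subtype.ext ?_⟩
        show actM (ρ, 1) p.1 = p.1
        ext ⟨i, j⟩
        rw [actM_apply, h, h]
        have hinv : ∀ u, ρ u = u → ρ⁻¹ u = u := fun u hu => by
          rw [Equiv.Perm.inv_eq_iff_eq]
          exact hu.symm
        have hne : ∀ (u : Fin N) (r : Fin N), ρ (σ⁻¹ r) = σ⁻¹ r → u ≠ σ⁻¹ r → ρ⁻¹ u ≠ σ⁻¹ r := by
          intro u r hr hu hc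
          apply hu
          rw [Equiv.Perm.inv_eq_iff_eq] at hc
          rw [hc, hr]
        by_cases w1 : i = σ⁻¹ r₁
        · simp only [w1, hinv _ h0]
          rfl
        by_cases w2 : i = σ⁻¹ r₂
        · simp only [w2, hinv _ h1]
          rfl
        by_cases w3 : i = σ⁻¹ r₃
        · simp only [w3, hinv _ h2]
          rfl
        have nr : ∀ (u r : Fin N), u ≠ σ⁻¹ r → σ u ≠ r := by
          intro u r hu hc
          apply hu
          rw [← hc]
          simp
        refine hrow _ _ (nr _ _ (hne _ _ h0 w1)) (nr _ _ (hne _ _ h1 w2)) (nr _ _ (hne _ _ h2 w3))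
          (nr _ _ w1) (nr _ _ w2) (nr _ _ w3) _
    · -- permuting columns
      refine ⟨le_top, Or.inr (Or.inr ?_)⟩
      let π : (K 2) →* Equiv.Perm (Fin M) :=
        (MonoidHom.snd (Equiv.Perm (Fin N)) (Equiv.Perm (Fin M))).comp (K 2).subtype
      refine ⟨M, π, fun σ => ⟨⟨(1, σ), Subgroup.mem_top _⟩, rfl⟩, fun k hk => hk, fun p => ?_⟩
      obtain ⟨σ, τ, h⟩ := p.2
      refine ⟨τ⁻¹ s₁, τ⁻¹ s₂, τ⁻¹ s₃, fun ρ h0 h1 h2 => ?_⟩
      refine ⟨⟨(1, ρ), Subgroup.mem_top _⟩, rfl, Subtype.ext ?_⟩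
      show actM (1, ρ) p.1 = p.1
      ext ⟨i, j⟩
      rw [actM_apply, h, h]
      have hinv : ∀ u, ρ u = u → ρ⁻¹ u = u := fun u hu => by
        rw [Equiv.Perm.inv_eq_iff_eq]
        exact hu.symm
      have hne : ∀ (u : Fin M) (r : Fin M), ρ (τ⁻¹ r) = τ⁻¹ r → u ≠ τ⁻¹ r → ρ⁻¹ u ≠ τ⁻¹ r := by
        intro u r hr hu hc
        apply hu
        rw [Equiv.Perm.inv_eq_iff_eq] at hc
        rw [hc, hr]
      by_cases w1 : j = τ⁻¹ s₁
      · simp only [w1, hinv _ h0]
        rfl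
      by_cases w2 : j = τ⁻¹ s₂
      · simp only [w2, hinv _ h1]
        rfl
      by_cases w3 : j = τ⁻¹ s₃
      · simp only [w3, hinv _ h2]
        rfl
      have nr : ∀ (u r : Fin M), u ≠ τ⁻¹ r → τ u ≠ r := by
        intro u r hu hc
        apply hu
        rw [← hc]
        simp
      refine hcol _ _ (nr _ _ (hne _ _ h0 w1)) (nr _ _ (hne _ _ h1 w2)) (nr _ _ (hne _ _ h2 w3))
        (nr _ _ w1) (nr _ _ w2) (nr _ _ w3) _

end matrix

end Vale.Agent.Lib.P058.ChainEx
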