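import Vale.Agent.Lib.P058.Chain

/-! # Chains of subgroups give Ramsey sets; Johnson sets -/

namespace Vale.Agent.Lib.P058.Chain

open Finset

section euclid

variable {U : Type} {N m : ℕ}

/-- Concatenate the points of a word, scaled. -/
noncomputable def vec (μ : ℝ) (y : U → EuclideanSpace ℝ (Fin m)) (u : Fin N → U) :
    EuclideanSpace ℝ (Fin (N * m + 1)) :=
  WithLp.toLp 2 (Fin.snoc (α := fun _ => ℝ)
    (fun i : Fin (N * m) => y (u (finProdFinEquiv.symm i).1) (finProdFinEquiv.symm i).2 / Real.sqrt μ)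
    (0 : ℝ))

theorem dist_vec_sq {μ : ℝ} (hμ : 0 < μ) (y : U → EuclideanSpace ℝ (Fin m)) (u v : Fin N → U) :
    dist (vec μ y u) (vec μ y v) ^ 2 = (∑ p, dist (y (u p)) (y (v p)) ^ 2) / μ := by
  rw [EuclideanSpace.dist_eq, Real.sq_sqrt (Finset.sum_nonneg fun _ _ => by positivity),
    Fin.sum_univ_castSucc]
  simp only [vec, PiLp.toLp_apply, Fin.snoc_castSucc, Fin.snoc_last, dist_self, Real.dist_eq,
    sq_abs]
  have h1 := Equiv.sum_comp (finProdFinEquiv (m := N) (n := m)).symm
    (fun x : Fin N × Fin m => (y (u x.1) x.2 / Real.sqrt μ - y (v x.1) x.2 / Real.sqrt μ) ^ 2)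
  rw [h1, Fintype.sum_prod_type, Finset.sum_div]
  have h2 : ∀ p : Fin N, ∑ j : Fin m, (y (u p) j / Real.sqrt μ - y (v p) j / Real.sqrt μ) ^ 2
      = dist (y (u p)) (y (v p)) ^ 2 / μ := by
    intro p
    rw [EuclideanSpace.dist_eq, Real.sq_sqrt (Finset.sum_nonneg fun _ _ => by positivity),
      Finset.sum_div]
    refine Finset.sum_congr rfl fun j _ => ?_
    rw [Real.dist_eq, sq_abs, ← sub_div, div_pow, Real.sq_sqrt hμ.le]
  simp only [h2]
  simp

/-- A tower of the identity column gives the Ramsey property of any image with invariant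
distances. -/
theorem isRamsey_of_tow {G : Type} [Group G] [MulAction G U] [Fintype U]
    (y : U → EuclideanSpace ℝ (Fin m))
    (hy : ∀ (g : G) (t t' : U), dist (y (g • t)) (y (g • t')) = dist (y t) (y t'))
    (h : Tow G (id : U → U)) : IsRamsey (Set.range y) := by
  classical
  intro r hr
  obtain ⟨κ, _, _, m₀, hCopy⟩ := h
  obtain ⟨N, hN⟩ := hCopy r
  set μ : ℝ := (Fintype.card κ : ℝ) with hμ
  have hμ0 : 0 < μ := by
    rw [hμ]
    exact_mod_cast Fintype.card_pos
  refine ⟨N * m + 1, by omega, fun c => ?_⟩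
  obtain ⟨s, hs1, hs2⟩ := hN (fun u => c (vec μ y u))
  set M : κ → U → U := fun x t => id ((m₀ x)⁻¹ • t) with hM
  set word : U → Fin N → U := fun t p => ev M (s p) t with hword
  have key : ∀ t t', dist (vec μ y (word t)) (vec μ y (word t')) = dist (y t) (y t') := by
    intro t t'
    have hsq : dist (vec μ y (word t)) (vec μ y (word t')) ^ 2 = dist (y t) (y t') ^ 2 := by
      rw [dist_vec_sq hμ0]
      set F : κ → ℝ := fun x => dist (y (M x t)) (y (M x t')) ^ 2 with hF
      have h1 : ∀ p, dist (y (word t p)) (y (word t' p)) ^ 2 = wt F (s p) := by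
        intro p
        simp only [hword]
        rcases s p with i | l
        · simp [ev, wt, hF]
        · simp [ev, wt]
      rw [Finset.sum_congr rfl fun p _ => h1 p, hs1 F]
      have h2 : ∀ x, F x = dist (y t) (y t') ^ 2 := by
        intro x
        simp only [hF, hM, id]
        rw [hy]
      rw [Finset.sum_congr rfl fun x _ => h2 x, Finset.sum_const, Finset.card_univ, nsmul_eq_mul,
        ← hμ, mul_div_cancel_left₀ _ hμ0.ne']
    exact (pow_left_inj₀ dist_nonneg dist_nonneg (by norm_num)).mp hsq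
  let tok : ∀ x, x ∈ Set.range y → U := fun x hx => Classical.choose hx
  have htok : ∀ x (hx : x ∈ Set.range y), y (tok x hx) = x := fun x hx => Classical.choose_spec hx
  refine ⟨fun x => if hx : x ∈ Set.range y then vec μ y (word (tok x hx)) else 0,
    if h : Nonempty U then c (vec μ y (word (Classical.choice h))) else ⟨0, by omega⟩, ?_, ?_⟩
  · intro x hx x' hx'
    simp only [dif_pos hx, dif_pos hx']
    rw [key, htok, htok]
  · intro x hx
    have hne : Nonempty U := ⟨tok x hx⟩
    simp only [dif_pos hx, dif_pos hne]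
    exact hs2 _ _

end euclid

/-- **The chain theorem.** A finite group acts transitively on a finite set `U`, `y` maps `U` to
a Euclidean space with invariant distances, and there is a chain of subgroups from the trivial
group to the whole group such that at each step either every orbit of the larger subgroup is the
union of at most two orbits of the smaller one, or the larger subgroup is generated by the smaller
one and an element normalizing it. Then the image of `y` is Ramsey. -/
theorem chain_ramsey {G U : Type} [Group G] [Fintype G] [MulAction G U] [Fintype U]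
    [MulAction.IsPretransitive G U] {m : ℕ} (y : U → EuclideanSpace ℝ (Fin m))
    (hy : ∀ (g : G) (t t' : U), dist (y (g • t)) (y (g • t')) = dist (y t) (y t'))
    (n : ℕ) (K : ℕ → Subgroup G) (h0 : K 0 = ⊥) (hn : K n = ⊤)
    (hstep : ∀ i < n, K i ≤ K (i + 1) ∧
      ((∀ t : U, ∃ s₁ s₂ : U, ∀ k ∈ K (i + 1), ∃ k' ∈ K i, k • t = k' • s₁ ∨ k • t = k' • s₂) ∨
       (∃ g ∈ K (i + 1), (∀ k ∈ K i, g⁻¹ * k * g ∈ K i) ∧
          ∀ k ∈ K (i + 1), ∃ k' ∈ K i, ∃ a : ℕ, k = k' * (g ^ a)⁻¹))) :
    IsRamsey (Set.range y) := by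
  classical
  by_cases hne : Nonempty U
  · have hR : ∀ i ≤ n, Red G (U := U) (K i) := by
      intro i
      induction i with
      | zero =>
        intro _
        rw [h0]
        exact Red.bot
      | succ i ih =>
        intro hi
        have hi' : i < n := by omega
        obtain ⟨hle, h | ⟨g, hg, hn', hgen⟩⟩ := hstep i hi'
        · exact Red.step hle h (ih (by omega))
        · exact Red.step_cyclic hle g hg hn' hgen (ih (by omega))
    have htop := hR n le_rfl
    rw [hn] at htop
    exact isRamsey_of_tow y hy (Tow.of_red_top htop)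
  · intro r hr
    refine ⟨1, le_rfl, fun _ => ⟨fun _ => 0, ⟨0, by omega⟩, ?_, ?_⟩⟩
    · rintro x ⟨t, _⟩
      exact (hne ⟨t⟩).elim
    · rintro x ⟨t, _⟩
      exact (hne ⟨t⟩).elim

section johnson

variable {N q : ℕ}

/-- Permutations act on the `q`-subsets. -/
@[reducible] def johnsonAction (N q : ℕ) : MulAction (Equiv.Perm (Fin N)) {A : Finset (Fin N) // A.card = q} where
  smul σ A := ⟨A.1.map σ.toEmbedding, by simpa using A.2⟩
  one_smul A := by
    apply Subtype.ext
    show A.1.map (Equiv.toEmbedding 1) = A.1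
    ext x
    simp only [Finset.mem_map, Equiv.coe_toEmbedding]
    constructor
    · rintro ⟨a, ha, rfl⟩
      exact ha
    · intro h
      exact ⟨x, h, rfl⟩
  mul_smul σ τ A := by
    apply Subtype.ext
    show A.1.map (σ * τ).toEmbedding = (A.1.map τ.toEmbedding).map σ.toEmbedding
    ext x
    simp only [Finset.mem_map, Equiv.coe_toEmbedding, Equiv.Perm.coe_mul, Function.comp_apply]
    constructor
    · rintro ⟨a, ha, rfl⟩
      exact ⟨τ a, ⟨a, ha, rfl⟩, rfl⟩
    · rintro ⟨_, ⟨a, ha, rfl⟩, rfl⟩
      exact ⟨a, ha, rfl⟩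

/-- A permutation supported in `T` carrying `B` to `C`, when `B, C` have the same size and agree
outside `T`. -/
theorem exists_perm (T B C : Finset (Fin N)) (hc : B.card = C.card)
    (h : ∀ x, x ∉ T → (x ∈ B ↔ x ∈ C)) :
    ∃ σ : Equiv.Perm (Fin N), (∀ x, x ∉ T → σ x = x) ∧ B.map σ.toEmbedding = C := by
  classical
  -- the parts inside `T` have the same size
  have hcard : (B ∩ T).card = (C ∩ T).card := by
    have e1 := Finset.card_inter_add_card_sdiff B T
    have e2 := Finset.card_inter_add_card_sdiff C T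
    have e3 : B \ T = C \ T := by
      ext x
      simp only [Finset.mem_sdiff]
      constructor
      · rintro ⟨h1, h2⟩
        exact ⟨(h x h2).1 h1, h2⟩
      · rintro ⟨h1, h2⟩
        exact ⟨(h x h2).2 h1, h2⟩
    rw [e3] at e1
    omega
  have hsub : Fintype.card {x : {x // x ∈ T} // x.1 ∈ B} = Fintype.card {x : {x // x ∈ T} // x.1 ∈ C} := by
    have aux : ∀ D : Finset (Fin N), Fintype.card {x : {x // x ∈ T} // x.1 ∈ D} = (D ∩ T).card := by
      intro D
      rw [Fintype.card_subtype]
      rw [← Finset.card_map (Function.Embedding.subtype _)]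
      congr 1
      ext z
      simp only [Finset.mem_map, Finset.mem_filter, Finset.mem_univ, true_and,
        Function.Embedding.subtype_apply, Finset.mem_inter, Subtype.exists, exists_and_left,
        exists_prop, exists_eq_right_right]
    rw [aux, aux, hcard]
  let e : {x : {x // x ∈ T} // x.1 ∈ B} ≃ {x : {x // x ∈ T} // x.1 ∈ C} := Fintype.equivOfCardEq hsub
  let τ : Equiv.Perm {x // x ∈ T} := e.extendSubtype
  let σ : Equiv.Perm (Fin N) := Equiv.Perm.ofSubtype τ
  have hout : ∀ x, x ∉ T → σ x = x := fun x hx => Equiv.Perm.ofSubtype_apply_of_not_mem τ hx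
  have hin : ∀ x (hx : x ∈ T), σ x = (τ ⟨x, hx⟩).1 := fun x hx =>
    Equiv.Perm.ofSubtype_apply_of_mem τ hx
  have hiff : ∀ x, x ∈ B ↔ σ x ∈ C := by
    intro x
    by_cases hx : x ∈ T
    · rw [hin x hx]
      constructor
      · intro hB
        exact Equiv.extendSubtype_mem e ⟨x, hx⟩ hB
      · intro hC
        by_contra hB
        exact Equiv.extendSubtype_not_mem e ⟨x, hx⟩ hB hC
    · rw [hout x hx]
      exact h x hx
  refine ⟨σ, hout, ?_⟩
  ext z
  simp only [Finset.mem_map, Equiv.coe_toEmbedding]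
  constructor
  · rintro ⟨a, ha, rfl⟩
    exact (hiff a).1 ha
  · intro hz
    refine ⟨σ.symm z, ?_, by simp⟩
    rw [hiff]
    simpa using hz

/-- Permutations fixing all points of value at least `i`. -/
def lowPerm (N i : ℕ) : Subgroup (Equiv.Perm (Fin N)) where
  carrier := {σ | ∀ x : Fin N, i ≤ x.val → σ x = x}
  one_mem' := fun _ _ => rfl
  mul_mem' := fun {a b} ha hb x hx => by
    simp only [Equiv.Perm.coe_mul, Function.comp_apply]
    rw [hb x hx, ha x hx]
  inv_mem' := fun {a} ha x hx => by
    rw [Equiv.Perm.inv_eq_iff_eq]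
    exact (ha x hx).symm

theorem mem_lowPerm {i : ℕ} {σ : Equiv.Perm (Fin N)} :
    σ ∈ lowPerm N i ↔ ∀ x : Fin N, i ≤ x.val → σ x = x := Iff.rfl

/-- **Johnson sets.** Points indexed by the `q`-subsets of `Fin N`, with distances depending only
on the size of the intersection, form a Ramsey set. -/
theorem johnson_ramsey (N q m : ℕ) (y : {A : Finset (Fin N) // A.card = q} → EuclideanSpace ℝ (Fin m))
    (hy : ∀ A B A' B' : {A : Finset (Fin N) // A.card = q},
      (A.1 ∩ B.1).card = (A'.1 ∩ B'.1).card → dist (y A) (y B) = dist (y A') (y B')) :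
    IsRamsey (Set.range y) := by
  classical
  let _ := johnsonAction N q
  have hsmul : ∀ (σ : Equiv.Perm (Fin N)) (A : {A : Finset (Fin N) // A.card = q}),
      (σ • A).1 = A.1.map σ.toEmbedding := fun _ _ => rfl
  have : MulAction.IsPretransitive (Equiv.Perm (Fin N)) {A : Finset (Fin N) // A.card = q} := by
    refine ⟨fun A B => ?_⟩
    obtain ⟨σ, _, h⟩ := exists_perm (Finset.univ) A.1 B.1 (by rw [A.2, B.2]) (by simp)
    exact ⟨σ, Subtype.ext (by rw [hsmul, h])⟩
  refine chain_ramsey (G := Equiv.Perm (Fin N)) y ?_ N (lowPerm N) ?_ ?_ ?_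
  · intro g A B
    apply hy
    rw [hsmul, hsmul, ← Finset.map_inter, Finset.card_map]
  · ext σ
    rw [mem_lowPerm, Subgroup.mem_bot]
    constructor
    · intro h
      ext x
      simp [h x (Nat.zero_le _)]
    · rintro rfl x _
      rfl
  · ext σ
    rw [mem_lowPerm]
    simp only [Subgroup.mem_top, iff_true]
    intro x hx
    exact absurd x.isLt (by omega)
  · intro i hi
    refine ⟨fun σ hσ x hx => hσ x (by omega), Or.inl fun A => ?_⟩
    -- the point `i`
    let p : Fin N := ⟨i, hi⟩
    -- representatives with and without `p`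
    have hrep : ∀ P : Prop, [Decidable P] → ∃ s : {A : Finset (Fin N) // A.card = q},
        ∀ k ∈ lowPerm N (i + 1), (p ∈ (k • A).1 ↔ P) → (∃ k₁ ∈ lowPerm N (i + 1),
          s = k₁ • A ∧ (p ∈ s.1 ↔ P)) := by
      intro P _
      by_cases hex : ∃ k₁ ∈ lowPerm N (i + 1), (p ∈ (k₁ • A).1 ↔ P)
      · obtain ⟨k₁, hk₁, h⟩ := hex
        exact ⟨k₁ • A, fun _ _ _ => ⟨k₁, hk₁, rfl, h⟩⟩
      · exact ⟨A, fun k hk h => (hex ⟨k, hk, h⟩).elim⟩
    obtain ⟨s₁, hs₁⟩ := hrep True
    obtain ⟨s₂, hs₂⟩ := hrep False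
    refine ⟨s₁, s₂, fun k hk => ?_⟩
    -- comparing two translates with the same membership of `p`
    have hcomp : ∀ k₁ ∈ lowPerm N (i + 1), (p ∈ (k₁ • A).1 ↔ p ∈ (k • A).1) →
        ∃ k' ∈ lowPerm N i, k • A = k' • (k₁ • A) := by
      intro k₁ hk₁ hiff
      have hout : ∀ (c : Equiv.Perm (Fin N)), c ∈ lowPerm N (i + 1) → ∀ x : Fin N, i + 1 ≤ x.val →
          (x ∈ (c • A).1 ↔ x ∈ A.1) := by
        intro c hc x hx
        rw [hsmul]
        simp only [Finset.mem_map, Equiv.coe_toEmbedding]
        constructor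
        · rintro ⟨a, ha, rfl⟩
          have : c a = a := by
            have h1 : c (c a) = c a := hc (c a) hx
            exact c.injective h1
          rwa [this]
        · intro hA
          exact ⟨x, hA, hc x hx⟩
      obtain ⟨σ, hσ, hmap⟩ := exists_perm (Finset.univ.filter fun x : Fin N => x.val < i)
        (k₁ • A).1 (k • A).1 (by rw [(k₁ • A).2, (k • A).2]) (by
          intro x hx
          simp only [Finset.mem_filter, Finset.mem_univ, true_and, not_lt] at hx
          rcases Nat.eq_or_lt_of_le hx with h | h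
          · have hxp : x = p := Fin.ext h.symm
            rw [hxp]
            exact hiff
          · rw [hout k₁ hk₁ x h, hout k hk x h])
      refine ⟨σ, ?_, Subtype.ext ?_⟩
      · intro x hx
        apply hσ
        simp only [Finset.mem_filter, Finset.mem_univ, true_and, not_lt]
        exact hx
      · rw [hsmul σ, hmap]
    by_cases hp : p ∈ (k • A).1
    · obtain ⟨k₁, hk₁, rfl, hs⟩ := hs₁ k hk (by simp [hp])
      obtain ⟨k', hk', h⟩ := hcomp k₁ hk₁ (by simp [hs, hp] at *)
      exact ⟨k', hk', Or.inl h⟩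
    · obtain ⟨k₁, hk₁, rfl, hs⟩ := hs₂ k hk (by simp [hp])
      obtain ⟨k', hk', h⟩ := hcomp k₁ hk₁ (by simp [hs, hp] at *)
      exact ⟨k', hk', Or.inr h⟩

end johnson

end Vale.Agent.Lib.P058.Chain
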