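import Vale.Agent.Lib.P058.Step

/-! # Deletion towers over a group, and orbits of a group acting by isometries

Tokens are the elements of a group `G`, which acts on itself by right multiplication.  A tower for
a column `b : G → Λ` gives a copy of finitely many translates of `b`.  If `G` acts transitively by
isometries on a set `X`, then the token `t` carries the point `t⁻¹ • x₀`, every right translation
of the tokens is an isometry of `X`, and no condition on the list of translates is needed. -/

namespace Vale.Agent.Lib.P058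

open Finset

section copy

variable {U ι Λ Λ' : Type*}

/-- Copies pass to any function of the letters. -/
theorem Copy.map [Fintype ι] {M : ι → U → Λ} (φ : Λ → Λ') (h : Copy M) :
    Copy (fun i t => φ (M i t)) := by
  intro r
  obtain ⟨N, hN⟩ := h r
  refine ⟨N, fun χ => ?_⟩
  obtain ⟨s, hs, hm⟩ := hN (fun u => χ (fun p => φ (u p)))
  refine ⟨fun p => (s p).elim Sum.inl (fun l => Sum.inr (φ l)), fun g => ?_, fun t t' => ?_⟩
  · rw [← hs g]
    refine Finset.sum_congr rfl fun p _ => ?_
    cases hx : s p <;> simp [wt, hx]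
  · have h2 := hm t t'
    convert h2 using 2 <;>
    · funext p
      cases hx : s p <;> simp [ev, hx]

/-- Copies pass to any map of the tokens. -/
theorem Copy.comap {U' : Type*} [Fintype ι] {M : ι → U → Λ} (π : U' → U) (h : Copy M) :
    Copy (fun i t => M i (π t)) := by
  intro r
  obtain ⟨N, hN⟩ := h r
  refine ⟨N, fun χ => ?_⟩
  obtain ⟨s, hs, hm⟩ := hN χ
  refine ⟨s, hs, fun t t' => ?_⟩
  have h2 := hm (π t) (π t')
  convert h2 using 2 <;>
  · funext p
    cases hx : s p <;> simp [ev, hx]

end copy

section tower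

variable {G : Type} [Group G] {Λ : Type} [Fintype Λ] [DecidableEq Λ]

/-- A tower state over a group: the column `b` has a copy of finitely many of its translates. -/
def CertG (b : G → Λ) : Prop :=
  ∃ (κ : Type) (_ : Fintype κ) (_ : Nonempty κ) (m : κ → G), Copy (fun k t => b (t * m k))

theorem CertG.of_const {b : G → Λ} (h : ∀ t t', b t = b t') : CertG b := by
  refine ⟨Unit, inferInstance, inferInstance, fun _ => 1, ?_⟩
  exact Copy.of_const (fun _ t t' => h _ _)

/-- One level of the tower. -/
theorem CertG.step {b b' : G → Λ} (δ : Λ) (L : List G) (hL : L ≠ []) (dec : Λ → List Λ)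
    (hdec : ∀ l, δ ∉ dec l) (h : ∀ t, (L.map fun γ => b (t * γ)).filter (· ≠ δ) = dec (b' t))
    (hc : CertG b') : CertG b := by
  obtain ⟨κ, hκ, hne, m, hcopy⟩ := hc
  have hlen : 0 < L.length := List.length_pos_iff.mpr hL
  obtain ⟨k0⟩ := hne
  refine ⟨κ × Fin L.length, inferInstance, ⟨(k0, ⟨0, hlen⟩)⟩, fun x => m x.1 * L.get x.2, ?_⟩
  have hstep := Copy.step δ dec hdec (M' := fun k t => b' (t * m k)) L.length
    (fun k j t => b (t * m k * L.get j))
    (by
      intro k t
      have h1 := h (t * m k)
      rw [← h1]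
      congr 1
      conv_rhs => rw [← List.ofFn_get L]
      rw [List.map_ofFn]
      rfl)
    hcopy
  convert hstep using 3 with x t
  rw [mul_assoc]

end tower

section euclid

variable {ι : Type} [Fintype ι] {U κ Λ : Type} [Fintype κ]

/-- The embedding of words, with values in a Euclidean space, in a higher Euclidean space. -/
noncomputable def wordVecE {N D : ℕ} (e : (Fin N × ι) ⊕ Unit ≃ Fin D)
    (val : Λ → EuclideanSpace ℝ ι) (u : Fin N → Λ) : EuclideanSpace ℝ (Fin D) :=
  WithLp.toLp 2 (fun j => Sum.elim (fun q : Fin N × ι => (val (u q.1)) q.2) (fun _ => (0 : ℝ))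
    (e.symm j))

theorem dist_wordVecE_sq {N D : ℕ} (e : (Fin N × ι) ⊕ Unit ≃ Fin D)
    (val : Λ → EuclideanSpace ℝ ι) (u v : Fin N → Λ) :
    dist (wordVecE e val u) (wordVecE e val v) ^ 2 = ∑ p, dist (val (u p)) (val (v p)) ^ 2 := by
  rw [EuclideanSpace.dist_eq, Real.sq_sqrt (Finset.sum_nonneg fun _ _ => by positivity)]
  have h1 := Equiv.sum_comp e (fun j => dist ((wordVecE e val u) j) ((wordVecE e val v) j) ^ 2)
  rw [← h1, Fintype.sum_sum_type, Fintype.sum_prod_type]
  simp only [wordVecE, PiLp.toLp_apply, Equiv.symm_apply_apply, Sum.elim_inl, Sum.elim_inr,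
    dist_self]
  simp only [ne_eq, OfNat.ofNat_ne_zero, not_false_eq_true, zero_pow, Finset.sum_const_zero,
    add_zero]
  refine Finset.sum_congr rfl fun p _ => ?_
  rw [EuclideanSpace.dist_eq, Real.sq_sqrt (Finset.sum_nonneg fun _ _ => by positivity)]

/-- A copy of designated columns whose weighted square distances add up to a multiple of the
square distance of the token points gives the Euclidean Ramsey property of the token points. -/
theorem isRamsey_of_copy_points (M : κ → U → Λ) (hM : Copy M) (val : Λ → EuclideanSpace ℝ ι)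
    (x : U → EuclideanSpace ℝ ι) (μ : ℝ) (hμ : 0 < μ)
    (hd : ∀ t t', ∑ k, dist (val (M k t)) (val (M k t')) ^ 2 = μ * dist (x t) (x t') ^ 2)
    (X : Set (EuclideanSpace ℝ ι)) (hX : ∀ y ∈ X, ∃ t, x t = y) : IsRamsey X := by
  classical
  intro r hr
  obtain ⟨N, hN⟩ := hM r
  let D : ℕ := Fintype.card ((Fin N × ι) ⊕ Unit)
  have hDpos : 1 ≤ D := Fintype.card_pos
  let e : (Fin N × ι) ⊕ Unit ≃ Fin D := Fintype.equivFin _
  -- rescaled letters
  set val' : Λ → EuclideanSpace ℝ ι := fun l => (Real.sqrt μ)⁻¹ • val l with hval'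
  have hsc : ∀ a b : Λ, dist (val' a) (val' b) ^ 2 = dist (val a) (val b) ^ 2 / μ := by
    intro a b
    simp only [hval']
    rw [dist_smul₀, Real.norm_eq_abs, abs_of_pos (inv_pos.mpr (Real.sqrt_pos.mpr hμ)), mul_pow,
      inv_pow, Real.sq_sqrt hμ.le]
    field_simp
  refine ⟨D, hDpos, fun c => ?_⟩
  obtain ⟨s, hs1, hs2⟩ := hN (fun u => c (wordVecE e val' u))
  set word : U → Fin N → Λ := fun t p => ev M (s p) t with hword
  let tok : ∀ y : EuclideanSpace ℝ ι, y ∈ X → U := fun y hy => Classical.choose (hX y hy)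
  have htok : ∀ y (hy : y ∈ X), x (tok y hy) = y := fun y hy => Classical.choose_spec (hX y hy)
  refine ⟨fun y => if hy : y ∈ X then wordVecE e val' (word (tok y hy)) else 0,
    if h : Nonempty U then c (wordVecE e val' (word (Classical.choice h))) else ⟨0, by omega⟩,
    ?_, ?_⟩
  · intro a ha b hb
    simp only [dif_pos ha, dif_pos hb]
    set t := tok a ha with ht
    set t' := tok b hb with ht'
    have hsq : dist (wordVecE e val' (word t)) (wordVecE e val' (word t')) ^ 2 = dist a b ^ 2 := by
      rw [dist_wordVecE_sq]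
      set F : κ → ℝ := fun k => dist (val (M k t)) (val (M k t')) ^ 2 / μ with hF
      have h1 : ∀ p, dist (val' (word t p)) (val' (word t' p)) ^ 2 = wt F (s p) := by
        intro p
        simp only [hword]
        rcases s p with i | l
        · simp [ev, wt, hF, hsc]
        · simp [ev, wt]
      rw [Finset.sum_congr rfl fun p _ => h1 p, hs1 F]
      simp only [hF]
      rw [← Finset.sum_div, hd t t', htok a ha, htok b hb]
      field_simp
    exact (pow_left_inj₀ dist_nonneg dist_nonneg (by norm_num)).mp hsq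
  · intro a ha
    have hne : Nonempty U := ⟨tok a ha⟩
    simp only [dif_pos ha, dif_pos hne]
    exact hs2 _ _

end euclid

section orbit

variable {ι : Type} [Fintype ι] {G : Type} [Group G] {Λ : Type} [Fintype Λ] [DecidableEq Λ]

/-- A tower for a column `b₀` over `G` gives the Ramsey property of every set `X` on which `G` acts
transitively by isometries and such that equal values of `b₀` on tokens give equal points. -/
theorem isRamsey_of_certG {X : Set (EuclideanSpace ℝ ι)} [MulAction G X]
    (hiso : ∀ (g : G) (a b : X), dist ((g • a : X) : EuclideanSpace ℝ ι) (g • b : X) = dist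
      (a : EuclideanSpace ℝ ι) b)
    (x₀ : X) (htr : ∀ y : X, ∃ g : G, g • x₀ = y)
    {b₀ : G → Λ} (hb : ∀ t t', b₀ t = b₀ t' → (t⁻¹ • x₀ : X) = t'⁻¹ • x₀) (hc : CertG b₀) :
    IsRamsey X := by
  classical
  obtain ⟨κ, hκ, hne, m, hcopy⟩ := hc
  -- the point of a token and the point of a label
  let pt : G → X := fun t => t⁻¹ • x₀
  let φ : Λ → EuclideanSpace ℝ ι := fun l =>
    if h : ∃ t, b₀ t = l then (pt (Classical.choose h) : EuclideanSpace ℝ ι) else 0
  have hφ : ∀ t, φ (b₀ t) = pt t := by
    intro t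
    have h : ∃ t', b₀ t' = b₀ t := ⟨t, rfl⟩
    simp only [φ, dif_pos h]
    exact congrArg Subtype.val (hb _ _ (Classical.choose_spec h))
  have hpt : ∀ t γ, pt (t * γ) = γ⁻¹ • pt t := by
    intro t γ
    simp only [pt, mul_inv_rev, mul_smul]
  have hμ : (0 : ℝ) < (Fintype.card κ : ℝ) := by exact_mod_cast Fintype.card_pos
  refine isRamsey_of_copy_points (fun k t => b₀ (t * m k)) hcopy φ (fun t => (pt t : _))
    (Fintype.card κ : ℝ) hμ ?_ X ?_
  · intro t t'
    have h1 : ∀ k, dist (φ (b₀ (t * m k))) (φ (b₀ (t' * m k))) ^ 2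
        = dist ((pt t : X) : EuclideanSpace ℝ ι) (pt t') ^ 2 := by
      intro k
      rw [hφ, hφ, hpt, hpt, hiso]
    rw [Finset.sum_congr rfl fun k _ => h1 k, Finset.sum_const, Finset.card_univ, nsmul_eq_mul]
  · intro y hy
    obtain ⟨g, hg⟩ := htr ⟨y, hy⟩
    refine ⟨g⁻¹, ?_⟩
    simp only [pt, inv_inv, hg]

end orbit

end Vale.Agent.Lib.P058
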