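import Vale.Agent.Lib.P058.X3All
import Vale.Agent.Lib.P058.GroupTower

/-! # P058: chains of subgroups with two-orbit, abelian and symmetric sections

A finite group `Γ` acts on a set `X`.  `RG X K` says that every column on `X` can be reduced, reading
inside the subgroup `K`, to a column invariant under `K`.  Each section of a chain `K₁ ≤ K₂` may be
of one of three kinds: the orbits of `K₂` split in at most two orbits of `K₁`; the section is
abelian; the section maps onto a symmetric group with point stabilisers containing the pointwise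
stabiliser of three indices. -/

namespace Vale.Agent.Lib.P058.ChainS

open Vale.Agent.Lib.P058 Vale.Agent.Lib.P058.X3

section basics

variable {Γ X : Type} [Group Γ] [MulAction Γ X]

/-- The action of a subgroup, as a function. -/
def acS (K : Subgroup Γ) (k : K) (p : X) : X := (k : Γ) • p

theorem acS_mul (K : Subgroup Γ) (g' g : K) (p : X) :
    acS K (g' * g) p = acS K g' (acS K g p) := by
  simp [acS, mul_smul]

/-- Every column reduces to a `K`-invariant column, reading inside `K`. -/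
def RG (X : Type) [MulAction Γ X] (K : Subgroup Γ) : Prop := R0 (acS (X := X) K)

/-- Constancy on an orbit persists. -/
theorem ap_keep (K : Subgroup Γ) (Φ : (K → ℕ) → ℕ) (c : X → ℕ) (p : X)
    (h : ∀ k : K, c (acS K k p) = c p) (k : K) :
    ap (acS K) Φ c (acS K k p) = ap (acS K) Φ c p := by
  simp only [ap]
  congr 1
  funext g
  rw [← acS_mul, h (g * k), h g]

theorem RG.bot : RG X (⊥ : Subgroup Γ) := by
  intro z
  refine ⟨idF, CR.idF, fun k p => ?_⟩
  have hk : k = 1 := Subsingleton.elim _ _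
  subst hk
  simp [acS]

/-- From local reductions to a global one. -/
theorem RG.of_local [Finite X] {K₁ K₂ : Subgroup Γ} (hle : K₁ ≤ K₂) (hR : RG X K₁)
    (hloc : ∀ c : X → ℕ, (∀ (k : K₁) (p : X), c (acS K₁ k p) = c p) → ∀ p₀ : X,
      ∃ Φ : (K₂ → ℕ) → ℕ, CR Φ ∧ ∀ k : K₂, ap (acS K₂) Φ c (acS K₂ k p₀) = ap (acS K₂) Φ c p₀) :
    RG X K₂ := by
  classical
  haveI := Fintype.ofFinite X
  intro z
  suffices H : ∀ A : Finset X, ∃ Φ, CR Φ ∧ ∀ p ∈ A, ∀ k : K₂,
      ap (acS K₂) Φ z (acS K₂ k p) = ap (acS K₂) Φ z p by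
    obtain ⟨Φ, h1, h2⟩ := H Finset.univ
    exact ⟨Φ, h1, fun k p => h2 p (Finset.mem_univ p) k⟩
  intro A
  induction A using Finset.induction_on with
  | empty => exact ⟨idF, CR.idF, by simp⟩
  | insert p₀ A _ ih =>
    obtain ⟨Φ₀, h0, ih⟩ := ih
    set c₀ := ap (acS K₂) Φ₀ z with hc₀
    obtain ⟨Φ₁, h1, h1inv⟩ := hR c₀
    let θ : K₁ → K₂ := fun k => ⟨k.1, hle k.2⟩
    let Φ₁' : (K₂ → ℕ) → ℕ := pull θ Φ₁
    set c₁ := ap (acS K₂) Φ₁' c₀ with hc₁
    have hc₁' : ∀ p, c₁ p = ap (acS K₁) Φ₁ c₀ p := fun p => rfl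
    obtain ⟨Φ₂, h2, h2inv⟩ := hloc c₁ (fun k p => by rw [hc₁', hc₁']; exact h1inv k p) p₀
    refine ⟨cmp Φ₂ (cmp Φ₁' Φ₀), h2.cmp ((h1.pull θ).cmp h0), ?_⟩
    have e : ap (acS K₂) (cmp Φ₂ (cmp Φ₁' Φ₀)) z = ap (acS K₂) Φ₂ c₁ := by
      rw [ap_cmp _ (acS_mul K₂), ap_cmp _ (acS_mul K₂)]
    intro p hp k
    rw [e]
    rcases Finset.mem_insert.mp hp with rfl | hA
    · exact h2inv k
    · exact ap_keep K₂ Φ₂ c₁ p (ap_keep K₂ Φ₁' c₀ p (ih p hA)) k

end basics

section steps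

variable {Γ X : Type} [Group Γ] [Finite Γ] [MulAction Γ X]

/-- Deleting one of two labels while reading all of `K`. -/
theorem local_two (K : Subgroup Γ) (c : X → ℕ) (p₀ : X) (l₁ l₂ : ℕ)
    (h : ∀ k : K, c (acS K k p₀) = l₁ ∨ c (acS K k p₀) = l₂) :
    ∃ Φ : (K → ℕ) → ℕ, CR Φ ∧ ∀ k : K, ap (acS K) Φ c (acS K k p₀) = ap (acS K) Φ c p₀ := by
  classical
  haveI := Fintype.ofFinite K
  let L : List K := (Finset.univ : Finset K).toList
  have hmem : ∀ γ, γ ∈ L := fun γ => by simp [L]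
  have hnd : L.Nodup := Finset.nodup_toList _
  refine ⟨rd l₂ L, CR.rd l₂ L (List.ne_nil_of_mem (hmem 1)), fun k => ?_⟩
  have hw : ∀ q : K, ∀ x ∈ (L.map fun g => c (acS K g (acS K q p₀))).filter (· ≠ l₂), x = l₁ := by
    intro q x hx
    rcases List.mem_filter.mp hx with ⟨h1, h2⟩
    obtain ⟨γ, -, rfl⟩ := List.mem_map.mp h1
    rw [← acS_mul] at h2 ⊢
    rcases h (γ * q) with h4 | h4
    · exact h4
    · simp [h4] at h2
  have hperm : (L.map fun g => c (acS K g (acS K k p₀))).Perm (L.map fun g => c (acS K g p₀)) := by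
    have h1 : (L.map fun g => c (acS K g (acS K k p₀)))
        = ((L.map fun g => g * k).map fun g => c (acS K g p₀)) := by
      rw [List.map_map]
      refine List.map_congr_left fun g _ => ?_
      simp [acS_mul]
    rw [h1]
    refine List.Perm.map _ ?_
    refine (List.perm_ext_iff_of_nodup (hnd.map (mul_left_injective k)) hnd).2 fun g => ?_
    simp only [List.mem_map, iff_true_intro (hmem g), iff_true]
    exact ⟨g * k⁻¹, hmem _, by simp⟩
  have hlen := (hperm.filter (· ≠ l₂)).length_eq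
  have hw1 : ∀ x ∈ (L.map fun g => c (acS K g p₀)).filter (· ≠ l₂), x = l₁ := by
    intro x hx
    refine hw 1 x ?_
    simpa [acS] using hx
  simp only [ap, rd]
  congr 1
  rw [List.eq_replicate_of_mem (hw k), List.eq_replicate_of_mem hw1, hlen]

/-- The two-orbit step. -/
theorem RG.step_two [Finite X] {K₁ K₂ : Subgroup Γ} (hle : K₁ ≤ K₂) (hR : RG X K₁)
    (hsplit : ∀ p : X, ∃ s₁ s₂ : X, ∀ k ∈ K₂, ∃ k' ∈ K₁, k • p = k' • s₁ ∨ k • p = k' • s₂) :
    RG X K₂ := by
  refine RG.of_local hle hR fun c hc p₀ => ?_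
  obtain ⟨s₁, s₂, hs⟩ := hsplit p₀
  refine local_two K₂ c p₀ (c s₁) (c s₂) fun k => ?_
  obtain ⟨k', hk', h | h⟩ := hs k.1 k.2
  · left
    have := hc ⟨k', hk'⟩ s₁
    simp only [acS] at this ⊢
    rw [h, this]
  · right
    have := hc ⟨k', hk'⟩ s₂
    simp only [acS] at this ⊢
    rw [h, this]

/-- The abelian step. -/
theorem RG.step_comm [Finite X] {K₁ K₂ : Subgroup Γ} (hle : K₁ ≤ K₂) (hR : RG X K₁)
    (hcomm : ∀ a ∈ K₂, ∀ b ∈ K₂, a * b * a⁻¹ * b⁻¹ ∈ K₁) : RG X K₂ := by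
  classical
  haveI := Fintype.ofFinite X
  haveI := Fintype.ofFinite K₂
  intro z
  let θ : K₁ → K₂ := fun k => ⟨k.1, hle k.2⟩
  suffices H : ∀ A : Finset K₂, ∃ Φ : (K₂ → ℕ) → ℕ, CR Φ ∧
      (∀ (k : K₁) (p : X), ap (acS K₂) Φ z (acS K₂ (θ k) p) = ap (acS K₂) Φ z p) ∧
      (∀ y ∈ A, ∀ p : X, ap (acS K₂) Φ z (acS K₂ y p) = ap (acS K₂) Φ z p) by
    obtain ⟨Φ, h1, -, h3⟩ := H Finset.univ
    exact ⟨Φ, h1, fun k p => h3 k (Finset.mem_univ k) p⟩
  intro A
  induction A using Finset.induction_on with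
  | empty =>
    obtain ⟨Φ₁, h1, h1inv⟩ := hR z
    exact ⟨pull θ Φ₁, h1.pull θ, fun k p => h1inv k p, by simp⟩
  | insert x A _ ih =>
    obtain ⟨Φ₀, h0, hK, hA⟩ := ih
    set c₀ := ap (acS K₂) Φ₀ z with hc₀
    let g : X → X := acS K₂ x
    have hiter : ∀ (n : ℕ) (p : X), g^[n] p = acS K₂ (x ^ n) p := by
      intro n p
      induction n with
      | zero => simp [acS]
      | succ n ih =>
        rw [Function.iterate_succ_apply', ih, pow_succ', acS_mul]
    have hord : 0 < orderOf x := orderOf_pos x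
    obtain ⟨d, hd⟩ : ∃ d, orderOf x = d + 1 := ⟨orderOf x - 1, by omega⟩
    have hper : ∀ p, g^[d + 1] p = p := by
      intro p
      rw [hiter, ← hd, pow_orderOf_eq_one]
      simp [acS]
    obtain ⟨Φ₁, h1, h1inv⟩ := neck_all g d hper c₀
    let τ : Multiplicative ℕ → K₂ := fun n => x ^ (Multiplicative.toAdd n)
    let Φ₁' : (K₂ → ℕ) → ℕ := pull τ Φ₁
    have hap : ∀ (c' : X → ℕ) p, ap (acS K₂) Φ₁' c' p = ap (actN g) Φ₁ c' p := by
      intro c' p
      simp only [ap, Φ₁', pull, τ, actN, hiter]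
    set c₁ := ap (acS K₂) Φ₁' c₀ with hc₁
    have e : ap (acS K₂) (cmp Φ₁' Φ₀) z = c₁ := by
      rw [ap_cmp _ (acS_mul K₂)]
    have keep : ∀ y : K₂, (∀ p, c₀ (acS K₂ y p) = c₀ p) → ∀ p, c₁ (acS K₂ y p) = c₁ p := by
      intro y hy p
      simp only [hc₁, ap, Φ₁', pull]
      congr 1
      funext n
      set w : K₂ := x ^ (Multiplicative.toAdd n) with hw
      have hκ : (w : Γ) * y * (w : Γ)⁻¹ * (y : Γ)⁻¹ ∈ K₁ := hcomm _ w.2 _ y.2
      have e1 : w * y = θ ⟨_, hκ⟩ * y * w := by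
        apply Subtype.ext
        simp [θ, mul_assoc]
      show c₀ (acS K₂ w (acS K₂ y p)) = c₀ (acS K₂ w p)
      rw [← acS_mul, e1, acS_mul, acS_mul, hK, hy]
    refine ⟨cmp Φ₁' Φ₀, h1.pull τ |>.cmp h0, fun k p => ?_, fun y hy p => ?_⟩
    · rw [e]
      exact keep _ (hK k) p
    · rw [e]
      rcases Finset.mem_insert.mp hy with rfl | hyA
      · rw [hc₁, hap, hap]
        exact h1inv p
      · exact keep _ (hA y hyA) p

/-- The symmetric step, at one point. -/
theorem local_sym {K : Subgroup Γ} {M : ℕ} (π : K →* Equiv.Perm (Fin M))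
    (hπ : Function.Surjective π) (c : X → ℕ)
    (hc : ∀ j : K, π j = 1 → ∀ p : X, c (acS K j p) = c p) (p₀ : X) (a b d : Fin M)
    (hst : ∀ σ : Equiv.Perm (Fin M), σ a = a → σ b = b → σ d = d →
      ∃ k : K, π k = σ ∧ (k : Γ) • p₀ = p₀) :
    ∃ Φ : (K → ℕ) → ℕ, CR Φ ∧ ∀ k : K, ap (acS K) Φ c (acS K k p₀) = ap (acS K) Φ c p₀ := by
  classical
  let u₀ : Fin 3 → Fin M := ![a, b, d]
  have hwd : ∀ k k' : K, tact (π k) u₀ = tact (π k') u₀ → c (acS K k p₀) = c (acS K k' p₀) := by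
    intro k k' h
    have hh : ∀ j, π k (u₀ j) = π k' (u₀ j) := fun j => congrFun h j
    have hfix : ∀ j, ((π k')⁻¹ * π k) (u₀ j) = u₀ j := by
      intro j
      show (π k')⁻¹ (π k (u₀ j)) = u₀ j
      rw [Equiv.Perm.inv_eq_iff_eq]
      exact hh j
    obtain ⟨k₂, hk₂, hfixp⟩ := hst ((π k')⁻¹ * π k) (hfix 0) (hfix 1) (hfix 2)
    have hj : π (k * k₂⁻¹ * k'⁻¹) = 1 := by
      rw [map_mul, map_mul, map_inv, map_inv, hk₂]
      group
    have h1 : k = (k * k₂⁻¹ * k'⁻¹) * k' * k₂ := by group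
    have h2 : acS K k₂ p₀ = p₀ := hfixp
    calc c (acS K k p₀) = c (acS K ((k * k₂⁻¹ * k'⁻¹) * k' * k₂) p₀) := by rw [← h1]
      _ = c (acS K (k * k₂⁻¹ * k'⁻¹) (acS K k' p₀)) := by rw [acS_mul, acS_mul, h2]
      _ = c (acS K k' p₀) := hc _ hj _
  let y : (Fin 3 → Fin M) → ℕ := fun τ =>
    if h : ∃ k : K, tact (π k) u₀ = τ then c (acS K (Classical.choose h) p₀) else 0
  have hy : ∀ k : K, y (tact (π k) u₀) = c (acS K k p₀) := by
    intro k
    have h : ∃ k' : K, tact (π k') u₀ = tact (π k) u₀ := ⟨k, rfl⟩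
    simp only [y, dif_pos h]
    exact hwd _ _ (Classical.choose_spec h)
  obtain ⟨Φ₁, h1, hinv⟩ := R_all M y
  let sec : Equiv.Perm (Fin M) → K := Function.surjInv hπ
  have hsec : ∀ σ, π (sec σ) = σ := Function.surjInv_eq hπ
  refine ⟨pull sec Φ₁, h1.pull sec, fun k => ?_⟩
  have key : ∀ k : K, ap (acS K) (pull sec Φ₁) c (acS K k p₀) = ap tact Φ₁ y (tact (π k) u₀) := by
    intro k
    simp only [ap, pull]
    congr 1
    funext σ
    rw [← acS_mul, ← hy, map_mul, hsec]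
    rfl
  have h11 : acS K (1 : K) p₀ = p₀ := by simp [acS]
  calc ap (acS K) (pull sec Φ₁) c (acS K k p₀) = ap tact Φ₁ y (tact (π k) u₀) := key k
    _ = ap tact Φ₁ y u₀ := hinv _ _
    _ = ap tact Φ₁ y (tact (π 1) u₀) := by rw [map_one]; rfl
    _ = ap (acS K) (pull sec Φ₁) c (acS K 1 p₀) := (key 1).symm
    _ = ap (acS K) (pull sec Φ₁) c p₀ := by rw [h11]

/-- The symmetric step. -/
theorem RG.step_sym [Finite X] {K₁ K₂ : Subgroup Γ} (hle : K₁ ≤ K₂) (hR : RG X K₁) {M : ℕ}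
    (π : K₂ →* Equiv.Perm (Fin M)) (hπ : Function.Surjective π)
    (hker : ∀ k : K₂, π k = 1 → (k : Γ) ∈ K₁)
    (hst : ∀ p : X, ∃ a b d : Fin M, ∀ σ : Equiv.Perm (Fin M), σ a = a → σ b = b → σ d = d →
      ∃ k : K₂, π k = σ ∧ (k : Γ) • p = p) : RG X K₂ := by
  refine RG.of_local hle hR fun c hc p₀ => ?_
  obtain ⟨a, b, d, h⟩ := hst p₀
  exact local_sym π hπ c (fun j hj p => hc ⟨j.1, hker j hj⟩ p) p₀ a b d h

end steps

section main

/-- **The chain theorem with three kinds of sections.**  A finite group `Γ` acts transitively by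
isometries on a set `X` of a Euclidean space, and `K 0 = 1 ≤ K 1 ≤ ... ≤ K n = Γ` is a chain of
subgroups such that at each step one of the following holds:
* every orbit of `K (i+1)` on `X` is the union of at most two orbits of `K i`;
* all commutators of elements of `K (i+1)` lie in `K i`;
* there is a surjective homomorphism `π` from `K (i+1)` to a symmetric group `Perm (Fin M)`, with
  kernel inside `K i`, and for every point `p` of `X` there are indices `a, b, c` such that each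
  permutation fixing `a, b, c` is the image under `π` of an element of `K (i+1)` fixing `p`.
Then `X` is Ramsey. -/
theorem chain_master {ι Γ : Type} [Fintype ι] [Group Γ] [Finite Γ]
    {X : Set (EuclideanSpace ℝ ι)} [MulAction Γ X]
    (hiso : ∀ (g : Γ) (p q : X),
      dist ((g • p : X) : EuclideanSpace ℝ ι) (g • q : X) = dist (p : EuclideanSpace ℝ ι) q)
    (htr : ∀ p q : X, ∃ g : Γ, g • p = q)
    (n : ℕ) (K : ℕ → Subgroup Γ) (h0 : K 0 = ⊥) (hn : K n = ⊤)
    (hstep : ∀ i < n, K i ≤ K (i + 1) ∧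
      ((∀ p : X, ∃ s₁ s₂ : X, ∀ k ∈ K (i + 1), ∃ k' ∈ K i, k • p = k' • s₁ ∨ k • p = k' • s₂) ∨
       (∀ a ∈ K (i + 1), ∀ b ∈ K (i + 1), a * b * a⁻¹ * b⁻¹ ∈ K i) ∨
       (∃ (M : ℕ) (π : K (i + 1) →* Equiv.Perm (Fin M)), Function.Surjective π ∧
          (∀ k : K (i + 1), π k = 1 → (k : Γ) ∈ K i) ∧
          ∀ p : X, ∃ a b c : Fin M, ∀ σ : Equiv.Perm (Fin M), σ a = a → σ b = b → σ c = c →
            ∃ k : K (i + 1), π k = σ ∧ (k : Γ) • p = p))) :
    IsRamsey X := by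
  classical
  haveI : Finite X := by
    rcases isEmpty_or_nonempty X with h | ⟨⟨p⟩⟩
    · infer_instance
    · exact Finite.of_surjective (fun g : Γ => g • p) (fun q => htr p q)
  haveI := Fintype.ofFinite X
  have hR : ∀ i ≤ n, RG X (K i) := by
    intro i
    induction i with
    | zero =>
      intro _
      rw [h0]
      exact RG.bot
    | succ i ih =>
      intro hi
      have hi' : i < n := by omega
      have hRi := ih (by omega)
      obtain ⟨hle, h | h | ⟨M, π, hπ, hker, hst⟩⟩ := hstep i hi'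
      · exact RG.step_two hle hRi h
      · exact RG.step_comm hle hRi h
      · exact RG.step_sym hle hRi π hπ hker hst
  have htop := hR n le_rfl
  rw [hn] at htop
  let e : X ≃ Fin (Fintype.card X) := Fintype.equivFin X
  let z : X → ℕ := fun p => (e p).val
  obtain ⟨Φ, ⟨Y, iY, neY, kk, hk⟩, hinv⟩ := htop z
  have hact : ∀ (u : (⊤ : Subgroup Γ)) (p : X), acS ⊤ u p = (u : Γ) • p := fun _ _ => rfl
  have hcopy := hk Unit X (fun _ u g => z (acS ⊤ g u)) (Copy.of_const fun _ t t' => by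
    obtain ⟨g, rfl⟩ := htr t t'
    exact (hinv ⟨g, Subgroup.mem_top g⟩ t).symm)
  let val : ℕ → EuclideanSpace ℝ ι := fun m =>
    if h : m < Fintype.card X then ((e.symm ⟨m, h⟩ : X) : EuclideanSpace ℝ ι) else 0
  have hval : ∀ p : X, val (z p) = p := by
    intro p
    have hlt : z p < Fintype.card X := (e p).isLt
    simp only [val, dif_pos hlt]
    have : (⟨z p, hlt⟩ : Fin (Fintype.card X)) = e p := Fin.ext rfl
    rw [this, Equiv.symm_apply_apply]
  have hμ : (0 : ℝ) < (Fintype.card (Unit × Y) : ℝ) := by exact_mod_cast Fintype.card_pos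
  refine isRamsey_of_copy_points _ hcopy val (fun p : X => (p : EuclideanSpace ℝ ι)) _ hμ ?_ X
    (fun y hy => ⟨⟨y, hy⟩, rfl⟩)
  intro t t'
  have h2 : ∀ q : Unit × Y, dist (val (z (acS ⊤ (kk q.2) t))) (val (z (acS ⊤ (kk q.2) t'))) ^ 2
      = dist (t : EuclideanSpace ℝ ι) t' ^ 2 := by
    intro q
    rw [hval, hval, hact, hact, hiso]
  rw [Finset.sum_congr rfl fun q _ => h2 q, Finset.sum_const, Finset.card_univ, nsmul_eq_mul]

end main

end Vale.Agent.Lib.P058.ChainS
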