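import Vale.Agent.Lib.P058.Sweep

open Finset

namespace Vale.Agent.Lib.P058

set_option linter.unusedSectionVars false

variable {ι κ : Type*} [Fintype ι] [Nonempty ι] [DecidableEq ι] [Fintype κ] [DecidableEq κ]

/-- The rounded coordinate used by the sweep columns. -/
noncomputable def rnd (b : ι → κ → ℤ) (ρ : ℤ) (i : ι) (t : ℤ) (p : κ) : ℤ :=
  round ((t : ℝ) * (b i p : ℝ) / (ρ : ℝ))

/-- The column used to raise row `i` at the level `t`. -/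
noncomputable def sweepCol (b : ι → κ → ℤ) (ρ : ℤ) (l0 : κ) (i : ι) (t : ℤ) (p : κ) : ℤ :=
  if p = l0 then t - ∑ q ∈ univ.erase l0, b i q * rnd b ρ i t q else rnd b ρ i t p

/-- Weight used for the potential. -/
noncomputable def psiK (K : ℕ) (t : ℤ) : ℝ := (1 + |(t : ℝ)|) ^ K

lemma psiK_nonneg (K : ℕ) (t : ℤ) : 0 ≤ psiK K t := by
  unfold psiK; positivity

lemma one_le_psiK (K : ℕ) (t : ℤ) : 1 ≤ psiK K t := by
  unfold psiK
  exact one_le_pow₀ (by linarith [abs_nonneg (t : ℝ)])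

section cols

variable {b : ι → κ → ℤ} {ρ : ℤ} {l0 : κ}

lemma sum_split (f : κ → ℤ) (l0 : κ) : ∑ p, f p = f l0 + ∑ q ∈ univ.erase l0, f q :=
  (Finset.add_sum_erase _ _ (Finset.mem_univ l0)).symm

lemma lev_sweepCol_eq (hl0 : ∀ i, b i l0 = 1) (i j : ι) (t : ℤ) :
    lev b j (sweepCol b ρ l0 i t)
      = t + ∑ q ∈ univ.erase l0, (b j q - b i q) * rnd b ρ i t q := by
  unfold lev
  rw [sum_split _ l0]
  have h1 : sweepCol b ρ l0 i t l0 = t - ∑ q ∈ univ.erase l0, b i q * rnd b ρ i t q := by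
    simp [sweepCol]
  rw [h1, hl0 j, one_mul]
  have h2 : ∑ q ∈ univ.erase l0, b j q * sweepCol b ρ l0 i t q
      = ∑ q ∈ univ.erase l0, b j q * rnd b ρ i t q := by
    refine Finset.sum_congr rfl fun q hq => ?_
    have : q ≠ l0 := (Finset.mem_erase.mp hq).1
    simp [sweepCol, this]
  rw [h2, sub_eq_add_neg, add_assoc, add_right_inj]
  simp only [sub_mul, Finset.sum_sub_distrib]
  ring

lemma lev_sweepCol_self (hl0 : ∀ i, b i l0 = 1) (i : ι) (t : ℤ) :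
    lev b i (sweepCol b ρ l0 i t) = t := by
  rw [lev_sweepCol_eq hl0]
  simp

/-- The total size of the row entries. -/
noncomputable def bSize (b : ι → κ → ℤ) : ℝ := ∑ i, ∑ q, |(b i q : ℝ)|

lemma bSize_nonneg (b : ι → κ → ℤ) : 0 ≤ bSize b :=
  Finset.sum_nonneg fun _ _ => Finset.sum_nonneg fun _ _ => abs_nonneg _

lemma abs_entry_le_bSize (b : ι → κ → ℤ) (i : ι) (q : κ) : |(b i q : ℝ)| ≤ bSize b := by
  unfold bSize
  calc |(b i q : ℝ)| ≤ ∑ q', |(b i q' : ℝ)| :=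
        Finset.single_le_sum (f := fun q' => |(b i q' : ℝ)|) (fun _ _ => abs_nonneg _)
          (Finset.mem_univ q)
    _ ≤ ∑ i', ∑ q', |(b i' q' : ℝ)| :=
        Finset.single_le_sum (f := fun i' => ∑ q', |(b i' q' : ℝ)|)
          (fun _ _ => Finset.sum_nonneg fun _ _ => abs_nonneg _) (Finset.mem_univ i)

lemma sum_row_le_bSize (b : ι → κ → ℤ) (i : ι) : ∑ q, |(b i q : ℝ)| ≤ bSize b := by
  unfold bSize
  exact Finset.single_le_sum (f := fun i' => ∑ q', |(b i' q' : ℝ)|)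
    (fun _ _ => Finset.sum_nonneg fun _ _ => abs_nonneg _) (Finset.mem_univ i)

lemma rho_pos (hl0 : ∀ i, b i l0 = 1) (hρ : ∀ i, ∑ p, b i p ^ 2 = ρ) : 1 ≤ ρ := by
  obtain ⟨i⟩ := (inferInstance : Nonempty ι)
  rw [← hρ i]
  have := Finset.single_le_sum (f := fun p => b i p ^ 2) (fun _ _ => sq_nonneg _)
    (Finset.mem_univ l0)
  simp only [hl0 i] at this
  simpa using this

/-- The inner product of two rows. -/
def ipr (b : ι → κ → ℤ) (i j : ι) : ℤ := ∑ p, b i p * b j p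

lemma ipr_le (hl0 : ∀ i, b i l0 = 1) (hρ : ∀ i, ∑ p, b i p ^ 2 = ρ)
    (hinj : Function.Injective b) (i j : ι) (hij : i ≠ j) : ipr b i j ≤ ρ - 1 := by
  have hne : b i ≠ b j := fun h => hij (hinj h)
  obtain ⟨p, hp⟩ := Function.ne_iff.mp hne
  have h1 : 0 < ∑ q, (b i q - b j q) ^ 2 := by
    refine Finset.sum_pos' (fun _ _ => sq_nonneg _) ⟨p, Finset.mem_univ p, ?_⟩
    have : b i p - b j p ≠ 0 := sub_ne_zero.mpr hp
    positivity
  have h2 : ∑ q, (b i q - b j q) ^ 2 = 2 * ρ - 2 * ipr b i j := by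
    have : ∀ q, (b i q - b j q) ^ 2 = b i q ^ 2 + b j q ^ 2 - 2 * (b i q * b j q) := fun q => by ring
    simp only [this, Finset.sum_sub_distrib, Finset.sum_add_distrib, hρ, ipr, Finset.mul_sum]
    ring
  omega

lemma neg_ipr_le (hl0 : ∀ i, b i l0 = 1) (hρ : ∀ i, ∑ p, b i p ^ 2 = ρ)
    (i j : ι) : -ipr b i j ≤ ρ - 1 := by
  have h1 : 0 < ∑ q, (b i q + b j q) ^ 2 := by
    refine Finset.sum_pos' (fun _ _ => sq_nonneg _) ⟨l0, Finset.mem_univ l0, ?_⟩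
    rw [hl0 i, hl0 j]; norm_num
  have h2 : ∑ q, (b i q + b j q) ^ 2 = 2 * ρ + 2 * ipr b i j := by
    have : ∀ q, (b i q + b j q) ^ 2 = b i q ^ 2 + b j q ^ 2 + 2 * (b i q * b j q) := fun q => by ring
    simp only [this, Finset.sum_add_distrib, hρ, ipr, Finset.mul_sum]
    ring
  omega

lemma abs_rnd_le (hl0 : ∀ i, b i l0 = 1) (hρ : ∀ i, ∑ p, b i p ^ 2 = ρ) (i : ι) (t : ℤ) (q : κ) :
    |((rnd b ρ i t q : ℤ) : ℝ)| ≤ |(t : ℝ)| + 1 := by
  have hρ1 : (1 : ℝ) ≤ (ρ : ℝ) := by exact_mod_cast rho_pos hl0 hρ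
  have hq : |(b i q : ℝ)| ≤ (ρ : ℝ) := by
    have h1 : b i q ^ 2 ≤ ρ := by
      rw [← hρ i]
      exact Finset.single_le_sum (f := fun p => b i p ^ 2) (fun _ _ => sq_nonneg _)
        (Finset.mem_univ q)
    have h2 : |b i q| ≤ b i q ^ 2 := by
      rw [← sq_abs (b i q)]
      by_cases h0 : b i q = 0
      · simp [h0]
      · have : 1 ≤ |b i q| := Int.one_le_abs h0
        nlinarith
    have h3 : |b i q| ≤ ρ := h2.trans h1
    exact_mod_cast h3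
  have h1 := abs_sub_round ((t : ℝ) * (b i q : ℝ) / (ρ : ℝ))
  have h2 : |(t : ℝ) * (b i q : ℝ) / (ρ : ℝ)| ≤ |(t : ℝ)| := by
    rw [abs_div, abs_mul, abs_of_pos (by linarith : (0 : ℝ) < ρ)]
    rw [div_le_iff₀ (by linarith)]
    exact mul_le_mul_of_nonneg_left hq (abs_nonneg _)
  unfold rnd
  have h3 := abs_sub_abs_le_abs_sub
    ((round ((t : ℝ) * (b i q : ℝ) / (ρ : ℝ)) : ℤ) : ℝ) ((t : ℝ) * (b i q : ℝ) / (ρ : ℝ))
  rw [abs_sub_comm] at h1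
  linarith

/-- The key estimate: the level of a column in another row. -/
lemma lev_sweepCol_other (hl0 : ∀ i, b i l0 = 1) (hρ : ∀ i, ∑ p, b i p ^ 2 = ρ)
    (hinj : Function.Injective b) (i j : ι) (hij : i ≠ j) (t : ℤ) :
    |((lev b j (sweepCol b ρ l0 i t) : ℤ) : ℝ)| ≤ |(t : ℝ)| * (1 - 1 / (ρ : ℝ)) + 2 * bSize b := by
  have hρ1 : (1 : ℝ) ≤ (ρ : ℝ) := by exact_mod_cast rho_pos hl0 hρ
  have hρ0 : (ρ : ℝ) ≠ 0 := by linarith
  have hcast : ((lev b j (sweepCol b ρ l0 i t) : ℤ) : ℝ)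
      = (t : ℝ) + ∑ q ∈ univ.erase l0, ((b j q : ℝ) - (b i q : ℝ)) * (rnd b ρ i t q : ℝ) := by
    rw [lev_sweepCol_eq hl0]
    push_cast
    rfl
  -- the errors
  set e : κ → ℝ := fun q => (rnd b ρ i t q : ℝ) - (t : ℝ) * (b i q : ℝ) / (ρ : ℝ) with he
  have he1 : ∀ q, |e q| ≤ 1 / 2 := fun q => by
    have := abs_sub_round ((t : ℝ) * (b i q : ℝ) / (ρ : ℝ))
    rw [abs_sub_comm] at this
    exact this
  have hmain : ((lev b j (sweepCol b ρ l0 i t) : ℤ) : ℝ)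
      = (t : ℝ) * ((ipr b j i : ℤ) : ℝ) / (ρ : ℝ)
        + ∑ q ∈ univ.erase l0, ((b j q : ℝ) - (b i q : ℝ)) * e q := by
    rw [hcast]
    have h2 : ∑ q ∈ univ.erase l0, ((b j q : ℝ) - (b i q : ℝ)) * (rnd b ρ i t q : ℝ)
        = ∑ q ∈ univ.erase l0, ((b j q : ℝ) - (b i q : ℝ)) * e q
          + ∑ q ∈ univ.erase l0, ((b j q : ℝ) - (b i q : ℝ)) * ((t : ℝ) * (b i q : ℝ) / (ρ : ℝ)) := by
      rw [← Finset.sum_add_distrib]
      refine Finset.sum_congr rfl fun q _ => ?_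
      simp only [he]; ring
    have h3 : ∑ q ∈ univ.erase l0, ((b j q : ℝ) - (b i q : ℝ)) * ((t : ℝ) * (b i q : ℝ) / (ρ : ℝ))
        = (t : ℝ) / (ρ : ℝ) * (((ipr b j i : ℤ) : ℝ) - (ρ : ℝ)) := by
      have h4 : ∑ q ∈ univ.erase l0, ((b j q : ℝ) - (b i q : ℝ)) * ((t : ℝ) * (b i q : ℝ) / (ρ : ℝ))
          = ∑ q, ((b j q : ℝ) - (b i q : ℝ)) * ((t : ℝ) * (b i q : ℝ) / (ρ : ℝ)) := by
        rw [← Finset.add_sum_erase _ _ (Finset.mem_univ l0)]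
        simp [hl0]
      rw [h4]
      have h5 : ((ipr b j i : ℤ) : ℝ) = ∑ q, (b j q : ℝ) * (b i q : ℝ) := by
        unfold ipr; push_cast; rfl
      have h6 : (ρ : ℝ) = ∑ q, (b i q : ℝ) * (b i q : ℝ) := by
        rw [← hρ i]; push_cast
        exact Finset.sum_congr rfl fun q _ => by ring
      have h7 : ((ipr b j i : ℤ) : ℝ) - (ρ : ℝ) = ∑ q, ((b j q : ℝ) - (b i q : ℝ)) * (b i q : ℝ) := by
        rw [h5, h6, ← Finset.sum_sub_distrib]
        exact Finset.sum_congr rfl fun q _ => by ring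
      rw [h7, Finset.mul_sum]
      refine Finset.sum_congr rfl fun q _ => ?_
      field_simp
    rw [h2, h3]
    field_simp
    ring
  have hsum : |∑ q ∈ univ.erase l0, ((b j q : ℝ) - (b i q : ℝ)) * e q| ≤ 2 * bSize b := by
    calc |∑ q ∈ univ.erase l0, ((b j q : ℝ) - (b i q : ℝ)) * e q|
        ≤ ∑ q ∈ univ.erase l0, |((b j q : ℝ) - (b i q : ℝ)) * e q| :=
          Finset.abs_sum_le_sum_abs _ _
      _ ≤ ∑ q, |((b j q : ℝ) - (b i q : ℝ)) * e q| :=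
          Finset.sum_le_sum_of_subset_of_nonneg (Finset.subset_univ _)
            (fun _ _ _ => abs_nonneg _)
      _ ≤ ∑ q, (|(b j q : ℝ)| + |(b i q : ℝ)|) := by
          refine Finset.sum_le_sum fun q _ => ?_
          rw [abs_mul]
          have h1 := abs_sub ((b j q : ℝ)) ((b i q : ℝ))
          have h2 := he1 q
          have h3 := abs_nonneg (e q)
          have h4 := abs_nonneg ((b j q : ℝ) - (b i q : ℝ))
          nlinarith
      _ = ∑ q, |(b j q : ℝ)| + ∑ q, |(b i q : ℝ)| := Finset.sum_add_distrib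
      _ ≤ 2 * bSize b := by
          have h1 := sum_row_le_bSize b i
          have h2 := sum_row_le_bSize b j
          linarith
  have hipr : |((ipr b j i : ℤ) : ℝ)| ≤ (ρ : ℝ) - 1 := by
    have h1 : ipr b j i ≤ ρ - 1 := ipr_le hl0 hρ hinj j i hij.symm
    have h2 : -ipr b j i ≤ ρ - 1 := neg_ipr_le hl0 hρ j i
    have h3 : |ipr b j i| ≤ ρ - 1 := abs_le.mpr ⟨by omega, h1⟩
    exact_mod_cast h3
  have h1 : |(t : ℝ) * ((ipr b j i : ℤ) : ℝ) / (ρ : ℝ)| ≤ |(t : ℝ)| * (1 - 1 / (ρ : ℝ)) := by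
    rw [abs_div, abs_mul, abs_of_pos (by linarith : (0 : ℝ) < ρ)]
    rw [div_le_iff₀ (by linarith), mul_assoc]
    refine mul_le_mul_of_nonneg_left ?_ (abs_nonneg _)
    have : (1 - 1 / (ρ : ℝ)) * (ρ : ℝ) = (ρ : ℝ) - 1 := by field_simp
    rw [this]
    exact hipr
  rw [hmain]
  exact (abs_add_le _ _).trans (add_le_add h1 hsum)

lemma abs_sweepCol_le (hl0 : ∀ i, b i l0 = 1) (hρ : ∀ i, ∑ p, b i p ^ 2 = ρ) (i : ι) (t : ℤ)
    (p : κ) : |((sweepCol b ρ l0 i t p : ℤ) : ℝ)| ≤ (1 + bSize b) * (1 + |(t : ℝ)|) := by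
  have hB := bSize_nonneg b
  have ht := abs_nonneg (t : ℝ)
  unfold sweepCol
  split_ifs with hp
  · push_cast
    have h1 : |∑ q ∈ univ.erase l0, (b i q : ℝ) * (rnd b ρ i t q : ℝ)|
        ≤ bSize b * (1 + |(t : ℝ)|) := by
      calc |∑ q ∈ univ.erase l0, (b i q : ℝ) * (rnd b ρ i t q : ℝ)|
          ≤ ∑ q ∈ univ.erase l0, |(b i q : ℝ) * (rnd b ρ i t q : ℝ)| :=
            Finset.abs_sum_le_sum_abs _ _
        _ ≤ ∑ q, |(b i q : ℝ) * (rnd b ρ i t q : ℝ)| :=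
            Finset.sum_le_sum_of_subset_of_nonneg (Finset.subset_univ _)
              (fun _ _ _ => abs_nonneg _)
        _ ≤ ∑ q, |(b i q : ℝ)| * (1 + |(t : ℝ)|) := by
            refine Finset.sum_le_sum fun q _ => ?_
            rw [abs_mul]
            refine mul_le_mul_of_nonneg_left ?_ (abs_nonneg _)
            linarith [abs_rnd_le hl0 hρ i t q]
        _ = (∑ q, |(b i q : ℝ)|) * (1 + |(t : ℝ)|) := by rw [Finset.sum_mul]
        _ ≤ bSize b * (1 + |(t : ℝ)|) :=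
            mul_le_mul_of_nonneg_right (sum_row_le_bSize b i) (by linarith)
    have h2 := abs_sub (t : ℝ) (∑ q ∈ univ.erase l0, (b i q : ℝ) * (rnd b ρ i t q : ℝ))
    nlinarith
  · have h1 := abs_rnd_le hl0 hρ i t p
    nlinarith

lemma nsq_sweepCol_le (hl0 : ∀ i, b i l0 = 1) (hρ : ∀ i, ∑ p, b i p ^ 2 = ρ) (i : ι) (t : ℤ) :
    ((nsq (sweepCol b ρ l0 i t) : ℤ) : ℝ)
      ≤ (Fintype.card κ : ℝ) * ((1 + bSize b) * (1 + |(t : ℝ)|)) ^ 2 := by
  unfold nsq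
  push_cast
  calc ∑ p, ((sweepCol b ρ l0 i t p : ℤ) : ℝ) ^ 2
      ≤ ∑ _p : κ, ((1 + bSize b) * (1 + |(t : ℝ)|)) ^ 2 := by
        refine Finset.sum_le_sum fun p _ => ?_
        rw [← sq_abs]
        exact pow_le_pow_left₀ (abs_nonneg _) (abs_sweepCol_le hl0 hρ i t p) 2
    _ = _ := by simp [Finset.sum_const, Finset.card_univ, nsmul_eq_mul]

end cols

/-- The columns satisfy all hypotheses of the sweep above a suitable level. -/
theorem exists_levelHyp {b : ι → κ → ℤ} {ρ : ℤ} {l0 : κ} (hl0 : ∀ i, b i l0 = 1)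
    (hρ : ∀ i, ∑ p, b i p ^ 2 = ρ) (hinj : Function.Injective b) :
    ∃ (K T0 : ℕ), ∀ s : ℤ, (T0 : ℤ) < |s| →
      LevelHyp b (sweepCol b ρ l0) (psiK K) s := by
  have hρ1 : (1 : ℝ) ≤ (ρ : ℝ) := by exact_mod_cast rho_pos hl0 hρ
  set k : ℝ := (Fintype.card ι : ℝ) with hk
  have hk1 : (1 : ℝ) ≤ k := by
    rw [hk]; exact_mod_cast (Fintype.card_pos : 0 < Fintype.card ι)
  set B := bSize b with hB
  have hB0 : 0 ≤ B := bSize_nonneg b
  -- the decay factor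
  set q : ℝ := 1 - 1 / (2 * (ρ : ℝ)) with hq
  have hq0 : 0 ≤ q := by
    rw [hq]
    have : 1 / (2 * (ρ : ℝ)) ≤ 1 / 2 := by
      apply one_div_le_one_div_of_le <;> linarith
    linarith
  have hq1 : q < 1 := by
    rw [hq]
    have : 0 < 1 / (2 * (ρ : ℝ)) := by positivity
    linarith
  obtain ⟨K0, hK0⟩ := exists_pow_lt_of_lt_one (show (0 : ℝ) < 1 / (4 * k ^ 3) by positivity) hq1
  set K := K0 + 3 with hK
  have hqK : 4 * k ^ 3 * q ^ K ≤ 1 := by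
    have h1 : q ^ K ≤ q ^ K0 := by
      rw [hK, pow_add]
      have : q ^ 3 ≤ 1 := pow_le_one₀ hq0 hq1.le
      have h2 : 0 ≤ q ^ K0 := by positivity
      nlinarith
    have h2 : q ^ K ≤ 1 / (4 * k ^ 3) := h1.trans hK0.le
    calc 4 * k ^ 3 * q ^ K ≤ 4 * k ^ 3 * (1 / (4 * k ^ 3)) :=
          mul_le_mul_of_nonneg_left h2 (by positivity)
      _ = 1 := by field_simp
  -- thresholds
  set C1 : ℝ := 2 + 2 * (ρ : ℝ) * (2 * B) with hC1
  set C2 : ℝ := 2 * k * (Fintype.card κ : ℝ) * (1 + B) ^ 2 with hC2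
  have hC2nn : 0 ≤ C2 := by rw [hC2]; positivity
  obtain ⟨T0, hT0⟩ := exists_nat_ge (max (max C1 C2) ((ρ : ℝ) * (2 * B)))
  refine ⟨K, T0, fun s hs => ?_⟩
  have hsR : (T0 : ℝ) < |(s : ℝ)| := by
    have : ((T0 : ℤ) : ℝ) < ((|s| : ℤ) : ℝ) := by exact_mod_cast hs
    simpa using this
  have h1 : C1 ≤ (T0 : ℝ) := (le_max_left _ _).trans ((le_max_left _ _).trans hT0)
  have h2 : C2 ≤ (T0 : ℝ) := (le_max_right _ _).trans ((le_max_left _ _).trans hT0)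
  have h3 : (ρ : ℝ) * (2 * B) ≤ (T0 : ℝ) := (le_max_right _ _).trans hT0
  have hs0 : 0 ≤ |(s : ℝ)| := abs_nonneg _
  have hothers : ∀ i j, i ≠ j → (1 + |((lev b j (sweepCol b ρ l0 i s) : ℤ) : ℝ)|)
      ≤ q * (1 + |(s : ℝ)|) := by
    intro i j hij
    have h4 := lev_sweepCol_other hl0 hρ hinj i j hij s
    have h5 : q * (1 + |(s : ℝ)|) = 1 + |(s : ℝ)| - (1 + |(s : ℝ)|) / (2 * (ρ : ℝ)) := by
      rw [hq]; field_simp
    have h6 : (2 + 2 * (ρ : ℝ) * (2 * B)) / (2 * (ρ : ℝ)) ≤ (1 + |(s : ℝ)|) / (2 * (ρ : ℝ)) := by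
      apply div_le_div_of_nonneg_right _ (by positivity)
      linarith
    have h7 : (2 + 2 * (ρ : ℝ) * (2 * B)) / (2 * (ρ : ℝ)) = 1 / (ρ : ℝ) + 2 * B := by
      field_simp
    have h8 : |(s : ℝ)| * (1 - 1 / (ρ : ℝ)) = |(s : ℝ)| - |(s : ℝ)| / (ρ : ℝ) := by
      field_simp
    have h9 : (1 + |(s : ℝ)|) / (2 * (ρ : ℝ)) ≤ 1 + |(s : ℝ)| / (ρ : ℝ) := by
      have : 1 / (ρ : ℝ) ≤ 1 := by
        rw [div_le_one (by linarith)]; exact hρ1
      have h10 : (1 + |(s : ℝ)|) / (2 * (ρ : ℝ))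
          = (1 / (ρ : ℝ)) / 2 + (|(s : ℝ)| / (ρ : ℝ)) / 2 := by
        field_simp
      have h11 : 0 ≤ |(s : ℝ)| / (ρ : ℝ) := by positivity
      rw [h10]; linarith
    -- combine
    have hsρ : (1 + |(s : ℝ)|) / (2 * (ρ : ℝ)) + 2 * B + 1 ≤ 1 + |(s : ℝ)| / (ρ : ℝ) := by
      have h12 : 2 * (2 * B) * (ρ : ℝ) + 2 ≤ |(s : ℝ)| := by
        have : C1 ≤ |(s : ℝ)| := by linarith
        rw [hC1] at this; nlinarith
      have h13 : (1 + |(s : ℝ)|) / (2 * (ρ : ℝ)) + 2 * B + 1 / (2 * (ρ : ℝ))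
          ≤ |(s : ℝ)| / (ρ : ℝ) + 1 / (2 * (ρ : ℝ)) := by
        have e1 : (1 + |(s : ℝ)|) / (2 * (ρ : ℝ)) + 2 * B + 1 / (2 * (ρ : ℝ))
            = (2 + |(s : ℝ)| + 2 * (2 * B) * (ρ : ℝ)) / (2 * (ρ : ℝ)) := by
          field_simp
          ring
        have e2 : |(s : ℝ)| / (ρ : ℝ) + 1 / (2 * (ρ : ℝ))
            = (2 * |(s : ℝ)| + 1) / (2 * (ρ : ℝ)) := by
          field_simp
        rw [e1, e2]
        apply div_le_div_of_nonneg_right _ (by positivity)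
        linarith
      have h14 : 1 / (2 * (ρ : ℝ)) ≤ 1 := by
        rw [div_le_one (by positivity)]; linarith
      linarith
    rw [h5]
    linarith
  refine ⟨fun i => lev_sweepCol_self hl0 i s, ?_, ?_, ?_⟩
  · intro i j hij
    have h4 := hothers i j hij
    have hlt : |((lev b j (sweepCol b ρ l0 i s) : ℤ) : ℝ)| < |(s : ℝ)| := by
      have hq2 : q * (1 + |(s : ℝ)|) < 1 + |(s : ℝ)| := by
        have : 0 < 1 + |(s : ℝ)| := by linarith
        nlinarith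
      have h5 : 1 + |((lev b j (sweepCol b ρ l0 i s) : ℤ) : ℝ)| < 1 + |(s : ℝ)| := h4.trans_lt hq2
      linarith
    have : ((|lev b j (sweepCol b ρ l0 i s)| : ℤ) : ℝ) < ((|s| : ℤ) : ℝ) := by
      push_cast; exact hlt
    exact_mod_cast this
  · intro i j hij
    unfold psiK
    have h4 := hothers i j hij
    have h5 : (1 + |((lev b j (sweepCol b ρ l0 i s) : ℤ) : ℝ)|) ^ K
        ≤ (q * (1 + |(s : ℝ)|)) ^ K :=
      pow_le_pow_left₀ (by positivity) h4 K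
    rw [mul_pow] at h5
    have h6 : 0 ≤ (1 + |(s : ℝ)|) ^ K := by positivity
    calc 4 * (Fintype.card ι : ℝ) ^ 3 * (1 + |((lev b j (sweepCol b ρ l0 i s) : ℤ) : ℝ)|) ^ K
        ≤ 4 * k ^ 3 * (q ^ K * (1 + |(s : ℝ)|) ^ K) :=
          mul_le_mul_of_nonneg_left h5 (by positivity)
      _ = (4 * k ^ 3 * q ^ K) * (1 + |(s : ℝ)|) ^ K := by ring
      _ ≤ 1 * (1 + |(s : ℝ)|) ^ K := mul_le_mul_of_nonneg_right hqK h6
      _ = (1 + |(s : ℝ)|) ^ K := one_mul _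
  · intro i
    unfold psiK
    have h4 := nsq_sweepCol_le hl0 hρ i s
    have hx : (1 : ℝ) ≤ 1 + |(s : ℝ)| := by linarith
    have h5 : (1 + |(s : ℝ)|) ^ K ≥ (1 + |(s : ℝ)|) ^ 3 :=
      pow_le_pow_right₀ hx (by omega)
    have h6 : C2 ≤ 1 + |(s : ℝ)| := by linarith
    calc 2 * (Fintype.card ι : ℝ) * ((nsq (sweepCol b ρ l0 i s) : ℤ) : ℝ)
        ≤ 2 * k * ((Fintype.card κ : ℝ) * ((1 + B) * (1 + |(s : ℝ)|)) ^ 2) :=
          mul_le_mul_of_nonneg_left h4 (by positivity)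
      _ = C2 * (1 + |(s : ℝ)|) ^ 2 := by rw [hC2]; ring
      _ ≤ (1 + |(s : ℝ)|) * (1 + |(s : ℝ)|) ^ 2 :=
          mul_le_mul_of_nonneg_right h6 (by positivity)
      _ = (1 + |(s : ℝ)|) ^ 3 := by ring
      _ ≤ (1 + |(s : ℝ)|) ^ K := h5

end Vale.Agent.Lib.P058
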