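import Mathlib

/-! # P058: definitions for the deletion tower method -/

namespace Vale.Agent.Lib.P058

open Finset

/-- A set `A` in Euclidean space is Ramsey: for every number `r ≥ 2` of colours there is a
dimension `D ≥ 1` such that every `r`-colouring of `ℝ^D` is constant on a congruent copy of `A`. -/
def IsRamsey {ι : Type*} [Fintype ι] (A : Set (EuclideanSpace ℝ ι)) : Prop :=
  ∀ r : ℕ, 2 ≤ r → ∃ D : ℕ, 1 ≤ D ∧ ∀ c : EuclideanSpace ℝ (Fin D) → Fin r,
    ∃ (f : EuclideanSpace ℝ ι → EuclideanSpace ℝ (Fin D)) (k : Fin r),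
      (∀ x ∈ A, ∀ y ∈ A, dist (f x) (f y) = dist x y) ∧ ∀ x ∈ A, c (f x) = k

/-- Value of a slot on a token: a designated column, or a constant letter. -/
def ev {U ι Λ : Type*} (M : ι → U → Λ) (s : ι ⊕ Λ) (t : U) : Λ :=
  s.elim (fun i => M i t) id

/-- Weight of a slot: designated columns carry a weight, constant letters weigh nothing. -/
def wt {ι Λ : Type*} (g : ι → ℝ) (s : ι ⊕ Λ) : ℝ :=
  s.elim g (fun _ => 0)

/-- `Copy M`: for every number of colours there is a word length `N` such that every colouring of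
the words `Fin N → Λ` has a slot assignment, each designated column `M i` being used once in the
weighted sense and all other slots constant, whose token words all have one colour. -/
def Copy {U ι Λ : Type*} [Fintype ι] (M : ι → U → Λ) : Prop :=
  ∀ r : ℕ, ∃ N : ℕ, ∀ χ : (Fin N → Λ) → Fin r, ∃ s : Fin N → ι ⊕ Λ,
    (∀ g : ι → ℝ, ∑ p, wt g (s p) = ∑ i, g i) ∧
    ∀ t t', χ (fun p => ev M (s p) t) = χ (fun p => ev M (s p) t')

/-- The non-default subword of a word. -/
def sub {Λ : Type*} [DecidableEq Λ] (δ : Λ) {L : ℕ} (u : Fin L → Λ) : List Λ :=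
  (List.ofFn u).filter (· ≠ δ)

end Vale.Agent.Lib.P058
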