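import Vale.Agent.Lib.P058.RamseyBounded

/-! # The deletion form of Ramsey's theorem -/

namespace Vale.Agent.Lib.P058

open Finset

section aux

variable {Λ : Type} [DecidableEq Λ] (δ : Λ)

/-- A word with the same non-default positions and the same non-default subword is the same word. -/
private lemma sub_inj {L : ℕ} (u u' : Fin L → Λ) (h1 : ∀ p, u p ≠ δ ↔ u' p ≠ δ)
    (h2 : sub δ u = sub δ u') : u = u' := by
  induction L with
  | zero => funext p; exact p.elim0
  | succ L ih =>
    have htail : (fun p : Fin L => u p.succ) = fun p : Fin L => u' p.succ := by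
      by_cases h0 : u 0 = δ
      · have h0' : u' 0 = δ := by
          by_contra hne
          exact ((h1 0).mpr hne) h0
        refine ih _ _ (fun p => h1 p.succ) ?_
        simpa [sub, List.ofFn_succ, h0, h0'] using h2
      · have h0' : u' 0 ≠ δ := (h1 0).mp h0
        refine ih _ _ (fun p => h1 p.succ) ?_
        have h3 : u 0 :: (List.ofFn fun p : Fin L => u p.succ).filter (· ≠ δ)
            = u' 0 :: (List.ofFn fun p : Fin L => u' p.succ).filter (· ≠ δ) := by
          simpa [sub, List.ofFn_succ, h0, h0'] using h2
        exact (List.cons.inj h3).2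
    have h00 : u 0 = u' 0 := by
      by_cases h0 : u 0 = δ
      · have h0' : u' 0 = δ := by
          by_contra hne
          exact ((h1 0).mpr hne) h0
        rw [h0, h0']
      · have h0' : u' 0 ≠ δ := (h1 0).mp h0
        have h3 : u 0 :: (List.ofFn fun p : Fin L => u p.succ).filter (· ≠ δ)
            = u' 0 :: (List.ofFn fun p : Fin L => u' p.succ).filter (· ≠ δ) := by
          simpa [sub, List.ofFn_succ, h0, h0'] using h2
        exact (List.cons.inj h3).1
    funext p
    refine Fin.cases h00 (fun q => ?_) p
    exact congrFun htail q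

/-- The non-default positions of a word, as a set of naturals. -/
private def supp {L : ℕ} (u : Fin L → Λ) : Finset ℕ :=
  (univ.filter fun p => u p ≠ δ).map Fin.valEmbedding

private lemma mem_supp {L : ℕ} (u : Fin L → Λ) (p : Fin L) : p.val ∈ supp δ u ↔ u p ≠ δ := by
  simp only [supp, Finset.mem_map, Finset.mem_filter, Finset.mem_univ, true_and,
    Fin.valEmbedding_apply]
  constructor
  · rintro ⟨a, ha, hap⟩
    rwa [← Fin.ext hap]
  · intro hp
    exact ⟨p, hp, rfl⟩

private lemma card_supp {L : ℕ} (u : Fin L → Λ) : (supp δ u).card = (sub δ u).length := by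
  induction L with
  | zero => simp [supp, sub]
  | succ L ih =>
    have h := ih (fun p => u p.succ)
    have hcard : (univ.filter fun p : Fin (L + 1) => u p ≠ δ).card
        = (if u 0 ≠ δ then 1 else 0) + (univ.filter fun p : Fin L => u p.succ ≠ δ).card := by
      rw [Fin.card_filter_univ_succ]
      split_ifs <;> omega
    have hlen : (sub δ u).length = (if u 0 ≠ δ then 1 else 0)
        + (sub δ (fun p : Fin L => u p.succ)).length := by
      by_cases h0 : u 0 = δ
      · simp [sub, List.ofFn_succ, h0]
      · simp [sub, List.ofFn_succ, h0, Nat.add_comm]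
    rw [hlen, ← h]
    simpa [supp] using hcard

/-- Padding a word to a function on a fixed window. -/
private def pad {Λ : Type} (m : ℕ) (w : List Λ) : Fin m → Option Λ := fun i => w[i.val]?

omit [DecidableEq Λ] in
private lemma pad_inj {m : ℕ} {w w' : List Λ} (h : w.length ≤ m) (h' : w'.length ≤ m)
    (e : pad m w = pad m w') : w = w' := by
  apply List.ext_getElem?
  intro i
  by_cases hi : i < m
  · exact congrFun e ⟨i, hi⟩
  · rw [List.getElem?_eq_none (by omega), List.getElem?_eq_none (by omega)]

end aux

/-- For words over `Λ` with default letter `δ`: a large position set `H` such that the colour of a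
word supported in `H` (with boundedly many non-default letters) depends only on its non-default
subword. -/
theorem del_ramsey {Λ : Type} [Fintype Λ] [DecidableEq Λ] (δ : Λ) (r m h : ℕ) :
    ∃ L : ℕ, ∀ χ : (Fin L → Λ) → Fin r, ∃ H : Finset (Fin L), h ≤ H.card ∧
      ∀ u v : Fin L → Λ, (∀ p, u p ≠ δ → p ∈ H) → (∀ p, v p ≠ δ → p ∈ H) →
        sub δ u = sub δ v → (sub δ u).length ≤ m → χ u = χ v := by
  classical
  obtain ⟨L, hL⟩ := ramsey_bounded ((Fin m → Option Λ) → Option (Fin r)) m h
  refine ⟨L, fun χ => ?_⟩
  let f : Finset ℕ → (Fin m → Option Λ) → Option (Fin r) := fun S κ =>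
    if hex : ∃ u : Fin L → Λ, supp δ u = S ∧ pad m (sub δ u) = κ then some (χ hex.choose) else none
  obtain ⟨H₀, hlt, hcard, hhom⟩ := hL f
  refine ⟨H₀.attachFin hlt, by rwa [Finset.card_attachFin], fun u v hu hv hsub hlen => ?_⟩
  have key : ∀ w : Fin L → Λ, (sub δ w).length ≤ m →
      f (supp δ w) (pad m (sub δ w)) = some (χ w) := by
    intro w hw
    have hex : ∃ u : Fin L → Λ, supp δ u = supp δ w ∧ pad m (sub δ u) = pad m (sub δ w) :=
      ⟨w, rfl, rfl⟩
    have hf : f (supp δ w) (pad m (sub δ w)) = some (χ hex.choose) := dif_pos hex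
    obtain ⟨hs, hp⟩ := hex.choose_spec
    have hl : (sub δ hex.choose).length ≤ m := by
      rw [← card_supp, hs, card_supp]; exact hw
    have hsubeq := pad_inj hl hw hp
    have hsame : hex.choose = w := by
      refine sub_inj δ _ _ (fun p => ?_) hsubeq
      rw [← mem_supp δ hex.choose p, ← mem_supp δ w p, hs]
    rw [hf, hsame]
  have hsubset : ∀ w : Fin L → Λ, (∀ p, w p ≠ δ → p ∈ H₀.attachFin hlt) → supp δ w ⊆ H₀ := by
    intro w hw x hx
    simp only [supp, Finset.mem_map, Finset.mem_filter, Finset.mem_univ, true_and] at hx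
    obtain ⟨p, hp, rfl⟩ := hx
    exact (Finset.mem_attachFin hlt).mp (hw p hp)
  have hvlen : (sub δ v).length ≤ m := hsub ▸ hlen
  have hSS : f (supp δ u) = f (supp δ v) := by
    apply hhom _ _ (hsubset u hu) (hsubset v hv)
    · rw [card_supp, card_supp, hsub]
    · rw [card_supp]; exact hlen
  have h1 := key u hlen
  have h2 := key v hvlen
  rw [hSS, hsub, h2] at h1
  exact (Option.some.inj h1).symm

end Vale.Agent.Lib.P058
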