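import Vale.Agent.Lib.P058.ThmB

open Finset

namespace Vale.Agent.Lib.P058

set_option linter.unusedSectionVars false

universe u v

/-- The coordinate permutation isometry. -/
noncomputable def permIso {N : ℕ} (π : Equiv.Perm (Fin N)) :
    EuclideanSpace ℝ (Fin N) ≃ᵢ EuclideanSpace ℝ (Fin N) :=
  (LinearIsometryEquiv.piLpCongrLeft 2 ℝ ℝ π).toIsometryEquiv

lemma permIso_apply {N : ℕ} (π : Equiv.Perm (Fin N)) (x : EuclideanSpace ℝ (Fin N)) (k : Fin N) :
    (permIso π x) k = x (π.symm k) := by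
  simp [permIso, LinearIsometryEquiv.piLpCongrLeft_apply]

lemma permIso_mul {N : ℕ} (σ π : Equiv.Perm (Fin N)) (x : EuclideanSpace ℝ (Fin N)) :
    permIso σ (permIso π x) = permIso (σ * π) x := by
  ext k
  simp only [permIso_apply]
  rfl

lemma permIso_one {N : ℕ} (x : EuclideanSpace ℝ (Fin N)) : permIso 1 x = x := by
  ext k
  simp only [permIso_apply]
  rfl

/-- Vectors which are rearrangements of each other lie in a common transitive set. -/
theorem orbit_lemma {ι : Type v} {Ξ : Type u} [Fintype Ξ] [Nonempty ι] (w : ι → Ξ → ℝ)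
    (hperm : ∀ i j, ∃ π : Equiv.Perm Ξ, ∀ ξ, w j (π ξ) = w i ξ) :
    ∃ (N : ℕ) (Y : Set (EuclideanSpace ℝ (Fin N))), Y.Finite ∧
      (∀ y ∈ Y, ∀ y' ∈ Y, ∃ g : EuclideanSpace ℝ (Fin N) ≃ᵢ EuclideanSpace ℝ (Fin N),
        g '' Y = Y ∧ g y = y') ∧
      ∃ v : ι → EuclideanSpace ℝ (Fin N), (∀ i, v i ∈ Y) ∧
        ∀ i j, dist (v i) (v j) ^ 2 = ∑ ξ, (w i ξ - w j ξ) ^ 2 := by
  classical
  obtain ⟨i0⟩ := (inferInstance : Nonempty ι)
  set e := Fintype.equivFin Ξ with he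
  set N := Fintype.card Ξ with hN
  set v : ι → EuclideanSpace ℝ (Fin N) := fun i => WithLp.toLp 2 (fun k => w i (e.symm k)) with hv
  set Y : Set (EuclideanSpace ℝ (Fin N)) := Set.range fun π : Equiv.Perm (Fin N) => permIso π (v i0)
    with hY
  refine ⟨N, Y, Set.finite_range _, ?_, v, ?_, ?_⟩
  · rintro _ ⟨α, rfl⟩ _ ⟨β, rfl⟩
    refine ⟨permIso (β * α⁻¹), ?_, ?_⟩
    · ext y
      constructor
      · rintro ⟨_, ⟨γ, rfl⟩, rfl⟩
        refine ⟨β * α⁻¹ * γ, ?_⟩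
        simp only
        rw [permIso_mul]
      · rintro ⟨γ, rfl⟩
        refine ⟨permIso ((β * α⁻¹)⁻¹ * γ) (v i0), ⟨_, rfl⟩, ?_⟩
        rw [permIso_mul]
        have h : β * α⁻¹ * ((β * α⁻¹)⁻¹ * γ) = γ := by group
        rw [h]
    · simp only
      rw [permIso_mul]
      have h : β * α⁻¹ * α = β := by group
      rw [h]
  · intro i
    obtain ⟨ρ, hρ⟩ := hperm i0 i
    refine ⟨e.symm.trans (ρ.trans e), ?_⟩
    ext k
    simp only [permIso_apply]
    simp only [hv]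
    have h1 : (e.symm.trans (ρ.trans e)).symm k = e (ρ.symm (e.symm k)) := rfl
    rw [h1]
    simp only [Equiv.symm_apply_apply]
    rw [← hρ (ρ.symm (e.symm k))]
    simp
  · intro i j
    rw [EuclideanSpace.dist_eq, Real.sq_sqrt (Finset.sum_nonneg fun _ _ => sq_nonneg _)]
    rw [← Equiv.sum_comp e.symm (fun ξ => (w i ξ - w j ξ) ^ 2)]
    refine Finset.sum_congr rfl fun k _ => ?_
    simp [hv, Real.dist_eq, sq_abs]

section rows

variable {ι : Type v} {E : Type u} [Fintype ι] [Nonempty ι] [DecidableEq ι] [Fintype E]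
  [DecidableEq E]

lemma mgQ_eq_sum (a : ι → E → ℤ) (i : ι) (W : (E → ℤ) →₀ ℚ) (t : ℤ) :
    mgQ a i W t = ∑ y ∈ W.support, if lev a i y = t then W y else 0 := by
  classical
  conv_lhs => rw [← Finsupp.sum_single W]
  rw [Finsupp.sum, map_sum, Finsupp.finsetSum_apply]
  exact Finset.sum_congr rfl fun n _ => mgQ_single a i n _ t

lemma momQ_eq_sum (e f : E) (W : (E → ℤ) →₀ ℚ) :
    momQ e f W = ∑ y ∈ W.support, W y * ((y e : ℚ) * (y f : ℚ)) := by
  classical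
  conv_lhs => rw [← Finsupp.sum_single W]
  rw [Finsupp.sum, map_sum]
  exact Finset.sum_congr rfl fun n _ => momQ_single e f n _

/-- The exact measure gives columns whose rows are rearrangements of each other and whose
inner products are those of the given rows. -/
theorem exists_columns {a : ι → E → ℤ} {ρ : ℤ} {e0 : E} (he0 : ∀ i, a i e0 = 1)
    (hinj : Function.Injective a) (hρ : ∀ i, ∑ e, a i e ^ 2 = ρ) :
    ∃ (Ξ : Type u) (_ : Fintype Ξ) (Q : ℕ) (R : ι → Ξ → ℤ), 0 < Q ∧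
      (∀ i j, ∃ π : Equiv.Perm Ξ, ∀ ξ, R j (π ξ) = R i ξ) ∧
      ∀ i j, ((∑ ξ, R i ξ * R j ξ : ℤ) : ℚ) = (Q : ℚ) * ((∑ e, a i e * a j e : ℤ) : ℚ) := by
  classical
  obtain ⟨W, hW0, hWmg, hWmom⟩ := thmB he0 hinj hρ
  obtain ⟨Q, hQ, hint⟩ := exists_common_den (fun y : ↥W.support => W y.1)
  choose z hz using hint
  have hQq : (0 : ℚ) < (Q : ℚ) := by exact_mod_cast hQ
  have hz0 : ∀ y, 0 ≤ z y := by
    intro y
    have h1 : (0 : ℚ) ≤ ((z y : ℤ) : ℚ) := by
      rw [← hz]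
      exact mul_nonneg hQq.le (hW0 _)
    exact_mod_cast h1
  set cnt : ↥W.support → ℕ := fun y => (z y).toNat with hcnt
  have hcnt' : ∀ y, ((cnt y : ℕ) : ℚ) = (Q : ℚ) * W y.1 := by
    intro y
    have h1 : ((cnt y : ℕ) : ℤ) = z y := Int.toNat_of_nonneg (hz0 y)
    have h2 : ((cnt y : ℕ) : ℚ) = ((z y : ℤ) : ℚ) := by exact_mod_cast h1
    rw [h2, hz]
  let Ξ := Σ y : ↥W.support, Fin (cnt y)
  let R : ι → Ξ → ℤ := fun i ξ => lev a i ξ.1.1
  have hfiber : ∀ i (t : ℤ), ((Fintype.card {ξ : Ξ // R i ξ = t} : ℕ) : ℚ) = (Q : ℚ) * mgQ a i W t := by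
    intro i t
    rw [Fintype.card_subtype, Finset.card_filter]
    push_cast
    rw [Fintype.sum_sigma, mgQ_eq_sum, Finset.mul_sum, ← Finset.sum_coe_sort W.support]
    refine Finset.sum_congr rfl fun y _ => ?_
    by_cases h : lev a i y.1 = t
    · simp only [R, if_pos h, Finset.sum_const, Finset.card_univ, Fintype.card_fin, nsmul_eq_mul,
        mul_one]
      rw [hcnt']
    · simp only [R, if_neg h, Finset.sum_const_zero, mul_zero]
  have hperm : ∀ i j, ∃ π : Equiv.Perm Ξ, ∀ ξ, R j (π ξ) = R i ξ := by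
    intro i j
    have hcard : ∀ t : ℤ, Fintype.card {ξ : Ξ // R i ξ = t} = Fintype.card {ξ : Ξ // R j ξ = t} := by
      intro t
      have : ((Fintype.card {ξ : Ξ // R i ξ = t} : ℕ) : ℚ)
          = ((Fintype.card {ξ : Ξ // R j ξ = t} : ℕ) : ℚ) := by
        rw [hfiber, hfiber, hWmg i j]
      exact_mod_cast this
    let eqv : ∀ t : ℤ, {ξ : Ξ // R i ξ = t} ≃ {ξ : Ξ // R j ξ = t} :=
      fun t => Fintype.equivOfCardEq (hcard t)
    exact ⟨Equiv.ofFiberEquiv eqv, fun ξ => Equiv.ofFiberEquiv_map eqv ξ⟩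
  refine ⟨Ξ, inferInstance, Q, R, hQ, hperm, ?_⟩
  intro i j
  have h1 : ((∑ ξ, R i ξ * R j ξ : ℤ) : ℚ)
      = ∑ y : ↥W.support, (Q : ℚ) * (W y.1 * (((lev a i y.1 : ℤ) : ℚ) * ((lev a j y.1 : ℤ) : ℚ))) := by
    push_cast
    rw [Fintype.sum_sigma]
    refine Finset.sum_congr rfl fun y _ => ?_
    simp only [R, Finset.sum_const, Finset.card_univ, Fintype.card_fin, nsmul_eq_mul]
    rw [hcnt']
    ring
  rw [h1, ← Finset.mul_sum]
  congr 1
  rw [Finset.sum_coe_sort W.support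
    (fun y => W y * (((lev a i y : ℤ) : ℚ) * ((lev a j y : ℤ) : ℚ)))]
  have h2 : ∀ y : E → ℤ, W y * (((lev a i y : ℤ) : ℚ) * ((lev a j y : ℤ) : ℚ))
      = ∑ e, ∑ f, ((a i e : ℤ) : ℚ) * ((a j f : ℤ) : ℚ) * (W y * ((y e : ℚ) * (y f : ℚ))) := by
    intro y
    unfold lev
    push_cast
    rw [Finset.sum_mul_sum, Finset.mul_sum]
    refine Finset.sum_congr rfl fun e _ => ?_
    rw [Finset.mul_sum]
    refine Finset.sum_congr rfl fun f _ => ?_
    ring
  simp only [h2]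
  rw [Finset.sum_comm]
  push_cast
  refine Finset.sum_congr rfl fun e _ => ?_
  rw [Finset.sum_comm]
  have h3 : ∀ f, ∑ y ∈ W.support, ((a i e : ℤ) : ℚ) * ((a j f : ℤ) : ℚ) * (W y * ((y e : ℚ) * (y f : ℚ)))
      = ((a i e : ℤ) : ℚ) * ((a j f : ℤ) : ℚ) * momQ e f W := by
    intro f
    rw [momQ_eq_sum, Finset.mul_sum]
  simp only [h3]
  have h4 : ∀ f, momQ e f W = if e = f then 1 else 0 := by
    intro f
    have := congrFun hWmom (e, f)
    simpa [momM, idM] using this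
  simp only [h4]
  rw [Finset.sum_eq_single e]
  · simp
  · intro f _ hf
    simp [Ne.symm hf]
  · intro h; exact absurd (Finset.mem_univ e) h

end rows

end Vale.Agent.Lib.P058
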