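import Vale.Agent.Lib.P058.Tower

/-! # From a tower to the Euclidean Ramsey property -/

namespace Vale.Agent.Lib.P058

open Finset

variable {n : ℕ} {U Λ : Type} [Fintype Λ] [DecidableEq Λ]

/-- The embedding of words of length `N` in Euclidean space of dimension `N + 1`. -/
noncomputable def wordVec {N : ℕ} (val : Λ → ℝ) (u : Fin N → Λ) : EuclideanSpace ℝ (Fin (N + 1)) :=
  WithLp.toLp 2 (Fin.snoc (α := fun _ => ℝ) (fun p : Fin N => val (u p)) (0 : ℝ))

theorem dist_wordVec_sq {N : ℕ} (val : Λ → ℝ) (u v : Fin N → Λ) :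
    dist (wordVec val u) (wordVec val v) ^ 2 = ∑ p, (val (u p) - val (v p)) ^ 2 := by
  rw [EuclideanSpace.dist_eq, Real.sq_sqrt (Finset.sum_nonneg fun _ _ => by positivity),
    Fin.sum_univ_castSucc]
  simp only [wordVec, PiLp.toLp_apply, Fin.snoc_castSucc, Fin.snoc_last, dist_self, Real.dist_eq,
    sq_abs]
  simp

/-- A tower for the coordinate column gives the Euclidean Ramsey property of the set of token
vectors. Here `col t ω` is the letter of the token `t` at position `ω`, `act` is precomposition
on positions, `g` permutes the positions regularly. -/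
theorem isRamsey_of_cert (act : Equiv.Perm (Fin n) → U → U) (g : Equiv.Perm (Fin n))
    (hg : ∀ ω ω' : Fin n, ∃! s : Fin n, (g ^ s.val) ω = ω') (col : U → Fin n → Λ)
    (hcol : ∀ γ t ω, col (act γ t) ω = col t (γ ω)) (ω₀ : Fin n)
    (hc : Cert act g (fun t => col t ω₀)) (lv : Λ → ℝ) :
    IsRamsey {x : EuclideanSpace ℝ (Fin n) | ∃ t : U, ∀ ω, x ω = lv (col t ω)} := by
  classical
  intro r hr
  obtain ⟨κ, _, _, m, hCopy⟩ := hc
  obtain ⟨N, hN⟩ := hCopy r
  set μ : ℝ := (Fintype.card κ : ℝ) with hμ
  have hμ0 : 0 < μ := by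
    rw [hμ]
    exact_mod_cast Fintype.card_pos
  set val : Λ → ℝ := fun l => lv l / Real.sqrt μ with hval
  refine ⟨N + 1, by omega, fun c => ?_⟩
  obtain ⟨s, hs1, hs2⟩ := hN (fun u => c (wordVec val u))
  set M : Fin n × κ → U → Λ := fun x t => col (act (g ^ x.1.val * m x.2) t) ω₀ with hM
  set word : U → Fin N → Λ := fun t p => ev M (s p) t with hword
  set A : Set (EuclideanSpace ℝ (Fin n)) := {x | ∃ t : U, ∀ ω, x ω = lv (col t ω)} with hA
  -- the choice of a token
  let tok : ∀ x : EuclideanSpace ℝ (Fin n), x ∈ A → U := fun x hx => Classical.choose hx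
  have htok : ∀ x (hx : x ∈ A) ω, x ω = lv (col (tok x hx) ω) := fun x hx => Classical.choose_spec hx
  refine ⟨fun x => if hx : x ∈ A then wordVec val (word (tok x hx)) else 0,
    if h : Nonempty U then c (wordVec val (word (Classical.choice h))) else ⟨0, by omega⟩,
    ?_, ?_⟩
  · intro x hx y hy
    simp only [dif_pos hx, dif_pos hy]
    set t := tok x hx with ht
    set t' := tok y hy with ht'
    have hsq : dist (wordVec val (word t)) (wordVec val (word t')) ^ 2 = dist x y ^ 2 := by
      rw [dist_wordVec_sq]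
      set G : Fin n × κ → ℝ := fun i => (val (M i t) - val (M i t')) ^ 2 with hG
      have h1 : ∀ p, (val (word t p) - val (word t' p)) ^ 2 = wt G (s p) := by
        intro p
        simp only [hword]
        rcases s p with i | l
        · simp [ev, wt, hG]
        · simp [ev, wt]
      rw [Finset.sum_congr rfl fun p _ => h1 p, hs1 G, Fintype.sum_prod_type_right]
      have h2 : ∀ k : κ, ∑ s' : Fin n, G (s', k)
          = (∑ ω, (lv (col t ω) - lv (col t' ω)) ^ 2) / μ := by
        intro k
        have hbij : Function.Bijective (fun s' : Fin n => (g ^ s'.val) (m k ω₀)) :=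
          Function.bijective_iff_existsUnique _ |>.mpr (fun ω' => hg (m k ω₀) ω')
        have h3 : ∀ s' : Fin n, G (s', k)
            = (lv (col t ((g ^ s'.val) (m k ω₀))) - lv (col t' ((g ^ s'.val) (m k ω₀)))) ^ 2 / μ := by
          intro s'
          simp only [hG, hM, hcol, Equiv.Perm.coe_mul, Function.comp_apply, hval]
          rw [← sub_div, div_pow, Real.sq_sqrt hμ0.le]
        rw [Finset.sum_congr rfl fun s' _ => h3 s', ← Finset.sum_div]
        congr 1
        exact hbij.sum_comp (fun ω => (lv (col t ω) - lv (col t' ω)) ^ 2)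
      rw [Finset.sum_congr rfl fun k _ => h2 k, Finset.sum_const, Finset.card_univ, nsmul_eq_mul,
        ← hμ, mul_div_cancel₀ _ hμ0.ne']
      rw [EuclideanSpace.dist_eq, Real.sq_sqrt (Finset.sum_nonneg fun _ _ => by positivity)]
      refine Finset.sum_congr rfl fun ω _ => ?_
      rw [htok x hx ω, htok y hy ω, Real.dist_eq, sq_abs]
    have h0 : 0 ≤ dist (wordVec val (word t)) (wordVec val (word t')) := dist_nonneg
    have h0' : 0 ≤ dist x y := dist_nonneg
    exact (pow_left_inj₀ h0 h0' (by norm_num)).mp hsq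
  · intro x hx
    have hne : Nonempty U := ⟨tok x hx⟩
    simp only [dif_pos hx, dif_pos hne]
    exact hs2 _ _

end Vale.Agent.Lib.P058
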