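import Vale.Agent.Lib.P058.FGAlg
import Vale.Agent.Lib.P058.GroupTower

/-! # P058: free group identities give copies

A word with constants `v₀ x₁ v₁ x₂ ... ` in the free group on the letters which does not depend on
the token gives a copy of the columns.  The proof goes through the group `t * β(words) * t`, for a
suitable idempotent ultrafilter `t` on words. -/

namespace Vale.Agent.Lib.P058.FG

open Filter

attribute [local instance] Ultrafilter.semigroup

variable {Λ : Type}

/-- Ultrafilters on words. -/
abbrev BW (Λ : Type) := Ultrafilter (FreeMonoid Λ)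

theorem bw_cont (r : BW Λ) : Continuous (· * r : BW Λ → BW Λ) := Ultrafilter.continuous_mul_left r

/-- The group `t S t`. -/
structure TG (t : BW Λ) where
  /-- the underlying element -/
  val : BW Λ
  /-- it lies in `t S t` -/
  mem : ∃ s, val = t * s * t

theorem TG.ext' {t : BW Λ} {a b : TG t} (h : a.val = b.val) : a = b := by
  cases a; cases b; simp_all

section grp

variable {t : BW Λ} (htt : t * t = t) (hz : ∀ a : TG t, ∃ z : BW Λ, z * a.val = t)

include htt in
theorem left_t {a : BW Λ} (ha : ∃ s, a = t * s * t) : t * a = a := by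
  obtain ⟨s, rfl⟩ := ha
  simp only [← mul_assoc, htt]

include htt in
theorem right_t {a : BW Λ} (ha : ∃ s, a = t * s * t) : a * t = a := by
  obtain ⟨s, rfl⟩ := ha
  simp only [mul_assoc, htt]

/-- The group structure. -/
@[instance_reducible]
noncomputable def tgGroup : Group (TG t) :=
  letI : Mul (TG t) := ⟨fun a b => ⟨a.val * b.val, by
    obtain ⟨s, hs⟩ := a.mem
    obtain ⟨s', hs'⟩ := b.mem
    refine ⟨s * t * s', ?_⟩
    rw [hs, hs']
    simp only [mul_assoc]
    rw [← mul_assoc t t, htt]
    ⟩⟩
  letI : One (TG t) := ⟨⟨t, t, by simp only [htt]⟩⟩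
  letI : Inv (TG t) := ⟨fun a => ⟨t * (hz a).choose * t, _, rfl⟩⟩
  Group.ofLeftAxioms
    (fun a b c => TG.ext' (mul_assoc _ _ _))
    (fun a => TG.ext' (left_t htt a.mem))
    (fun a => TG.ext' (by
      change t * (hz a).choose * t * a.val = t
      have h := (hz a).choose_spec
      rw [mul_assoc, left_t htt a.mem, mul_assoc, h, htt]))

/-- The value of the unit. -/
theorem tg_one_val : ((letI := tgGroup htt hz; (1 : TG t))).val = t := rfl

/-- The value of a product. -/
theorem tg_mul_val (a b : TG t) : (letI := tgGroup htt hz; a * b).val = a.val * b.val := rfl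

end grp

/-- The principal ultrafilter at a word. -/
def pw (w : FreeMonoid Λ) : BW Λ := (pure w : Ultrafilter (FreeMonoid Λ))

theorem eventually_pw (w : FreeMonoid Λ) (p : FreeMonoid Λ → Prop) :
    (∀ᶠ m in (pw w : Filter (FreeMonoid Λ)), p m) ↔ p w := by
  change (∀ᶠ m in (pure w : Filter (FreeMonoid Λ)), p m) ↔ p w
  simp

/-- The product of constants and letters, with a final `t`. -/
def prodP (t : BW Λ) : List (BW Λ × Λ) → BW Λ
  | [] => t
  | a :: l => a.1 * (pw (FreeMonoid.of a.2) * prodP t l)

section unravel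

variable {U κ : Type} [Finite U]

/-- Unravelling the iterated ultrafilter product, for finitely many tokens at once: each column in
the list is used once, and constant letters fill the gaps. -/
theorem unravel (t : BW Λ) (M : κ → U → Λ) (L : List (BW Λ × κ)) (A : U → Set (FreeMonoid Λ))
    (hA : ∀ s, A s ∈ prodP t (L.map fun a => (a.1, M a.2 s))) :
    ∃ T : List (κ ⊕ Λ), (∀ g : κ → ℝ, (T.map (wt g)).sum = (L.map fun a => g a.2).sum) ∧
      ∀ s, FreeMonoid.ofList (T.map fun x => ev M x s) ∈ A s := by
  induction L generalizing A with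
  | nil =>
    have h1 : ∀ᶠ u in (t : Filter (FreeMonoid Λ)), ∀ s, u ∈ A s :=
      Filter.eventually_all.2 fun s => hA s
    obtain ⟨u, hu⟩ := h1.exists
    refine ⟨(FreeMonoid.toList u).map Sum.inr, fun g => ?_, fun s => ?_⟩
    · simp [wt, Function.comp_def]
    · simpa [ev, Function.comp_def] using hu s
  | cons a L ih =>
    have h1 : ∀ s, ∀ᶠ u in (a.1 : Filter (FreeMonoid Λ)),
        ∀ᶠ v in (prodP t (L.map fun a => (a.1, M a.2 s)) : Filter (FreeMonoid Λ)),
          u * (FreeMonoid.of (M a.2 s) * v) ∈ A s := by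
      intro s
      have := hA s
      simp only [List.map_cons, prodP] at this
      have h2 : ∀ᶠ m in (↑(a.1 * (pw (FreeMonoid.of (M a.2 s)) *
          prodP t (L.map fun a => (a.1, M a.2 s)))) : Filter (FreeMonoid Λ)), m ∈ A s := this
      rw [Ultrafilter.eventually_mul] at h2
      refine h2.mono fun u hu => ?_
      rw [Ultrafilter.eventually_mul, eventually_pw] at hu
      simpa [mul_assoc] using hu
    have h2 : ∀ᶠ u in (a.1 : Filter (FreeMonoid Λ)), ∀ s,
        ∀ᶠ v in (prodP t (L.map fun a => (a.1, M a.2 s)) : Filter (FreeMonoid Λ)),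
          u * (FreeMonoid.of (M a.2 s) * v) ∈ A s :=
      Filter.eventually_all.2 h1
    obtain ⟨u, hu⟩ := h2.exists
    obtain ⟨T, hT1, hT2⟩ := ih (fun s => {v | u * (FreeMonoid.of (M a.2 s) * v) ∈ A s}) hu
    refine ⟨(FreeMonoid.toList u).map Sum.inr ++ Sum.inl a.2 :: T, fun g => ?_, fun s => ?_⟩
    · simp [wt, Function.comp_def, hT1 g]
    · have := hT2 s
      simp only [Set.mem_ofPred_eq] at this
      simpa [ev, Function.comp_def, FreeMonoid.toList_mul, FreeMonoid.toList_of] using this

end unravel

/-- The value of a word with constants at a token. -/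
def evW {U κ : Type} (M : κ → U → Λ) (L : List (FreeGroup Λ × κ)) (s : U) : FreeGroup Λ :=
  (L.map fun a => a.1 * FreeGroup.of (M a.2 s)).prod

/-- **Free group identities give copies.** -/
theorem copy_of_identity {U κ : Type} [Finite U] [Nonempty U] [Fintype κ] (M : κ → U → Λ)
    (L : List (FreeGroup Λ × κ)) (hL : ∀ g : κ → ℝ, (L.map fun a => g a.2).sum = ∑ k, g k)
    (h : ∀ s s', evW M L s = evW M L s') : Copy M := by
  classical
  by_contra hcon
  unfold Copy at hcon
  push Not at hcon
  obtain ⟨r, hr⟩ := hcon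
  choose χ hχ using hr
  -- the glued colouring
  let col : FreeMonoid Λ → Fin r := fun w =>
    χ (FreeMonoid.toList w).length (fun p => (FreeMonoid.toList w).get p)
  have hcol : ∀ (T : List (κ ⊕ Λ)) (e : κ ⊕ Λ → Λ),
      col (FreeMonoid.ofList (T.map e)) = χ T.length (fun p => e (T.get p)) := by
    intro T e
    have hs : (⟨(T.map e).length, fun p => (T.map e).get p⟩ : Σ n, (Fin n → Λ))
        = ⟨T.length, fun p => e (T.get p)⟩ := by
      refine Sigma.ext (by simp) ?_
      refine (Fin.heq_fun_iff (by simp)).2 fun i => ?_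
      simp
    exact congrArg (fun x : (Σ n, (Fin n → Λ)) => χ x.1 x.2) hs
  -- the group
  have : Nonempty (BW Λ) := ⟨pw 1⟩
  obtain ⟨t, htt, hz⟩ := exists_group_idempotent (S := BW Λ) bw_cont
  have hz' : ∀ a : TG t, ∃ z : BW Λ, z * a.val = t := by
    intro a
    obtain ⟨s, hs⟩ := a.mem
    rw [hs]
    exact hz s
  let grp : Group (TG t) := tgGroup htt hz'
  let g : Λ → TG t := fun x => ⟨t * pw (FreeMonoid.of x) * t, _, rfl⟩
  let φ : FreeGroup Λ →* TG t := FreeGroup.lift g
  let q : FreeGroup Λ → BW Λ := fun v => (φ v).val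
  have key : ∀ l : List (FreeGroup Λ × Λ),
      (φ (l.map fun a => a.1 * FreeGroup.of a.2).prod).val
        = prodP t (l.map fun a => (q a.1, a.2)) := by
    intro l
    induction l with
    | nil => simp only [List.map_nil, List.prod_nil, map_one]; rfl
    | cons a l ih =>
      simp only [List.map_cons, List.prod_cons, map_mul, prodP]
      rw [← ih]
      have h1 : (φ (FreeGroup.of a.2)) = g a.2 := by simp [φ]
      rw [h1]
      change (φ a.1).val * (t * pw (FreeMonoid.of a.2) * t) *
        (φ (l.map fun a => a.1 * FreeGroup.of a.2).prod).val = _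
      have h2 : (φ a.1).val * t = (φ a.1).val := right_t htt (φ a.1).mem
      have h3 := left_t htt (φ (l.map fun a => a.1 * FreeGroup.of a.2).prod).mem
      calc (φ a.1).val * (t * pw (FreeMonoid.of a.2) * t) *
            (φ (l.map fun a => a.1 * FreeGroup.of a.2).prod).val
          = ((φ a.1).val * t) * (pw (FreeMonoid.of a.2) *
            (t * (φ (l.map fun a => a.1 * FreeGroup.of a.2).prod).val)) := by
            simp only [mul_assoc]
        _ = _ := by rw [h2, h3]
  let L' : List (BW Λ × κ) := L.map fun a => (q a.1, a.2)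
  have hP : ∀ s, prodP t (L'.map fun a => (a.1, M a.2 s)) = (φ (evW M L s)).val := by
    intro s
    have := key (L.map fun a => (a.1, M a.2 s))
    simp only [List.map_map, Function.comp_def] at this
    simp only [L', List.map_map, Function.comp_def, evW]
    exact this.symm
  obtain ⟨s₀⟩ := (inferInstance : Nonempty U)
  obtain ⟨i, hi⟩ := Ultrafilter.eq_pure_of_finite (Ultrafilter.map col (φ (evW M L s₀)).val)
  have hA : col ⁻¹' {i} ∈ (φ (evW M L s₀)).val := by
    have : ({i} : Set (Fin r)) ∈ Ultrafilter.map col (φ (evW M L s₀)).val := by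
      rw [hi]
      exact Ultrafilter.mem_pure.2 rfl
    exact Ultrafilter.mem_map.1 this
  obtain ⟨T, hT1, hT2⟩ := unravel t M L' (fun _ => col ⁻¹' {i}) (by
    intro s
    rw [hP, h s s₀]
    exact hA)
  obtain ⟨t₁, t₂, hne⟩ := hχ T.length (fun p => T.get p) (by
    intro g'
    have h1 : ∑ p, wt g' (T.get p) = (T.map (wt g')).sum := by
      calc ∑ p, wt g' (T.get p) = (List.ofFn (wt g' ∘ T.get)).sum := by
            rw [List.sum_ofFn]; rfl
        _ = ((List.ofFn T.get).map (wt g')).sum := by rw [List.map_ofFn]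
        _ = _ := by rw [List.ofFn_get]
    rw [h1, hT1 g', ← hL g']
    simp [L', Function.comp_def])
  apply hne
  have e1 := hcol T (fun x => ev M x t₁)
  have e2 := hcol T (fun x => ev M x t₂)
  have c1 : col (FreeMonoid.ofList (T.map fun x => ev M x t₁)) = i := hT2 t₁
  have c2 : col (FreeMonoid.ofList (T.map fun x => ev M x t₂)) = i := hT2 t₂
  exact (e1.symm.trans c1).trans (e2.symm.trans c2).symm

/-- The form over a group: a list of pairs (translate, constant). -/
theorem certG_of_identity {G : Type} [Group G] [Finite G] [Fintype Λ] [DecidableEq Λ] (b : G → Λ)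
    (W : List (G × FreeGroup Λ)) (hW : W ≠ [])
    (h : ∀ t t' : G, (W.map fun a => a.2 * FreeGroup.of (b (t * a.1))).prod
      = (W.map fun a => a.2 * FreeGroup.of (b (t' * a.1))).prod) : CertG b := by
  have hlen : 0 < W.length := List.length_pos_iff.mpr hW
  refine ⟨Fin W.length, inferInstance, ⟨⟨0, hlen⟩⟩, fun k => (W.get k).1, ?_⟩
  refine copy_of_identity (fun k t => b (t * (W.get k).1)) (List.ofFn fun k => ((W.get k).2, k)) ?_ ?_
  · intro g
    rw [List.map_ofFn]
    exact List.sum_ofFn
  · intro s s'
    have e : ∀ s : G, evW (fun k t => b (t * (W.get k).1)) (List.ofFn fun k => ((W.get k).2, k)) s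
        = (W.map fun a => a.2 * FreeGroup.of (b (s * a.1))).prod := by
      intro s
      unfold evW
      rw [List.map_ofFn]
      congr 1
      conv_rhs => rw [← List.ofFn_get W]
      rw [List.map_ofFn]
      rfl
    rw [e, e]
    exact h s s'

end Vale.Agent.Lib.P058.FG
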