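import Mathlib

/-! # P058: a group inside a compact semigroup with continuous right translations

If `S` is a compact Hausdorff semigroup such that `x ↦ x * r` is continuous for each `r`, then
there is an idempotent `t` such that `t * S * t` is a group with unit `t`: every element of it has
a left inverse.  The proof uses a minimal closed left ideal. -/

namespace Vale.Agent.Lib.P058.FG

variable {S : Type*} [Semigroup S] [TopologicalSpace S] [CompactSpace S] [T2Space S]

/-- Nonempty closed left ideals. -/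
def IsCLI (I : Set S) : Prop := I.Nonempty ∧ IsClosed I ∧ ∀ s, ∀ x ∈ I, s * x ∈ I

theorem exists_min_cli [Nonempty S] :
    ∃ I : Set S, IsCLI I ∧ ∀ J : Set S, IsCLI J → J ⊆ I → J = I := by
  obtain ⟨m, -, hm⟩ := zorn_superset_nonempty {I : Set S | IsCLI I} (by
    intro c hc hchain hne
    refine ⟨⋂₀ c, ⟨?_, isClosed_sInter fun J hJ => (hc hJ).2.1, ?_⟩, fun J hJ => Set.sInter_subset_of_mem hJ⟩
    · have : Nonempty c := hne.to_subtype
      refine IsCompact.nonempty_sInter_of_directed_nonempty_isCompact_isClosed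
        ?_ (fun J hJ => (hc hJ).1) (fun J hJ => (hc hJ).2.1.isCompact)
        (fun J hJ => (hc hJ).2.1)
      intro x hx y hy
      rcases hchain.total hx hy with h | h
      · exact ⟨x, hx, subset_rfl, h⟩
      · exact ⟨y, hy, h, subset_rfl⟩
    · intro s x hx J hJ
      exact (hc hJ).2.2 s x (hx J hJ)) Set.univ ⟨Set.univ_nonempty, isClosed_univ, fun _ _ _ => trivial⟩
  refine ⟨m, hm.1, fun J hJ hJm => ?_⟩
  exact Set.Subset.antisymm hJm (hm.2 hJ hJm)

/-- The main algebraic fact. -/
theorem exists_group_idempotent [Nonempty S] (hc : ∀ r : S, Continuous (· * r)) :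
    ∃ t : S, t * t = t ∧ ∀ s : S, ∃ z : S, z * (t * s * t) = t := by
  obtain ⟨L, ⟨hne, hcl, hid⟩, hmin⟩ := exists_min_cli (S := S)
  obtain ⟨t, htL, htt⟩ := exists_idempotent_in_compact_subsemigroup hc L hne hcl.isCompact
    (fun x _ y hy => hid x y hy)
  refine ⟨t, htt, fun s => ?_⟩
  have hy : t * s * t ∈ L := hid _ _ htL
  set y := t * s * t with hydef
  have hJ : IsCLI (Set.range fun x : S => x * y) := by
    refine ⟨⟨y * y, y, rfl⟩, ?_, ?_⟩
    · exact (isCompact_range (hc y)).isClosed
    · rintro r _ ⟨x, rfl⟩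
      exact ⟨r * x, by simp [mul_assoc]⟩
  have hsub : (Set.range fun x : S => x * y) ⊆ L := by
    rintro _ ⟨x, rfl⟩
    exact hid x y hy
  have heq := hmin _ hJ hsub
  have ht : t ∈ Set.range fun x : S => x * y := heq ▸ htL
  obtain ⟨z, hz⟩ := ht
  exact ⟨z, hz⟩

end Vale.Agent.Lib.P058.FG
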