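import Vale.Agent.Lib.P058.FG

/-! # P058: every column over a finite symmetric group has a constant reading

For a group `E` and a column `c : Perm α → E` there is a product of right translates of `c` and of
constants which does not depend on the token.  The proof is by induction along the subgroups of
permutations supported in a finite set. -/

namespace Vale.Agent.Lib.P058.FGA

open Equiv Equiv.Perm

section rd

variable {T E : Type} [Group T] [Group E]

/-- Readings of a column along a subgroup: products of right translates and constants. -/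
inductive Rd (K : Subgroup T) (c : T → E) : (T → E) → Prop
  | tr (g : T) (hg : g ∈ K) : Rd K c (fun t => c (t * g))
  | mul {f f' : T → E} : Rd K c f → Rd K c f' → Rd K c (fun t => f t * f' t)
  | cr {f : T → E} (κ : E) : Rd K c f → Rd K c (fun t => f t * κ)
  | cl {f : T → E} (κ : E) : Rd K c f → Rd K c (fun t => κ * f t)

variable {K K' : Subgroup T} {c f f' : T → E}

theorem Rd.refl (K : Subgroup T) (c : T → E) : Rd K c c := by
  simpa using Rd.tr (K := K) (c := c) 1 K.one_mem

theorem Rd.translate (h : Rd K c f) {g : T} (hg : g ∈ K) : Rd K c (fun t => f (t * g)) := by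
  induction h with
  | tr g' hg' =>
    have := Rd.tr (K := K) (c := c) (g * g') (K.mul_mem hg hg')
    simpa [mul_assoc] using this
  | mul _ _ ih1 ih2 => exact Rd.mul ih1 ih2
  | cr κ _ ih => exact Rd.cr κ ih
  | cl κ _ ih => exact Rd.cl κ ih

theorem Rd.trans (h1 : Rd K c f) (h2 : Rd K f f') : Rd K c f' := by
  induction h2 with
  | tr g hg => exact h1.translate hg
  | mul _ _ ih1 ih2 => exact Rd.mul ih1 ih2
  | cr κ _ ih => exact Rd.cr κ ih
  | cl κ _ ih => exact Rd.cl κ ih

theorem Rd.mono (hle : K ≤ K') (h : Rd K c f) : Rd K' c f := by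
  induction h with
  | tr g hg => exact Rd.tr g (hle hg)
  | mul _ _ ih1 ih2 => exact Rd.mul ih1 ih2
  | cr κ _ ih => exact Rd.cr κ ih
  | cl κ _ ih => exact Rd.cl κ ih

/-- Reading a right translate. -/
theorem Rd.comp (hle : K ≤ K') {τ : T} (hτ : τ ∈ K') (h : Rd K (fun t => c (t * τ)) f) :
    Rd K' c f := by
  induction h with
  | tr g hg =>
    have := Rd.tr (K := K') (c := c) (g * τ) (K'.mul_mem (hle hg) hτ)
    simpa [mul_assoc] using this
  | mul _ _ ih1 ih2 => exact Rd.mul ih1 ih2
  | cr κ _ ih => exact Rd.cr κ ih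
  | cl κ _ ih => exact Rd.cl κ ih

/-- A reading of a column which is constant on a coset is constant on that coset. -/
theorem Rd.const_pres (h : Rd K c f) (t : T) (hc : ∀ k ∈ K, c (t * k) = c t) :
    ∀ k ∈ K, f (t * k) = f t := by
  induction h with
  | tr g hg =>
    intro k hk
    have h1 : t * k * g = t * (k * g) := by group
    simp only [h1]
    rw [hc _ (K.mul_mem hk hg), hc _ hg]
  | mul _ _ ih1 ih2 =>
    intro k hk
    simp only [ih1 k hk, ih2 k hk]
  | cr κ _ ih =>
    intro k hk
    simp only [ih k hk]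
  | cl κ _ ih =>
    intro k hk
    simp only [ih k hk]

/-- Two tokens on which all translates agree have the same reading. -/
theorem Rd.congr (h : Rd K c f) (u u' : T) (hc : ∀ g ∈ K, c (u * g) = c (u' * g)) : f u = f u' := by
  induction h with
  | tr g hg => exact hc g hg
  | mul _ _ ih1 ih2 => simp only [ih1, ih2]
  | cr κ _ ih => simp only [ih]
  | cl κ _ ih => simp only [ih]

/-- Normal form of a reading. -/
theorem Rd.normal (h : Rd K c f) : ∃ (W : List (T × E)) (v : E), W ≠ [] ∧
    ∀ t, f t = (W.map fun a => a.2 * c (t * a.1)).prod * v := by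
  induction h with
  | tr g _ => exact ⟨[(g, 1)], 1, by simp, fun t => by simp⟩
  | @mul f₁ f₂ _ _ ih1 ih2 =>
    obtain ⟨W₁, v₁, h₁, e₁⟩ := ih1
    obtain ⟨W₂, v₂, h₂, e₂⟩ := ih2
    cases W₂ with
    | nil => exact absurd rfl h₂
    | cons a W₂' =>
      refine ⟨W₁ ++ (a.1, v₁ * a.2) :: W₂', v₂, by simp, fun t => ?_⟩
      simp only [e₁ t, e₂ t, List.map_append, List.map_cons, List.prod_append, List.prod_cons]
      group
  | cr κ _ ih =>
    obtain ⟨W, v, h, e⟩ := ih
    exact ⟨W, v * κ, h, fun t => by simp only [e t]; group⟩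
  | cl κ _ ih =>
    obtain ⟨W, v, h, e⟩ := ih
    cases W with
    | nil => exact absurd rfl h
    | cons a W' =>
      refine ⟨(a.1, κ * a.2) :: W', v, by simp, fun t => ?_⟩
      simp only [e t, List.map_cons, List.prod_cons]
      group

/-- The product `(w c₁) (w c₂) ...`. -/
def prodC (C : List E) (w : E) : E := (C.map fun c => w * c).prod

/-- The exchange lemma. -/
theorem exch (α β : E) (u u' : T) {X g : T → E} (hf : Rd K X g)
    (hitem : ∀ h ∈ K, X (u * h) = X (u' * h) ∨ (X (u * h) = β ∧ X (u' * h) = α)) :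
    ∀ (C₀ : List E) (x y : E), prodC C₀ α * x = prodC C₀ β * y →
      ∃ C : List E, prodC C α * (x * g u) = prodC C β * (y * g u') := by
  induction hf with
  | tr h hh =>
    intro C₀ x y e
    rcases hitem h hh with h1 | ⟨h1, h2⟩
    · refine ⟨C₀, ?_⟩
      show prodC C₀ α * (x * X (u * h)) = prodC C₀ β * (y * X (u' * h))
      rw [← h1, ← mul_assoc, ← mul_assoc, e]
    · -- the new constant
      set D := prodC C₀ α * x with hD
      refine ⟨(α⁻¹ * D⁻¹) :: C₀, ?_⟩
      show prodC ((α⁻¹ * D⁻¹) :: C₀) α * (x * X (u * h)) = prodC ((α⁻¹ * D⁻¹) :: C₀) β * (y * X (u' * h))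
      rw [h1, h2]
      have e2 : prodC C₀ β * y = D := e.symm
      have s1 : ∀ w : E, prodC ((α⁻¹ * D⁻¹) :: C₀) w = w * (α⁻¹ * D⁻¹) * prodC C₀ w := fun w => by
        simp [prodC]
      rw [s1, s1]
      have l1 : α * (α⁻¹ * D⁻¹) * prodC C₀ α * (x * β) = β := by
        have : α * (α⁻¹ * D⁻¹) * prodC C₀ α * (x * β) = α * (α⁻¹ * D⁻¹) * (prodC C₀ α * x * β) := by
          simp only [mul_assoc]
        rw [this, ← hD]
        group
      have l2 : β * (α⁻¹ * D⁻¹) * prodC C₀ β * (y * α) = β := by
        have : β * (α⁻¹ * D⁻¹) * prodC C₀ β * (y * α) = β * (α⁻¹ * D⁻¹) * (prodC C₀ β * y * α) := by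
          simp only [mul_assoc]
        rw [this, e2]
        group
      rw [l1, l2]
  | mul _ _ ih1 ih2 =>
    intro C₀ x y e
    obtain ⟨C₁, e₁⟩ := ih1 C₀ x y e
    obtain ⟨C₂, e₂⟩ := ih2 C₁ _ _ e₁
    refine ⟨C₂, ?_⟩
    simpa only [mul_assoc] using e₂
  | cr κ _ ih =>
    intro C₀ x y e
    obtain ⟨C₁, e₁⟩ := ih C₀ x y e
    refine ⟨C₁, ?_⟩
    have := congrArg (· * κ) e₁
    simpa only [mul_assoc] using this
  | cl κ _ ih =>
    intro C₀ x y e
    obtain ⟨C₁, e₁⟩ := ih C₀ (x * κ) (y * κ) (by
      rw [← mul_assoc, ← mul_assoc, e])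
    refine ⟨C₁, ?_⟩
    simpa only [mul_assoc] using e₁

theorem Rd.prodC_mul (C : List E) (h : Rd K c f) :
    Rd K c (fun t => prodC C (c t) * f t) := by
  induction C with
  | nil => simpa [prodC] using h
  | cons a C ih =>
    have h1 : Rd K c (fun t => c t * a) := Rd.cr a (Rd.refl K c)
    have := Rd.mul h1 ih
    simpa [prodC, mul_assoc] using this

end rd

section supp

variable {α : Type} [Fintype α] [DecidableEq α]

/-- Permutations supported in a finite set. -/
def Ks (s : Finset α) : Subgroup (Perm α) where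
  carrier := {σ | ∀ x, x ∉ s → σ x = x}
  mul_mem' := by
    intro a b ha hb x hx
    simp only [Perm.mul_apply, hb x hx, ha x hx]
  one_mem' := fun _ _ => rfl
  inv_mem' := by
    intro a ha x hx
    have := ha x hx
    exact Perm.inv_eq_iff_eq.mpr this.symm

theorem mem_Ks {s : Finset α} {σ : Perm α} : σ ∈ Ks s ↔ ∀ x, x ∉ s → σ x = x := Iff.rfl

theorem Ks_mono {s t : Finset α} (h : s ⊆ t) : Ks s ≤ Ks t :=
  fun _ hσ x hx => hσ x (fun hs => hx (h hs))

variable {a : α} {s : Finset α}

theorem mem_K_of_fix (ha : a ∉ s) {g : Perm α} (hg : g ∈ Ks (insert a s)) (hfix : g a = a) :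
    g ∈ Ks s := by
  intro x hx
  by_cases hxa : x = a
  · rw [hxa, hfix]
  · exact hg x (by simp [hxa, hx])

theorem swap_mem (q : α) (hq : q ∈ s) : swap a q ∈ Ks (insert a s) := by
  intro x hx
  simp only [Finset.mem_insert, not_or] at hx
  exact swap_apply_of_ne_of_ne hx.1 (fun e => hx.2 (e ▸ hq))

theorem image_mem (ha : a ∉ s) {g : Perm α} (hg : g ∈ Ks (insert a s)) (hne : g a ≠ a) :
    g a ∈ s := by
  by_contra hcon
  have h1 : g a ∉ insert a s := by
    simp [hne, hcon]
  have h2 := hg _ h1
  exact hne (g.injective h2)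

variable {E : Type} [Group E]

/-- The effect of a transposition on the translates. -/
theorem pair (ha : a ∉ s) {c : Perm α → E} (hc : ∀ k ∈ Ks s, ∀ t, c (t * k) = c t) (u : Perm α)
    {q : α} (hq : q ∈ s) {g : Perm α} (hg : g ∈ Ks (insert a s)) :
    c (u * swap a q * g) = c (u * g) ∨
      (g a = q ∧ c (u * g) = c (u * swap a q) ∧ c (u * swap a q * g) = c u) ∨
      (g a = a ∧ c (u * g) = c u ∧ c (u * swap a q * g) = c (u * swap a q)) := by
  have hqa : q ≠ a := fun e => ha (e ▸ hq)
  set τ := swap a q with hτ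
  have hτm : τ ∈ Ks (insert a s) := swap_mem q hq
  by_cases h1 : g a = a
  · right; right
    have hk := mem_K_of_fix ha hg h1
    exact ⟨h1, hc g hk u, hc g hk _⟩
  by_cases h2 : g a = q
  · right; left
    have hfix : (τ * g) a = a := by
      simp [hτ, Perm.mul_apply, h2]
    have hk : τ * g ∈ Ks s := mem_K_of_fix ha ((Ks _).mul_mem hτm hg) hfix
    have hττ : τ * τ = 1 := by simp [hτ]
    have e1 : u * g = u * τ * (τ * g) := by
      rw [mul_assoc, ← mul_assoc τ τ g, hττ, one_mul]
    have e2 : u * τ * g = u * (τ * g) := by rw [mul_assoc]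
    refine ⟨h2, ?_, ?_⟩
    · rw [e1]; exact hc _ hk _
    · rw [e2]; exact hc _ hk _
  · left
    have hfix : (g⁻¹ * τ * g) a = a := by
      have : τ (g a) = g a := swap_apply_of_ne_of_ne h1 h2
      simp [Perm.mul_apply, this]
    have hk : g⁻¹ * τ * g ∈ Ks s := mem_K_of_fix ha
      ((Ks _).mul_mem ((Ks _).mul_mem ((Ks _).inv_mem hg) hτm) hg) hfix
    have e : u * τ * g = u * g * (g⁻¹ * τ * g) := by group
    rw [e]
    exact hc _ hk _

open Classical in
/-- The set of values on a coset. -/
noncomputable def vals (K' : Subgroup (Perm α)) (t₀ : Perm α) (c : Perm α → E) : Finset E :=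
  (Finset.univ.filter (· ∈ K')).image fun k => c (t₀ * k)

/-- Merging values on one coset. -/
theorem merge (ha : a ∉ s)
    (IH : ∀ c : Perm α → E, ∃ f, Rd (Ks s) c f ∧ ∀ k ∈ Ks s, ∀ t, f (t * k) = f t)
    (t₀ : Perm α) : ∀ (n : ℕ) (c : Perm α → E), (∀ k ∈ Ks s, ∀ t, c (t * k) = c t) →
      (vals (Ks (insert a s)) t₀ c).card ≤ n →
      ∃ f, Rd (Ks (insert a s)) c f ∧ (∀ k ∈ Ks s, ∀ t, f (t * k) = f t) ∧
        ∀ k ∈ Ks (insert a s), f (t₀ * k) = f t₀ := by
  classical
  set K := Ks s with hK
  set K' := Ks (insert a s) with hK'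
  have hle : K ≤ K' := Ks_mono (Finset.subset_insert a s)
  intro n
  induction n with
  | zero =>
    intro c _ hcard
    have h0 : vals K' t₀ c = ∅ := Finset.card_eq_zero.mp (Nat.le_zero.mp hcard)
    have : c t₀ ∈ vals K' t₀ c := by
      refine Finset.mem_image.mpr ⟨1, by simp [K'.one_mem], by simp⟩
    rw [h0] at this
    simp at this
  | succ n ih =>
    intro c hc hcard
    by_cases hq : ∃ q ∈ s, c (t₀ * swap a q) ≠ c t₀
    · obtain ⟨q, hqs, hne⟩ := hq
      have hqa : q ≠ a := fun e => ha (e ▸ hqs)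
      set τ := swap a q with hτ
      have hτm : τ ∈ K' := swap_mem q hqs
      obtain ⟨U, hUrd, hUinv⟩ := IH (fun t => c (t * τ))
      -- the exchange
      have hitem : ∀ h ∈ K, c (t₀ * h * τ) = c (t₀ * τ * h * τ) ∨
          (c (t₀ * h * τ) = c (t₀ * τ) ∧ c (t₀ * τ * h * τ) = c t₀) := by
        intro h hh
        have hg : h * τ ∈ K' := K'.mul_mem (hle hh) hτm
        have hga : (h * τ) a ≠ a := by
          intro e
          have e1 : (h * τ) a = h q := by simp [hτ, Perm.mul_apply]
          rw [e1] at e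
          have e2 : h a = a := hh a ha
          exact hqa (h.injective (e.trans e2.symm))
        rcases pair ha hc t₀ hqs hg with h1 | ⟨_, h1, h2⟩ | ⟨h0, _⟩
        · left
          have e1 : t₀ * τ * h * τ = t₀ * τ * (h * τ) := by group
          have e2 : t₀ * h * τ = t₀ * (h * τ) := by group
          rw [e1, e2]
          exact h1.symm
        · right
          have e1 : t₀ * τ * h * τ = t₀ * τ * (h * τ) := by group
          have e2 : t₀ * h * τ = t₀ * (h * τ) := by group
          rw [e1, e2]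
          exact ⟨h1, h2⟩
        · exact absurd h0 hga
      obtain ⟨C, hC⟩ := exch (c t₀) (c (t₀ * τ)) t₀ (t₀ * τ) hUrd hitem [] 1 1 (by simp [prodC])
      simp only [one_mul] at hC
      set W : Perm α → E := fun t => prodC C (c t) * U t with hW
      have hWrd : Rd K' c W := (Rd.comp hle hτm hUrd).prodC_mul C
      have hWinv : ∀ k ∈ K, ∀ t, W (t * k) = W t := by
        intro k hk t
        simp only [hW, hc k hk t, hUinv k hk t]
      have hWeq : W t₀ = W (t₀ * τ) := hC
      -- the new column is a function of the old value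
      have hfun : ∀ k ∈ K', ∀ k' ∈ K', c (t₀ * k) = c (t₀ * k') → W (t₀ * k) = W (t₀ * k') := by
        intro k hk k' hk' hval
        set u := t₀ * k with hu
        set k'' := k⁻¹ * k' with hk''
        have hk''m : k'' ∈ K' := K'.mul_mem (K'.inv_mem hk) hk'
        have hu' : t₀ * k' = u * k'' := by
          rw [hu, hk'']
          group
        rw [hu']
        rw [hu'] at hval
        by_cases hfix : k'' a = a
        · exact (hWinv _ (mem_K_of_fix ha hk''m hfix) u).symm
        · have hq' : k'' a ∈ s := image_mem ha hk''m hfix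
          set ρ := swap a (k'' a) with hρ
          have hρm : ρ ∈ K' := swap_mem _ hq'
          have hfix2 : (ρ * k'') a = a := by
            simp [hρ, Perm.mul_apply]
          have hh : ρ * k'' ∈ K := mem_K_of_fix ha (K'.mul_mem hρm hk''m) hfix2
          have hρρ : ρ * ρ = 1 := by simp [hρ]
          have e1 : u * k'' = u * ρ * (ρ * k'') := by
            rw [show u * ρ * (ρ * k'') = u * ((ρ * ρ) * k'') by simp only [mul_assoc], hρρ, one_mul]
          rw [e1] at hval ⊢
          rw [hWinv _ hh]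
          rw [hc _ hh] at hval
          refine Rd.congr hWrd _ _ fun g hg => ?_
          rcases pair ha hc u hq' hg with h1 | ⟨_, h1, h2⟩ | ⟨_, h1, h2⟩
          · exact h1.symm
          · rw [h1, h2]; exact hval.symm
          · rw [h1, h2]; exact hval
      -- the number of values drops
      let φ : E → E := fun e =>
        if h : ∃ k, k ∈ K' ∧ c (t₀ * k) = e then W (t₀ * h.choose) else 1
      have hφ : ∀ k ∈ K', φ (c (t₀ * k)) = W (t₀ * k) := by
        intro k hk
        have h : ∃ k', k' ∈ K' ∧ c (t₀ * k') = c (t₀ * k) := ⟨k, hk, rfl⟩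
        simp only [φ, dif_pos h]
        exact hfun _ h.choose_spec.1 _ hk h.choose_spec.2
      have hsub : vals K' t₀ W ⊆ ((vals K' t₀ c).erase (c (t₀ * τ))).image φ := by
        intro e he
        obtain ⟨k, hk, rfl⟩ := Finset.mem_image.mp he
        have hk' : k ∈ K' := (Finset.mem_filter.mp hk).2
        by_cases hb : c (t₀ * k) = c (t₀ * τ)
        · refine Finset.mem_image.mpr ⟨c t₀, ?_, ?_⟩
          · refine Finset.mem_erase.mpr ⟨fun e => hne e.symm, ?_⟩
            exact Finset.mem_image.mpr ⟨1, by simp [K'.one_mem], by simp⟩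
          · have h1 := hφ 1 K'.one_mem
            rw [mul_one] at h1
            rw [h1, hfun k hk' τ hτm hb, hWeq]
        · refine Finset.mem_image.mpr ⟨c (t₀ * k), ?_, hφ k hk'⟩
          refine Finset.mem_erase.mpr ⟨hb, ?_⟩
          exact Finset.mem_image.mpr ⟨k, hk, rfl⟩
      have hbmem : c (t₀ * τ) ∈ vals K' t₀ c :=
        Finset.mem_image.mpr ⟨τ, by simp [hτm], rfl⟩
      have hdrop : (vals K' t₀ W).card ≤ n := by
        calc (vals K' t₀ W).card ≤ (((vals K' t₀ c).erase (c (t₀ * τ))).image φ).card :=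
              Finset.card_le_card hsub
          _ ≤ ((vals K' t₀ c).erase (c (t₀ * τ))).card := Finset.card_image_le
          _ = (vals K' t₀ c).card - 1 := Finset.card_erase_of_mem hbmem
          _ ≤ n := by omega
      obtain ⟨f, hf1, hf2, hf3⟩ := ih W hWinv hdrop
      exact ⟨f, hWrd.trans hf1, hf2, hf3⟩
    · push Not at hq
      refine ⟨c, Rd.refl _ _, hc, fun k hk => ?_⟩
      by_cases hfix : k a = a
      · exact hc _ (mem_K_of_fix ha hk hfix) _
      · have hq' : k a ∈ s := image_mem ha hk hfix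
        set ρ := swap a (k a) with hρ
        have hρm : ρ ∈ K' := swap_mem _ hq'
        have hfix2 : (ρ * k) a = a := by
          simp [hρ, Perm.mul_apply]
        have hh : ρ * k ∈ K := mem_K_of_fix ha (K'.mul_mem hρm hk) hfix2
        have hρρ : ρ * ρ = 1 := by simp [hρ]
        have e1 : t₀ * k = t₀ * ρ * (ρ * k) := by
          rw [mul_assoc, ← mul_assoc ρ ρ k, hρρ, one_mul]
        rw [e1, hc _ hh]
        exact hq _ hq'

/-- One step of the induction. -/
theorem step (ha : a ∉ s)
    (IH : ∀ c : Perm α → E, ∃ f, Rd (Ks s) c f ∧ ∀ k ∈ Ks s, ∀ t, f (t * k) = f t)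
    (c : Perm α → E) : ∃ f, Rd (Ks (insert a s)) c f ∧
      ∀ k ∈ Ks (insert a s), ∀ t, f (t * k) = f t := by
  classical
  have hle : Ks s ≤ Ks (insert a s) := Ks_mono (Finset.subset_insert a s)
  obtain ⟨c₁, h1, h2⟩ := IH c
  have H : ∀ A : Finset (Perm α), ∃ f, Rd (Ks (insert a s)) c₁ f ∧
      (∀ k ∈ Ks s, ∀ t, f (t * k) = f t) ∧
      ∀ t ∈ A, ∀ k ∈ Ks (insert a s), f (t * k) = f t := by
    intro A
    induction A using Finset.induction_on with
    | empty => exact ⟨c₁, Rd.refl _ _, h2, by simp⟩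
    | insert t₁ A _ ih =>
      obtain ⟨f₀, r0, i0, c0⟩ := ih
      obtain ⟨f, r1, i1, c1⟩ := merge ha IH t₁ _ f₀ i0 le_rfl
      refine ⟨f, r0.trans r1, i1, fun t ht k hk => ?_⟩
      rcases Finset.mem_insert.mp ht with rfl | hA
      · exact c1 k hk
      · exact r1.const_pres t (c0 t hA) k hk
  obtain ⟨f, r, -, h3⟩ := H Finset.univ
  exact ⟨f, (h1.mono hle).trans r, fun k hk t => h3 t (Finset.mem_univ t) k hk⟩

/-- All subgroups of permutations supported in a finite set. -/
theorem main (s : Finset α) : ∀ c : Perm α → E, ∃ f, Rd (Ks s) c f ∧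
    ∀ k ∈ Ks s, ∀ t, f (t * k) = f t := by
  induction s using Finset.induction_on with
  | empty =>
    intro c
    refine ⟨c, Rd.refl _ _, fun k hk t => ?_⟩
    have : k = 1 := Equiv.ext fun x => hk x (by simp)
    simp [this]
  | insert a s ha ih => exact step ha ih

/-- **Constant readings.** -/
theorem exists_constant (c : Perm α → E) : ∃ f, Rd (Ks (Finset.univ : Finset α)) c f ∧
    ∀ t t', f t = f t' := by
  obtain ⟨f, h1, h2⟩ := main (Finset.univ : Finset α) c
  refine ⟨f, h1, fun t t' => ?_⟩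
  have := h2 (t⁻¹ * t') (fun x hx => absurd (Finset.mem_univ x) hx) t
  rw [mul_inv_cancel_left] at this
  exact this.symm

end supp

end Vale.Agent.Lib.P058.FGA
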