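import Vale.Agent.Lib.P058.FGAll

/-! # P058: every finite transitive set, and every subset of one, is Ramsey -/

namespace Vale.Agent.Lib.P058.FGA

open Equiv Equiv.Perm

/-- The identity column of a finite group has a copy of finitely many of its right translates. -/
theorem certG_id {G : Type} [Group G] [Fintype G] [DecidableEq G] : CertG (fun t : G => t) := by
  let c : Perm G → FreeGroup G := fun σ => FreeGroup.of (σ 1)
  obtain ⟨f, hrd, hconst⟩ := exists_constant c
  obtain ⟨W, v, hW, e⟩ := hrd.normal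
  let W' : List (G × FreeGroup G) := W.map fun a => (a.1 1, a.2)
  refine FG.certG_of_identity (fun t => t) W' (by simpa [W'] using hW) fun t t' => ?_
  have key : ∀ t : G, (W'.map fun a => a.2 * FreeGroup.of (t * a.1)).prod
      = f (Equiv.mulLeft t) * v⁻¹ := by
    intro t
    rw [e]
    simp [W', c, Function.comp_def, Perm.mul_apply]
  rw [key, key, hconst]

variable {ι : Type} [Fintype ι]

/-- Transitive isometric actions of finite groups. -/
theorem isRamsey_of_action {Γ : Type} [Group Γ] [Fintype Γ] (X : Set (EuclideanSpace ℝ ι))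
    [MulAction Γ X]
    (hiso : ∀ (g : Γ) (a b : X),
      dist ((g • a : X) : EuclideanSpace ℝ ι) (g • b : X) = dist (a : EuclideanSpace ℝ ι) b)
    (htr : ∀ a b : X, ∃ g : Γ, g • a = b) : IsRamsey X := by
  classical
  by_cases hne : Nonempty X
  · obtain ⟨x₀⟩ := hne
    exact isRamsey_of_certG hiso x₀ (fun y => htr x₀ y) (b₀ := fun t : Γ => t)
      (by rintro t t' rfl; rfl) certG_id
  · intro r hr
    refine ⟨1, le_rfl, fun c => ⟨fun _ => 0, ⟨0, by omega⟩, ?_, ?_⟩⟩
    · intro x hx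
      exact absurd ⟨⟨x, hx⟩⟩ hne
    · intro x hx
      exact absurd ⟨⟨x, hx⟩⟩ hne

/-- **A finite set whose isometries act transitively is Ramsey.** -/
theorem isRamsey_of_transitive (X : Set (EuclideanSpace ℝ ι)) (hfin : X.Finite)
    (htr : ∀ a ∈ X, ∀ b ∈ X, ∃ φ : EuclideanSpace ℝ ι ≃ᵢ EuclideanSpace ℝ ι, φ '' X = X ∧ φ a = b) :
    IsRamsey X := by
  classical
  haveI : Fintype X := hfin.fintype
  let Γ : Subgroup (Perm X) :=
    { carrier := {σ | ∀ a b : X, dist ((σ a : X) : EuclideanSpace ℝ ι) (σ b) = dist (a : EuclideanSpace ℝ ι) b}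
      mul_mem' := by
        intro σ τ hσ hτ a b
        simp only [Perm.mul_apply]
        rw [hσ, hτ]
      one_mem' := fun a b => rfl
      inv_mem' := by
        intro σ hσ a b
        have := hσ (σ⁻¹ a) (σ⁻¹ b)
        simpa using this.symm }
  haveI : Fintype Γ := Fintype.ofFinite _
  refine isRamsey_of_action (Γ := Γ) X (fun g a b => g.2 a b) fun a b => ?_
  obtain ⟨φ, h1, h2⟩ := htr a a.2 b b.2
  have hmem : ∀ x, x ∈ X ↔ φ x ∈ X := by
    intro x
    constructor
    · intro hx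
      rw [← h1]
      exact ⟨x, hx, rfl⟩
    · intro hx
      rw [← h1] at hx
      obtain ⟨y, hy, e⟩ := hx
      rwa [← φ.injective e]
  let σ : Perm X := φ.toEquiv.subtypeEquiv hmem
  have hσ : σ ∈ Γ := by
    intro x y
    exact φ.dist_eq _ _
  refine ⟨⟨σ, hσ⟩, Subtype.ext ?_⟩
  exact h2

/-- **Subtransitive sets are Ramsey.** -/
theorem isRamsey_of_subtransitive {ι' : Type} [Fintype ι'] (X : Set (EuclideanSpace ℝ ι))
    (hfin : X.Finite)
    (htr : ∀ a ∈ X, ∀ b ∈ X, ∃ φ : EuclideanSpace ℝ ι ≃ᵢ EuclideanSpace ℝ ι, φ '' X = X ∧ φ a = b)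
    (Y : Set (EuclideanSpace ℝ ι')) (g : EuclideanSpace ℝ ι' → EuclideanSpace ℝ ι)
    (hg : ∀ y ∈ Y, g y ∈ X) (hd : ∀ y ∈ Y, ∀ y' ∈ Y, dist (g y) (g y') = dist y y') :
    IsRamsey Y := by
  intro r hr
  obtain ⟨D, hD, h⟩ := isRamsey_of_transitive X hfin htr r hr
  refine ⟨D, hD, fun c => ?_⟩
  obtain ⟨f, k, h1, h2⟩ := h c
  refine ⟨f ∘ g, k, fun x hx y hy => ?_, fun x hx => h2 _ (hg x hx)⟩
  simp only [Function.comp_apply]
  rw [h1 _ (hg x hx) _ (hg y hy), hd x hx y hy]

end Vale.Agent.Lib.P058.FGA
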