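import Vale.Agent.Lib.P058.ThmAQ

open Finset

namespace Vale.Agent.Lib.P058

set_option linter.unusedSectionVars false

universe u

section factor

variable {E : Type u} [Fintype E] [DecidableEq E]

/-- A common denominator of a finite family of rationals. -/
lemma exists_common_den {X : Type*} [Fintype X] (S : X → ℚ) :
    ∃ D : ℕ, 0 < D ∧ ∀ x, ∃ z : ℤ, (D : ℚ) * S x = z := by
  classical
  refine ⟨∏ x, (S x).den, Finset.prod_pos fun x _ => (S x).den_pos, fun x => ?_⟩
  have hdvd : (S x).den ∣ ∏ x, (S x).den := Finset.dvd_prod_of_mem _ (Finset.mem_univ x)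
  obtain ⟨c, hc⟩ := hdvd
  refine ⟨(S x).num * c, ?_⟩
  rw [hc]
  push_cast
  have h := Rat.mul_den_eq_num (S x)
  calc ((S x).den : ℚ) * c * S x = (S x * (S x).den) * c := by ring
    _ = ((S x).num : ℚ) * c := by rw [h]

/-- The unit vector with integer entries. -/
def uV (e r : E) : ℤ := if r = e then 1 else 0

lemma sum_uV_mul (e : E) (g : E → ℤ) : ∑ r, uV e r * g r = g e := by
  simp [uV]

lemma sum_mul_uV (e : E) (g : E → ℤ) : ∑ r, g r * uV e r = g e := by
  simp [uV]

lemma abs_mul_sign (x : ℤ) : |x| * x.sign = x := by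
  rcases lt_trichotomy x 0 with h | h | h
  · rw [Int.sign_eq_neg_one_of_neg h, abs_of_neg h]; ring
  · simp [h]
  · rw [Int.sign_eq_one_of_pos h, abs_of_pos h]; ring

lemma abs_mul_sign_sq (x : ℤ) : |x| * (x.sign * x.sign) = |x| := by
  rcases lt_trichotomy x 0 with h | h | h
  · rw [Int.sign_eq_neg_one_of_neg h]; ring
  · simp [h]
  · rw [Int.sign_eq_one_of_pos h]; ring

/-- The row of index `(p, q)` of the factor matrix. -/
def rowF (Of : E → E → ℤ) (p q r : E) : ℤ := uV p r + uV q r * (Of p q).sign

/-- The square expansion of one row. -/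
lemma rowF_mul (Of : E → E → ℤ) (p q e f : E) :
    |Of p q| * (rowF Of p q e * rowF Of p q f)
      = |Of p q| * (uV p e * uV p f) + Of p q * (uV p e * uV q f) + Of p q * (uV q e * uV p f)
        + |Of p q| * (uV q e * uV q f) := by
  unfold rowF
  have h1 := abs_mul_sign (Of p q)
  have h2 := abs_mul_sign_sq (Of p q)
  calc |Of p q| * ((uV p e + uV q e * (Of p q).sign) * (uV p f + uV q f * (Of p q).sign))
      = |Of p q| * (uV p e * uV p f)
        + (|Of p q| * (Of p q).sign) * (uV p e * uV q f)
        + (|Of p q| * (Of p q).sign) * (uV q e * uV p f)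
        + (|Of p q| * ((Of p q).sign * (Of p q).sign)) * (uV q e * uV q f) := by ring
    _ = _ := by rw [h1, h2]

/-- The identity for the weighted sum of rows. -/
lemma sum_rowF (Of : E → E → ℤ) (hsym : ∀ p q, Of p q = Of q p) (e f : E) :
    ∑ p, ∑ q, |Of p q| * (rowF Of p q e * rowF Of p q f)
      = (if e = f then 2 * ∑ q, |Of e q| else 0) + 2 * Of e f := by
  simp only [rowF_mul, Finset.sum_add_distrib]
  have t1 : ∑ p, ∑ q, |Of p q| * (uV p e * uV p f)
      = if e = f then ∑ q, |Of e q| else 0 := by
    by_cases hef : e = f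
    · subst hef
      rw [if_pos rfl, Finset.sum_eq_single e]
      · refine Finset.sum_congr rfl fun q _ => ?_
        simp [uV]
      · intro p _ hp
        refine Finset.sum_eq_zero fun q _ => ?_
        simp [uV, Ne.symm hp]
      · intro h; exact absurd (Finset.mem_univ e) h
    · rw [if_neg hef]
      refine Finset.sum_eq_zero fun p _ => Finset.sum_eq_zero fun q _ => ?_
      unfold uV
      by_cases h1 : e = p
      · have h2 : f ≠ p := fun h => hef (h1.trans h.symm)
        simp [h2]
      · simp [h1]
  have t2 : ∑ p, ∑ q, Of p q * (uV p e * uV q f) = Of e f := by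
    rw [Finset.sum_eq_single e]
    · rw [Finset.sum_eq_single f]
      · simp [uV]
      · intro q _ hq
        simp [uV, Ne.symm hq]
      · intro h; exact absurd (Finset.mem_univ f) h
    · intro p _ hp
      refine Finset.sum_eq_zero fun q _ => ?_
      simp [uV, Ne.symm hp]
    · intro h; exact absurd (Finset.mem_univ e) h
  have t3 : ∑ p, ∑ q, Of p q * (uV q e * uV p f) = Of e f := by
    rw [Finset.sum_eq_single f]
    · rw [Finset.sum_eq_single e]
      · simp [uV, hsym f e]
      · intro q _ hq
        simp [uV, Ne.symm hq]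
      · intro h; exact absurd (Finset.mem_univ e) h
    · intro p _ hp
      refine Finset.sum_eq_zero fun q _ => ?_
      simp [uV, Ne.symm hp]
    · intro h; exact absurd (Finset.mem_univ f) h
  have t4 : ∑ p, ∑ q, |Of p q| * (uV q e * uV q f)
      = if e = f then ∑ q, |Of e q| else 0 := by
    rw [Finset.sum_comm]
    by_cases hef : e = f
    · subst hef
      rw [if_pos rfl, Finset.sum_eq_single e]
      · refine Finset.sum_congr rfl fun q _ => ?_
        simp [uV, hsym q e]
      · intro p _ hp
        refine Finset.sum_eq_zero fun q _ => ?_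
        simp [uV, Ne.symm hp]
      · intro h; exact absurd (Finset.mem_univ e) h
    · rw [if_neg hef]
      refine Finset.sum_eq_zero fun p _ => Finset.sum_eq_zero fun q _ => ?_
      unfold uV
      by_cases h1 : e = p
      · have h2 : f ≠ p := fun h => hef (h1.trans h.symm)
        simp [h2]
      · simp [h1]
  rw [t1, t2, t3, t4]
  split_ifs <;> ring

/-- Strictly diagonally dominant symmetric rational matrices are, after scaling, explicit integer
sums of squares, and the factor contains all unit vectors among its rows. -/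
theorem exists_factor (S : E × E → ℚ) (hsym : ∀ e f, S (e, f) = S (f, e))
    (hdom : ∀ p, ∑ q ∈ univ.erase p, |S (p, q)| < S (p, p)) :
    ∃ (K : Type u) (_ : Fintype K) (_ : DecidableEq K) (C : K → E → ℤ) (D : ℕ), 0 < D ∧
      (∀ e f, ((∑ k, C k e * C k f : ℤ) : ℚ) = (D : ℚ) * S (e, f)) ∧
      ∀ e, ∃ k, ∀ r, C k r = uV e r := by
  classical
  obtain ⟨D', hD', hint⟩ := exists_common_den S
  choose Om hOm using hint
  have hD'q : (0 : ℚ) < (D' : ℚ) := by exact_mod_cast hD'
  have hOmsym : ∀ e f, Om (e, f) = Om (f, e) := by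
    intro e f
    have : ((Om (e, f) : ℤ) : ℚ) = ((Om (f, e) : ℤ) : ℚ) := by
      rw [← hOm, ← hOm, hsym e f]
    exact_mod_cast this
  set Of : E → E → ℤ := fun p q => if p = q then 0 else Om (p, q) with hOf
  have hOfsym : ∀ p q, Of p q = Of q p := by
    intro p q
    simp only [hOf]
    by_cases h : p = q
    · simp [h]
    · rw [if_neg h, if_neg (Ne.symm h), hOmsym]
  have hsum1 : ∀ p, ∑ q, |Of p q| = ∑ q ∈ univ.erase p, |Om (p, q)| := by
    intro p
    rw [← Finset.add_sum_erase _ _ (Finset.mem_univ p)]
    simp only [hOf, if_true, abs_zero, zero_add]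
    refine Finset.sum_congr rfl fun q hq => ?_
    have : p ≠ q := fun h => (Finset.mem_erase.mp hq).1 h.symm
    rw [if_neg this]
  have hdom' : ∀ p, ∑ q, |Of p q| < Om (p, p) := by
    intro p
    rw [hsum1]
    have h1 : ((∑ q ∈ univ.erase p, |Om (p, q)| : ℤ) : ℚ)
        = (D' : ℚ) * ∑ q ∈ univ.erase p, |S (p, q)| := by
      push_cast
      rw [Finset.mul_sum]
      refine Finset.sum_congr rfl fun q _ => ?_
      rw [← hOm, abs_mul, abs_of_pos hD'q]
    have h2 : ((Om (p, p) : ℤ) : ℚ) = (D' : ℚ) * S (p, p) := (hOm _).symm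
    have h3 : (D' : ℚ) * ∑ q ∈ univ.erase p, |S (p, q)| < (D' : ℚ) * S (p, p) :=
      mul_lt_mul_of_pos_left (hdom p) hD'q
    rw [← h1, ← h2] at h3
    exact_mod_cast h3
  set nD : E → ℤ := fun p => 2 * (Om (p, p) - ∑ q, |Of p q|) with hnD
  have hnD1 : ∀ p, 2 ≤ nD p := by
    intro p
    have := hdom' p
    simp only [hnD]
    omega
  set m : E × E → ℕ := fun x => (|Of x.1 x.2|).toNat + if x.1 = x.2 then (nD x.1).toNat else 0 with hm
  have hmcast : ∀ p q, ((m (p, q) : ℕ) : ℤ) = |Of p q| + if p = q then nD p else 0 := by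
    intro p q
    simp only [hm]
    push_cast
    rw [Int.toNat_of_nonneg (abs_nonneg _)]
    split_ifs with h
    · have := hnD1 p
      rw [Int.toNat_of_nonneg (by omega)]
    · simp
  let K := Σ x : E × E, Fin (m x)
  let C : K → E → ℤ := fun k r => rowF Of k.1.1 k.1.2 r
  refine ⟨K, inferInstance, inferInstance, C, 2 * D', by omega, ?_, ?_⟩
  · intro e f
    have hsumK : ∑ k : K, C k e * C k f
        = ∑ p, ∑ q, ((m (p, q) : ℕ) : ℤ) * (rowF Of p q e * rowF Of p q f) := by
      rw [Fintype.sum_sigma, Fintype.sum_prod_type]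
      refine Finset.sum_congr rfl fun p _ => Finset.sum_congr rfl fun q _ => ?_
      simp [C]
    have hdiag : ∀ p q, rowF Of p q e * rowF Of p q f * (if p = q then nD p else 0)
        = if p = q then uV p e * uV p f * nD p else 0 := by
      intro p q
      by_cases h : p = q
      · subst h
        simp [rowF, hOf]
      · simp [h]
    have hsplit : ∑ p, ∑ q, ((m (p, q) : ℕ) : ℤ) * (rowF Of p q e * rowF Of p q f)
        = ∑ p, ∑ q, |Of p q| * (rowF Of p q e * rowF Of p q f)
          + ∑ p, uV p e * uV p f * nD p := by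
      rw [← Finset.sum_add_distrib]
      refine Finset.sum_congr rfl fun p _ => ?_
      have h1 : ∑ q, (if p = q then uV p e * uV p f * nD p else 0) = uV p e * uV p f * nD p := by
        simp
      rw [← h1, ← Finset.sum_add_distrib]
      refine Finset.sum_congr rfl fun q _ => ?_
      rw [hmcast, add_mul, ← hdiag p q]
      ring
    have hlast : ∑ p, uV p e * uV p f * nD p = if e = f then nD e else 0 := by
      by_cases hef : e = f
      · subst hef
        rw [if_pos rfl, Finset.sum_eq_single e]
        · simp [uV]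
        · intro p _ hp
          simp [uV, Ne.symm hp]
        · intro h; exact absurd (Finset.mem_univ e) h
      · rw [if_neg hef]
        refine Finset.sum_eq_zero fun p _ => ?_
        unfold uV
        by_cases h1 : e = p
        · have h2 : f ≠ p := fun h => hef (h1.trans h.symm)
          simp [h2]
        · simp [h1]
    have hfinal : ∑ k : K, C k e * C k f = 2 * Om (e, f) := by
      rw [hsumK, hsplit, sum_rowF Of hOfsym, hlast]
      by_cases hef : e = f
      · subst hef
        simp only [if_true, hOf, hnD]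
        ring
      · simp only [if_neg hef, hOf]
        ring
    rw [hfinal]
    push_cast
    rw [← hOm]
    ring
  · intro e
    have hpos : 0 < m (e, e) := by
      have h1 := hmcast e e
      rw [if_pos rfl] at h1
      have h2 := hnD1 e
      have h3 := abs_nonneg (Of e e)
      have : (0 : ℤ) < ((m (e, e) : ℕ) : ℤ) := by omega
      exact_mod_cast this
    refine ⟨⟨(e, e), ⟨0, hpos⟩⟩, fun r => ?_⟩
    simp [C, rowF, hOf]

end factor

end Vale.Agent.Lib.P058
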