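import Vale.Agent.Lib.P058.X3Final

/-! # A uniform deletion tower: one letter `2`, three letters `1`, all other letters `0`

Positions `Fin (m+1)`, for every `m`.  Tower: delete `0` and read the line (rank of the letter `2`
among the four non default letters, `4` labels), two necks along the reversal of the line
(`2` labels), then read the whole symmetric group. -/

namespace Vale.Agent.Lib.P058.Fam3

open Finset

variable {m : ℕ}

/-- Tokens: letter functions with exactly one letter `2`, exactly three letters `1`, no letter `3`;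
all other positions carry the default letter `0`. -/
abbrev Tok (m : ℕ) : Type :=
  {f : Fin (m + 1) → Fin 4 // (∀ i, f i ≠ 3) ∧ (univ.filter (fun i => f i = 2)).card = 1 ∧
    (univ.filter (fun i => f i = 1)).card = 3}

theorem card_comp (f : Fin (m + 1) → Fin 4) (γ : Equiv.Perm (Fin (m + 1))) (v : Fin 4) :
    (univ.filter (fun i => f (γ i) = v)).card = (univ.filter (fun i => f i = v)).card :=
  Finset.card_equiv γ (by simp)

/-- Right action by precomposition. -/
def act (γ : Equiv.Perm (Fin (m + 1))) (t : Tok m) : Tok m :=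
  ⟨fun i => t.1 (γ i), fun i => t.2.1 _, by rw [card_comp t.1 γ 2]; exact t.2.2.1,
    by rw [card_comp t.1 γ 1]; exact t.2.2.2⟩

theorem act_act (g h : Equiv.Perm (Fin (m + 1))) (t : Tok m) : act g (act h t) = act (h * g) t := by
  apply Subtype.ext
  funext i
  simp [act, Equiv.Perm.mul_apply]

theorem act_one (t : Tok m) : act 1 t = t := by
  apply Subtype.ext
  funext i
  simp [act]

/-- The letter of a token at a position. -/
def col (t : Tok m) (ω : Fin (m + 1)) : Fin 4 := t.1 ω

theorem col_act (γ : Equiv.Perm (Fin (m + 1))) (t : Tok m) (ω : Fin (m + 1)) :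
    col (act γ t) ω = col t (γ ω) := rfl

/-- The non default subword of the line. -/
def w (t : Tok m) : List (Fin 4) := ((List.finRange (m + 1)).map t.1).filter (· ≠ 0)

theorem countP_finRange (q : Fin (m + 1) → Bool) :
    (List.finRange (m + 1)).countP q = (univ.filter (fun i => q i = true)).card := by
  rw [List.countP_eq_length_filter]
  have hnd : ((List.finRange (m + 1)).filter q).Nodup := (List.nodup_finRange _).filter _
  rw [← List.toFinset_card_of_nodup hnd]
  congr 1
  ext i
  simp

theorem count_w (t : Tok m) {v : Fin 4} (hv : v ≠ 0) :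
    (w t).count v = (univ.filter (fun i => t.1 i = v)).card := by
  unfold w
  rw [List.count_filter (by simpa using hv), List.count, List.countP_map, countP_finRange]
  congr 1
  ext i
  simp [Function.comp]

theorem mem_w (t : Tok m) {x : Fin 4} (hx : x ∈ w t) : x = 1 ∨ x = 2 := by
  unfold w at hx
  simp only [List.mem_filter, List.mem_map, decide_eq_true_eq] at hx
  obtain ⟨⟨i, -, rfl⟩, h0⟩ := hx
  have h3 := t.2.1 i
  revert h0 h3
  generalize t.1 i = v
  revert v
  decide

theorem length_of_mem (l : List (Fin 4)) (h : ∀ x ∈ l, x = 1 ∨ x = 2) :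
    l.length = l.count 1 + l.count 2 := by
  induction l with
  | nil => simp
  | cons a l ih =>
    have ih' := ih (fun x hx => h x (List.mem_cons_of_mem _ hx))
    rcases h a List.mem_cons_self with rfl | rfl
    · rw [List.count_cons_self, List.count_cons_of_ne (by decide), List.length_cons, ih']
      omega
    · rw [List.count_cons_self, List.count_cons_of_ne (by decide), List.length_cons, ih']
      omega

theorem w_cases (t : Tok m) :
    w t = [2, 1, 1, 1] ∨ w t = [1, 2, 1, 1] ∨ w t = [1, 1, 2, 1] ∨ w t = [1, 1, 1, 2] := by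
  have h1 : (w t).count 1 = 3 := by rw [count_w t (by decide)]; exact t.2.2.2
  have h2 : (w t).count 2 = 1 := by rw [count_w t (by decide)]; exact t.2.2.1
  have hm : ∀ x ∈ w t, x = 1 ∨ x = 2 := fun x hx => mem_w t hx
  have hl := length_of_mem _ hm
  rw [h1, h2] at hl
  generalize w t = l at *
  match l, hl, h1, h2, hm with
  | [p, q, r, s], _, h1, h2, hm =>
    rcases hm p (by simp) with rfl | rfl <;> rcases hm q (by simp) with rfl | rfl <;>
      rcases hm r (by simp) with rfl | rfl <;> rcases hm s (by simp) with rfl | rfl <;>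
      revert h1 h2 <;> decide

/-- The reversal of the line. -/
def ρ : Equiv.Perm (Fin (m + 1)) := Fin.revPerm

theorem w_rev (t : Tok m) : w (act ρ t) = (w t).reverse := by
  unfold w
  rw [← List.filter_reverse, ← List.map_reverse]
  congr 1
  apply List.ext_getElem
  · simp
  · intro i h1 h2
    simp only [List.getElem_map, List.getElem_reverse, List.getElem_finRange, act, ρ,
      Fin.revPerm_apply]
    apply congrArg
    apply Fin.ext
    simp only [List.length_map, List.length_finRange] at h1
    simp [Fin.rev]

/-- The rank of the letter `2` among the four non default letters. -/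
def b1 (t : Tok m) : Fin 4 :=
  if w t = [2, 1, 1, 1] then 0 else if w t = [1, 2, 1, 1] then 1
  else if w t = [1, 1, 2, 1] then 2 else 3

/-- The word of a rank. -/
def d1 (l : Fin 4) : List (Fin 4) :=
  if l = 0 then [2, 1, 1, 1] else if l = 1 then [1, 2, 1, 1]
  else if l = 2 then [1, 1, 2, 1] else [1, 1, 1, 2]

theorem w_eq_d1 (t : Tok m) : w t = d1 (b1 t) := by
  rcases w_cases t with h | h | h | h <;> simp [b1, d1, h]

theorem b1_rev (t : Tok m) : b1 (act ρ t) = 3 - b1 t := by
  have h := w_rev t
  rcases w_cases t with h' | h' | h' | h' <;> rw [h'] at h <;> simp [b1, h, h']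

/-- First neck: the ranks `0` and `3` are identified, `3` is the deleted letter. -/
def f2 (l : Fin 4) : Fin 4 := if l = 0 ∨ l = 3 then 0 else if l = 1 then 1 else 2

def b2 (t : Tok m) : Fin 4 := f2 (b1 t)

def d2 (l : Fin 4) : List (Fin 4) := if l = 0 then [0] else if l = 1 then [1, 2] else [2, 1]

def f3 (l : Fin 4) : Fin 4 := if l = 0 then 0 else 1

def b3 (t : Tok m) : Fin 4 := f3 (b2 t)

def d3 (l : Fin 4) : List (Fin 4) := if l = 0 then [0, 0] else [1]

theorem chk1 (t : Tok m) :
    (([1, ρ] : List (Equiv.Perm (Fin (m + 1)))).map (fun γ => b1 (act γ t))).filter (· ≠ 3) =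
      d2 (b2 t) := by
  have h := b1_rev t
  simp only [List.map_cons, List.map_nil, act_one, h, b2]
  generalize b1 t = l
  revert l
  decide

theorem chk2 (t : Tok m) :
    (([1, ρ] : List (Equiv.Perm (Fin (m + 1)))).map (fun γ => b2 (act γ t))).filter (· ≠ 2) =
      d3 (b3 t) := by
  have h := b1_rev t
  simp only [List.map_cons, List.map_nil, act_one, b2, h, b3]
  generalize b1 t = l
  revert l
  decide

theorem b3_val (t : Tok m) : b3 t = 0 ∨ b3 t = 1 := by
  unfold b3 f3
  split_ifs <;> simp

theorem card_letter_zero (t : Tok m) :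
    (univ.filter (fun i => t.1 i = 0)).card = m + 1 - 4 := by
  have h : ∑ v : Fin 4, (univ.filter (fun i => t.1 i = v)).card = m + 1 := by
    have := Finset.card_eq_sum_card_fiberwise (f := t.1) (s := univ) (t := univ) (by simp)
    simpa using this.symm
  rw [Fin.sum_univ_four] at h
  have h3 : (univ.filter (fun i => t.1 i = 3)).card = 0 := by
    rw [Finset.card_eq_zero, Finset.filter_eq_empty_iff]
    exact fun i _ => t.2.1 i
  have h2 := t.2.2.1
  have h1 := t.2.2.2
  omega

theorem exists_act (t t' : Tok m) : ∃ σ : Equiv.Perm (Fin (m + 1)), act σ t = t' := by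
  classical
  have hcard : ∀ v : Fin 4, Fintype.card {i // t'.1 i = v} = Fintype.card {i // t.1 i = v} := by
    intro v
    rw [Fintype.card_subtype, Fintype.card_subtype]
    have h3 : ∀ s : Tok m, (univ.filter (fun i => s.1 i = 3)).card = 0 := by
      intro s
      rw [Finset.card_eq_zero, Finset.filter_eq_empty_iff]
      exact fun i _ => s.2.1 i
    have hv : v = 0 ∨ v = 1 ∨ v = 2 ∨ v = 3 := by revert v; decide
    rcases hv with rfl | rfl | rfl | rfl
    · rw [card_letter_zero, card_letter_zero]
    · rw [t.2.2.2, t'.2.2.2]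
    · rw [t.2.2.1, t'.2.2.1]
    · rw [h3, h3]
  let e : ∀ v : Fin 4, {i // t'.1 i = v} ≃ {i // t.1 i = v} :=
    fun v => Fintype.equivOfCardEq (hcard v)
  let σ : Equiv.Perm (Fin (m + 1)) :=
    (Equiv.sigmaFiberEquiv t'.1).symm.trans
      ((Equiv.sigmaCongrRight e).trans (Equiv.sigmaFiberEquiv t.1))
  refine ⟨σ, Subtype.ext ?_⟩
  funext i
  show t.1 (σ i) = t'.1 i
  exact (e (t'.1 i) ⟨i, rfl⟩).2

/-- The number of group elements carrying a token to the letter `0`. -/
def cnt (t : Tok m) : ℕ := (univ.filter (fun γ : Equiv.Perm (Fin (m + 1)) => b3 (act γ t) = 0)).card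

theorem cnt_eq (t t' : Tok m) : cnt t = cnt t' := by
  obtain ⟨σ, rfl⟩ := exists_act t t'
  unfold cnt
  refine Finset.card_equiv (Equiv.mulLeft σ⁻¹) ?_
  intro γ
  simp only [mem_filter, mem_univ, true_and, act_act, Equiv.coe_mulLeft]
  rw [← mul_assoc, mul_inv_cancel, one_mul]

/-- All group elements, as a list. -/
noncomputable def Lall (m : ℕ) : List (Equiv.Perm (Fin (m + 1))) := (univ : Finset _).toList

theorem Lall_ne : Lall m ≠ [] := by
  intro h
  have : (1 : Equiv.Perm (Fin (m + 1))) ∈ Lall m := by simp [Lall]
  rw [h] at this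
  simp at this

theorem chk3 (t : Tok m) :
    ((Lall m).map (fun γ => b3 (act γ t))).filter (· ≠ 1) = List.replicate (cnt t) 0 := by
  rw [List.eq_replicate_iff]
  constructor
  · rw [List.filter_map, List.length_map, ← List.countP_eq_length_filter]
    have hnd : ((Lall m).filter ((fun x : Fin 4 => decide (x ≠ 1)) ∘ fun γ => b3 (act γ t))).Nodup :=
      (Finset.nodup_toList _).filter _
    rw [List.countP_eq_length_filter, ← List.toFinset_card_of_nodup hnd]
    unfold cnt
    congr 1
    ext γ
    simp only [List.mem_toFinset, List.mem_filter, Lall, Finset.mem_toList, mem_univ, true_and,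
      Function.comp, decide_eq_true_eq, mem_filter]
    rcases b3_val (act γ t) with h | h <;> simp [h]
  · intro x hx
    simp only [List.mem_filter, List.mem_map, decide_eq_true_eq] at hx
    obtain ⟨⟨γ, -, rfl⟩, h1⟩ := hx
    rcases b3_val (act γ t) with h | h
    · exact h
    · exact absurd h h1

/-- The constant column. -/
def b4 (_ : Tok m) : Fin 4 := 0

/-- The list reading every position at the position `0`. -/
def L0 (m : ℕ) : List (Equiv.Perm (Fin (m + 1))) :=
  (List.finRange (m + 1)).map (fun j => Equiv.swap 0 j)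

theorem chk0 (t : Tok m) :
    ((L0 m).map (fun γ => col (act γ t) 0)).filter (· ≠ 0) = d1 (b1 t) := by
  rw [← w_eq_d1]
  unfold w L0
  rw [List.map_map]
  have h : (fun γ : Equiv.Perm (Fin (m + 1)) => col (act γ t) 0) ∘ (fun j => Equiv.swap 0 j) = t.1 := by
    funext j
    simp [col, act]
  rw [h]

/-- A regular cycle. -/
def g (m : ℕ) : Equiv.Perm (Fin (m + 1)) := finRotate (m + 1)

theorem hg (ω ω' : Fin (m + 1)) : ∃! s : Fin (m + 1), (g m ^ s.val) ω = ω' :=
  Vale.Agent.Lib.P058.X3.rot_regular m ω ω'

theorem cert4 : Cert act (g m) (b4 (m := m)) := Cert.of_const act _ (fun _ _ => rfl)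

/-- The readings of the last level. -/
noncomputable def d4 (m : ℕ) (_ : Fin 4) : List (Fin 4) := by
  classical
  exact if h : Nonempty (Tok m) then List.replicate (cnt (Classical.choice h)) 0 else []

theorem cert3 : Cert act (g m) (b3 (m := m)) := by
  refine Cert.step act act_act (g m) (b' := b4) 1 (Lall m) Lall_ne (d4 m) ?_ ?_ cert4
  · intro l
    unfold d4
    split_ifs
    · intro h
      have := List.eq_of_mem_replicate h
      revert this
      decide
    · simp
  · intro t
    rw [chk3]
    unfold d4
    rw [dif_pos ⟨t⟩, cnt_eq t]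

theorem cert2 : Cert act (g m) (b2 (m := m)) := by
  refine Cert.step act act_act (g m) (b' := b3) 2 [1, ρ] (by simp) d3 (by decide) chk2 cert3

theorem cert1 : Cert act (g m) (b1 (m := m)) := by
  refine Cert.step act act_act (g m) (b' := b2) 3 [1, ρ] (by simp) d2 (by decide) chk1 cert2

theorem cert0 : Cert act (g m) (fun t : Tok m => col t 0) := by
  refine Cert.step act act_act (g m) (b' := b1) 0 (L0 m) ?_ d1 (by decide) chk0 cert1
  simp [L0]

end Vale.Agent.Lib.P058.Fam3
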