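import Mathlib

open Finset

namespace Vale.Agent.Lib.P058

set_option linter.unusedSectionVars false

section farkas

variable {K : Type*} [Field K] [LinearOrder K] [IsStrictOrderedRing K]
variable {M : Type*} [AddCommGroup M] [Module K M]
variable {J : Type*}

/-- Farkas lemma over an ordered field: a vector either lies in the finitely generated cone or
is separated from it by a linear functional. -/
theorem farkas (s : Finset J) : ∀ (v : J → M) (b : M),
    (∃ c : J → K, (∀ i, 0 ≤ c i) ∧ ∑ i ∈ s, c i • v i = b) ∨
    (∃ f : M →ₗ[K] K, (∀ i ∈ s, 0 ≤ f (v i)) ∧ f b < 0) := by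
  classical
  induction s using Finset.induction_on with
  | empty =>
    intro v b
    by_cases hb : b = 0
    · left
      exact ⟨fun _ => 0, fun _ => le_rfl, by simp [hb]⟩
    · right
      have h : ∃ φ : Module.Dual K M, φ b ≠ 0 := by
        by_contra hcon
        push Not at hcon
        exact hb ((Module.forall_dual_apply_eq_zero_iff K b).mp hcon)
      obtain ⟨φ, hφ⟩ := h
      refine ⟨(-(φ b)⁻¹) • φ, by simp, ?_⟩
      simp only [LinearMap.smul_apply, smul_eq_mul, neg_mul]
      rw [inv_mul_cancel₀ hφ]
      norm_num
  | insert x s hx ih =>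
    intro v b
    rcases ih v b with ⟨c, hc, hsum⟩ | ⟨f, hf, hfb⟩
    · left
      refine ⟨Function.update c x 0, ?_, ?_⟩
      · intro i
        by_cases hi : i = x
        · subst hi; simp
        · simp [Function.update_of_ne hi, hc i]
      · rw [Finset.sum_insert hx]
        simp only [Function.update_self, zero_smul, zero_add]
        rw [← hsum]
        refine Finset.sum_congr rfl fun i hi => ?_
        have : i ≠ x := fun h => hx (h ▸ hi)
        rw [Function.update_of_ne this]
    · by_cases hfx : 0 ≤ f (v x)
      · right
        refine ⟨f, ?_, hfb⟩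
        intro i hi
        rcases Finset.mem_insert.mp hi with rfl | hi
        · exact hfx
        · exact hf i hi
      · push Not at hfx
        have hne : f (v x) ≠ 0 := ne_of_lt hfx
        set P : M →ₗ[K] M := LinearMap.id - ((f (v x))⁻¹ • f).smulRight (v x) with hP
        have hPapply : ∀ y, P y = y - ((f (v x))⁻¹ * f y) • v x := by
          intro y
          simp [hP]
        have hPx : P (v x) = 0 := by
          rw [hPapply, inv_mul_cancel₀ hne, one_smul, sub_self]
        rcases ih (fun i => P (v i)) (P b) with ⟨c, hc, hsum⟩ | ⟨g, hg, hgb⟩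
        · left
          set κ : K := (f (v x))⁻¹ * (f b - ∑ i ∈ s, c i * f (v i)) with hκ
          have hκpos : 0 ≤ κ := by
            have h1 : 0 ≤ ∑ i ∈ s, c i * f (v i) :=
              Finset.sum_nonneg fun i hi => mul_nonneg (hc i) (hf i hi)
            have h2 : f b - ∑ i ∈ s, c i * f (v i) < 0 := by linarith
            have h3 : (f (v x))⁻¹ < 0 := inv_lt_zero.mpr hfx
            exact (mul_pos_of_neg_of_neg h3 h2).le
          refine ⟨Function.update c x κ, ?_, ?_⟩
          · intro i
            by_cases hi : i = x
            · subst hi; simpa using hκpos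
            · simp [Function.update_of_ne hi, hc i]
          · rw [Finset.sum_insert hx]
            simp only [Function.update_self]
            have h1 : ∑ i ∈ s, Function.update c x κ i • v i = ∑ i ∈ s, c i • v i := by
              refine Finset.sum_congr rfl fun i hi => ?_
              have : i ≠ x := fun h => hx (h ▸ hi)
              rw [Function.update_of_ne this]
            rw [h1]
            have h2 : ∑ i ∈ s, c i • P (v i)
                = ∑ i ∈ s, c i • v i - ((f (v x))⁻¹ * ∑ i ∈ s, c i * f (v i)) • v x := by
              rw [Finset.mul_sum, Finset.sum_smul, ← Finset.sum_sub_distrib]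
              refine Finset.sum_congr rfl fun i _ => ?_
              rw [hPapply, smul_sub, smul_smul]
              congr 2
              ring
            rw [h2, hPapply] at hsum
            have h3 : b = ∑ i ∈ s, c i • v i - ((f (v x))⁻¹ * ∑ i ∈ s, c i * f (v i)) • v x
                + ((f (v x))⁻¹ * f b) • v x := by
              rw [hsum]; abel
            rw [hκ, mul_sub, sub_smul]
            calc _ = ∑ i ∈ s, c i • v i - ((f (v x))⁻¹ * ∑ i ∈ s, c i * f (v i)) • v x
                  + ((f (v x))⁻¹ * f b) • v x := by abel
              _ = b := h3.symm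
        · right
          refine ⟨g.comp P, ?_, hgb⟩
          intro i hi
          rcases Finset.mem_insert.mp hi with rfl | hi
          · simp [hPx]
          · exact hg i hi

end farkas

/-- A finite system of rational linear inequalities with a real nonnegative solution has a
rational nonnegative solution. -/
theorem exists_rat_of_real {U C : Type*} [Fintype U] [Fintype C] [DecidableEq C]
    (A : C → U → ℚ) (β : C → ℚ) (x : U → ℝ) (hx : ∀ u, 0 ≤ x u)
    (h : ∀ c, ∑ u, (A c u : ℝ) * x u ≤ (β c : ℝ)) :
    ∃ y : U → ℚ, (∀ u, 0 ≤ y u) ∧ ∀ c, ∑ u, A c u * y u ≤ β c := by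
  classical
  let v : U ⊕ C → (C → ℚ) := fun j =>
    match j with
    | Sum.inl u => fun c => A c u
    | Sum.inr c => Pi.single c 1
  rcases farkas (K := ℚ) (Finset.univ : Finset (U ⊕ C)) v β with ⟨lam, hlam, hsum⟩ | ⟨f, hf, hfb⟩
  · refine ⟨fun u => lam (Sum.inl u), fun u => hlam _, ?_⟩
    intro c
    have h1 := congrFun hsum c
    rw [Fintype.sum_sum_type] at h1
    simp only [Finset.sum_apply, Pi.smul_apply, smul_eq_mul, Pi.add_apply] at h1
    have h2 : ∑ c', lam (Sum.inr c') * (v (Sum.inr c') c) = lam (Sum.inr c) := by
      rw [Finset.sum_eq_single c]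
      · simp [v]
      · intro c' _ hc'
        simp [v, Ne.symm hc']
      · intro hh; exact absurd (Finset.mem_univ c) hh
    rw [h2] at h1
    have h3 : ∑ u, lam (Sum.inl u) * (v (Sum.inl u) c) = ∑ u, A c u * lam (Sum.inl u) :=
      Finset.sum_congr rfl fun u _ => by
        simp only [v]
        ring
    rw [h3] at h1
    have h4 := hlam (Sum.inr c)
    linarith
  · exfalso
    set fc : C → ℚ := fun c => f (Pi.single c 1) with hfc
    have hfc0 : ∀ c, 0 ≤ fc c := fun c => hf (Sum.inr c) (Finset.mem_univ _)
    have hfapply : ∀ φ : C → ℚ, f φ = ∑ c, fc c * φ c := by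
      intro φ
      have h1 : φ = ∑ c, φ c • (Pi.single c (1 : ℚ) : C → ℚ) := by
        funext c
        simp [Finset.sum_apply, Pi.single_apply]
      conv_lhs => rw [h1]
      rw [map_sum]
      refine Finset.sum_congr rfl fun c _ => ?_
      rw [map_smul, smul_eq_mul, mul_comm]
    have hU : ∀ u, 0 ≤ ∑ c, fc c * A c u := by
      intro u
      have h1 := hf (Sum.inl u) (Finset.mem_univ _)
      rw [hfapply] at h1
      exact h1
    have h1 : (f β : ℝ) < 0 := by exact_mod_cast hfb
    rw [hfapply] at h1
    push_cast at h1
    have h2 : ∑ c, (fc c : ℝ) * ∑ u, (A c u : ℝ) * x u ≤ ∑ c, (fc c : ℝ) * (β c : ℝ) :=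
      Finset.sum_le_sum fun c _ =>
        mul_le_mul_of_nonneg_left (h c) (by exact_mod_cast hfc0 c)
    have h3 : ∑ c, (fc c : ℝ) * ∑ u, (A c u : ℝ) * x u
        = ∑ u, ((∑ c, fc c * A c u : ℚ) : ℝ) * x u := by
      simp only [Finset.mul_sum]
      rw [Finset.sum_comm]
      refine Finset.sum_congr rfl fun u _ => ?_
      push_cast
      rw [Finset.sum_mul]
      refine Finset.sum_congr rfl fun c _ => by ring
    have h4 : 0 ≤ ∑ u, ((∑ c, fc c * A c u : ℚ) : ℝ) * x u :=
      Finset.sum_nonneg fun u _ => mul_nonneg (by exact_mod_cast hU u) (hx u)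
    linarith

end Vale.Agent.Lib.P058
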