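import Vale.Agent.Lib.P058.Embed

open Finset

namespace Vale.Agent.Lib.P058

set_option linter.unusedSectionVars false

/-- A rational point set with a real center of its sphere has a rational center. -/
theorem exists_rat_center {ι : Type*} [Fintype ι] [Nonempty ι] [DecidableEq ι] {m : ℕ}
    (q : ι → Fin m → ℚ) (z : Fin m → ℝ) (R : ℝ)
    (hz : ∀ i, ∑ j, ((q i j : ℝ) - z j) ^ 2 = R) :
    ∃ z' : Fin m → ℚ, ∀ i i', ∑ j, (q i j - z' j) ^ 2 = ∑ j, (q i' j - z' j) ^ 2 := by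
  classical
  obtain ⟨i0⟩ := (inferInstance : Nonempty ι)
  set d : ι → Fin m → ℚ := fun i j => 2 * (q i j - q i0 j) with hd
  set g : ι → ℚ := fun i => ∑ j, (q i j ^ 2 - q i0 j ^ 2) with hg
  let A : (ι × Bool) → (Fin m ⊕ Fin m) → ℚ := fun c u =>
    match c, u with
    | (i, true), Sum.inl j => d i j
    | (i, true), Sum.inr j => -d i j
    | (i, false), Sum.inl j => -d i j
    | (i, false), Sum.inr j => d i j
  let β : (ι × Bool) → ℚ := fun c =>
    match c with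
    | (i, true) => g i
    | (i, false) => -g i
  let x : (Fin m ⊕ Fin m) → ℝ := fun u =>
    match u with
    | Sum.inl j => max (z j) 0
    | Sum.inr j => max (-(z j)) 0
  have hx : ∀ u, 0 ≤ x u := by
    rintro (j | j)
    · exact le_max_right _ _
    · exact le_max_right _ _
  have hxz : ∀ j, max (z j) 0 - max (-(z j)) 0 = z j := by
    intro j
    rcases le_total 0 (z j) with h | h
    · rw [max_eq_left h, max_eq_right (by linarith)]; ring
    · rw [max_eq_right h, max_eq_left (by linarith)]; ring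
  have hkey : ∀ i, ∑ j, ((d i j : ℚ) : ℝ) * z j = ((g i : ℚ) : ℝ) := by
    intro i
    have h1 := hz i
    have h2 := hz i0
    have h3 : ∑ j, ((q i j : ℝ) - z j) ^ 2 = ∑ j, ((q i0 j : ℝ) - z j) ^ 2 := by rw [h1, h2]
    have h4 : ∑ j, (((q i j : ℝ) - z j) ^ 2 - ((q i0 j : ℝ) - z j) ^ 2) = 0 := by
      rw [Finset.sum_sub_distrib, h3, sub_self]
    have h5 : ((g i : ℚ) : ℝ) - ∑ j, ((d i j : ℚ) : ℝ) * z j
        = ∑ j, (((q i j : ℝ) - z j) ^ 2 - ((q i0 j : ℝ) - z j) ^ 2) := by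
      simp only [hg, hd]
      push_cast
      rw [← Finset.sum_sub_distrib]
      refine Finset.sum_congr rfl fun j _ => ?_
      ring
    linarith
  have hreal : ∀ c, ∑ u, ((A c u : ℚ) : ℝ) * x u ≤ ((β c : ℚ) : ℝ) := by
    rintro ⟨i, _ | _⟩
    · rw [Fintype.sum_sum_type]
      simp only [A, β, x]
      push_cast
      rw [← Finset.sum_add_distrib]
      have : ∑ j, (-((d i j : ℚ) : ℝ) * max (z j) 0 + ((d i j : ℚ) : ℝ) * max (-(z j)) 0)
          = -∑ j, ((d i j : ℚ) : ℝ) * z j := by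
        rw [← Finset.sum_neg_distrib]
        refine Finset.sum_congr rfl fun j _ => ?_
        conv_rhs => rw [← hxz j]
        ring
      rw [this, hkey]
    · rw [Fintype.sum_sum_type]
      simp only [A, β, x]
      push_cast
      rw [← Finset.sum_add_distrib]
      have : ∑ j, (((d i j : ℚ) : ℝ) * max (z j) 0 + -((d i j : ℚ) : ℝ) * max (-(z j)) 0)
          = ∑ j, ((d i j : ℚ) : ℝ) * z j := by
        refine Finset.sum_congr rfl fun j _ => ?_
        conv_rhs => rw [← hxz j]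
        ring
      rw [this, hkey]
  obtain ⟨y, _, hy⟩ := exists_rat_of_real A β x hx hreal
  set z' : Fin m → ℚ := fun j => y (Sum.inl j) - y (Sum.inr j) with hz'
  have hkeyQ : ∀ i, ∑ j, d i j * z' j = g i := by
    intro i
    have h1 := hy (i, true)
    have h2 := hy (i, false)
    rw [Fintype.sum_sum_type] at h1 h2
    simp only [A, β] at h1 h2
    have e1 : ∑ j, d i j * y (Sum.inl j) + ∑ j, -d i j * y (Sum.inr j) = ∑ j, d i j * z' j := by
      rw [← Finset.sum_add_distrib]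
      refine Finset.sum_congr rfl fun j _ => ?_
      simp only [hz']
      ring
    have e2 : ∑ j, -d i j * y (Sum.inl j) + ∑ j, d i j * y (Sum.inr j) = -∑ j, d i j * z' j := by
      rw [← Finset.sum_add_distrib, ← Finset.sum_neg_distrib]
      refine Finset.sum_congr rfl fun j _ => ?_
      simp only [hz']
      ring
    rw [e1] at h1
    rw [e2] at h2
    linarith
  refine ⟨z', fun i i' => ?_⟩
  have hall : ∀ i, ∑ j, (q i j - z' j) ^ 2 = ∑ j, (q i0 j - z' j) ^ 2 := by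
    intro i
    have h1 := hkeyQ i
    have h2 : ∑ j, ((q i j - z' j) ^ 2 - (q i0 j - z' j) ^ 2) = g i - ∑ j, d i j * z' j := by
      simp only [hg, hd]
      rw [← Finset.sum_sub_distrib]
      refine Finset.sum_congr rfl fun j _ => ?_
      ring
    rw [h1, sub_self, Finset.sum_sub_distrib] at h2
    linarith
  rw [hall i, hall i']

/-- The main theorem in unfolded form: every finite subset of the rational points of a Euclidean
space which lies on a sphere embeds isometrically in a finite transitive set. -/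
theorem rational_spherical_core {m : ℕ} (X : Set (EuclideanSpace ℝ (Fin m))) (hfin : X.Finite)
    (hrat : ∀ x ∈ X, ∀ j, ∃ q : ℚ, x j = q)
    (hsph : ∃ (z : EuclideanSpace ℝ (Fin m)) (r : ℝ), ∀ x ∈ X, dist x z = r) :
    ∃ (N : ℕ) (Y : Set (EuclideanSpace ℝ (Fin N))), Y.Finite ∧
      (∀ y ∈ Y, ∀ y' ∈ Y, ∃ g : EuclideanSpace ℝ (Fin N) ≃ᵢ EuclideanSpace ℝ (Fin N),
        g '' Y = Y ∧ g y = y') ∧
      ∃ f : EuclideanSpace ℝ (Fin m) → EuclideanSpace ℝ (Fin N), (∀ x ∈ X, f x ∈ Y) ∧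
        ∀ x ∈ X, ∀ x' ∈ X, dist (f x) (f x') = dist x x' := by
  classical
  by_cases hne : X.Nonempty
  swap
  · rw [Set.not_nonempty_iff_eq_empty] at hne
    subst hne
    refine ⟨0, ∅, Set.finite_empty, by simp, fun _ => 0, by simp, by simp⟩
  let _ : Fintype ↥X := hfin.fintype
  obtain ⟨x0, hx0⟩ := hne
  have : Nonempty ↥X := ⟨⟨x0, hx0⟩⟩
  have hrat' : ∀ (i : ↥X) (j : Fin m), ∃ q : ℚ, (i : EuclideanSpace ℝ (Fin m)) j = q :=
    fun i j => hrat i i.2 j
  choose q hq using hrat'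
  obtain ⟨z, r, hzr⟩ := hsph
  have hzq : ∀ i : ↥X, ∑ j, ((q i j : ℝ) - z j) ^ 2 = r ^ 2 := by
    intro i
    have h1 := hzr i i.2
    rw [EuclideanSpace.dist_eq] at h1
    have h2 : 0 ≤ ∑ j, dist ((i : EuclideanSpace ℝ (Fin m)) j) (z j) ^ 2 :=
      Finset.sum_nonneg fun _ _ => sq_nonneg _
    rw [← h1, Real.sq_sqrt h2]
    refine Finset.sum_congr rfl fun j _ => ?_
    rw [Real.dist_eq, sq_abs, hq]
  obtain ⟨z', hz'⟩ := exists_rat_center q (fun j => z j) (r ^ 2) hzq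
  obtain ⟨A, hA, hint⟩ := exists_common_den (fun x : ↥X × Fin m => q x.1 x.2 - z' x.2)
  choose cc hcc using hint
  have hAq : (0 : ℚ) < (A : ℚ) := by exact_mod_cast hA
  set a : ↥X → Option (Fin m) → ℤ := fun i o =>
    match o with
    | none => 1
    | some j => cc (i, j) with ha
  have hnormQ : ∀ i, ((∑ e, a i e ^ 2 : ℤ) : ℚ)
      = 1 + (A : ℚ) ^ 2 * ∑ j, (q i j - z' j) ^ 2 := by
    intro i
    rw [Fintype.sum_option]
    simp only [ha]
    push_cast
    congr 1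
    rw [Finset.mul_sum]
    refine Finset.sum_congr rfl fun j _ => ?_
    rw [← hcc (i, j)]
    ring
  obtain ⟨i0⟩ := (inferInstance : Nonempty ↥X)
  have hρ : ∀ i, ∑ e, a i e ^ 2 = ∑ e, a i0 e ^ 2 := by
    intro i
    have : ((∑ e, a i e ^ 2 : ℤ) : ℚ) = ((∑ e, a i0 e ^ 2 : ℤ) : ℚ) := by
      rw [hnormQ, hnormQ, hz' i i0]
    exact_mod_cast this
  have he0 : ∀ i, a i none = 1 := fun i => rfl
  have hinj : Function.Injective a := by
    intro i i' h
    apply Subtype.ext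
    ext j
    have h1 : cc (i, j) = cc (i', j) := congrFun h (some j)
    have h2 : ((cc (i, j) : ℤ) : ℚ) = ((cc (i', j) : ℤ) : ℚ) := by rw [h1]
    rw [← hcc, ← hcc] at h2
    have h3 : q i j - z' j = q i' j - z' j := mul_left_cancel₀ hAq.ne' h2
    have h4 : q i j = q i' j := by linarith
    rw [hq i j, hq i' j, h4]
  obtain ⟨Ξ, _, Q, R, hQ, hperm, hip⟩ := exists_columns he0 hinj hρ
  have hipZ : ∀ i j, ∑ ξ, R i ξ * R j ξ = (Q : ℤ) * ∑ e, a i e * a j e := by
    intro i j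
    have := hip i j
    exact_mod_cast this
  -- the squared distances of the columns
  have hsqZ : ∀ i j, ∑ ξ, (R i ξ - R j ξ) ^ 2 = (Q : ℤ) * ∑ e, (a i e - a j e) ^ 2 := by
    intro i j
    have e1 : ∑ ξ, (R i ξ - R j ξ) ^ 2
        = ∑ ξ, R i ξ * R i ξ - 2 * ∑ ξ, R i ξ * R j ξ + ∑ ξ, R j ξ * R j ξ := by
      rw [Finset.mul_sum, ← Finset.sum_sub_distrib, ← Finset.sum_add_distrib]
      exact Finset.sum_congr rfl fun ξ _ => by ring
    have e2 : ∑ e, (a i e - a j e) ^ 2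
        = ∑ e, a i e * a i e - 2 * ∑ e, a i e * a j e + ∑ e, a j e * a j e := by
      rw [Finset.mul_sum, ← Finset.sum_sub_distrib, ← Finset.sum_add_distrib]
      exact Finset.sum_congr rfl fun ξ _ => by ring
    rw [e1, e2, hipZ, hipZ, hipZ]
    ring
  have hQr : (0 : ℝ) < (Q : ℝ) := by exact_mod_cast hQ
  have hAr : (0 : ℝ) < (A : ℝ) := by exact_mod_cast hA
  set sc : ℝ := 1 / ((A : ℝ) * Real.sqrt (Q : ℝ)) with hsc
  have hsc2 : sc ^ 2 * (Q : ℝ) * (A : ℝ) ^ 2 = 1 := by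
    have hs : Real.sqrt (Q : ℝ) ^ 2 = (Q : ℝ) := Real.sq_sqrt hQr.le
    have hs0 : Real.sqrt (Q : ℝ) ≠ 0 := (Real.sqrt_pos.mpr hQr).ne'
    rw [hsc]
    field_simp
    rw [hs]
  set w : ↥X → Ξ → ℝ := fun i ξ => sc * (R i ξ : ℝ) with hw
  have hperm' : ∀ i j, ∃ π : Equiv.Perm Ξ, ∀ ξ, w j (π ξ) = w i ξ := by
    intro i j
    obtain ⟨π, hπ⟩ := hperm i j
    exact ⟨π, fun ξ => by simp only [hw, hπ]⟩
  obtain ⟨N, Y, hYfin, hYtr, v, hvY, hvd⟩ := orbit_lemma w hperm'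
  refine ⟨N, Y, hYfin, hYtr, fun x => if h : x ∈ X then v ⟨x, h⟩ else 0, ?_, ?_⟩
  · intro x hx
    simp only [dif_pos hx]
    exact hvY _
  · intro x hx x' hx'
    simp only [dif_pos hx, dif_pos hx']
    set i : ↥X := ⟨x, hx⟩ with hi
    set i' : ↥X := ⟨x', hx'⟩ with hi'
    refine (sq_eq_sq₀ dist_nonneg dist_nonneg).mp ?_
    rw [hvd i i']
    have h1 : ∑ ξ, (w i ξ - w i' ξ) ^ 2 = sc ^ 2 * ((∑ ξ, (R i ξ - R i' ξ) ^ 2 : ℤ) : ℝ) := by
      push_cast
      rw [Finset.mul_sum]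
      refine Finset.sum_congr rfl fun ξ _ => ?_
      simp only [hw]
      ring
    rw [h1, hsqZ]
    have h2 : ((∑ e, (a i e - a i' e) ^ 2 : ℤ) : ℚ)
        = (A : ℚ) ^ 2 * ∑ j, (q i j - q i' j) ^ 2 := by
      rw [Fintype.sum_option]
      simp only [ha]
      push_cast
      rw [Finset.mul_sum]
      rw [zero_add]
      refine Finset.sum_congr rfl fun j _ => ?_
      rw [← hcc (i, j), ← hcc (i', j)]
      ring
    have h3 : ((∑ e, (a i e - a i' e) ^ 2 : ℤ) : ℝ)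
        = (A : ℝ) ^ 2 * ∑ j, ((q i j : ℝ) - (q i' j : ℝ)) ^ 2 := by
      have h5 : (((∑ e, (a i e - a i' e) ^ 2 : ℤ) : ℚ) : ℝ)
          = (((A : ℚ) ^ 2 * ∑ j, (q i j - q i' j) ^ 2 : ℚ) : ℝ) := by rw [h2]
      push_cast at h5 ⊢
      exact h5
    have h4 : dist x x' ^ 2 = ∑ j, ((q i j : ℝ) - (q i' j : ℝ)) ^ 2 := by
      rw [EuclideanSpace.dist_eq, Real.sq_sqrt (Finset.sum_nonneg fun _ _ => sq_nonneg _)]
      refine Finset.sum_congr rfl fun j _ => ?_
      rw [Real.dist_eq, sq_abs, ← hq i j, ← hq i' j]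
    rw [h4]
    push_cast at h3 ⊢
    rw [h3]
    calc sc ^ 2 * ((Q : ℝ) * ((A : ℝ) ^ 2 * ∑ j, ((q i j : ℝ) - (q i' j : ℝ)) ^ 2))
        = (sc ^ 2 * (Q : ℝ) * (A : ℝ) ^ 2) * ∑ j, ((q i j : ℝ) - (q i' j : ℝ)) ^ 2 := by ring
      _ = _ := by rw [hsc2, one_mul]

end Vale.Agent.Lib.P058
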