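import Mathlib

open Finset

namespace Vale.Agent.Lib.P058

set_option linter.unusedSectionVars false

/-- The exponential comparison function on the integers. -/
noncomputable def phiS (s : ℝ) (k : ℤ) : ℝ := Real.exp (-(s * |(k : ℝ)|))

lemma phiS_pos (s : ℝ) (k : ℤ) : 0 < phiS s k := Real.exp_pos _

lemma summable_phiS {s : ℝ} (hs : 0 < s) : Summable (phiS s) := by
  have hlt : Real.exp (-s) < 1 := by
    rw [Real.exp_lt_one_iff]; linarith
  have hgeo : Summable (fun n : ℕ => (Real.exp (-s)) ^ n) :=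
    summable_geometric_of_lt_one (Real.exp_pos _).le hlt
  rw [summable_int_iff_summable_nat_and_neg]
  constructor
  · refine hgeo.congr fun n => ?_
    unfold phiS
    rw [← Real.exp_nat_mul]
    congr 1
    simp
    ring
  · refine hgeo.congr fun n => ?_
    unfold phiS
    rw [← Real.exp_nat_mul]
    congr 1
    simp
    ring

/-- The absolute constant of the tail estimates. -/
noncomputable def C0 : ℝ := ∑' k : ℤ, phiS (1 / 2) k

lemma C0_nonneg : 0 ≤ C0 := tsum_nonneg fun k => (phiS_pos _ k).le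

/-- The discrete Gaussian weight. -/
noncomputable def gs (S : ℝ) (k : ℤ) : ℝ := Real.exp (-((k : ℝ) ^ 2 / (2 * S)))

lemma gs_pos (S : ℝ) (k : ℤ) : 0 < gs S k := Real.exp_pos _

lemma int_abs_le_sq (k : ℤ) : |(k : ℝ)| ≤ (k : ℝ) ^ 2 := by
  have h : |k| ≤ k ^ 2 := by
    rw [← sq_abs k]
    by_cases h0 : k = 0
    · simp [h0]
    · have : 1 ≤ |k| := Int.one_le_abs h0
      nlinarith
  exact_mod_cast h

lemma gs_le_phi {S : ℝ} (hS : 0 < S) (k : ℤ) : gs S k ≤ phiS (1 / (2 * S)) k := by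
  unfold gs phiS
  rw [Real.exp_le_exp]
  have h := int_abs_le_sq k
  have : 1 / (2 * S) * |(k : ℝ)| ≤ (k : ℝ) ^ 2 / (2 * S) := by
    rw [div_mul_eq_mul_div, one_mul]
    exact div_le_div_of_nonneg_right h (by positivity)
  linarith

lemma summable_gs {S : ℝ} (hS : 0 < S) : Summable (gs S) :=
  Summable.of_nonneg_of_le (fun k => (gs_pos S k).le) (gs_le_phi hS)
    (summable_phiS (by positivity))

/-- The complex exponential with period one. -/
noncomputable def ee (x : ℝ) : ℂ := Complex.exp (2 * Real.pi * Complex.I * x)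

lemma norm_ee (x : ℝ) : ‖ee x‖ = 1 := by
  unfold ee
  have : (2 * (Real.pi : ℂ) * Complex.I * (x : ℂ)) = ((2 * Real.pi * x : ℝ) : ℂ) * Complex.I := by
    push_cast; ring
  rw [this, Complex.norm_exp_ofReal_mul_I]

lemma ee_add (x y : ℝ) : ee (x + y) = ee x * ee y := by
  unfold ee
  rw [← Complex.exp_add]
  congr 1
  push_cast
  ring

lemma ee_zero : ee 0 = 1 := by
  simp [ee]

/-- The full theta series. -/
noncomputable def thetaFull (S : ℝ) (x : ℝ) : ℂ := ∑' k : ℤ, ((gs S k : ℝ) : ℂ) * ee (x * k)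

/-- The truncated theta sum. -/
noncomputable def thetaT (S : ℝ) (T : ℕ) (x : ℝ) : ℂ :=
  ∑ k ∈ Finset.Icc (-(T : ℤ)) (T : ℤ), ((gs S k : ℝ) : ℂ) * ee (x * k)

/-- The dual Gaussian sum. -/
noncomputable def dualSum (S : ℝ) (x : ℝ) : ℝ :=
  ∑' n : ℤ, Real.exp (-(2 * Real.pi ^ 2 * S * ((n : ℝ) - x) ^ 2))

lemma poisson_gs {S : ℝ} (hS : 0 < S) (x : ℝ) :
    thetaFull S x = ((Real.sqrt (2 * Real.pi * S) : ℝ) : ℂ) * ((dualSum S x : ℝ) : ℂ) := by
  have hpi := Real.pi_pos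
  have ha : 0 < (((1 / (2 * Real.pi * S) : ℝ) : ℂ)).re := by
    rw [Complex.ofReal_re]; positivity
  have h := Complex.tsum_exp_neg_quadratic ha (Complex.I * x)
  have hL : (∑' n : ℤ, Complex.exp (-(Real.pi : ℂ) * ((1 / (2 * Real.pi * S) : ℝ) : ℂ) * (n : ℂ) ^ 2
      + 2 * (Real.pi : ℂ) * (Complex.I * x) * n)) = thetaFull S x := by
    unfold thetaFull
    refine tsum_congr fun n => ?_
    unfold gs ee
    rw [Complex.ofReal_exp, ← Complex.exp_add]
    congr 1
    push_cast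
    field_simp
  have hR : (∑' n : ℤ, Complex.exp (-(Real.pi : ℂ) / ((1 / (2 * Real.pi * S) : ℝ) : ℂ)
      * ((n : ℂ) + Complex.I * (Complex.I * x)) ^ 2)) = ((dualSum S x : ℝ) : ℂ) := by
    unfold dualSum
    rw [Complex.ofReal_tsum]
    refine tsum_congr fun n => ?_
    rw [Complex.ofReal_exp]
    congr 1
    have hI : Complex.I * (Complex.I * (x : ℂ)) = -(x : ℂ) := by
      rw [← mul_assoc, Complex.I_mul_I]; ring
    rw [hI]
    push_cast
    field_simp
    ring
  rw [hL, hR] at h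
  rw [h]
  congr 1
  have hpos : (0 : ℝ) ≤ 1 / (2 * Real.pi * S) := by positivity
  have h1 : ((1 / (2 * Real.pi * S) : ℝ) : ℂ) ^ ((1 / 2 : ℂ))
      = ((Real.sqrt (1 / (2 * Real.pi * S)) : ℝ) : ℂ) := by
    rw [Real.sqrt_eq_rpow, Complex.ofReal_cpow hpos]
    congr 1
    push_cast
    rfl
  rw [h1, ← Complex.ofReal_one, ← Complex.ofReal_div]
  congr 1
  rw [Real.sqrt_div zero_le_one, Real.sqrt_one, one_div, one_div, inv_inv]


section estimates

variable {S : ℝ} {T : ℕ}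

lemma summable_theta_terms (hS : 0 < S) (x : ℝ) :
    Summable (fun k : ℤ => ((gs S k : ℝ) : ℂ) * ee (x * k)) := by
  refine Summable.of_norm_bounded (g := gs S) (summable_gs hS) fun k => ?_
  rw [norm_mul, norm_ee, mul_one, Complex.norm_real, Real.norm_of_nonneg (gs_pos S k).le]

/-- The tail of the theta series is exponentially small. -/
lemma norm_thetaFull_sub_thetaT (hS1 : 1 ≤ S) (hT : 2 * S ≤ T) (x : ℝ) :
    ‖thetaFull S x - thetaT S T x‖ ≤ C0 * Real.exp (-S) := by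
  have hS : 0 < S := by linarith
  set A := Finset.Icc (-(T : ℤ)) (T : ℤ) with hA
  have hsum := summable_theta_terms hS x
  have e1 : thetaT S T x = ∑' k : ℤ, (if k ∈ A then ((gs S k : ℝ) : ℂ) * ee (x * k) else 0) := by
    rw [tsum_eq_sum (s := A)]
    · exact Finset.sum_congr rfl fun k hk => by rw [if_pos hk]
    · intro k hk
      rw [if_neg hk]
  have e2 : thetaFull S x - thetaT S T x
      = ∑' k : ℤ, (if k ∈ A then 0 else ((gs S k : ℝ) : ℂ) * ee (x * k)) := by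
    have hsum2 : Summable (fun k : ℤ => (if k ∈ A then ((gs S k : ℝ) : ℂ) * ee (x * k) else 0)) :=
      summable_of_hasFiniteSupport ((A.finite_toSet).subset fun k hk => by
        by_contra h
        exact hk (if_neg h))
    rw [e1]
    unfold thetaFull
    rw [← hsum.tsum_sub hsum2]
    refine tsum_congr fun k => ?_
    split_ifs <;> simp
  rw [e2]
  have hphi := (summable_phiS (show (0 : ℝ) < 1 / 2 by norm_num)).hasSum
  have hg : HasSum (fun k : ℤ => phiS (1 / 2) k * Real.exp (-S)) (C0 * Real.exp (-S)) :=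
    hphi.mul_right _
  refine tsum_of_norm_bounded hg fun k => ?_
  split_ifs with hk
  · rw [norm_zero]
    exact (mul_pos (phiS_pos _ _) (Real.exp_pos _)).le
  · rw [norm_mul, norm_ee, mul_one, Complex.norm_real, Real.norm_of_nonneg (gs_pos S k).le]
    have hk2 : (T : ℤ) < |k| := by
      by_contra h
      push Not at h
      apply hk
      rw [hA, Finset.mem_Icc]
      exact abs_le.mp h
    have hk3 : (T : ℝ) ≤ |(k : ℝ)| := by
      have : ((T : ℤ) : ℝ) ≤ ((|k| : ℤ) : ℝ) := by exact_mod_cast hk2.le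
      simpa using this
    unfold gs phiS
    rw [← Real.exp_add, Real.exp_le_exp]
    have h0 := abs_nonneg (k : ℝ)
    have h1 : (k : ℝ) ^ 2 = |(k : ℝ)| * |(k : ℝ)| := by rw [abs_mul_abs_self]; ring
    have h2 : |(k : ℝ)| ≤ (k : ℝ) ^ 2 / (2 * S) := by
      rw [le_div_iff₀ (by positivity), h1]
      have : 2 * S ≤ |(k : ℝ)| := hT.trans hk3
      exact mul_le_mul_of_nonneg_left this h0
    have h3 : 2 * S ≤ |(k : ℝ)| := hT.trans hk3
    linarith

/-- The summand of the dual sum away from zero. -/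
lemma dual_term_le (hS1 : 1 ≤ S) {x : ℝ} (hx : |x| ≤ 1 / 2) {n : ℤ} (hn : n ≠ 0) :
    Real.exp (-(2 * Real.pi ^ 2 * S * ((n : ℝ) - x) ^ 2)) ≤ phiS (1 / 2) n * Real.exp (-S) := by
  unfold phiS
  rw [← Real.exp_add, Real.exp_le_exp]
  have hn1 : (1 : ℝ) ≤ |(n : ℝ)| := by
    have : 1 ≤ |n| := Int.one_le_abs hn
    exact_mod_cast this
  have hsq : |(n : ℝ)| / 4 ≤ ((n : ℝ) - x) ^ 2 := by
    have h1 : |(n : ℝ)| - |x| ≤ |(n : ℝ) - x| := abs_sub_abs_le_abs_sub _ _
    have h2 : |(n : ℝ)| / 2 ≤ |(n : ℝ) - x| := by linarith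
    have h3 : (|(n : ℝ)| / 2) ^ 2 ≤ |(n : ℝ) - x| ^ 2 :=
      pow_le_pow_left₀ (by positivity) h2 2
    rw [sq_abs] at h3
    have h4 : (|(n : ℝ)| / 2) ^ 2 = |(n : ℝ)| * |(n : ℝ)| / 4 := by ring
    rw [h4] at h3
    nlinarith
  have hpi : (9 : ℝ) ≤ Real.pi ^ 2 := by
    have := Real.pi_gt_three
    nlinarith
  have h5 : 0 ≤ S := by linarith
  have h6 : 18 * S * (|(n : ℝ)| / 4) ≤ 2 * Real.pi ^ 2 * S * ((n : ℝ) - x) ^ 2 := by
    have h7 : 18 * S ≤ 2 * Real.pi ^ 2 * S := by nlinarith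
    exact mul_le_mul h7 hsq (by positivity) (by positivity)
  have h8 : S + 1 / 2 * |(n : ℝ)| ≤ 18 * S * (|(n : ℝ)| / 4) := by
    nlinarith
  linarith

lemma dual_term_le_all (hS1 : 1 ≤ S) {x : ℝ} (hx : |x| ≤ 1 / 2) (n : ℤ) :
    Real.exp (-(2 * Real.pi ^ 2 * S * ((n : ℝ) - x) ^ 2)) ≤ (1 + Real.exp (-S)) * phiS (1 / 2) n := by
  by_cases hn : n = 0
  · subst hn
    have h1 : Real.exp (-(2 * Real.pi ^ 2 * S * (((0 : ℤ) : ℝ) - x) ^ 2)) ≤ 1 := by
      rw [Real.exp_le_one_iff]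
      have : 0 ≤ 2 * Real.pi ^ 2 * S * (((0 : ℤ) : ℝ) - x) ^ 2 := by
        have : 0 < S := by linarith
        positivity
      linarith
    have h2 : phiS (1 / 2) 0 = 1 := by simp [phiS]
    rw [h2]
    have := Real.exp_pos (-S)
    linarith
  · have h := dual_term_le hS1 hx hn
    have h2 := phiS_pos (1 / 2) n
    nlinarith

lemma summable_dual (hS1 : 1 ≤ S) {x : ℝ} (hx : |x| ≤ 1 / 2) :
    Summable (fun n : ℤ => Real.exp (-(2 * Real.pi ^ 2 * S * ((n : ℝ) - x) ^ 2))) :=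
  Summable.of_nonneg_of_le (fun _ => (Real.exp_pos _).le) (dual_term_le_all hS1 hx)
    ((summable_phiS (show (0 : ℝ) < 1 / 2 by norm_num)).mul_left _)

/-- The main term of the dual sum. -/
noncomputable def gaussG (S : ℝ) (x : ℝ) : ℝ := Real.exp (-(2 * Real.pi ^ 2 * S * x ^ 2))

lemma gaussG_le_one (hS : 0 ≤ S) (x : ℝ) : gaussG S x ≤ 1 := by
  unfold gaussG
  rw [Real.exp_le_one_iff]
  have : 0 ≤ 2 * Real.pi ^ 2 * S * x ^ 2 := by positivity
  linarith

lemma gaussG_pos (S x : ℝ) : 0 < gaussG S x := Real.exp_pos _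

/-- The dual sum is its main term up to an exponentially small error. -/
lemma dualSum_sub_gaussG (hS1 : 1 ≤ S) {x : ℝ} (hx : |x| ≤ 1 / 2) :
    0 ≤ dualSum S x - gaussG S x ∧ dualSum S x - gaussG S x ≤ C0 * Real.exp (-S) := by
  have hsum := summable_dual hS1 hx
  have h0 : dualSum S x = gaussG S x + ∑' n : ℤ, (if n = 0 then 0
      else Real.exp (-(2 * Real.pi ^ 2 * S * ((n : ℝ) - x) ^ 2))) := by
    unfold dualSum
    rw [hsum.tsum_eq_add_tsum_ite 0]
    congr 1
    unfold gaussG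
    congr 2
    simp
  rw [h0, add_sub_cancel_left]
  constructor
  · refine tsum_nonneg fun n => ?_
    split_ifs
    · exact le_rfl
    · exact (Real.exp_pos _).le
  · have hphi := (summable_phiS (show (0 : ℝ) < 1 / 2 by norm_num)).hasSum
    have hg : HasSum (fun k : ℤ => phiS (1 / 2) k * Real.exp (-S)) (C0 * Real.exp (-S)) :=
      hphi.mul_right _
    have hf : Summable (fun n : ℤ => if n = 0 then (0 : ℝ)
        else Real.exp (-(2 * Real.pi ^ 2 * S * ((n : ℝ) - x) ^ 2))) := by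
      refine Summable.of_nonneg_of_le (fun n => ?_) (fun n => ?_) hg.summable
      · split_ifs
        · exact le_rfl
        · exact (Real.exp_pos _).le
      · split_ifs with hn
        · exact (mul_pos (phiS_pos _ _) (Real.exp_pos _)).le
        · exact dual_term_le hS1 hx hn
    rw [← hg.tsum_eq]
    refine hf.tsum_le_tsum (fun n => ?_) hg.summable
    split_ifs with hn
    · exact (mul_pos (phiS_pos _ _) (Real.exp_pos _)).le
    · exact dual_term_le hS1 hx hn

/-- The square root normalisation. -/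
noncomputable def sqS (S : ℝ) : ℝ := Real.sqrt (2 * Real.pi * S)

lemma one_le_sqS (hS1 : 1 ≤ S) : 1 ≤ sqS S := by
  unfold sqS
  rw [Real.one_le_sqrt]
  have := Real.pi_gt_three
  nlinarith

/-- The normalised truncated theta sum. -/
noncomputable def uu (S : ℝ) (T : ℕ) (x : ℝ) : ℂ := thetaT S T x / ((sqS S : ℝ) : ℂ)

/-- The error size. -/
noncomputable def delta (S : ℝ) : ℝ := 2 * C0 * Real.exp (-S)

lemma delta_nonneg (S : ℝ) : 0 ≤ delta S := by
  unfold delta
  have := C0_nonneg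
  have := Real.exp_pos (-S)
  positivity

lemma norm_uu_sub_gaussG (hS1 : 1 ≤ S) (hT : 2 * S ≤ T) {x : ℝ} (hx : |x| ≤ 1 / 2) :
    ‖uu S T x - ((gaussG S x : ℝ) : ℂ)‖ ≤ delta S := by
  have hS : 0 < S := by linarith
  have hq := one_le_sqS hS1
  have hq0 : (sqS S : ℝ) ≠ 0 := by linarith
  have hqC : ((sqS S : ℝ) : ℂ) ≠ 0 := by exact_mod_cast hq0
  have h1 := norm_thetaFull_sub_thetaT hS1 hT x
  have h2 := dualSum_sub_gaussG hS1 hx
  have h3 : thetaFull S x = ((sqS S : ℝ) : ℂ) * ((dualSum S x : ℝ) : ℂ) := poisson_gs hS x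
  have e : uu S T x - ((gaussG S x : ℝ) : ℂ)
      = (((dualSum S x - gaussG S x : ℝ) : ℂ))
        - (thetaFull S x - thetaT S T x) / ((sqS S : ℝ) : ℂ) := by
    unfold uu
    rw [h3]
    push_cast
    field_simp
    ring
  rw [e]
  refine (norm_sub_le _ _).trans ?_
  rw [Complex.norm_real, Real.norm_of_nonneg h2.1, norm_div, Complex.norm_real,
    Real.norm_of_nonneg (by linarith : (0 : ℝ) ≤ sqS S)]
  have h4 : ‖thetaFull S x - thetaT S T x‖ / sqS S ≤ C0 * Real.exp (-S) := by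
    rw [div_le_iff₀ (by linarith)]
    have h5 : 0 ≤ C0 * Real.exp (-S) := mul_nonneg C0_nonneg (Real.exp_pos _).le
    nlinarith
  unfold delta
  linarith [h2.2]

lemma norm_thetaT_le (x : ℝ) : ‖thetaT S T x‖ ≤ ‖thetaT S T 0‖ := by
  have h0 : thetaT S T 0 = ((∑ k ∈ Finset.Icc (-(T : ℤ)) (T : ℤ), gs S k : ℝ) : ℂ) := by
    unfold thetaT
    push_cast
    refine Finset.sum_congr rfl fun k _ => ?_
    simp [ee_zero]
  rw [h0, Complex.norm_real, Real.norm_of_nonneg (Finset.sum_nonneg fun k _ => (gs_pos S k).le)]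
  unfold thetaT
  refine (norm_sum_le _ _).trans (Finset.sum_le_sum fun k _ => ?_)
  rw [norm_mul, norm_ee, mul_one, Complex.norm_real, Real.norm_of_nonneg (gs_pos S k).le]

lemma norm_uu_le (hS1 : 1 ≤ S) (hT : 2 * S ≤ T) (x : ℝ) : ‖uu S T x‖ ≤ 1 + delta S := by
  have hq := one_le_sqS hS1
  have h0 : ‖uu S T x‖ ≤ ‖uu S T 0‖ := by
    unfold uu
    rw [norm_div, norm_div]
    exact div_le_div_of_nonneg_right (norm_thetaT_le x) (norm_nonneg _)
  have h1 := norm_uu_sub_gaussG hS1 hT (x := 0) (by norm_num)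
  have h2 : gaussG S 0 = 1 := by simp [gaussG]
  rw [h2] at h1
  have h3 : ‖uu S T 0‖ ≤ ‖uu S T 0 - ((1 : ℝ) : ℂ)‖ + ‖((1 : ℝ) : ℂ)‖ := by
    have := norm_add_le (uu S T 0 - ((1 : ℝ) : ℂ)) ((1 : ℝ) : ℂ)
    simpa using this
  have h4 : ‖((1 : ℝ) : ℂ)‖ = 1 := by simp
  linarith

end estimates

end Vale.Agent.Lib.P058
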