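import Vale.Agent.Lib.P058.Basic
import Vale.Agent.Lib.P058.Gauss

open Finset

namespace Vale.Agent.Lib.P058

set_option linter.unusedSectionVars false

variable {ι κ : Type*} [Fintype ι] [DecidableEq ι] [Fintype κ] [DecidableEq κ]

/-- The box of columns. -/
noncomputable def boxF (T : ℕ) : Finset (κ → ℤ) := Fintype.piFinset fun _ => Finset.Icc (-(T : ℤ)) (T : ℤ)

lemma mem_boxF {T : ℕ} {n : κ → ℤ} : n ∈ boxF T ↔ ∀ p, |n p| ≤ (T : ℤ) := by
  unfold boxF
  rw [Fintype.mem_piFinset]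
  refine forall_congr' fun p => ?_
  rw [Finset.mem_Icc, abs_le]

/-- The product Gaussian weight. -/
noncomputable def wgt (S : ℝ) (n : κ → ℤ) : ℝ := ∏ p, gs S (n p)

lemma wgt_pos (S : ℝ) (n : κ → ℤ) : 0 < wgt S n :=
  Finset.prod_pos fun p _ => gs_pos S (n p)

lemma wgt_eq (S : ℝ) (n : κ → ℤ) : wgt S n = Real.exp (-(((nsq n : ℤ) : ℝ) / (2 * S))) := by
  unfold wgt gs nsq
  rw [← Real.exp_sum]
  congr 1
  push_cast
  rw [Finset.sum_neg_distrib, Finset.sum_div]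

lemma half_le_wgt {S : ℝ} (hS : 0 < S) {n : κ → ℤ} (h : ((nsq n : ℤ) : ℝ) ≤ S) :
    1 / 2 ≤ wgt S n := by
  rw [wgt_eq]
  have h1 : ((nsq n : ℤ) : ℝ) / (2 * S) ≤ 1 / 2 := by
    rw [div_le_iff₀ (by positivity)]
    linarith
  have h2 := Real.add_one_le_exp (-(((nsq n : ℤ) : ℝ) / (2 * S)))
  linarith

/-- The truncated discrete Gaussian measure. -/
noncomputable def tauG (S : ℝ) (T : ℕ) : (κ → ℤ) →₀ ℝ :=
  ∑ n ∈ boxF T, Finsupp.single n (wgt S n)

lemma tauG_apply (S : ℝ) (T : ℕ) (n : κ → ℤ) :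
    tauG S T n = if n ∈ boxF T then wgt S n else 0 := by
  unfold tauG
  rw [Finsupp.finsetSum_apply]
  simp only [Finsupp.single_apply]
  rw [Finset.sum_ite_eq' (boxF T) n (fun m => wgt S m)]

lemma tauG_nonneg (S : ℝ) (T : ℕ) (n : κ → ℤ) : 0 ≤ tauG S T n := by
  rw [tauG_apply]
  split_ifs
  · exact (wgt_pos S n).le
  · exact le_rfl

lemma mg_tauG (b : ι → κ → ℤ) (i : ι) (S : ℝ) (T : ℕ) (t : ℤ) :
    mg b i (tauG S T) t = ∑ n ∈ boxF T, if lev b i n = t then wgt S n else 0 := by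
  unfold tauG
  rw [map_sum, Finsupp.finsetSum_apply]
  exact Finset.sum_congr rfl fun n _ => mg_single b i n _ t

lemma mom_tauG (p q : κ) (S : ℝ) (T : ℕ) :
    mom p q (tauG S T) = ∑ n ∈ boxF T, wgt S n * ((n p : ℝ) * (n q : ℝ)) := by
  unfold tauG
  rw [map_sum]
  exact Finset.sum_congr rfl fun n _ => mom_single p q n _

lemma gs_neg (S : ℝ) (k : ℤ) : gs S (-k) = gs S k := by
  unfold gs
  push_cast
  rw [neg_sq]

/-- Off diagonal second moments vanish. -/
lemma mom_tauG_offdiag {p q : κ} (hpq : p ≠ q) (S : ℝ) (T : ℕ) : mom p q (tauG S T) = 0 := by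
  rw [mom_tauG]
  set fl : (κ → ℤ) → (κ → ℤ) := fun n r => if r = p then -n r else n r with hfl
  have hflfl : ∀ n, fl (fl n) = n := by
    intro n
    funext r
    simp only [hfl]
    split_ifs <;> simp
  have hbox : ∀ n ∈ boxF (κ := κ) T, fl n ∈ boxF (κ := κ) T := by
    intro n hn
    rw [mem_boxF] at hn ⊢
    intro r
    simp only [hfl]
    split_ifs
    · rw [abs_neg]; exact hn r
    · exact hn r
  have hw : ∀ n : κ → ℤ, wgt S (fl n) = wgt S n := by
    intro n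
    unfold wgt
    refine Finset.prod_congr rfl fun r _ => ?_
    simp only [hfl]
    split_ifs
    · exact gs_neg S _
    · rfl
  have key : ∑ n ∈ boxF T, wgt S n * ((n p : ℝ) * (n q : ℝ))
      = ∑ n ∈ boxF T, wgt S (fl n) * (((fl n) p : ℝ) * ((fl n) q : ℝ)) := by
    refine Finset.sum_nbij' fl fl hbox hbox (fun n _ => hflfl n) (fun n _ => hflfl n) ?_
    intro n _
    rw [hflfl n]
  have hval : ∀ n : κ → ℤ, wgt S (fl n) * (((fl n) p : ℝ) * ((fl n) q : ℝ))
      = -(wgt S n * ((n p : ℝ) * (n q : ℝ))) := by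
    intro n
    rw [hw]
    simp only [hfl, if_true, if_neg hpq.symm]
    push_cast
    ring
  simp only [hval] at key
  rw [Finset.sum_neg_distrib] at key
  linarith

/-- Diagonal second moments agree. -/
lemma mom_tauG_diag (p q : κ) (S : ℝ) (T : ℕ) : mom p p (tauG S T) = mom q q (tauG S T) := by
  rw [mom_tauG, mom_tauG]
  set sw : (κ → ℤ) → (κ → ℤ) := fun n r => n (Equiv.swap p q r) with hsw
  have hswsw : ∀ n, sw (sw n) = n := by
    intro n
    funext r
    simp [hsw]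
  have hbox : ∀ n ∈ boxF (κ := κ) T, sw n ∈ boxF (κ := κ) T := by
    intro n hn
    rw [mem_boxF] at hn ⊢
    intro r
    exact hn _
  have hw : ∀ n : κ → ℤ, wgt S (sw n) = wgt S n := by
    intro n
    unfold wgt
    exact Equiv.prod_comp (Equiv.swap p q) (fun r => gs S (n r))
  refine Finset.sum_nbij' sw sw hbox hbox (fun n _ => hswsw n) (fun n _ => hswsw n) ?_
  intro n _
  rw [hw]
  simp [hsw]

lemma half_le_mom_tauG {S : ℝ} (hS1 : 1 ≤ S) {T : ℕ} (hT : 2 * S ≤ T) (p : κ) :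
    1 / 2 ≤ mom p p (tauG S T) := by
  have hS : 0 < S := by linarith
  rw [mom_tauG]
  set n0 : κ → ℤ := Pi.single p 1 with hn0
  have hT1 : (1 : ℤ) ≤ (T : ℤ) := by
    have : (1 : ℝ) ≤ (T : ℝ) := by linarith
    exact_mod_cast this
  have hmem : n0 ∈ boxF (κ := κ) T := by
    rw [mem_boxF]
    intro r
    by_cases hr : r = p
    · subst hr
      simpa [hn0] using hT1
    · simp [hn0, hr]
  have hns : nsq n0 = 1 := by
    unfold nsq
    rw [Finset.sum_eq_single p]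
    · simp [hn0]
    · intro r _ hr
      simp [hn0, hr]
    · intro h; exact absurd (Finset.mem_univ p) h
  have h1 : 1 / 2 ≤ wgt S n0 := half_le_wgt hS (by rw [hns]; push_cast; exact hS1)
  have h2 : wgt S n0 * ((n0 p : ℝ) * (n0 p : ℝ)) = wgt S n0 := by
    simp [hn0]
  calc 1 / 2 ≤ wgt S n0 * ((n0 p : ℝ) * (n0 p : ℝ)) := by rw [h2]; exact h1
    _ ≤ ∑ n ∈ boxF T, wgt S n * ((n p : ℝ) * (n p : ℝ)) :=
        Finset.single_le_sum (f := fun n : κ → ℤ => wgt S n * ((n p : ℝ) * (n p : ℝ)))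
          (fun n _ => mul_nonneg (wgt_pos S n).le (mul_self_nonneg _)) hmem

/-- The characteristic function of the row `i` under the truncated Gaussian. -/
noncomputable def charF (b : ι → κ → ℤ) (S : ℝ) (T : ℕ) (i : ι) (θ : ℝ) : ℂ :=
  ∑ n ∈ boxF T, ((wgt S n : ℝ) : ℂ) * ee (θ * (lev b i n : ℝ))

lemma ee_sum (s : Finset κ) (f : κ → ℝ) : ee (∑ p ∈ s, f p) = ∏ p ∈ s, ee (f p) := by
  classical
  induction s using Finset.induction_on with
  | empty => simp [ee_zero]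
  | insert a s ha ih =>
    rw [Finset.sum_insert ha, Finset.prod_insert ha, ee_add, ih]

lemma charF_eq_prod (b : ι → κ → ℤ) (S : ℝ) (T : ℕ) (i : ι) (θ : ℝ) :
    charF b S T i θ = ∏ p, thetaT S T ((b i p : ℝ) * θ) := by
  unfold charF thetaT boxF
  rw [Finset.prod_univ_sum]
  refine Finset.sum_congr rfl fun n _ => ?_
  rw [Finset.prod_mul_distrib, ← ee_sum]
  congr 1
  · unfold wgt
    push_cast
    rfl
  · congr 1
    unfold lev
    push_cast
    rw [Finset.mul_sum]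
    exact Finset.sum_congr rfl fun p _ => by ring

lemma charF_eq_uu (b : ι → κ → ℤ) {S : ℝ} (hS1 : 1 ≤ S) (T : ℕ) (i : ι) (θ : ℝ) :
    charF b S T i θ = ((sqS S : ℝ) : ℂ) ^ (Fintype.card κ) * ∏ p, uu S T ((b i p : ℝ) * θ) := by
  rw [charF_eq_prod]
  have hq := one_le_sqS hS1
  have hq0 : ((sqS S : ℝ) : ℂ) ≠ 0 := by
    have : (sqS S : ℝ) ≠ 0 := by linarith
    exact_mod_cast this
  have : ∀ p, thetaT S T ((b i p : ℝ) * θ) = ((sqS S : ℝ) : ℂ) * uu S T ((b i p : ℝ) * θ) := by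
    intro p
    unfold uu
    field_simp
  simp only [this]
  rw [Finset.prod_mul_distrib, Finset.prod_const, Finset.card_univ]

/-- Telescoping estimate for products. -/
lemma norm_prod_sub_prod_le (s : Finset κ) (a c : κ → ℂ) {B d : ℝ} (hB : 1 ≤ B) (hd : 0 ≤ d)
    (ha : ∀ p ∈ s, ‖a p‖ ≤ B) (hc : ∀ p ∈ s, ‖c p‖ ≤ B) (hac : ∀ p ∈ s, ‖a p - c p‖ ≤ d) :
    ‖∏ p ∈ s, a p - ∏ p ∈ s, c p‖ ≤ (s.card : ℝ) * B ^ s.card * d := by
  classical
  induction s using Finset.induction_on with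
  | empty => simp
  | insert x s hx ih =>
    have ih' := ih (fun p hp => ha p (Finset.mem_insert_of_mem hp))
      (fun p hp => hc p (Finset.mem_insert_of_mem hp))
      (fun p hp => hac p (Finset.mem_insert_of_mem hp))
    rw [Finset.prod_insert hx, Finset.prod_insert hx, Finset.card_insert_of_notMem hx]
    have e : a x * ∏ p ∈ s, a p - c x * ∏ p ∈ s, c p
        = (a x - c x) * ∏ p ∈ s, a p + c x * (∏ p ∈ s, a p - ∏ p ∈ s, c p) := by ring
    rw [e]
    refine (norm_add_le _ _).trans ?_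
    rw [norm_mul, norm_mul, norm_prod]
    have h1 : ∏ p ∈ s, ‖a p‖ ≤ B ^ s.card := by
      calc ∏ p ∈ s, ‖a p‖ ≤ ∏ _p ∈ s, B :=
            Finset.prod_le_prod (fun _ _ => norm_nonneg _)
              (fun p hp => ha p (Finset.mem_insert_of_mem hp))
        _ = B ^ s.card := by rw [Finset.prod_const]
    have h2 := hac x (Finset.mem_insert_self _ _)
    have h3 := hc x (Finset.mem_insert_self _ _)
    have hB0 : 0 ≤ B := by linarith
    have hpow : 0 ≤ B ^ s.card := by positivity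
    have hprod : 0 ≤ ∏ p ∈ s, ‖a p‖ := Finset.prod_nonneg fun _ _ => norm_nonneg _
    have h4 : ‖a x - c x‖ * ∏ p ∈ s, ‖a p‖ ≤ d * B ^ s.card :=
      mul_le_mul h2 h1 hprod hd
    have h5 : ‖c x‖ * ‖∏ p ∈ s, a p - ∏ p ∈ s, c p‖
        ≤ B * ((s.card : ℝ) * B ^ s.card * d) :=
      mul_le_mul h3 ih' (norm_nonneg _) hB0
    have h6 : d * B ^ s.card ≤ B * (B ^ s.card * d) := by
      have : 0 ≤ B ^ s.card * d := by positivity
      nlinarith
    push_cast
    rw [pow_succ]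
    nlinarith

section bounds

variable {b : ι → κ → ℤ} {ρ : ℤ} {l0 : κ} {S : ℝ} {T : ℕ}

lemma prod_gaussG (hρ : ∀ i, ∑ p, b i p ^ 2 = ρ) (i : ι) (θ : ℝ) :
    ∏ p, gaussG S ((b i p : ℝ) * θ) = Real.exp (-(2 * Real.pi ^ 2 * S * θ ^ 2 * (ρ : ℝ))) := by
  unfold gaussG
  rw [← Real.exp_sum]
  congr 1
  rw [Finset.sum_neg_distrib]
  congr 1
  have : (ρ : ℝ) = ∑ p, (b i p : ℝ) ^ 2 := by
    rw [← hρ i]; push_cast; rfl
  rw [this, Finset.mul_sum]
  exact Finset.sum_congr rfl fun p _ => by ring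

/-- Small angles: all rows give the same main term. -/
lemma small_angle (hρ : ∀ i, ∑ p, b i p ^ 2 = ρ) (hS1 : 1 ≤ S) (hT : 2 * S ≤ T)
    (hδ : delta S ≤ 1) (i : ι) {θ : ℝ} (hθ : ∀ p, |(b i p : ℝ) * θ| ≤ 1 / 2) :
    ‖∏ p, uu S T ((b i p : ℝ) * θ)
        - ((Real.exp (-(2 * Real.pi ^ 2 * S * θ ^ 2 * (ρ : ℝ))) : ℝ) : ℂ)‖
      ≤ (Fintype.card κ : ℝ) * 2 ^ (Fintype.card κ) * delta S := by
  have hS : 0 < S := by linarith
  rw [← prod_gaussG hρ i θ]
  push_cast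
  have := norm_prod_sub_prod_le (univ : Finset κ) (fun p => uu S T ((b i p : ℝ) * θ))
    (fun p => ((gaussG S ((b i p : ℝ) * θ) : ℝ) : ℂ)) (B := 2) (d := delta S) (by norm_num)
    (delta_nonneg S)
    (fun p _ => (norm_uu_le hS1 hT _).trans (by linarith))
    (fun p _ => by
      rw [Complex.norm_real, Real.norm_of_nonneg (gaussG_pos _ _).le]
      linarith [gaussG_le_one hS.le ((b i p : ℝ) * θ)])
    (fun p _ => norm_uu_sub_gaussG hS1 hT (hθ p))
  rw [Finset.card_univ] at this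
  exact this

/-- Large angles: the coordinate `l0` is tiny. -/
lemma large_angle (hl0 : ∀ i, b i l0 = 1) (hS1 : 1 ≤ S) (hT : 2 * S ≤ T)
    (hδ : delta S ≤ 1) (i : ι) {θ : ℝ} (hθ : |θ| ≤ 1 / 2) :
    ‖∏ p, uu S T ((b i p : ℝ) * θ)‖ ≤ (gaussG S θ + delta S) * 2 ^ (Fintype.card κ) := by
  rw [norm_prod, ← Finset.mul_prod_erase univ _ (Finset.mem_univ l0)]
  have h1 : ‖uu S T ((b i l0 : ℝ) * θ)‖ ≤ gaussG S θ + delta S := by
    rw [hl0 i]
    simp only [Int.cast_one, one_mul]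
    have h := norm_uu_sub_gaussG hS1 hT hθ
    have h2 : ‖uu S T θ‖ ≤ ‖uu S T θ - ((gaussG S θ : ℝ) : ℂ)‖ + ‖((gaussG S θ : ℝ) : ℂ)‖ := by
      have := norm_add_le (uu S T θ - ((gaussG S θ : ℝ) : ℂ)) ((gaussG S θ : ℝ) : ℂ)
      simpa using this
    rw [Complex.norm_real, Real.norm_of_nonneg (gaussG_pos _ _).le] at h2
    linarith
  have h2 : ∏ p ∈ univ.erase l0, ‖uu S T ((b i p : ℝ) * θ)‖ ≤ 2 ^ (Fintype.card κ) := by
    have h3 : ∏ p ∈ univ.erase l0, ‖uu S T ((b i p : ℝ) * θ)‖ ≤ 2 ^ (univ.erase l0).card := by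
      calc ∏ p ∈ univ.erase l0, ‖uu S T ((b i p : ℝ) * θ)‖ ≤ ∏ _p ∈ univ.erase l0, (2 : ℝ) :=
            Finset.prod_le_prod (fun _ _ => norm_nonneg _)
              (fun p _ => (norm_uu_le hS1 hT _).trans (by linarith))
        _ = 2 ^ (univ.erase l0).card := by rw [Finset.prod_const]
    refine h3.trans (pow_le_pow_right₀ (by norm_num) ?_)
    exact Finset.card_le_univ _
  have hG := gaussG_pos S θ
  have hd := delta_nonneg S
  exact mul_le_mul h1 h2 (Finset.prod_nonneg fun _ _ => norm_nonneg _) (by positivity)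

/-- The uniform estimate for the difference of characteristic functions. -/
lemma norm_charF_sub_le (hl0 : ∀ i, b i l0 = 1) (hρ : ∀ i, ∑ p, b i p ^ 2 = ρ) (hS1 : 1 ≤ S)
    (hT : 2 * S ≤ T) (hδ : delta S ≤ 1) {m : ℝ} (hm1 : 1 ≤ m) (hm : ∀ i p, |(b i p : ℝ)| ≤ m)
    (i j : ι) {θ : ℝ} (hθ : |θ| ≤ 1 / 2) :
    ‖charF b S T i θ - charF b S T j θ‖
      ≤ (sqS S) ^ (Fintype.card κ) * (2 * ((Fintype.card κ : ℝ) + 1) * 2 ^ (Fintype.card κ)
          * (Real.exp (-(S / m ^ 2)) + delta S)) := by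
  have hS : 0 < S := by linarith
  have hq := one_le_sqS hS1
  rw [charF_eq_uu b hS1, charF_eq_uu b hS1, ← mul_sub, norm_mul, norm_pow, Complex.norm_real,
    Real.norm_of_nonneg (by linarith : (0 : ℝ) ≤ sqS S)]
  refine mul_le_mul_of_nonneg_left ?_ (by positivity)
  set Z := (Fintype.card κ : ℝ) * 2 ^ (Fintype.card κ) with hZ
  have hexp := Real.exp_pos (-(S / m ^ 2))
  have hd := delta_nonneg S
  have h2k : (0 : ℝ) < 2 ^ (Fintype.card κ) := by positivity
  have hcard : (0 : ℝ) ≤ (Fintype.card κ : ℝ) := by positivity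
  by_cases hsmall : m * |θ| ≤ 1 / 2
  · have hθ' : ∀ i' p, |(b i' p : ℝ) * θ| ≤ 1 / 2 := by
      intro i' p
      rw [abs_mul]
      exact (mul_le_mul_of_nonneg_right (hm i' p) (abs_nonneg _)).trans hsmall
    have h1 := small_angle (κ := κ) hρ hS1 hT hδ i (hθ' i)
    have h2 := small_angle (κ := κ) hρ hS1 hT hδ j (hθ' j)
    have htri := norm_sub_le_norm_sub_add_norm_sub (∏ p, uu S T ((b i p : ℝ) * θ))
      ((Real.exp (-(2 * Real.pi ^ 2 * S * θ ^ 2 * (ρ : ℝ))) : ℝ) : ℂ)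
      (∏ p, uu S T ((b j p : ℝ) * θ))
    rw [norm_sub_rev ((Real.exp (-(2 * Real.pi ^ 2 * S * θ ^ 2 * (ρ : ℝ))) : ℝ) : ℂ)] at htri
    refine htri.trans ?_
    have h3 : 0 ≤ Z * delta S := by positivity
    have h4 : 0 ≤ 2 ^ (Fintype.card κ) * Real.exp (-(S / m ^ 2)) := by positivity
    have h5 : 0 ≤ Z * Real.exp (-(S / m ^ 2)) := by positivity
    have h6 : 0 ≤ 2 ^ (Fintype.card κ) * delta S := by positivity
    have e : 2 * ((Fintype.card κ : ℝ) + 1) * 2 ^ (Fintype.card κ)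
          * (Real.exp (-(S / m ^ 2)) + delta S)
        = 2 * (Z * Real.exp (-(S / m ^ 2))) + 2 * (Z * delta S)
          + 2 * (2 ^ (Fintype.card κ) * Real.exp (-(S / m ^ 2)))
          + 2 * (2 ^ (Fintype.card κ) * delta S) := by
      rw [hZ]; ring
    rw [e]
    nlinarith
  · push Not at hsmall
    have h1 := large_angle (κ := κ) hl0 hS1 hT hδ i hθ
    have h2 := large_angle (κ := κ) hl0 hS1 hT hδ j hθ
    have hG : gaussG S θ ≤ Real.exp (-(S / m ^ 2)) := by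
      unfold gaussG
      rw [Real.exp_le_exp, neg_le_neg_iff, div_le_iff₀ (by positivity)]
      have hm0 : 0 < m := by linarith
      have h3 : 1 ≤ 4 * (m * |θ|) ^ 2 := by nlinarith
      have h4 : (m * |θ|) ^ 2 = m ^ 2 * θ ^ 2 := by
        rw [mul_pow, sq_abs]
      have hpi : (9 : ℝ) ≤ Real.pi ^ 2 := by
        have := Real.pi_gt_three
        nlinarith
      have h5 : 0 ≤ m ^ 2 * θ ^ 2 := by positivity
      have h6 : 2 * Real.pi ^ 2 * S * θ ^ 2 * m ^ 2 = 2 * Real.pi ^ 2 * S * (m ^ 2 * θ ^ 2) := by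
        ring
      rw [h6]
      have h7 : 1 / 4 ≤ m ^ 2 * θ ^ 2 := by rw [← h4]; linarith
      have h8 : S * 1 ≤ S * (4 * (m ^ 2 * θ ^ 2)) :=
        mul_le_mul_of_nonneg_left (by linarith) hS.le
      have h9 : 0 ≤ S * (m ^ 2 * θ ^ 2) := by positivity
      nlinarith
    have h3 := norm_sub_le (∏ p, uu S T ((b i p : ℝ) * θ)) (∏ p, uu S T ((b j p : ℝ) * θ))
    refine h3.trans ?_
    have h4 : (gaussG S θ + delta S) * 2 ^ (Fintype.card κ)
        ≤ (Real.exp (-(S / m ^ 2)) + delta S) * 2 ^ (Fintype.card κ) :=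
      mul_le_mul_of_nonneg_right (by linarith) h2k.le
    have h5 : 0 ≤ Z * (Real.exp (-(S / m ^ 2)) + delta S) := by positivity
    have e : 2 * ((Fintype.card κ : ℝ) + 1) * 2 ^ (Fintype.card κ)
          * (Real.exp (-(S / m ^ 2)) + delta S)
        = 2 * (Z * (Real.exp (-(S / m ^ 2)) + delta S))
          + 2 * ((Real.exp (-(S / m ^ 2)) + delta S) * 2 ^ (Fintype.card κ)) := by
      rw [hZ]; ring
    rw [e]
    linarith

end bounds

/-- Orthogonality of the finite Fourier kernel. -/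
lemma orth_sum (L : ℕ) (m : ℤ) (hm : |m| ≤ 2 * (L : ℤ)) :
    ∑ r ∈ Finset.range (2 * L + 1), ee (((r : ℝ) - (L : ℝ)) / (2 * (L : ℝ) + 1) * (m : ℝ))
      = if m = 0 then ((2 * L + 1 : ℕ) : ℂ) else 0 := by
  split_ifs with h0
  · subst h0
    simp [ee_zero]
  · have hN : (2 * (L : ℝ) + 1) ≠ 0 := by positivity
    set ζ : ℂ := ee ((m : ℝ) / (2 * (L : ℝ) + 1)) with hζ
    set c : ℂ := ee (-(L : ℝ) / (2 * (L : ℝ) + 1) * (m : ℝ)) with hc
    have hterm : ∀ r : ℕ, ee (((r : ℝ) - (L : ℝ)) / (2 * (L : ℝ) + 1) * (m : ℝ)) = c * ζ ^ r := by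
      intro r
      have h1 : ζ ^ r = ee ((r : ℝ) * ((m : ℝ) / (2 * (L : ℝ) + 1))) := by
        rw [hζ]
        unfold ee
        rw [← Complex.exp_nat_mul]
        congr 1
        push_cast
        ring
      rw [h1, hc, ← ee_add]
      congr 1
      field_simp
      ring
    simp only [hterm]
    rw [← Finset.mul_sum]
    have hne : ζ ≠ 1 := by
      intro h
      rw [hζ] at h
      unfold ee at h
      rw [Complex.exp_eq_one_iff] at h
      obtain ⟨n, hn⟩ := h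
      have hpi : (2 * (Real.pi : ℂ) * Complex.I) ≠ 0 := by
        simp [Real.pi_ne_zero, Complex.I_ne_zero]
      have h1 : (((m : ℝ) / (2 * (L : ℝ) + 1) : ℝ) : ℂ) = (n : ℂ) := by
        have : (2 * (Real.pi : ℂ) * Complex.I) * (((m : ℝ) / (2 * (L : ℝ) + 1) : ℝ) : ℂ)
            = (2 * (Real.pi : ℂ) * Complex.I) * (n : ℂ) := by
          rw [hn]; ring
        exact mul_left_cancel₀ hpi this
      have h2 : (m : ℝ) / (2 * (L : ℝ) + 1) = (n : ℝ) := by exact_mod_cast h1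
      have h3 : (m : ℝ) = (n : ℝ) * (2 * (L : ℝ) + 1) := by
        field_simp at h2
        linarith
      have h4 : m = n * (2 * (L : ℤ) + 1) := by exact_mod_cast h3
      have h5 : n ≠ 0 := by
        rintro rfl
        simp at h4
        exact h0 h4
      have h6 : 1 ≤ |n| := Int.one_le_abs h5
      have h7 : |m| = |n| * (2 * (L : ℤ) + 1) := by
        rw [h4, abs_mul, abs_of_nonneg (by positivity : (0 : ℤ) ≤ 2 * (L : ℤ) + 1)]
      have h8 : (0 : ℤ) ≤ (L : ℤ) := by positivity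
      nlinarith
    rw [geom_sum_eq hne]
    have hpow : ζ ^ (2 * L + 1) = 1 := by
      rw [hζ]
      unfold ee
      rw [← Complex.exp_nat_mul]
      have : ((2 * L + 1 : ℕ) : ℂ) * (2 * (Real.pi : ℂ) * Complex.I
          * (((m : ℝ) / (2 * (L : ℝ) + 1) : ℝ) : ℂ)) = (m : ℂ) * (2 * (Real.pi : ℂ) * Complex.I) := by
        have hN' : (2 * (L : ℂ) + 1) ≠ 0 := by
          have : ((2 * (L : ℝ) + 1 : ℝ) : ℂ) ≠ 0 := by exact_mod_cast hN
          simpa using this
        push_cast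
        field_simp
      rw [this]
      exact Complex.exp_int_mul_two_pi_mul_I m
    rw [hpow]
    simp

/-- The level bound. -/
def bNat (b : ι → κ → ℤ) : ℕ := ∑ i, ∑ q, (b i q).natAbs

lemma abs_lev_le (b : ι → κ → ℤ) (i : ι) {T : ℕ} {n : κ → ℤ} (hn : n ∈ boxF T) :
    |lev b i n| ≤ ((T * bNat b : ℕ) : ℤ) := by
  rw [mem_boxF] at hn
  unfold lev
  refine (Finset.abs_sum_le_sum_abs _ _).trans ?_
  have h1 : ∀ q, |b i q * n q| ≤ (T : ℤ) * ((b i q).natAbs : ℤ) := by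
    intro q
    rw [abs_mul, Int.abs_eq_natAbs (b i q), mul_comm]
    exact mul_le_mul_of_nonneg_right (hn q) (by positivity)
  refine (Finset.sum_le_sum fun q _ => h1 q).trans ?_
  rw [← Finset.mul_sum]
  push_cast
  refine mul_le_mul_of_nonneg_left ?_ (by positivity)
  unfold bNat
  push_cast
  exact Finset.single_le_sum (f := fun i' => ∑ q, |b i' q|)
    (fun _ _ => Finset.sum_nonneg fun _ _ => abs_nonneg _) (Finset.mem_univ i)

/-- Fourier inversion on the finite range of levels. -/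
lemma mg_inversion (b : ι → κ → ℤ) (S : ℝ) (T L : ℕ) (hL : T * bNat b ≤ L) (i : ι) (t : ℤ)
    (ht : |t| ≤ (L : ℤ)) :
    ((2 * L + 1 : ℕ) : ℂ) * ((mg b i (tauG S T) t : ℝ) : ℂ)
      = ∑ r ∈ Finset.range (2 * L + 1),
          charF b S T i (((r : ℝ) - (L : ℝ)) / (2 * (L : ℝ) + 1))
            * ee (-(((r : ℝ) - (L : ℝ)) / (2 * (L : ℝ) + 1) * (t : ℝ))) := by
  unfold charF
  simp only [Finset.sum_mul]
  rw [Finset.sum_comm]
  rw [mg_tauG]
  push_cast
  rw [Finset.mul_sum]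
  refine Finset.sum_congr rfl fun n hn => ?_
  have hlev : |lev b i n - t| ≤ 2 * (L : ℤ) := by
    have h1 := abs_lev_le b i hn
    have h2 : ((T * bNat b : ℕ) : ℤ) ≤ (L : ℤ) := by exact_mod_cast hL
    have h3 := abs_sub (lev b i n) t
    linarith
  have h4 := orth_sum L (lev b i n - t) hlev
  have h5 : ∀ r : ℕ, ((wgt S n : ℝ) : ℂ)
        * ee (((r : ℝ) - (L : ℝ)) / (2 * (L : ℝ) + 1) * (lev b i n : ℝ))
        * ee (-(((r : ℝ) - (L : ℝ)) / (2 * (L : ℝ) + 1) * (t : ℝ)))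
      = ((wgt S n : ℝ) : ℂ)
        * ee (((r : ℝ) - (L : ℝ)) / (2 * (L : ℝ) + 1) * ((lev b i n - t : ℤ) : ℝ)) := by
    intro r
    rw [mul_assoc, ← ee_add]
    congr 2
    push_cast
    ring
  simp only [h5]
  rw [← Finset.mul_sum, h4]
  by_cases h : lev b i n = t
  · rw [if_pos h, if_pos (sub_eq_zero.mpr h)]
    push_cast
    ring
  · rw [if_neg h, if_neg (fun h' => h (sub_eq_zero.mp h'))]
    simp

lemma mg_tauG_eq_zero (b : ι → κ → ℤ) (S : ℝ) (T L : ℕ) (hL : T * bNat b ≤ L) (i : ι) (t : ℤ)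
    (ht : (L : ℤ) < |t|) : mg b i (tauG S T) t = 0 := by
  rw [mg_tauG]
  refine Finset.sum_eq_zero fun n hn => ?_
  rw [if_neg]
  rintro rfl
  have h1 := abs_lev_le b i hn
  have h2 : ((T * bNat b : ℕ) : ℤ) ≤ (L : ℤ) := by exact_mod_cast hL
  omega

/-- The defect of the truncated Gaussian is uniformly small. -/
theorem abs_mg_sub_le {b : ι → κ → ℤ} {ρ : ℤ} {l0 : κ} {S : ℝ} {T : ℕ}
    (hl0 : ∀ i, b i l0 = 1) (hρ : ∀ i, ∑ p, b i p ^ 2 = ρ) (hS1 : 1 ≤ S)
    (hT : 2 * S ≤ T) (hδ : delta S ≤ 1) {m : ℝ} (hm1 : 1 ≤ m) (hm : ∀ i p, |(b i p : ℝ)| ≤ m)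
    (i j : ι) (t : ℤ) :
    |mg b i (tauG S T) t - mg b j (tauG S T) t|
      ≤ (sqS S) ^ (Fintype.card κ) * (2 * ((Fintype.card κ : ℝ) + 1) * 2 ^ (Fintype.card κ)
          * (Real.exp (-(S / m ^ 2)) + delta S)) := by
  set Bd := (sqS S) ^ (Fintype.card κ) * (2 * ((Fintype.card κ : ℝ) + 1) * 2 ^ (Fintype.card κ)
          * (Real.exp (-(S / m ^ 2)) + delta S)) with hBd
  have hBd0 : 0 ≤ Bd := by
    have hq := one_le_sqS hS1
    have := delta_nonneg S
    have := Real.exp_pos (-(S / m ^ 2))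
    rw [hBd]
    positivity
  set L := T * bNat b with hLdef
  by_cases ht : (L : ℤ) < |t|
  · rw [mg_tauG_eq_zero b S T L le_rfl i t ht, mg_tauG_eq_zero b S T L le_rfl j t ht]
    simpa using hBd0
  · push Not at ht
    have hi := mg_inversion b S T L le_rfl i t ht
    have hj := mg_inversion b S T L le_rfl j t ht
    set N : ℝ := ((2 * L + 1 : ℕ) : ℝ) with hN
    have hNpos : 0 < N := by rw [hN]; positivity
    have hdiff : ((N : ℝ) : ℂ) * (((mg b i (tauG S T) t - mg b j (tauG S T) t : ℝ)) : ℂ)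
        = ∑ r ∈ Finset.range (2 * L + 1),
          (charF b S T i (((r : ℝ) - (L : ℝ)) / (2 * (L : ℝ) + 1))
            - charF b S T j (((r : ℝ) - (L : ℝ)) / (2 * (L : ℝ) + 1)))
            * ee (-(((r : ℝ) - (L : ℝ)) / (2 * (L : ℝ) + 1) * (t : ℝ))) := by
      simp only [sub_mul]
      rw [Finset.sum_sub_distrib, ← hi, ← hj, hN]
      push_cast
      ring
    have hnorm : N * |mg b i (tauG S T) t - mg b j (tauG S T) t| ≤ N * Bd := by
      have h1 : N * |mg b i (tauG S T) t - mg b j (tauG S T) t|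
          = ‖((N : ℝ) : ℂ) * (((mg b i (tauG S T) t - mg b j (tauG S T) t : ℝ)) : ℂ)‖ := by
        rw [norm_mul, Complex.norm_real, Complex.norm_real, Real.norm_of_nonneg hNpos.le,
          Real.norm_eq_abs]
      rw [h1, hdiff]
      refine (norm_sum_le _ _).trans ?_
      have h2 : ∀ r ∈ Finset.range (2 * L + 1),
          ‖(charF b S T i (((r : ℝ) - (L : ℝ)) / (2 * (L : ℝ) + 1))
            - charF b S T j (((r : ℝ) - (L : ℝ)) / (2 * (L : ℝ) + 1)))
            * ee (-(((r : ℝ) - (L : ℝ)) / (2 * (L : ℝ) + 1) * (t : ℝ)))‖ ≤ Bd := by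
        intro r hr
        rw [norm_mul, norm_ee, mul_one]
        refine norm_charF_sub_le hl0 hρ hS1 hT hδ hm1 hm i j ?_
        have hr' : r < 2 * L + 1 := Finset.mem_range.mp hr
        have hr2 : (r : ℝ) ≤ 2 * (L : ℝ) := by
          have : r ≤ 2 * L := by omega
          exact_mod_cast this
        have hr0 : (0 : ℝ) ≤ (r : ℝ) := by positivity
        have hL0 : (0 : ℝ) ≤ (L : ℝ) := by positivity
        rw [abs_div, abs_of_pos (by positivity : (0 : ℝ) < 2 * (L : ℝ) + 1),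
          div_le_iff₀ (by positivity)]
        rw [abs_le]
        constructor <;> linarith
      calc _ ≤ ∑ _r ∈ Finset.range (2 * L + 1), Bd := Finset.sum_le_sum h2
        _ = N * Bd := by
          rw [Finset.sum_const, Finset.card_range, nsmul_eq_mul]
    exact le_of_mul_le_mul_left hnorm hNpos

end Vale.Agent.Lib.P058
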