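import Vale.Agent.Lib.P058.Euclid

/-! # An explicit deletion tower for the tokens `(a,…,a,b,c,d)` on 6 positions -/

namespace Vale.Agent.Lib.P058.Inst36

/-- Number of positions. -/
abbrev n : ℕ := 6

/-- Label alphabet of the tower. -/
abbrev A : ℕ := 17

/-- Tokens: the positions of the letters `b`, `c`, `d`. -/
abbrev Tok : Type := {x : Fin n × Fin n × Fin n // x.1 ≠ x.2.1 ∧ x.1 ≠ x.2.2 ∧ x.2.1 ≠ x.2.2}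

/-- Right action on tokens by permutations of the positions. -/
def act (γ : Equiv.Perm (Fin n)) (t : Tok) : Tok :=
  ⟨(γ⁻¹ t.1.1, γ⁻¹ t.1.2.1, γ⁻¹ t.1.2.2), fun h => t.2.1 (γ⁻¹.injective h),
    fun h => t.2.2.1 (γ⁻¹.injective h), fun h => t.2.2.2 (γ⁻¹.injective h)⟩

theorem act_act (g h : Equiv.Perm (Fin n)) (t : Tok) : act g (act h t) = act (h * g) t := by
  apply Subtype.ext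
  simp [act, mul_inv_rev, Equiv.Perm.mul_apply]

/-- Letter of a token at a position: `1,2,3` for `b,c,d` and `0` for the default letter. -/
def col (t : Tok) (ω : Fin n) : Fin A :=
  if t.1.1 = ω then 1 else if t.1.2.1 = ω then 2 else if t.1.2.2 = ω then 3 else 0

theorem col_act (γ : Equiv.Perm (Fin n)) (t : Tok) (ω : Fin n) :
    col (act γ t) ω = col t (γ ω) := by
  simp only [col, act, Equiv.Perm.inv_def, Equiv.symm_apply_eq]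

/-- Table key of a token. -/
def key (t : Tok) : ℕ := t.1.1.val + 6 * t.1.2.1.val + 36 * t.1.2.2.val

/-- A column given by a table. -/
def bT (tbl : List ℕ) (t : Tok) : Fin A := Fin.ofNat A (tbl.getD (key t) 0)

/-- Decoding table, with the default letter removed. -/
def decT (δ : Fin A) (D : List (List ℕ)) (l : Fin A) : List (Fin A) :=
  ((D.getD l.val []).map (Fin.ofNat A)).filter (· ≠ δ)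

theorem decT_not_mem (δ : Fin A) (D : List (List ℕ)) (l : Fin A) : δ ∉ decT δ D l := by
  simp [decT]

def p0 : Equiv.Perm (Fin n) := ⟨![0,1,2,3,4,5], ![0,1,2,3,4,5], by decide, by decide⟩
def p1 : Equiv.Perm (Fin n) := ⟨![0,1,2,4,3,5], ![0,1,2,4,3,5], by decide, by decide⟩
def p2 : Equiv.Perm (Fin n) := ⟨![0,2,4,1,3,5], ![0,3,1,4,2,5], by decide, by decide⟩
def p3 : Equiv.Perm (Fin n) := ⟨![0,3,1,4,2,5], ![0,2,4,1,3,5], by decide, by decide⟩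
def p4 : Equiv.Perm (Fin n) := ⟨![0,3,2,1,5,4], ![0,3,2,1,5,4], by decide, by decide⟩
def p5 : Equiv.Perm (Fin n) := ⟨![0,4,3,2,1,5], ![0,4,3,2,1,5], by decide, by decide⟩
def p6 : Equiv.Perm (Fin n) := ⟨![0,5,2,3,4,1], ![0,5,2,3,4,1], by decide, by decide⟩
def p7 : Equiv.Perm (Fin n) := ⟨![1,0,2,3,4,5], ![1,0,2,3,4,5], by decide, by decide⟩
def p8 : Equiv.Perm (Fin n) := ⟨![1,0,5,4,3,2], ![1,0,5,4,3,2], by decide, by decide⟩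
def p9 : Equiv.Perm (Fin n) := ⟨![1,3,4,0,5,2], ![3,0,5,1,2,4], by decide, by decide⟩
def p10 : Equiv.Perm (Fin n) := ⟨![1,3,4,2,0,5], ![4,0,3,1,2,5], by decide, by decide⟩
def p11 : Equiv.Perm (Fin n) := ⟨![1,3,5,0,2,4], ![3,0,4,1,5,2], by decide, by decide⟩
def p12 : Equiv.Perm (Fin n) := ⟨![2,1,0,3,4,5], ![2,1,0,3,4,5], by decide, by decide⟩
def p13 : Equiv.Perm (Fin n) := ⟨![2,4,0,5,1,3], ![2,4,0,5,1,3], by decide, by decide⟩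
def p14 : Equiv.Perm (Fin n) := ⟨![2,4,1,0,3,5], ![3,2,0,4,1,5], by decide, by decide⟩
def p15 : Equiv.Perm (Fin n) := ⟨![2,4,1,5,3,0], ![5,2,0,4,1,3], by decide, by decide⟩
def p16 : Equiv.Perm (Fin n) := ⟨![3,0,4,1,5,2], ![1,3,5,0,2,4], by decide, by decide⟩
def p17 : Equiv.Perm (Fin n) := ⟨![3,0,5,1,2,4], ![1,3,4,0,5,2], by decide, by decide⟩
def p18 : Equiv.Perm (Fin n) := ⟨![3,1,2,0,4,5], ![3,1,2,0,4,5], by decide, by decide⟩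
def p19 : Equiv.Perm (Fin n) := ⟨![3,2,0,4,1,5], ![2,4,1,0,3,5], by decide, by decide⟩
def p20 : Equiv.Perm (Fin n) := ⟨![4,0,3,1,2,5], ![1,3,4,2,0,5], by decide, by decide⟩
def p21 : Equiv.Perm (Fin n) := ⟨![4,1,2,3,0,5], ![4,1,2,3,0,5], by decide, by decide⟩
def p22 : Equiv.Perm (Fin n) := ⟨![4,2,3,1,5,0], ![5,3,1,2,0,4], by decide, by decide⟩
def p23 : Equiv.Perm (Fin n) := ⟨![4,5,3,2,0,1], ![4,5,3,2,0,1], by decide, by decide⟩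
def p24 : Equiv.Perm (Fin n) := ⟨![5,1,2,3,4,0], ![5,1,2,3,4,0], by decide, by decide⟩
def p25 : Equiv.Perm (Fin n) := ⟨![5,2,0,4,1,3], ![2,4,1,5,3,0], by decide, by decide⟩
def p26 : Equiv.Perm (Fin n) := ⟨![5,3,1,2,0,4], ![4,2,3,1,5,0], by decide, by decide⟩
def p27 : Equiv.Perm (Fin n) := ⟨![5,4,3,2,1,0], ![5,4,3,2,1,0], by decide, by decide⟩

/-- A cycle through all positions. -/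
def g : Equiv.Perm (Fin n) := ⟨![1,2,3,4,5,0], ![5,0,1,2,3,4], by decide, by decide⟩

def t1 : List ℕ := [0,0,0,0,0,0,0,0,5,5,5,5,0,4,0,5,5,5,0,4,4,0,5,5,0,4,4,4,0,5,0,4,4,4,4,0,0,0,3,3,3,3,0,0,0,0,0,0,1,0,0,5,5,5,1,0,4,0,5,5,1,0,4,4,0,5,1,0,4,4,4,0,0,2,0,3,3,3,0,0,0,3,3,3,0,0,0,0,0,0,1,1,0,0,5,5,1,1,0,4,0,5,1,1,0,4,4,0,0,2,2,0,3,3,0,0,2,0,3,3,0,0,0,0,3,3,0,0,0,0,0,0,1,1,1,0,0,5,1,1,1,0,4,0,0,2,2,2,0,3,0,0,2,2,0,3,0,0,0,2,0,3,0,0,0,0,0,3,0,0,0,0,0,0,1,1,1,1,0,0,0,2,2,2,2,0,0,0,2,2,2,0,0,0,0,2,2,0,0,0,0,0,2,0,0,0,0,0,0,0,0,0,0,0,0,0]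
def t2 : List ℕ := [0,0,0,0,0,0,0,0,0,0,0,0,0,4,0,0,0,0,0,4,4,0,0,0,0,4,4,4,0,0,0,4,4,4,4,0,0,0,3,3,3,3,0,0,0,0,0,0,1,0,0,0,0,0,1,0,4,0,0,0,1,0,4,4,0,0,1,0,4,4,4,0,0,2,0,3,3,3,0,0,0,3,3,3,0,0,0,0,0,0,1,1,0,0,0,0,1,1,0,4,0,0,1,1,0,4,4,0,0,2,2,0,3,3,0,0,2,0,3,3,0,0,0,0,3,3,0,0,0,0,0,0,1,1,1,0,0,0,1,1,1,0,4,0,0,2,2,2,0,3,0,0,2,2,0,3,0,0,0,2,0,3,0,0,0,0,0,3,0,0,0,0,0,0,1,1,1,1,0,0,0,2,2,2,2,0,0,0,2,2,2,0,0,0,0,2,2,0,0,0,0,0,2,0,0,0,0,0,0,0,0,0,0,0,0,0]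
def t3 : List ℕ := [0,0,0,0,0,0,0,0,0,0,0,0,0,3,0,0,0,0,0,3,3,0,0,0,0,3,3,3,0,0,0,3,3,3,3,0,0,0,1,1,1,1,0,0,0,0,0,0,1,0,0,0,0,0,1,0,3,0,0,0,1,0,3,3,0,0,1,0,3,3,3,0,0,2,0,1,1,1,0,0,0,1,1,1,0,0,0,0,0,0,1,1,0,0,0,0,1,1,0,3,0,0,1,1,0,3,3,0,0,2,2,0,1,1,0,0,2,0,1,1,0,0,0,0,1,1,0,0,0,0,0,0,1,1,1,0,0,0,1,1,1,0,3,0,0,2,2,2,0,1,0,0,2,2,0,1,0,0,0,2,0,1,0,0,0,0,0,1,0,0,0,0,0,0,1,1,1,1,0,0,0,2,2,2,2,0,0,0,2,2,2,0,0,0,0,2,2,0,0,0,0,0,2,0,0,0,0,0,0,0,0,0,0,0,0,0]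
def t4 : List ℕ := [0,0,0,0,0,0,0,0,0,0,0,0,0,2,0,0,0,0,0,2,2,0,0,0,0,2,2,2,0,0,0,2,2,2,2,0,0,0,1,1,1,1,0,0,0,0,0,0,1,0,0,0,0,0,1,0,2,0,0,0,1,0,2,2,0,0,1,0,2,2,2,0,0,2,0,1,1,1,0,0,0,1,1,1,0,0,0,0,0,0,1,1,0,0,0,0,1,1,0,2,0,0,1,1,0,2,2,0,0,2,2,0,1,1,0,0,2,0,1,1,0,0,0,0,1,1,0,0,0,0,0,0,1,1,1,0,0,0,1,1,1,0,2,0,0,2,2,2,0,1,0,0,2,2,0,1,0,0,0,2,0,1,0,0,0,0,0,1,0,0,0,0,0,0,1,1,1,1,0,0,0,2,2,2,2,0,0,0,2,2,2,0,0,0,0,2,2,0,0,0,0,0,2,0,0,0,0,0,0,0,0,0,0,0,0,0]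
def t5 : List ℕ := [0,0,0,0,0,0,0,0,0,4,0,3,0,1,0,0,3,0,0,6,1,0,0,3,0,1,3,1,0,0,0,3,1,3,1,0,0,0,0,5,0,2,0,0,0,0,0,0,2,0,0,0,3,3,5,0,1,0,0,0,2,0,3,1,0,3,0,0,3,1,3,0,0,3,0,0,2,0,3,0,0,0,2,2,0,0,0,0,0,0,2,2,0,0,3,3,0,0,0,3,0,4,2,0,0,3,6,0,0,6,3,0,0,2,4,0,3,0,0,0,3,3,0,0,2,2,0,0,0,0,0,0,2,2,0,0,0,3,0,2,0,0,3,0,0,3,1,3,0,0,3,0,1,3,0,2,0,0,0,1,0,5,3,3,0,0,0,2,0,0,0,0,0,0,2,0,5,0,0,0,0,1,3,1,3,0,0,0,1,3,1,0,3,0,0,1,6,0,0,3,0,0,1,0,3,0,4,0,0,0,0,0,0,0,0,0]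
def t6 : List ℕ := [0,0,0,0,0,0,0,0,0,3,0,2,0,1,0,0,2,0,0,5,1,0,0,2,0,1,2,1,0,0,0,2,1,2,1,0,0,0,0,4,0,1,0,0,0,0,0,0,1,0,0,0,2,2,4,0,1,0,0,0,1,0,2,1,0,2,0,0,2,1,2,0,0,2,0,0,1,0,2,0,0,0,1,1,0,0,0,0,0,0,1,1,0,0,2,2,0,0,0,2,0,3,1,0,0,2,5,0,0,5,2,0,0,1,3,0,2,0,0,0,2,2,0,0,1,1,0,0,0,0,0,0,1,1,0,0,0,2,0,1,0,0,2,0,0,2,1,2,0,0,2,0,1,2,0,1,0,0,0,1,0,4,2,2,0,0,0,1,0,0,0,0,0,0,1,0,4,0,0,0,0,1,2,1,2,0,0,0,1,2,1,0,2,0,0,1,5,0,0,2,0,0,1,0,2,0,3,0,0,0,0,0,0,0,0,0]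
def t7 : List ℕ := [0,0,0,0,0,0,0,0,1,4,5,1,0,0,0,0,1,0,0,9,0,0,1,14,0,8,1,0,0,1,0,1,0,15,0,0,0,0,0,5,4,0,0,0,0,0,0,0,0,0,0,1,15,1,3,0,0,0,1,0,7,0,14,0,0,1,1,0,1,0,1,0,0,1,0,1,0,1,1,0,0,0,13,0,0,0,0,0,0,0,0,0,0,0,1,11,0,5,0,1,0,4,0,0,0,10,9,0,0,6,1,0,0,12,2,0,1,0,0,1,1,1,0,0,0,8,0,0,0,0,0,0,0,0,1,0,0,1,4,0,5,0,1,0,0,11,0,1,0,0,10,0,12,1,0,0,1,4,0,0,0,5,1,1,0,0,0,0,0,0,0,0,0,0,0,0,3,1,0,0,0,0,1,13,1,0,0,0,0,1,0,0,1,1,0,7,6,0,5,1,4,0,0,0,1,1,2,0,0,0,0,0,0,0,0,0]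
def t8 : List ℕ := [0,0,0,0,0,0,0,0,1,4,5,1,0,0,0,0,0,0,0,9,1,0,1,14,0,8,1,0,0,1,0,0,1,15,0,0,0,0,0,5,4,0,0,0,0,0,0,0,1,0,0,1,15,0,3,0,0,0,1,0,7,0,14,0,0,0,1,0,1,1,1,0,0,1,0,1,1,1,0,0,0,0,13,1,0,0,0,0,0,0,0,1,0,0,1,11,0,5,0,0,0,4,0,0,0,10,9,0,0,6,0,0,0,12,2,0,1,0,0,1,1,0,0,0,0,8,0,0,0,0,0,0,1,1,1,0,0,1,4,0,5,0,0,0,0,11,0,1,0,0,10,0,12,1,0,1,1,4,0,1,0,5,0,0,0,0,0,0,0,0,0,0,0,0,1,0,3,1,0,0,0,1,0,13,1,0,0,0,0,0,0,0,1,1,0,7,6,0,5,1,4,0,1,0,0,1,2,0,0,0,0,0,0,0,0,0]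
def t9 : List ℕ := [0,0,0,0,0,0,0,0,1,4,5,1,0,0,0,0,0,0,0,9,1,0,1,13,0,8,1,0,0,1,0,0,1,14,0,0,0,0,0,5,4,0,0,0,0,0,0,0,1,0,0,1,14,0,3,0,0,0,1,0,7,0,13,0,0,0,1,0,1,1,1,0,0,1,0,1,1,1,0,0,0,0,12,1,0,0,0,0,0,0,0,1,0,0,1,2,0,5,0,0,0,4,0,0,0,10,9,0,0,6,0,0,0,11,2,0,1,0,0,1,1,0,0,0,0,8,0,0,0,0,0,0,1,1,1,0,0,1,4,0,5,0,0,0,0,2,0,1,0,0,10,0,11,1,0,1,1,4,0,1,0,5,0,0,0,0,0,0,0,0,0,0,0,0,1,0,3,1,0,0,0,1,0,12,1,0,0,0,0,0,0,0,1,1,0,7,6,0,5,1,4,0,1,0,0,1,2,0,0,0,0,0,0,0,0,0]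
def t10 : List ℕ := [0,0,0,0,0,0,0,0,1,4,5,1,0,0,0,0,0,0,0,9,1,0,1,13,0,8,1,0,0,1,0,0,1,2,0,0,0,0,0,5,4,0,0,0,0,0,0,0,1,0,0,1,2,0,3,0,0,0,1,0,7,0,13,0,0,0,1,0,1,1,1,0,0,1,0,1,1,1,0,0,0,0,12,1,0,0,0,0,0,0,0,1,0,0,1,2,0,5,0,0,0,4,0,0,0,10,9,0,0,6,0,0,0,11,2,0,1,0,0,1,1,0,0,0,0,8,0,0,0,0,0,0,1,1,1,0,0,1,4,0,5,0,0,0,0,2,0,1,0,0,10,0,11,1,0,1,1,4,0,1,0,5,0,0,0,0,0,0,0,0,0,0,0,0,1,0,3,1,0,0,0,1,0,12,1,0,0,0,0,0,0,0,1,1,0,7,6,0,5,1,4,0,1,0,0,1,2,0,0,0,0,0,0,0,0,0]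
def t11 : List ℕ := [0,0,0,0,0,0,0,0,1,4,5,1,0,0,0,0,0,0,0,8,1,0,1,12,0,3,1,0,0,1,0,0,1,2,0,0,0,0,0,5,4,0,0,0,0,0,0,0,1,0,0,1,2,0,3,0,0,0,1,0,7,0,12,0,0,0,1,0,1,1,1,0,0,1,0,1,1,1,0,0,0,0,11,1,0,0,0,0,0,0,0,1,0,0,1,2,0,5,0,0,0,4,0,0,0,9,8,0,0,6,0,0,0,10,2,0,1,0,0,1,1,0,0,0,0,3,0,0,0,0,0,0,1,1,1,0,0,1,4,0,5,0,0,0,0,2,0,1,0,0,9,0,10,1,0,1,1,4,0,1,0,5,0,0,0,0,0,0,0,0,0,0,0,0,1,0,3,1,0,0,0,1,0,11,1,0,0,0,0,0,0,0,1,1,0,7,6,0,5,1,4,0,1,0,0,1,2,0,0,0,0,0,0,0,0,0]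
def t12 : List ℕ := [0,0,0,0,0,0,0,0,1,4,5,1,0,0,0,0,0,0,0,8,1,0,1,11,0,3,1,0,0,1,0,0,1,2,0,0,0,0,0,5,4,0,0,0,0,0,0,0,1,0,0,1,2,0,3,0,0,0,1,0,7,0,11,0,0,0,1,0,1,1,1,0,0,1,0,1,1,1,0,0,0,0,3,1,0,0,0,0,0,0,0,1,0,0,1,2,0,5,0,0,0,4,0,0,0,9,8,0,0,6,0,0,0,10,2,0,1,0,0,1,1,0,0,0,0,3,0,0,0,0,0,0,1,1,1,0,0,1,4,0,5,0,0,0,0,2,0,1,0,0,9,0,10,1,0,1,1,4,0,1,0,5,0,0,0,0,0,0,0,0,0,0,0,0,1,0,3,1,0,0,0,1,0,3,1,0,0,0,0,0,0,0,1,1,0,7,6,0,5,1,4,0,1,0,0,1,2,0,0,0,0,0,0,0,0,0]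
def t13 : List ℕ := [0,0,0,0,0,0,0,0,1,4,5,1,0,0,0,0,0,0,0,8,1,0,1,10,0,3,1,0,0,1,0,0,1,2,0,0,0,0,0,5,4,0,0,0,0,0,0,0,1,0,0,1,2,0,3,0,0,0,1,0,7,0,10,0,0,0,1,0,1,1,1,0,0,1,0,1,1,1,0,0,0,0,3,1,0,0,0,0,0,0,0,1,0,0,1,2,0,5,0,0,0,4,0,0,0,6,8,0,0,6,0,0,0,9,2,0,1,0,0,1,1,0,0,0,0,3,0,0,0,0,0,0,1,1,1,0,0,1,4,0,5,0,0,0,0,2,0,1,0,0,6,0,9,1,0,1,1,4,0,1,0,5,0,0,0,0,0,0,0,0,0,0,0,0,1,0,3,1,0,0,0,1,0,3,1,0,0,0,0,0,0,0,1,1,0,7,6,0,5,1,4,0,1,0,0,1,2,0,0,0,0,0,0,0,0,0]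
def t14 : List ℕ := [0,0,0,0,0,0,0,0,1,4,5,1,0,0,0,0,0,0,0,8,1,0,1,6,0,3,1,0,0,1,0,0,1,2,0,0,0,0,0,5,4,0,0,0,0,0,0,0,1,0,0,1,2,0,3,0,0,0,1,0,7,0,6,0,0,0,1,0,1,1,1,0,0,1,0,1,1,1,0,0,0,0,3,1,0,0,0,0,0,0,0,1,0,0,1,2,0,5,0,0,0,4,0,0,0,6,8,0,0,6,0,0,0,9,2,0,1,0,0,1,1,0,0,0,0,3,0,0,0,0,0,0,1,1,1,0,0,1,4,0,5,0,0,0,0,2,0,1,0,0,6,0,9,1,0,1,1,4,0,1,0,5,0,0,0,0,0,0,0,0,0,0,0,0,1,0,3,1,0,0,0,1,0,3,1,0,0,0,0,0,0,0,1,1,0,7,6,0,5,1,4,0,1,0,0,1,2,0,0,0,0,0,0,0,0,0]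
def t15 : List ℕ := [0,0,0,0,0,0,0,0,1,4,5,1,0,0,0,0,0,0,0,8,1,0,1,6,0,3,1,0,0,1,0,0,1,2,0,0,0,0,0,5,4,0,0,0,0,0,0,0,1,0,0,1,2,0,3,0,0,0,1,0,7,0,6,0,0,0,1,0,1,1,1,0,0,1,0,1,1,1,0,0,0,0,3,1,0,0,0,0,0,0,0,1,0,0,1,2,0,5,0,0,0,4,0,0,0,6,8,0,0,6,0,0,0,7,2,0,1,0,0,1,1,0,0,0,0,3,0,0,0,0,0,0,1,1,1,0,0,1,4,0,5,0,0,0,0,2,0,1,0,0,6,0,7,1,0,1,1,4,0,1,0,5,0,0,0,0,0,0,0,0,0,0,0,0,1,0,3,1,0,0,0,1,0,3,1,0,0,0,0,0,0,0,1,1,0,7,6,0,5,1,4,0,1,0,0,1,2,0,0,0,0,0,0,0,0,0]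
def t16 : List ℕ := [0,0,0,0,0,0,0,0,1,4,5,1,0,0,0,0,0,0,0,7,1,0,1,6,0,3,1,0,0,1,0,0,1,2,0,0,0,0,0,5,4,0,0,0,0,0,0,0,1,0,0,1,2,0,3,0,0,0,1,0,7,0,6,0,0,0,1,0,1,1,1,0,0,1,0,1,1,1,0,0,0,0,3,1,0,0,0,0,0,0,0,1,0,0,1,2,0,5,0,0,0,4,0,0,0,6,7,0,0,6,0,0,0,7,2,0,1,0,0,1,1,0,0,0,0,3,0,0,0,0,0,0,1,1,1,0,0,1,4,0,5,0,0,0,0,2,0,1,0,0,6,0,7,1,0,1,1,4,0,1,0,5,0,0,0,0,0,0,0,0,0,0,0,0,1,0,3,1,0,0,0,1,0,3,1,0,0,0,0,0,0,0,1,1,0,7,6,0,5,1,4,0,1,0,0,1,2,0,0,0,0,0,0,0,0,0]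
def t17 : List ℕ := [0,0,0,0,0,0,0,0,1,3,4,1,0,0,0,0,0,0,0,6,1,0,1,5,0,2,1,0,0,8,0,0,1,2,7,0,0,0,0,4,3,0,0,0,0,0,0,0,1,0,0,8,2,0,2,0,7,0,1,0,6,0,5,0,0,0,1,0,1,1,1,0,0,1,0,1,1,1,0,0,0,7,2,1,0,0,0,0,0,0,0,8,0,0,1,2,0,4,0,0,0,3,0,0,0,5,6,0,0,5,0,0,0,6,2,0,8,0,0,1,1,7,0,0,0,2,0,0,0,0,0,0,1,1,1,0,0,1,3,0,4,0,0,0,0,2,0,1,0,7,5,0,6,1,0,1,1,3,0,1,0,4,0,0,0,0,0,0,0,0,0,0,0,0,8,0,2,1,0,0,0,1,0,2,8,0,0,0,0,0,0,0,1,1,0,6,5,0,4,1,3,0,1,0,7,1,2,0,0,0,0,0,0,0,0,0]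
def t18 : List ℕ := [0,0,0,0,0,0,0,0,1,3,4,1,0,0,0,0,0,0,0,3,1,0,1,5,0,2,1,0,0,7,0,0,1,2,6,0,0,0,0,4,3,0,0,0,0,0,0,0,1,0,0,7,2,0,2,0,6,0,1,0,3,0,5,0,0,0,1,0,1,1,1,0,0,1,0,1,1,1,0,0,0,6,2,1,0,0,0,0,0,0,0,7,0,0,1,2,0,4,0,0,0,3,0,0,0,5,3,0,0,5,0,0,0,3,2,0,7,0,0,1,1,6,0,0,0,2,0,0,0,0,0,0,1,1,1,0,0,1,3,0,4,0,0,0,0,2,0,1,0,6,5,0,3,1,0,1,1,3,0,1,0,4,0,0,0,0,0,0,0,0,0,0,0,0,7,0,2,1,0,0,0,1,0,2,7,0,0,0,0,0,0,0,1,1,0,3,5,0,4,1,3,0,1,0,6,1,2,0,0,0,0,0,0,0,0,0]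
def t19 : List ℕ := [0,0,0,0,0,0,0,0,1,3,4,1,0,0,0,0,0,0,0,3,1,0,1,4,0,2,1,0,0,6,0,0,1,2,5,0,0,0,0,4,3,0,0,0,0,0,0,0,1,0,0,6,2,0,2,0,5,0,1,0,3,0,4,0,0,0,1,0,1,1,1,0,0,1,0,1,1,1,0,0,0,5,2,1,0,0,0,0,0,0,0,6,0,0,1,2,0,4,0,0,0,3,0,0,0,4,3,0,0,4,0,0,0,3,2,0,6,0,0,1,1,5,0,0,0,2,0,0,0,0,0,0,1,1,1,0,0,1,3,0,4,0,0,0,0,2,0,1,0,5,4,0,3,1,0,1,1,3,0,1,0,4,0,0,0,0,0,0,0,0,0,0,0,0,6,0,2,1,0,0,0,1,0,2,6,0,0,0,0,0,0,0,1,1,0,3,4,0,4,1,3,0,1,0,5,1,2,0,0,0,0,0,0,0,0,0]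
def t20 : List ℕ := [0,0,0,0,0,0,0,0,1,3,4,1,0,0,0,0,0,0,0,3,1,0,1,4,0,2,1,0,0,5,0,0,1,2,5,0,0,0,0,4,3,0,0,0,0,0,0,0,1,0,0,5,2,0,2,0,5,0,1,0,3,0,4,0,0,0,1,0,1,1,1,0,0,1,0,1,1,1,0,0,0,5,2,1,0,0,0,0,0,0,0,5,0,0,1,2,0,4,0,0,0,3,0,0,0,4,3,0,0,4,0,0,0,3,2,0,5,0,0,1,1,5,0,0,0,2,0,0,0,0,0,0,1,1,1,0,0,1,3,0,4,0,0,0,0,2,0,1,0,5,4,0,3,1,0,1,1,3,0,1,0,4,0,0,0,0,0,0,0,0,0,0,0,0,5,0,2,1,0,0,0,1,0,2,5,0,0,0,0,0,0,0,1,1,0,3,4,0,4,1,3,0,1,0,5,1,2,0,0,0,0,0,0,0,0,0]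
def t21 : List ℕ := [0,0,0,0,0,0,0,0,0,2,3,0,0,0,0,0,0,0,0,2,0,0,0,3,0,1,0,0,0,4,0,0,0,1,4,0,0,0,0,3,2,0,0,0,0,0,0,0,0,0,0,4,1,0,1,0,4,0,0,0,2,0,3,0,0,0,0,0,0,0,0,0,0,0,0,0,0,0,0,0,0,4,1,0,0,0,0,0,0,0,0,4,0,0,0,1,0,3,0,0,0,2,0,0,0,3,2,0,0,3,0,0,0,2,1,0,4,0,0,0,0,4,0,0,0,1,0,0,0,0,0,0,0,0,0,0,0,0,2,0,3,0,0,0,0,1,0,0,0,4,3,0,2,0,0,0,0,2,0,0,0,3,0,0,0,0,0,0,0,0,0,0,0,0,4,0,1,0,0,0,0,0,0,1,4,0,0,0,0,0,0,0,0,0,0,2,3,0,3,0,2,0,0,0,4,0,1,0,0,0,0,0,0,0,0,0]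
def t22 : List ℕ := [0,0,0,0,0,0,0,0,0,4,3,0,0,0,0,0,0,0,0,1,0,0,0,7,0,1,0,0,0,8,0,0,0,9,9,0,0,0,0,3,4,0,0,0,0,0,0,0,0,0,0,9,9,0,1,0,8,0,0,0,1,0,7,0,0,0,0,0,0,0,0,0,0,0,0,0,0,0,0,0,0,9,9,0,0,0,0,0,0,0,0,8,0,0,0,1,0,7,0,0,0,1,0,0,0,3,4,0,0,2,0,0,0,5,2,0,6,0,0,0,0,6,0,0,0,2,0,0,0,0,0,0,0,0,0,0,0,0,5,0,2,0,0,0,0,2,0,0,0,6,2,0,5,0,0,0,0,5,0,0,0,2,0,0,0,0,0,0,0,0,0,0,0,0,6,0,2,0,0,0,0,0,0,9,9,0,0,0,0,0,0,0,0,0,0,4,3,0,7,0,1,0,0,0,8,0,1,0,0,0,0,0,0,0,0,0]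
def t23 : List ℕ := [0,0,0,0,0,0,0,0,0,3,3,0,0,0,0,0,0,0,0,1,0,0,0,6,0,1,0,0,0,7,0,0,0,8,8,0,0,0,0,3,3,0,0,0,0,0,0,0,0,0,0,8,8,0,1,0,7,0,0,0,1,0,6,0,0,0,0,0,0,0,0,0,0,0,0,0,0,0,0,0,0,8,8,0,0,0,0,0,0,0,0,7,0,0,0,1,0,6,0,0,0,1,0,0,0,3,3,0,0,2,0,0,0,4,2,0,5,0,0,0,0,5,0,0,0,2,0,0,0,0,0,0,0,0,0,0,0,0,4,0,2,0,0,0,0,2,0,0,0,5,2,0,4,0,0,0,0,4,0,0,0,2,0,0,0,0,0,0,0,0,0,0,0,0,5,0,2,0,0,0,0,0,0,8,8,0,0,0,0,0,0,0,0,0,0,3,3,0,6,0,1,0,0,0,7,0,1,0,0,0,0,0,0,0,0,0]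
def t24 : List ℕ := [0,0,0,0,0,0,0,0,0,3,3,0,0,0,0,0,0,0,0,1,0,0,0,5,0,1,0,0,0,6,0,0,0,7,7,0,0,0,0,3,3,0,0,0,0,0,0,0,0,0,0,7,7,0,1,0,6,0,0,0,1,0,5,0,0,0,0,0,0,0,0,0,0,0,0,0,0,0,0,0,0,7,7,0,0,0,0,0,0,0,0,6,0,0,0,1,0,5,0,0,0,1,0,0,0,3,3,0,0,2,0,0,0,4,2,0,4,0,0,0,0,4,0,0,0,2,0,0,0,0,0,0,0,0,0,0,0,0,4,0,2,0,0,0,0,2,0,0,0,4,2,0,4,0,0,0,0,4,0,0,0,2,0,0,0,0,0,0,0,0,0,0,0,0,4,0,2,0,0,0,0,0,0,7,7,0,0,0,0,0,0,0,0,0,0,3,3,0,5,0,1,0,0,0,6,0,1,0,0,0,0,0,0,0,0,0]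
def t25 : List ℕ := [0,0,0,0,0,0,0,0,0,3,3,0,0,0,0,0,0,0,0,1,0,0,0,5,0,1,0,0,0,5,0,0,0,6,6,0,0,0,0,3,3,0,0,0,0,0,0,0,0,0,0,6,6,0,1,0,5,0,0,0,1,0,5,0,0,0,0,0,0,0,0,0,0,0,0,0,0,0,0,0,0,6,6,0,0,0,0,0,0,0,0,5,0,0,0,1,0,5,0,0,0,1,0,0,0,3,3,0,0,2,0,0,0,4,2,0,4,0,0,0,0,4,0,0,0,2,0,0,0,0,0,0,0,0,0,0,0,0,4,0,2,0,0,0,0,2,0,0,0,4,2,0,4,0,0,0,0,4,0,0,0,2,0,0,0,0,0,0,0,0,0,0,0,0,4,0,2,0,0,0,0,0,0,6,6,0,0,0,0,0,0,0,0,0,0,3,3,0,5,0,1,0,0,0,5,0,1,0,0,0,0,0,0,0,0,0]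
def t26 : List ℕ := [0,0,0,0,0,0,0,0,0,3,3,0,0,0,0,0,0,0,0,1,0,0,0,1,0,1,0,0,0,1,0,0,0,5,5,0,0,0,0,3,3,0,0,0,0,0,0,0,0,0,0,5,5,0,1,0,1,0,0,0,1,0,1,0,0,0,0,0,0,0,0,0,0,0,0,0,0,0,0,0,0,5,5,0,0,0,0,0,0,0,0,1,0,0,0,1,0,1,0,0,0,1,0,0,0,3,3,0,0,2,0,0,0,4,2,0,4,0,0,0,0,4,0,0,0,2,0,0,0,0,0,0,0,0,0,0,0,0,4,0,2,0,0,0,0,2,0,0,0,4,2,0,4,0,0,0,0,4,0,0,0,2,0,0,0,0,0,0,0,0,0,0,0,0,4,0,2,0,0,0,0,0,0,5,5,0,0,0,0,0,0,0,0,0,0,3,3,0,1,0,1,0,0,0,1,0,1,0,0,0,0,0,0,0,0,0]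
def t27 : List ℕ := [0,0,0,0,0,0,0,0,0,3,3,0,0,0,0,0,0,0,0,1,0,0,0,1,0,1,0,0,0,1,0,0,0,4,4,0,0,0,0,3,3,0,0,0,0,0,0,0,0,0,0,4,4,0,1,0,1,0,0,0,1,0,1,0,0,0,0,0,0,0,0,0,0,0,0,0,0,0,0,0,0,4,4,0,0,0,0,0,0,0,0,1,0,0,0,1,0,1,0,0,0,1,0,0,0,3,3,0,0,2,0,0,0,2,2,0,2,0,0,0,0,2,0,0,0,2,0,0,0,0,0,0,0,0,0,0,0,0,2,0,2,0,0,0,0,2,0,0,0,2,2,0,2,0,0,0,0,2,0,0,0,2,0,0,0,0,0,0,0,0,0,0,0,0,2,0,2,0,0,0,0,0,0,4,4,0,0,0,0,0,0,0,0,0,0,3,3,0,1,0,1,0,0,0,1,0,1,0,0,0,0,0,0,0,0,0]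
def t28 : List ℕ := [0,0,0,0,0,0,0,0,0,3,3,0,0,0,0,0,0,0,0,1,0,0,0,1,0,1,0,0,0,1,0,0,0,3,3,0,0,0,0,3,3,0,0,0,0,0,0,0,0,0,0,3,3,0,1,0,1,0,0,0,1,0,1,0,0,0,0,0,0,0,0,0,0,0,0,0,0,0,0,0,0,3,3,0,0,0,0,0,0,0,0,1,0,0,0,1,0,1,0,0,0,1,0,0,0,3,3,0,0,2,0,0,0,2,2,0,2,0,0,0,0,2,0,0,0,2,0,0,0,0,0,0,0,0,0,0,0,0,2,0,2,0,0,0,0,2,0,0,0,2,2,0,2,0,0,0,0,2,0,0,0,2,0,0,0,0,0,0,0,0,0,0,0,0,2,0,2,0,0,0,0,0,0,3,3,0,0,0,0,0,0,0,0,0,0,3,3,0,1,0,1,0,0,0,1,0,1,0,0,0,0,0,0,0,0,0]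
def t29 : List ℕ := [0,0,0,0,0,0,0,0,0,1,1,0,0,0,0,0,0,0,0,2,0,0,0,2,0,2,0,0,0,2,0,0,0,1,1,0,0,0,0,1,1,0,0,0,0,0,0,0,0,0,0,1,1,0,1,0,1,0,0,0,1,0,1,0,0,0,0,0,0,0,0,0,0,0,0,0,0,0,0,0,0,1,1,0,0,0,0,0,0,0,0,2,0,0,0,2,0,2,0,0,0,2,0,0,0,1,1,0,0,2,0,0,0,2,2,0,2,0,0,0,0,2,0,0,0,2,0,0,0,0,0,0,0,0,0,0,0,0,2,0,2,0,0,0,0,2,0,0,0,2,2,0,2,0,0,0,0,2,0,0,0,2,0,0,0,0,0,0,0,0,0,0,0,0,2,0,2,0,0,0,0,0,0,1,1,0,0,0,0,0,0,0,0,0,0,1,1,0,1,0,1,0,0,0,1,0,1,0,0,0,0,0,0,0,0,0]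
def t30 : List ℕ := [0,0,0,0,0,0,0,0,0,1,1,0,0,0,0,0,0,0,0,2,0,0,0,2,0,2,0,0,0,2,0,0,0,1,1,0,0,0,0,2,2,0,0,0,0,0,0,0,0,0,0,2,2,0,1,0,1,0,0,0,1,0,1,0,0,0,0,0,0,0,0,0,0,0,0,0,0,0,0,0,0,1,1,0,0,0,0,0,0,0,0,2,0,0,0,2,0,2,0,0,0,2,0,0,0,1,1,0,0,1,0,0,0,1,2,0,2,0,0,0,0,1,0,0,0,1,0,0,0,0,0,0,0,0,0,0,0,0,2,0,2,0,0,0,0,1,0,0,0,1,2,0,2,0,0,0,0,1,0,0,0,1,0,0,0,0,0,0,0,0,0,0,0,0,2,0,2,0,0,0,0,0,0,2,2,0,0,0,0,0,0,0,0,0,0,2,2,0,1,0,1,0,0,0,1,0,1,0,0,0,0,0,0,0,0,0]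
def t31 : List ℕ := [0,0,0,0,0,0,0,0,0,2,0,1,0,1,0,1,1,1,0,3,0,0,1,1,0,1,0,0,0,1,0,0,0,0,0,0,0,0,1,3,1,0,0,0,0,0,0,0,0,0,0,1,1,0,2,0,0,0,1,0,0,0,0,0,0,0,1,0,1,1,1,0,0,0,0,0,0,0,1,0,0,0,0,1,0,0,0,0,0,0,1,1,0,0,1,1,1,1,0,0,0,3,1,0,0,0,2,0,0,2,1,0,0,0,3,0,1,0,0,1,0,0,0,0,0,0,0,0,0,0,0,0,1,1,1,0,0,1,1,0,1,0,0,0,0,0,1,1,0,0,1,0,1,1,0,1,0,0,0,1,0,2,0,0,0,0,0,0,0,0,0,0,0,0,1,0,3,1,0,0,0,1,1,1,1,0,0,0,0,0,0,0,0,1,0,1,3,0,0,1,0,0,1,0,0,1,2,0,0,0,0,0,0,0,0,0]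
def t32 : List ℕ := [0,0,0,0,0,0,0,0,0,1,0,0,0,0,0,0,0,0,0,2,0,0,0,0,0,0,0,0,0,0,0,0,0,0,0,0,0,0,0,2,0,0,0,0,0,0,0,0,0,0,0,0,0,0,1,0,0,0,0,0,0,0,0,0,0,0,0,0,0,0,0,0,0,0,0,0,0,0,0,0,0,0,0,0,0,0,0,0,0,0,0,0,0,0,0,0,0,0,0,0,0,2,0,0,0,0,1,0,0,1,0,0,0,0,2,0,0,0,0,0,0,0,0,0,0,0,0,0,0,0,0,0,0,0,0,0,0,0,0,0,0,0,0,0,0,0,0,0,0,0,0,0,0,0,0,0,0,0,0,0,0,1,0,0,0,0,0,0,0,0,0,0,0,0,0,0,2,0,0,0,0,0,0,0,0,0,0,0,0,0,0,0,0,0,0,0,2,0,0,0,0,0,0,0,0,0,1,0,0,0,0,0,0,0,0,0]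
def t33 : List ℕ := [0,0,0,0,0,0,0,0,0,1,0,0,0,0,0,0,0,0,0,1,0,0,0,0,0,0,0,0,0,0,0,0,0,0,0,0,0,0,0,1,0,0,0,0,0,0,0,0,0,0,0,0,0,0,1,0,0,0,0,0,0,0,0,0,0,0,0,0,0,0,0,0,0,0,0,0,0,0,0,0,0,0,0,0,0,0,0,0,0,0,0,0,0,0,0,0,0,0,0,0,0,1,0,0,0,0,1,0,0,1,0,0,0,0,1,0,0,0,0,0,0,0,0,0,0,0,0,0,0,0,0,0,0,0,0,0,0,0,0,0,0,0,0,0,0,0,0,0,0,0,0,0,0,0,0,0,0,0,0,0,0,1,0,0,0,0,0,0,0,0,0,0,0,0,0,0,1,0,0,0,0,0,0,0,0,0,0,0,0,0,0,0,0,0,0,0,1,0,0,0,0,0,0,0,0,0,1,0,0,0,0,0,0,0,0,0]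
def t34 : List ℕ := [0,0,0,0,0,0,0,0,0,1,1,1,0,0,0,0,1,0,0,1,0,0,0,0,0,1,1,0,0,1,0,1,0,0,1,0,0,0,0,1,1,1,0,0,0,0,0,0,0,0,0,1,0,0,1,0,1,0,0,1,1,0,0,0,0,0,1,0,0,1,0,0,0,0,0,0,1,0,0,0,0,1,0,0,0,0,0,0,0,0,0,1,0,0,1,1,1,0,0,1,0,1,0,0,0,1,1,0,0,1,0,0,0,0,1,0,1,0,0,1,0,1,0,0,1,1,0,0,0,0,0,0,0,0,1,0,0,0,0,1,1,0,0,0,0,1,1,0,0,1,1,0,0,0,0,0,1,0,0,1,0,1,0,0,1,0,0,0,0,0,0,0,0,0,1,0,1,0,0,0,0,1,0,0,1,0,1,0,0,1,0,0,0,0,0,1,1,0,0,1,1,0,0,0,1,0,1,0,0,0,0,0,0,0,0,0]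
def t35 : List ℕ := [0,0,0,0,0,0,0,0,0,0,0,0,0,0,0,0,0,0,0,0,0,0,0,0,0,0,0,0,0,0,0,0,0,0,0,0,0,0,0,0,0,0,0,0,0,0,0,0,0,0,0,0,0,0,0,0,0,0,0,0,0,0,0,0,0,0,0,0,0,0,0,0,0,0,0,0,0,0,0,0,0,0,0,0,0,0,0,0,0,0,0,0,0,0,0,0,0,0,0,0,0,0,0,0,0,0,0,0,0,0,0,0,0,0,0,0,0,0,0,0,0,0,0,0,0,0,0,0,0,0,0,0,0,0,0,0,0,0,0,0,0,0,0,0,0,0,0,0,0,0,0,0,0,0,0,0,0,0,0,0,0,0,0,0,0,0,0,0,0,0,0,0,0,0,0,0,0,0,0,0,0,0,0,0,0,0,0,0,0,0,0,0,0,0,0,0,0,0,0,0,0,0,0,0,0,0,0,0,0,0,0,0,0,0,0,0]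
def d0 : List (List ℕ) := [[1,2,3],[1,3,2],[2,1,3],[2,3,1],[3,1,2],[3,2,1]]
def L0 : List (Equiv.Perm (Fin n)) := [p0,p7,p12,p18,p21,p24]
def d1 : List (List ℕ) := [[5],[1,3],[2,4],[3,1],[4,2]]
def L1 : List (Equiv.Perm (Fin n)) := [p0,p27]
def d2 : List (List ℕ) := [[0,0],[3],[2,4],[4,2]]
def L2 : List (Equiv.Perm (Fin n)) := [p0,p27]
def d3 : List (List ℕ) := [[0,0],[1,1],[3]]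
def L3 : List (Equiv.Perm (Fin n)) := [p0,p27]
def d4 : List (List ℕ) := [[1],[2,1],[1,2],[2],[],[1,1],[2,2]]
def L4 : List (Equiv.Perm (Fin n)) := [p0,p13]
def d5 : List (List ℕ) := [[0,0],[2],[3,3],[4,4],[5,5],[6,6]]
def L5 : List (Equiv.Perm (Fin n)) := [p0,p13]
def d6 : List (List ℕ) := [[1,2],[2,1],[3,2,2],[4,1,1],[3],[4],[5,2,2],[1,1,5],[1,1,4],[5,1,1],[2,2,5],[2,2,3],[1,5,1],[1,4,1],[2,5,2],[2,3,2]]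
def L6 : List (Equiv.Perm (Fin n)) := [p0,p22,p26]
def d7 : List (List ℕ) := [[1],[1,1],[2,11,15],[3,8,13],[4,4,4],[5,5,5],[6,10,14],[7,12,9],[8,13,3],[9,7,12],[10,14,6],[11,15,2],[12,9,7],[13,3,8],[14,6,10],[15,2,11]]
def L7 : List (Equiv.Perm (Fin n)) := [p0,p22,p26]
def d8 : List (List ℕ) := [[0,0,0],[1,1,1],[11,15],[3,8,13],[4,4,4],[5,5,5],[6,10,14],[7,12,9],[8,13,3],[9,7,12],[10,14,6],[12,9,7],[13,3,8],[14,6,10],[15,11]]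
def L8 : List (Equiv.Perm (Fin n)) := [p0,p22,p26]
def d9 : List (List ℕ) := [[0,0,0],[1,1,1],[14],[3,8,12],[4,4,4],[5,5,5],[6,10,13],[7,11,9],[8,12,3],[9,7,11],[10,13,6],[11,9,7],[12,3,8],[13,6,10]]
def L9 : List (Equiv.Perm (Fin n)) := [p0,p22,p26]
def d10 : List (List ℕ) := [[0,0,0],[1,1,1],[2,2,2],[8,12],[4,4,4],[5,5,5],[6,10,13],[7,11,9],[9,7,11],[10,13,6],[11,9,7],[12,8],[13,6,10]]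
def L10 : List (Equiv.Perm (Fin n)) := [p0,p22,p26]
def d11 : List (List ℕ) := [[0,0,0],[1,1,1],[2,2,2],[11],[4,4,4],[5,5,5],[6,9,12],[7,10,8],[8,7,10],[9,12,6],[10,8,7],[12,6,9]]
def L11 : List (Equiv.Perm (Fin n)) := [p0,p22,p26]
def d12 : List (List ℕ) := [[0,0,0],[1,1,1],[2,2,2],[3,3,3],[4,4,4],[5,5,5],[9,11],[7,10,8],[8,7,10],[10,8,7],[11,9]]
def L12 : List (Equiv.Perm (Fin n)) := [p0,p22,p26]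
def d13 : List (List ℕ) := [[0,0,0],[1,1,1],[2,2,2],[3,3,3],[4,4,4],[5,5,5],[10],[7,9,8],[8,7,9],[9,8,7]]
def L13 : List (Equiv.Perm (Fin n)) := [p0,p22,p26]
def d14 : List (List ℕ) := [[0,0,0],[1,1,1],[2,2,2],[3,3,3],[4,4,4],[5,5,5],[6,6,6],[9,8],[8,9]]
def L14 : List (Equiv.Perm (Fin n)) := [p0,p22,p26]
def d15 : List (List ℕ) := [[0,0,0],[1,1,1],[2,2,2],[3,3,3],[4,4,4],[5,5,5],[6,6,6],[8]]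
def L15 : List (Equiv.Perm (Fin n)) := [p0,p22,p26]
def d16 : List (List ℕ) := [[0,0],[1,1],[3],[4,7],[5,6],[6,5],[7,4],[0,1],[1,0]]
def L16 : List (Equiv.Perm (Fin n)) := [p0,p4]
def d17 : List (List ℕ) := [[0,0],[1,1],[2,2],[6],[4,5],[5,4],[7,8],[8,7]]
def L17 : List (Equiv.Perm (Fin n)) := [p0,p4]
def d18 : List (List ℕ) := [[0,0],[1,1],[2,2],[3,3],[5],[6,7],[7,6]]
def L18 : List (Equiv.Perm (Fin n)) := [p0,p4]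
def d19 : List (List ℕ) := [[0,0],[1,1],[2,2],[3,3],[4,4],[6]]
def L19 : List (Equiv.Perm (Fin n)) := [p0,p4]
def d20 : List (List ℕ) := [[1],[2,2],[3,3],[4,4],[5,5]]
def L20 : List (Equiv.Perm (Fin n)) := [p0,p8]
def d21 : List (List ℕ) := [[0,0],[2],[3],[3,2],[2,3],[2,4],[4,2],[3,4],[4,3],[4]]
def L21 : List (Equiv.Perm (Fin n)) := [p0,p1]
def d22 : List (List ℕ) := [[0,0],[1,1],[2,2],[4],[5,6],[6,5],[7,8],[8,7],[9,9]]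
def L22 : List (Equiv.Perm (Fin n)) := [p0,p1]
def d23 : List (List ℕ) := [[0,0],[1,1],[2,2],[3,3],[5],[6,7],[7,6],[8,8]]
def L23 : List (Equiv.Perm (Fin n)) := [p0,p1]
def d24 : List (List ℕ) := [[0,0],[1,1],[2,2],[3,3],[4,4],[6],[7,7]]
def L24 : List (Equiv.Perm (Fin n)) := [p0,p1]
def d25 : List (List ℕ) := [[0,0],[5],[2,4],[3,6],[4,2],[6,3]]
def L25 : List (Equiv.Perm (Fin n)) := [p0,p6]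
def d26 : List (List ℕ) := [[0,0],[1,1],[4],[3,5],[5,3]]
def L26 : List (Equiv.Perm (Fin n)) := [p0,p6]
def d27 : List (List ℕ) := [[0,0],[1,1],[2,2],[4]]
def L27 : List (Equiv.Perm (Fin n)) := [p0,p6]
def d28 : List (List ℕ) := [[0,0,0],[3,2],[2,3]]
def L28 : List (Equiv.Perm (Fin n)) := [p0,p11,p16]
def d29 : List (List ℕ) := [[0,0,0],[2],[2,2]]
def L29 : List (Equiv.Perm (Fin n)) := [p0,p11,p16]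
def d30 : List (List ℕ) := [[1,2],[2,1],[1,2,1,2,1,2],[2,1,2,1,2,1]]
def L30 : List (Equiv.Perm (Fin n)) := [p0,p15,p9,p23,p17,p25]
def d31 : List (List ℕ) := [[1,1,1],[2,3,2,3,2,3],[3,2,3,2,3,2]]
def L31 : List (Equiv.Perm (Fin n)) := [p0,p15,p9,p23,p17,p25]
def d32 : List (List ℕ) := [[0,0,0,0,0,0],[2,2,2]]
def L32 : List (Equiv.Perm (Fin n)) := [p0,p15,p9,p23,p17,p25]
def d33 : List (List ℕ) := [[],[1]]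
def L33 : List (Equiv.Perm (Fin n)) := [p0,p10,p19,p14,p20]
def d34 : List (List ℕ) := [[1,1]]
def L34 : List (Equiv.Perm (Fin n)) := [p0,p2,p5,p3]

/-- The coordinate column at position `0`. -/
def b0 (t : Tok) : Fin A := col t 0

theorem top_const (t t' : Tok) : bT t35 t = bT t35 t' := by
  have : ∀ t : Tok, bT t35 t = 0 := by decide +kernel
  rw [this t, this t']

theorem chk34 : ∀ t : Tok, (L34.map fun γ => (bT t34) (act γ t)).filter (· ≠ (0 : Fin A)) = decT 0 d34 (bT t35 t) := by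
  decide +kernel

theorem chk33 : ∀ t : Tok, (L33.map fun γ => (bT t33) (act γ t)).filter (· ≠ (0 : Fin A)) = decT 0 d33 (bT t34 t) := by
  decide +kernel

theorem chk32 : ∀ t : Tok, (L32.map fun γ => (bT t32) (act γ t)).filter (· ≠ (1 : Fin A)) = decT 1 d32 (bT t33 t) := by
  decide +kernel

theorem chk31 : ∀ t : Tok, (L31.map fun γ => (bT t31) (act γ t)).filter (· ≠ (0 : Fin A)) = decT 0 d31 (bT t32 t) := by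
  decide +kernel

theorem chk30 : ∀ t : Tok, (L30.map fun γ => (bT t30) (act γ t)).filter (· ≠ (0 : Fin A)) = decT 0 d30 (bT t31 t) := by
  decide +kernel

theorem chk29 : ∀ t : Tok, (L29.map fun γ => (bT t29) (act γ t)).filter (· ≠ (1 : Fin A)) = decT 1 d29 (bT t30 t) := by
  decide +kernel

theorem chk28 : ∀ t : Tok, (L28.map fun γ => (bT t28) (act γ t)).filter (· ≠ (1 : Fin A)) = decT 1 d28 (bT t29 t) := by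
  decide +kernel

theorem chk27 : ∀ t : Tok, (L27.map fun γ => (bT t27) (act γ t)).filter (· ≠ (3 : Fin A)) = decT 3 d27 (bT t28 t) := by
  decide +kernel

theorem chk26 : ∀ t : Tok, (L26.map fun γ => (bT t26) (act γ t)).filter (· ≠ (2 : Fin A)) = decT 2 d26 (bT t27 t) := by
  decide +kernel

theorem chk25 : ∀ t : Tok, (L25.map fun γ => (bT t25) (act γ t)).filter (· ≠ (1 : Fin A)) = decT 1 d25 (bT t26 t) := by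
  decide +kernel

theorem chk24 : ∀ t : Tok, (L24.map fun γ => (bT t24) (act γ t)).filter (· ≠ (5 : Fin A)) = decT 5 d24 (bT t25 t) := by
  decide +kernel

theorem chk23 : ∀ t : Tok, (L23.map fun γ => (bT t23) (act γ t)).filter (· ≠ (4 : Fin A)) = decT 4 d23 (bT t24 t) := by
  decide +kernel

theorem chk22 : ∀ t : Tok, (L22.map fun γ => (bT t22) (act γ t)).filter (· ≠ (3 : Fin A)) = decT 3 d22 (bT t23 t) := by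
  decide +kernel

theorem chk21 : ∀ t : Tok, (L21.map fun γ => (bT t21) (act γ t)).filter (· ≠ (1 : Fin A)) = decT 1 d21 (bT t22 t) := by
  decide +kernel

theorem chk20 : ∀ t : Tok, (L20.map fun γ => (bT t20) (act γ t)).filter (· ≠ (0 : Fin A)) = decT 0 d20 (bT t21 t) := by
  decide +kernel

theorem chk19 : ∀ t : Tok, (L19.map fun γ => (bT t19) (act γ t)).filter (· ≠ (5 : Fin A)) = decT 5 d19 (bT t20 t) := by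
  decide +kernel

theorem chk18 : ∀ t : Tok, (L18.map fun γ => (bT t18) (act γ t)).filter (· ≠ (4 : Fin A)) = decT 4 d18 (bT t19 t) := by
  decide +kernel

theorem chk17 : ∀ t : Tok, (L17.map fun γ => (bT t17) (act γ t)).filter (· ≠ (3 : Fin A)) = decT 3 d17 (bT t18 t) := by
  decide +kernel

theorem chk16 : ∀ t : Tok, (L16.map fun γ => (bT t16) (act γ t)).filter (· ≠ (2 : Fin A)) = decT 2 d16 (bT t17 t) := by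
  decide +kernel

theorem chk15 : ∀ t : Tok, (L15.map fun γ => (bT t15) (act γ t)).filter (· ≠ (7 : Fin A)) = decT 7 d15 (bT t16 t) := by
  decide +kernel

theorem chk14 : ∀ t : Tok, (L14.map fun γ => (bT t14) (act γ t)).filter (· ≠ (7 : Fin A)) = decT 7 d14 (bT t15 t) := by
  decide +kernel

theorem chk13 : ∀ t : Tok, (L13.map fun γ => (bT t13) (act γ t)).filter (· ≠ (6 : Fin A)) = decT 6 d13 (bT t14 t) := by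
  decide +kernel

theorem chk12 : ∀ t : Tok, (L12.map fun γ => (bT t12) (act γ t)).filter (· ≠ (6 : Fin A)) = decT 6 d12 (bT t13 t) := by
  decide +kernel

theorem chk11 : ∀ t : Tok, (L11.map fun γ => (bT t11) (act γ t)).filter (· ≠ (3 : Fin A)) = decT 3 d11 (bT t12 t) := by
  decide +kernel

theorem chk10 : ∀ t : Tok, (L10.map fun γ => (bT t10) (act γ t)).filter (· ≠ (3 : Fin A)) = decT 3 d10 (bT t11 t) := by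
  decide +kernel

theorem chk9 : ∀ t : Tok, (L9.map fun γ => (bT t9) (act γ t)).filter (· ≠ (2 : Fin A)) = decT 2 d9 (bT t10 t) := by
  decide +kernel

theorem chk8 : ∀ t : Tok, (L8.map fun γ => (bT t8) (act γ t)).filter (· ≠ (2 : Fin A)) = decT 2 d8 (bT t9 t) := by
  decide +kernel

theorem chk7 : ∀ t : Tok, (L7.map fun γ => (bT t7) (act γ t)).filter (· ≠ (0 : Fin A)) = decT 0 d7 (bT t8 t) := by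
  decide +kernel

theorem chk6 : ∀ t : Tok, (L6.map fun γ => (bT t6) (act γ t)).filter (· ≠ (0 : Fin A)) = decT 0 d6 (bT t7 t) := by
  decide +kernel

theorem chk5 : ∀ t : Tok, (L5.map fun γ => (bT t5) (act γ t)).filter (· ≠ (1 : Fin A)) = decT 1 d5 (bT t6 t) := by
  decide +kernel

theorem chk4 : ∀ t : Tok, (L4.map fun γ => (bT t4) (act γ t)).filter (· ≠ (0 : Fin A)) = decT 0 d4 (bT t5 t) := by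
  decide +kernel

theorem chk3 : ∀ t : Tok, (L3.map fun γ => (bT t3) (act γ t)).filter (· ≠ (2 : Fin A)) = decT 2 d3 (bT t4 t) := by
  decide +kernel

theorem chk2 : ∀ t : Tok, (L2.map fun γ => (bT t2) (act γ t)).filter (· ≠ (1 : Fin A)) = decT 1 d2 (bT t3 t) := by
  decide +kernel

theorem chk1 : ∀ t : Tok, (L1.map fun γ => (bT t1) (act γ t)).filter (· ≠ (0 : Fin A)) = decT 0 d1 (bT t2 t) := by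
  decide +kernel

theorem chk0 : ∀ t : Tok, (L0.map fun γ => b0 (act γ t)).filter (· ≠ (0 : Fin A)) = decT 0 d0 (bT t1 t) := by
  decide +kernel

theorem cert35 : Cert act g (bT t35) := Cert.of_const act g top_const

theorem cert34 : Cert act g (bT t34) :=
  Cert.step act act_act g _ L34 (by simp [L34]) (decT 0 d34) (decT_not_mem _ _) chk34 cert35

theorem cert33 : Cert act g (bT t33) :=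
  Cert.step act act_act g _ L33 (by simp [L33]) (decT 0 d33) (decT_not_mem _ _) chk33 cert34

theorem cert32 : Cert act g (bT t32) :=
  Cert.step act act_act g _ L32 (by simp [L32]) (decT 1 d32) (decT_not_mem _ _) chk32 cert33

theorem cert31 : Cert act g (bT t31) :=
  Cert.step act act_act g _ L31 (by simp [L31]) (decT 0 d31) (decT_not_mem _ _) chk31 cert32

theorem cert30 : Cert act g (bT t30) :=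
  Cert.step act act_act g _ L30 (by simp [L30]) (decT 0 d30) (decT_not_mem _ _) chk30 cert31

theorem cert29 : Cert act g (bT t29) :=
  Cert.step act act_act g _ L29 (by simp [L29]) (decT 1 d29) (decT_not_mem _ _) chk29 cert30

theorem cert28 : Cert act g (bT t28) :=
  Cert.step act act_act g _ L28 (by simp [L28]) (decT 1 d28) (decT_not_mem _ _) chk28 cert29

theorem cert27 : Cert act g (bT t27) :=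
  Cert.step act act_act g _ L27 (by simp [L27]) (decT 3 d27) (decT_not_mem _ _) chk27 cert28

theorem cert26 : Cert act g (bT t26) :=
  Cert.step act act_act g _ L26 (by simp [L26]) (decT 2 d26) (decT_not_mem _ _) chk26 cert27

theorem cert25 : Cert act g (bT t25) :=
  Cert.step act act_act g _ L25 (by simp [L25]) (decT 1 d25) (decT_not_mem _ _) chk25 cert26

theorem cert24 : Cert act g (bT t24) :=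
  Cert.step act act_act g _ L24 (by simp [L24]) (decT 5 d24) (decT_not_mem _ _) chk24 cert25

theorem cert23 : Cert act g (bT t23) :=
  Cert.step act act_act g _ L23 (by simp [L23]) (decT 4 d23) (decT_not_mem _ _) chk23 cert24

theorem cert22 : Cert act g (bT t22) :=
  Cert.step act act_act g _ L22 (by simp [L22]) (decT 3 d22) (decT_not_mem _ _) chk22 cert23

theorem cert21 : Cert act g (bT t21) :=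
  Cert.step act act_act g _ L21 (by simp [L21]) (decT 1 d21) (decT_not_mem _ _) chk21 cert22

theorem cert20 : Cert act g (bT t20) :=
  Cert.step act act_act g _ L20 (by simp [L20]) (decT 0 d20) (decT_not_mem _ _) chk20 cert21

theorem cert19 : Cert act g (bT t19) :=
  Cert.step act act_act g _ L19 (by simp [L19]) (decT 5 d19) (decT_not_mem _ _) chk19 cert20

theorem cert18 : Cert act g (bT t18) :=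
  Cert.step act act_act g _ L18 (by simp [L18]) (decT 4 d18) (decT_not_mem _ _) chk18 cert19

theorem cert17 : Cert act g (bT t17) :=
  Cert.step act act_act g _ L17 (by simp [L17]) (decT 3 d17) (decT_not_mem _ _) chk17 cert18

theorem cert16 : Cert act g (bT t16) :=
  Cert.step act act_act g _ L16 (by simp [L16]) (decT 2 d16) (decT_not_mem _ _) chk16 cert17

theorem cert15 : Cert act g (bT t15) :=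
  Cert.step act act_act g _ L15 (by simp [L15]) (decT 7 d15) (decT_not_mem _ _) chk15 cert16

theorem cert14 : Cert act g (bT t14) :=
  Cert.step act act_act g _ L14 (by simp [L14]) (decT 7 d14) (decT_not_mem _ _) chk14 cert15

theorem cert13 : Cert act g (bT t13) :=
  Cert.step act act_act g _ L13 (by simp [L13]) (decT 6 d13) (decT_not_mem _ _) chk13 cert14

theorem cert12 : Cert act g (bT t12) :=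
  Cert.step act act_act g _ L12 (by simp [L12]) (decT 6 d12) (decT_not_mem _ _) chk12 cert13

theorem cert11 : Cert act g (bT t11) :=
  Cert.step act act_act g _ L11 (by simp [L11]) (decT 3 d11) (decT_not_mem _ _) chk11 cert12

theorem cert10 : Cert act g (bT t10) :=
  Cert.step act act_act g _ L10 (by simp [L10]) (decT 3 d10) (decT_not_mem _ _) chk10 cert11

theorem cert9 : Cert act g (bT t9) :=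
  Cert.step act act_act g _ L9 (by simp [L9]) (decT 2 d9) (decT_not_mem _ _) chk9 cert10

theorem cert8 : Cert act g (bT t8) :=
  Cert.step act act_act g _ L8 (by simp [L8]) (decT 2 d8) (decT_not_mem _ _) chk8 cert9

theorem cert7 : Cert act g (bT t7) :=
  Cert.step act act_act g _ L7 (by simp [L7]) (decT 0 d7) (decT_not_mem _ _) chk7 cert8

theorem cert6 : Cert act g (bT t6) :=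
  Cert.step act act_act g _ L6 (by simp [L6]) (decT 0 d6) (decT_not_mem _ _) chk6 cert7

theorem cert5 : Cert act g (bT t5) :=
  Cert.step act act_act g _ L5 (by simp [L5]) (decT 1 d5) (decT_not_mem _ _) chk5 cert6

theorem cert4 : Cert act g (bT t4) :=
  Cert.step act act_act g _ L4 (by simp [L4]) (decT 0 d4) (decT_not_mem _ _) chk4 cert5

theorem cert3 : Cert act g (bT t3) :=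
  Cert.step act act_act g _ L3 (by simp [L3]) (decT 2 d3) (decT_not_mem _ _) chk3 cert4

theorem cert2 : Cert act g (bT t2) :=
  Cert.step act act_act g _ L2 (by simp [L2]) (decT 1 d2) (decT_not_mem _ _) chk2 cert3

theorem cert1 : Cert act g (bT t1) :=
  Cert.step act act_act g _ L1 (by simp [L1]) (decT 0 d1) (decT_not_mem _ _) chk1 cert2

theorem cert0 : Cert act g b0 :=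
  Cert.step act act_act g _ L0 (by simp [L0]) (decT 0 d0) (decT_not_mem _ _) chk0 cert1

end Vale.Agent.Lib.P058.Inst36
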