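import Vale.Agent.Lib.P058.SolChain

/-! # Non-free transitive actions through `S_5` are Ramsey -/

namespace Vale.Agent.Lib.P058.Sol

open Vale.Agent.Lib.P058 Equiv Equiv.Perm

section helpers

open Vale.Agent.Lib.P058.A5 Vale.Agent.Lib.P058.A5.Tail

theorem psi_swap : ∀ u : Fin 5, psi (swap 0 1 u) = psi u := by decide

theorem exists_even (w : Perm (Fin 5)) : ∃ τ : G, ∀ l, psi (τ.1 l) = psi (w l) := by
  rcases Int.units_eq_one_or (sign w) with h | h
  · exact ⟨⟨w, mem_alternatingGroup.mpr h⟩, fun _ => rfl⟩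
  · refine ⟨⟨swap 0 1 * w, mem_alternatingGroup.mpr ?_⟩, fun l => ?_⟩
    · rw [map_mul, h, sign_swap (by decide)]
      decide
    · exact psi_swap _

/-- A section of the letter map. -/
def sec (u : Fin A) : Fin 5 :=
  if u = 0 then 0 else if u = 1 then 2 else if u = 2 then 3 else 4

theorem sec_psi : ∀ l : Fin 5, sec (psi l) = l ∨ (l = 1 ∧ sec (psi l) = 0) := by decide

theorem exists_two (x y : Fin 5) (h : x ≠ y) : ∃ σ : Perm (Fin 5), σ x = 0 ∧ σ y = 1 := by
  revert x y
  decide +kernel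

theorem exists_even_at : ∀ l : Fin 5, ∃ σ : Perm (Fin 5), sign σ = 1 ∧ σ 4 = l := by
  decide +kernel

end helpers

variable {ι Γ : Type} [Fintype ι] [Group Γ] [Fintype Γ]

/-- **Main theorem.**  Let `ρ : Γ → S_5` have image containing `A_5` and soluble kernel, and let `Γ`
act transitively by isometries on `X`, with a point of `X` fixed by some `g` with `ρ g ≠ 1`.
Then `X` is Ramsey. -/
theorem isRamsey_of_nonfree (ρ : Γ →* Perm (Fin 5)) (hρ : alternatingGroup (Fin 5) ≤ ρ.range)
    (hker : Group.IsSolvable ρ.ker) (X : Set (EuclideanSpace ℝ ι)) [MulAction Γ X]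
    (hiso : ∀ (g : Γ) (a b : X),
      dist ((g • a : X) : EuclideanSpace ℝ ι) (g • b : X) = dist (a : EuclideanSpace ℝ ι) b)
    (htr : ∀ a b : X, ∃ g : Γ, g • a = b)
    (hstab : ∃ (a : X) (g : Γ), ρ g ≠ 1 ∧ g • a = a) : IsRamsey X := by
  classical
  obtain ⟨a, g, hg1, hga⟩ := hstab
  -- points of tokens
  let pt : Γ → X := fun t => t⁻¹ • a
  have hpt : ∀ t γ, pt (t * γ) = γ⁻¹ • pt t := by
    intro t γ
    simp only [pt, mul_inv_rev, mul_smul]
  have hgleft : ∀ t, pt (g * t) = pt t := by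
    intro t
    have hinv : g⁻¹ • a = a := inv_smul_eq_iff.mpr hga.symm
    simp only [pt, mul_inv_rev, mul_smul, hinv]
  -- the column of the points
  let enc : Γ ≃ Fin (Fintype.card Γ) := Fintype.equivFin Γ
  let z : Γ → ℕ := fun t => (enc (Function.invFun pt (pt t))).val
  have hz1 : ∀ t t', z t = z t' → pt t = pt t' := by
    intro t t' h
    have h2 : Function.invFun pt (pt t) = Function.invFun pt (pt t') :=
      enc.injective (Fin.ext h)
    have h3 := congrArg pt h2
    have e1 : pt (Function.invFun pt (pt t)) = pt t := Function.invFun_eq ⟨t, rfl⟩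
    have e2 : pt (Function.invFun pt (pt t')) = pt t' := Function.invFun_eq ⟨t', rfl⟩
    rwa [e1, e2] at h3
  have hz2 : ∀ t t', pt t = pt t' → z t = z t' := by
    intro t t' h
    simp only [z, h]
  -- reduction along the preimage of the stabilizer of the last letter
  obtain ⟨Φ, hCR, hinv⟩ := good_comap_S4 ρ hker z
  set c₁ : Γ → ℕ := X3.ap acR Φ z with hc₁
  have hleft : ∀ t, c₁ (g * t) = c₁ t := by
    intro t
    simp only [hc₁, X3.ap, acR]
    congr 1
    funext k
    rw [mul_assoc]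
    exact hz2 _ _ (hgleft _)
  -- the reduced column is a function of the letter at the last position
  have hlift : ∀ σ ∈ alternatingGroup (Fin 5), ∃ γ : Γ, ρ γ = σ := fun σ hσ => hρ hσ
  have hl : ∀ l : Fin 5, ∃ t : Γ, ρ t 4 = l := by
    intro l
    obtain ⟨σ, hσ, hσ4⟩ := exists_even_at l
    obtain ⟨γ, hγ⟩ := hlift σ (mem_alternatingGroup.mpr hσ)
    exact ⟨γ, by rw [hγ, hσ4]⟩
  choose tl htl using hl
  let f : Fin 5 → ℕ := fun l => c₁ (tl l)
  have hf : ∀ t, c₁ t = f (ρ t 4) := by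
    intro t
    have hmem : t⁻¹ * tl (ρ t 4) ∈ S4.comap ρ := by
      show ρ (t⁻¹ * tl (ρ t 4)) 4 = 4
      rw [map_mul, map_inv, Perm.mul_apply, htl]
      simp
    have := hinv _ hmem t
    rw [mul_inv_cancel_left] at this
    exact this.symm
  obtain ⟨x, hx⟩ : ∃ x, ρ g x ≠ x := by
    by_contra hcon
    push Not at hcon
    exact hg1 (Equiv.ext hcon)
  set y := ρ g x with hy
  have hfxy : f x = f y := by
    have h1 := hleft (tl x)
    rw [hf, hf (tl x)] at h1
    rw [map_mul, Perm.mul_apply, htl] at h1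
    exact h1.symm
  -- the tower for the letter column
  obtain ⟨σ, hσx, hσy⟩ := exists_two x y hx.symm
  obtain ⟨κ, hκ, hne, m, hcopy⟩ := A5.Tail.cert0
  choose ε hε using fun t : Γ => exists_even (σ * ρ t)
  choose m' hm' using fun k : κ => hlift (m k).1 (m k).2
  let F : Fin A5.A → ℕ := fun u => f (σ⁻¹ (sec u))
  have hF : ∀ l : Fin 5, F (A5.Tail.psi l) = f (σ⁻¹ l) := by
    intro l
    simp only [F]
    rcases sec_psi l with h | ⟨rfl, h⟩
    · rw [h]
    · rw [h]
      have e1 : σ⁻¹ 0 = x := by rw [← hσx]; simp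
      have e2 : σ⁻¹ 1 = y := by rw [← hσy]; simp
      rw [e1, e2]
      exact hfxy
  have hcopy₁ : Copy (fun k t => c₁ (t * m' k)) := by
    have h1 := Copy.map F (Copy.comap ε hcopy)
    have e : ∀ k t, F (A5.bT A5.Tail.t0 (ε t * m k)) = c₁ (t * m' k) := by
      intro k t
      rw [A5.Tail.bottom, hf, map_mul, hm']
      show F (A5.Tail.psi ((ε t).1 ((m k).1 4))) = f (ρ t ((m k).1 4))
      rw [hε t, hF]
      simp [Perm.mul_apply]
    simpa only [e] using h1
  -- back through the reduction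
  obtain ⟨Y, iY, neY, kk, hk⟩ := hCR
  have hcopy₂ := hk κ Γ (fun i u γ => z (acR γ (u * m' i))) (by
    simpa only [hc₁, X3.ap] using hcopy₁)
  -- the values of the labels
  let val : ℕ → EuclideanSpace ℝ ι := fun l =>
    if h : ∃ t, z t = l then (pt (Classical.choose h) : EuclideanSpace ℝ ι) else 0
  have hval : ∀ t, val (z t) = pt t := by
    intro t
    have h : ∃ t', z t' = z t := ⟨t, rfl⟩
    simp only [val, dif_pos h]
    exact congrArg Subtype.val (hz1 _ _ (Classical.choose_spec h))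
  have hμ : (0 : ℝ) < (Fintype.card (κ × Y) : ℝ) := by
    have : Nonempty (κ × Y) := ⟨(hne.some, neY.some)⟩
    exact_mod_cast Fintype.card_pos
  refine isRamsey_of_copy_points (fun (p : κ × Y) u => z (acR (kk p.2) (u * m' p.1))) hcopy₂ val
    (fun t => (pt t : EuclideanSpace ℝ ι)) (Fintype.card (κ × Y) : ℝ) hμ ?_ X ?_
  · intro t t'
    have h1 : ∀ p : κ × Y, dist (val (z (acR (kk p.2) (t * m' p.1))))
        (val (z (acR (kk p.2) (t' * m' p.1)))) ^ 2
        = dist ((pt t : X) : EuclideanSpace ℝ ι) (pt t') ^ 2 := by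
      intro p
      rw [hval, hval]
      simp only [acR]
      rw [hpt, hpt, hpt, hpt, hiso, hiso]
    rw [Finset.sum_congr rfl fun p _ => h1 p, Finset.sum_const, Finset.card_univ, nsmul_eq_mul]
  · intro b hb
    obtain ⟨γ, hγ⟩ := htr a ⟨b, hb⟩
    refine ⟨γ⁻¹, ?_⟩
    simp only [pt, inv_inv, hγ]

end Vale.Agent.Lib.P058.Sol
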