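import Mathlib

/-!
Positive words in right translates of a column.  For every finite group `G`, every group `Γ` and
every `c : G → Γ` there is a nonempty product `v₀ c(t g₁) v₁ ⋯ c(t g_L) v_L` independent of `t`.
The proof is an induction along point stabilizers of symmetric groups.
-/

namespace Vale.Agent.Lib.P058.Univ

open Equiv

set_option linter.unusedSectionVars false

/-- `φ` is a product of `n` right translates of `c` and of constants. -/
inductive Pos {G Γ : Type} [Mul G] [Group Γ] (c : G → Γ) : ℕ → (G → Γ) → Prop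
  | const (v : Γ) : Pos c 0 (fun _ => v)
  | tr (g : G) : Pos c 1 (fun t => c (t * g))
  | mul {m n : ℕ} {φ ψ : G → Γ} : Pos c m φ → Pos c n ψ → Pos c (m + n) (fun t => φ t * ψ t)

/-- Every column has a nonempty positive product that is constant. -/
def Solv (G : Type) [Mul G] : Prop :=
  ∀ (Γ : Type) [Group Γ] (c : G → Γ), ∃ n, 1 ≤ n ∧ ∃ C : Γ, Pos c n (fun _ => C)

section basic
variable {G Γ : Type} [Semigroup G] [Group Γ]

theorem Pos.transl {c : G → Γ} {n : ℕ} {φ : G → Γ} (h : Pos c n φ) (g : G) :
    Pos c n (fun t => φ (t * g)) := by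
  induction h with
  | const v => exact Pos.const v
  | tr g' =>
      have : (fun t => c (t * g * g')) = fun t => c (t * (g * g')) := by
        funext t; rw [mul_assoc]
      show Pos c 1 (fun t => c (t * g * g'))
      rw [this]
      exact Pos.tr _
  | mul _ _ ih₁ ih₂ => exact Pos.mul ih₁ ih₂

theorem Pos.trans {c φ ψ : G → Γ} {m n : ℕ} (h₁ : Pos c m φ) (h₂ : Pos φ n ψ) :
    Pos c (n * m) ψ := by
  induction h₂ with
  | const v => simpa using Pos.const v
  | tr g => simpa using h₁.transl g
  | mul _ _ ih₁ ih₂ => rw [add_mul]; exact Pos.mul ih₁ ih₂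

end basic

section lift
variable {K G Γ : Type} [Mul K] [Semigroup G] [Group Γ]

/-- A positive word on `K` in the restriction of `φ` to a coset, read on all of `G`. -/
theorem lift_pos (ι : K → G) (hι : ∀ a b, ι (a * b) = ι a * ι b) (φ : G → Γ) (t0 : G)
    {n : ℕ} {χ : K → Γ} (h : Pos (fun κ => φ (t0 * ι κ)) n χ) :
    ∃ Φ : G → Γ, Pos φ n Φ ∧ (∀ κ, Φ (t0 * ι κ) = χ κ) ∧
      ∀ R : Γ → Γ → Prop, (∀ v, R v v) → (∀ a b a' b', R a b → R a' b' → R (a * a') (b * b')) →
        ∀ t₀ t₁, (∀ k, R (φ (t₀ * ι k)) (φ (t₁ * ι k))) → R (Φ t₀) (Φ t₁) := by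
  induction h with
  | const v =>
      exact ⟨fun _ => v, Pos.const v, fun _ => rfl, fun R hv _ _ _ _ => hv v⟩
  | tr k =>
      refine ⟨fun t => φ (t * ι k), Pos.tr _, ?_, ?_⟩
      · intro κ
        show φ (t0 * ι κ * ι k) = φ (t0 * ι (κ * k))
        rw [hι, mul_assoc]
      · intro R _ _ t₀ t₁ h
        exact h k
  | mul _ _ ih₁ ih₂ =>
      obtain ⟨Φ₁, p₁, b₁, r₁⟩ := ih₁
      obtain ⟨Φ₂, p₂, b₂, r₂⟩ := ih₂
      refine ⟨fun t => Φ₁ t * Φ₂ t, Pos.mul p₁ p₂, fun κ => by simp [b₁, b₂], ?_⟩
      intro R hv hm t₀ t₁ h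
      exact hm _ _ _ _ (r₁ R hv hm t₀ t₁ h) (r₂ R hv hm t₀ t₁ h)

end lift

section exchange
variable {Γ : Type} [Group Γ]

/-- Positive words in one variable. -/
inductive PW : (Γ → Γ) → Prop
  | const (v : Γ) : PW (fun _ => v)
  | id : PW (fun w => w)
  | mul {P Q : Γ → Γ} : PW P → PW Q → PW (fun w => P w * Q w)

/-- Pairs of products that agree except for some factors `β` on the left and `α` on the right. -/
inductive Rel (α β : Γ) : Γ → Γ → Prop
  | eq (v : Γ) : Rel α β v v
  | swap : Rel α β β α
  | mul {a b a' b' : Γ} : Rel α β a b → Rel α β a' b' → Rel α β (a * a') (b * b')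

/-- The exchange lemma. -/
theorem exchange {α β x y : Γ} (hx : ∃ P : Γ → Γ, PW P ∧ P α * x = P β * y) {a b : Γ}
    (h : Rel α β a b) : ∃ P : Γ → Γ, PW P ∧ P α * (x * a) = P β * (y * b) := by
  induction h generalizing x y with
  | eq v =>
      obtain ⟨P, hP, e⟩ := hx
      exact ⟨P, hP, by rw [← mul_assoc, e, mul_assoc]⟩
  | swap =>
      obtain ⟨P, hP, e⟩ := hx
      refine ⟨fun w => w * ((α⁻¹ * (P α * x)⁻¹) * P w), PW.mul PW.id (PW.mul (PW.const _) hP), ?_⟩
      show α * ((α⁻¹ * (P α * x)⁻¹) * P α) * (x * β) = β * ((α⁻¹ * (P α * x)⁻¹) * P β) * (y * α)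
      have e2 : P β * y = P α * x := e.symm
      have l : α * ((α⁻¹ * (P α * x)⁻¹) * P α) * (x * β) = β := by group
      have r : β * ((α⁻¹ * (P α * x)⁻¹) * P β) * (y * α) = β * α⁻¹ * ((P α * x)⁻¹ * (P β * y)) * α := by
        group
      rw [l, r, e2]
      group
  | mul _ _ ih₁ ih₂ =>
      obtain ⟨P, hP, e⟩ := ih₁ hx
      obtain ⟨P', hP', e'⟩ := ih₂ ⟨P, hP, e⟩
      exact ⟨P', hP', by simpa [mul_assoc] using e'⟩

theorem exists_exchange {α β a b : Γ} (h : Rel α β a b) :
    ∃ P : Γ → Γ, PW P ∧ P α * a = P β * b := by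
  obtain ⟨P, hP, e⟩ := exchange (x := 1) (y := 1) ⟨fun _ => 1, PW.const 1, by simp⟩ h
  exact ⟨P, hP, by simpa using e⟩

theorem PW.pos {G : Type} [Monoid G] {P : Γ → Γ} (hP : PW P) (c : G → Γ) :
    ∃ m, Pos c m (fun t => P (c t)) := by
  induction hP with
  | const v => exact ⟨0, Pos.const v⟩
  | id => exact ⟨1, by simpa using Pos.tr (c := c) (1 : G)⟩
  | mul _ _ ih₁ ih₂ =>
      obtain ⟨m, h⟩ := ih₁
      obtain ⟨n, h'⟩ := ih₂
      exact ⟨m + n, Pos.mul h h'⟩

end exchange

section step

variable {Q : Type} [DecidableEq Q] [Fintype Q]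

/-- The point stabilizer of `none`. -/
def iota (κ : Perm Q) : Perm (Option Q) := Equiv.optionCongr κ

theorem iota_mul (a b : Perm Q) : iota (a * b) = iota a * iota b := by
  ext x
  cases x <;> simp [iota]

theorem iota_none (κ : Perm Q) : iota κ none = none := by simp [iota]

theorem iota_some (κ : Perm Q) (p : Q) : iota κ (some p) = some (κ p) := by simp [iota]

/-- The part of a token in the point stabilizer. -/
def rn (t : Perm (Option Q)) : Perm Q := Equiv.removeNone t

theorem coset_eq (t : Perm (Option Q)) : t = swap none (t none) * iota (rn t) := by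
  have := (Equiv.Perm.decomposeOption (α := Q)).symm_apply_apply t
  rw [Equiv.Perm.decomposeOption_symm_apply] at this
  simpa [Equiv.Perm.decomposeOption, iota, rn] using this.symm

theorem mul_iota_none (t : Perm (Option Q)) (k : Perm Q) : (t * iota k) none = t none := by
  simp [iota_none]

variable {Γ : Type} [Group Γ]

/-- Coset after coset: a positive function constant on the cosets in `S`, reading only translates
from the point stabilizer. -/
theorem red (hS : Solv (Perm Q)) (c : Perm (Option Q) → Γ) (S : Finset (Option Q)) :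
    ∃ n, 1 ≤ n ∧ ∃ c' : Perm (Option Q) → Γ, Pos c n c' ∧
      (∀ x ∈ S, ∀ t t' : Perm (Option Q), t none = x → t' none = x → c' t = c' t') ∧
      ∀ R : Γ → Γ → Prop, (∀ v, R v v) → (∀ a b a' b', R a b → R a' b' → R (a * a') (b * b')) →
        ∀ t₀ t₁, (∀ k, R (c (t₀ * iota k)) (c (t₁ * iota k))) → R (c' t₀) (c' t₁) := by
  induction S using Finset.induction_on with
  | empty =>
      refine ⟨1, le_refl _, c, ?_, by simp, ?_⟩
      · have := Pos.tr (c := c) (1 : Perm (Option Q))
        simpa using this
      · intro R _ _ t₀ t₁ h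
        have := h 1
        have e : iota (1 : Perm Q) = 1 := by ext x; cases x <;> simp [iota]
        simpa [e] using this
  | @insert x S _ ih =>
      obtain ⟨n₁, hn₁, c₁, p₁, h₁, q₁⟩ := ih
      obtain ⟨m, hm, C, hC⟩ := hS Γ (fun κ => c₁ (swap none x * iota κ))
      obtain ⟨Φ, pΦ, bΦ, rΦ⟩ := lift_pos iota iota_mul c₁ (swap none x) hC
      refine ⟨m * n₁, Nat.mul_pos hm hn₁, Φ, p₁.trans pΦ, ?_, ?_⟩
      · intro z hz t t' ht ht'
        rw [Finset.mem_insert] at hz
        rcases hz with rfl | hz
        · have e : ∀ s : Perm (Option Q), s none = z → Φ s = C := by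
            intro s hs
            rw [coset_eq s, hs]
            exact bΦ _
          rw [e t ht, e t' ht']
        · refine rΦ (· = ·) (fun _ => rfl) (fun a b a' b' h h' => by rw [h, h']) t t' fun k => ?_
          exact h₁ z hz _ _ (by rw [mul_iota_none, ht]) (by rw [mul_iota_none, ht'])
      · intro R hv hm' t₀ t₁ h
        refine rΦ R hv hm' t₀ t₁ fun k => ?_
        refine q₁ R hv hm' _ _ fun k' => ?_
        have := h (k * k')
        rwa [iota_mul, ← mul_assoc, ← mul_assoc] at this

/-- One merge: a column depending on `t none`, constant on a set `B ∋ none` of letters, and a new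
letter `y'`. -/
theorem merge (hS : Solv (Perm Q)) (f : Option Q → Γ) (B : Finset (Option Q)) (hB : none ∈ B)
    (hBf : ∀ x ∈ B, f x = f none) (y' : Q) :
    ∃ n, 1 ≤ n ∧ ∃ (f' : Option Q → Γ), Pos (fun t : Perm (Option Q) => f (t none)) n
        (fun t => f' (t none)) ∧ ∀ x ∈ insert (some y') B, f' x = f' none := by
  classical
  set c : Perm (Option Q) → Γ := fun t => f (t none) with hc
  set τ : Perm (Option Q) := swap none (some y') with hτ
  set c' : Perm (Option Q) → Γ := fun t => c (t * τ) with hc'
  have hc'val : ∀ t k, c' (t * iota k) = f (t (some (k y'))) := by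
    intro t k
    simp [hc', hc, hτ, iota_some]
  obtain ⟨n, hn, U, pU, hU, rU⟩ := red hS c' Finset.univ
  -- the pairs at `1` and `τ`
  have hrel : Rel (f none) (f (some y')) (U 1) (U τ) := by
    refine rU (Rel (f none) (f (some y'))) (fun v => Rel.eq v) (fun _ _ _ _ h h' => Rel.mul h h') 1 τ ?_
    intro k
    rw [hc'val, hc'val]
    by_cases hk : k y' = y'
    · simp only [hk, Perm.one_apply, hτ, swap_apply_right]
      exact Rel.swap
    · have : τ (some (k y')) = some (k y') := by
        apply swap_apply_of_ne_of_ne <;> simp [hk]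
      simp only [this, Perm.one_apply]
      exact Rel.eq _
  obtain ⟨P, hP, hPe⟩ := exists_exchange hrel
  obtain ⟨m, pP⟩ := hP.pos c
  have pc' : Pos c 1 c' := Pos.tr τ
  have pUc : Pos c (n * 1) U := pc'.trans pU
  -- `U` depends only on `t none`
  set g : Option Q → Γ := fun x => U (swap none x) with hg
  have hUg : ∀ t, U t = g (t none) := fun t =>
    hU _ (Finset.mem_univ _) t (swap none (t none)) rfl (by simp)
  refine ⟨m + n * 1, by omega, fun x => P (f x) * g x, ?_, ?_⟩
  · have e : (fun t : Perm (Option Q) => P (f (t none)) * g (t none)) = fun t => P (c t) * U t := by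
      funext t
      rw [hUg t]
    show Pos c _ (fun t : Perm (Option Q) => P (f (t none)) * g (t none))
    rw [e]
    exact Pos.mul pP pUc
  · have hnone : P (f none) * g none = P (f (some y')) * g (some y') := by
      have h1 : U 1 = g none := hUg 1
      have h2 : U τ = g (some y') := by
        rw [hUg τ]; simp [hτ]
      rw [← h1, ← h2]
      exact hPe
    intro x hx
    rw [Finset.mem_insert] at hx
    rcases hx with rfl | hx
    · exact hnone.symm
    · -- for `x ∈ B` the labels on the other positions agree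
      have hlab : U (swap none x) = U 1 := by
        refine rU (· = ·) (fun _ => rfl) (fun a b a' b' h h' => by rw [h, h']) _ _ fun k => ?_
        rw [hc'val, hc'val]
        simp only [Perm.one_apply]
        by_cases h1 : some (k y') = x
        · rw [h1, swap_apply_right, hBf x hx]
        · rw [swap_apply_of_ne_of_ne (by simp) h1]
      have h1 : U 1 = g none := hUg 1
      have h3 : U (swap none x) = g x := by
        rw [hUg]; simp
      show P (f x) * g x = P (f none) * g none
      rw [hBf x hx, ← h3, hlab, h1]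

/-- The induction step along the point stabilizer. -/
theorem step (hS : Solv (Perm Q)) : Solv (Perm (Option Q)) := by
  intro Γ _ c
  classical
  obtain ⟨n₀, hn₀, c₀, p₀, h₀, -⟩ := red hS c Finset.univ
  have hc₀ : ∀ t, c₀ t = (fun x => c₀ (swap none x)) (t none) := fun t =>
    h₀ _ (Finset.mem_univ _) t (swap none (t none)) rfl (by simp)
  have key : ∀ B' : Finset (Option Q), ∃ n, 1 ≤ n ∧ ∃ f : Option Q → Γ,
      Pos c n (fun t => f (t none)) ∧ ∀ x ∈ insert none B', f x = f none := by
    intro B'
    induction B' using Finset.induction_on with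
    | empty =>
        refine ⟨n₀, hn₀, fun x => c₀ (swap none x), ?_, by simp⟩
        convert p₀ using 2 with t
        exact (hc₀ t).symm
    | @insert z S _ ih =>
        obtain ⟨n, hn, f, pf, hf⟩ := ih
        cases z with
        | none =>
            refine ⟨n, hn, f, pf, ?_⟩
            simpa using hf
        | some y' =>
            obtain ⟨n', hn', f', pf', hf'⟩ := merge hS f (insert none S) (by simp) hf y'
            refine ⟨n' * n, Nat.mul_pos hn' hn, f', pf.trans pf', ?_⟩
            intro x hx
            apply hf'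
            simp only [Finset.mem_insert] at hx ⊢
            tauto
  obtain ⟨n, hn, f, pf, hf⟩ := key Finset.univ
  refine ⟨n, hn, f none, ?_⟩
  convert pf using 2 with t
  exact (hf _ (by simp)).symm

end step

section transport

theorem Solv.of_mulEquiv {G H : Type} [Mul G] [Mul H] (e : G ≃* H) (h : Solv G) : Solv H := by
  intro Γ _ c
  obtain ⟨n, hn, C, hC⟩ := h Γ (fun g => c (e g))
  refine ⟨n, hn, C, ?_⟩
  have key : ∀ {n : ℕ} {φ : G → Γ}, Pos (fun g => c (e g)) n φ → Pos c n (fun s => φ (e.symm s)) := by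
    intro n φ hφ
    induction hφ with
    | const v => exact Pos.const v
    | tr g =>
        have : (fun s => c (e (e.symm s * g))) = fun s => c (s * e g) := by
          funext s; simp
        show Pos c 1 (fun s => c (e (e.symm s * g)))
        rw [this]
        exact Pos.tr _
    | mul _ _ ih₁ ih₂ => exact Pos.mul ih₁ ih₂
  exact key hC

theorem solv_perm_empty : Solv (Perm PEmpty.{1}) := by
  intro Γ _ c
  refine ⟨1, le_refl _, c 1, ?_⟩
  have e : (fun _ : Perm PEmpty.{1} => c 1) = fun t => c (t * 1) := by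
    funext t
    congr 1
    exact Subsingleton.elim _ _
  rw [e]
  exact Pos.tr 1

/-- All finite symmetric groups. -/
theorem solv_perm (α : Type) [Fintype α] : Solv (Perm α) := by
  refine Fintype.induction_empty_option (P := fun α _ => Solv (Perm α)) ?_ solv_perm_empty ?_ α
  · intro α β _ e h
    letI := Fintype.ofEquiv β e.symm
    exact Solv.of_mulEquiv (Equiv.permCongrHom e) (h)
  · intro α _ h
    classical
    exact step h

/-- All finite groups: Cayley embedding. -/
theorem solv_group (G : Type) [Group G] [Finite G] : Solv G := by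
  classical
  haveI := Fintype.ofFinite G
  intro Γ _ c
  obtain ⟨n, hn, C, hC⟩ := solv_perm G Γ (fun π => c (π 1))
  refine ⟨n, hn, C, ?_⟩
  have key : ∀ {n : ℕ} {χ : Perm G → Γ}, Pos (fun π : Perm G => c (π 1)) n χ →
      Pos c n (fun t => χ (Equiv.mulLeft t)) := by
    intro n χ hχ
    induction hχ with
    | const v => exact Pos.const v
    | tr π =>
        have : (fun t => c ((Equiv.mulLeft t * π) 1)) = fun t => c (t * π 1) := by
          funext t; simp
        show Pos c 1 (fun t => c ((Equiv.mulLeft t * π) 1))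
        rw [this]
        exact Pos.tr _
    | mul _ _ ih₁ ih₂ => exact Pos.mul ih₁ ih₂
  exact key hC

end transport

/-- Reading a positive word as a list, in the shape `∏ vᵢ c(t gᵢ)` times a constant. -/
theorem Pos.toList {G Γ : Type} [Mul G] [Group Γ] {c : G → Γ} {n : ℕ} {φ : G → Γ}
    (h : Pos c n φ) : ∃ (W : List (G × Γ)) (v : Γ), W.length = n ∧
      ∀ t, φ t = (W.map fun a => a.2 * c (t * a.1)).prod * v := by
  induction h with
  | const v => exact ⟨[], v, rfl, fun t => by simp⟩
  | tr g => exact ⟨[(g, 1)], 1, rfl, fun t => by simp⟩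
  | @mul m' n' φ' ψ' _ _ ih₁ ih₂ =>
      obtain ⟨W₁, v₁, l₁, e₁⟩ := ih₁
      obtain ⟨W₂, v₂, l₂, e₂⟩ := ih₂
      cases W₂ with
      | nil =>
          have hn' : n' = 0 := by simpa using l₂.symm
          refine ⟨W₁, v₁ * v₂, by omega, fun t => ?_⟩
          show φ' t * ψ' t = _
          rw [e₁ t, e₂ t]
          simp [mul_assoc]
      | cons a R =>
          refine ⟨W₁ ++ (a.1, v₁ * a.2) :: R, v₂, by simp [← l₁, ← l₂], fun t => ?_⟩
          show φ' t * ψ' t = _
          rw [e₁ t, e₂ t]
          simp [List.prod_append, mul_assoc]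

/-- The identity in the shape used for copies. -/
theorem exists_identity (G : Type) [Group G] [Finite G] {Γ : Type} [Group Γ] (c : G → Γ) :
    ∃ W : List (G × Γ), W ≠ [] ∧ ∀ t t' : G,
      (W.map fun a => a.2 * c (t * a.1)).prod = (W.map fun a => a.2 * c (t' * a.1)).prod := by
  obtain ⟨n, hn, C, hC⟩ := solv_group G Γ c
  obtain ⟨W, v, hl, e⟩ := hC.toList
  refine ⟨W, ?_, fun t t' => ?_⟩
  · rintro rfl
    simp at hl
    omega
  · have h1 := e t
    have h2 := e t'
    exact mul_right_cancel (h1.symm.trans h2)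

end Vale.Agent.Lib.P058.Univ
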