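import Vale.Agent.Lib.P058.FG
import Vale.Agent.Lib.P058.Final
import Vale.Agent.Lib.P058.Univ

/-! # From free group identities to: subtransitive sets are Ramsey -/

namespace Vale.Agent.Lib.P058.Bridge

open Vale.Agent.Lib.P058 Vale.Agent.Lib.P058.FG

/-- Every column on a finite group has a reading along right translates, with constants in the free
group on the labels, which does not depend on the token. -/
def HasIdentities : Prop :=
  ∀ (G : Type) [Group G] [Finite G] (Λ : Type) (b : G → Λ),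
    ∃ W : List (G × FreeGroup Λ), W ≠ [] ∧
      ∀ t t' : G, (W.map fun a => a.2 * FreeGroup.of (b (t * a.1))).prod
        = (W.map fun a => a.2 * FreeGroup.of (b (t' * a.1))).prod

theorem hasIdentities : HasIdentities := fun G _ _ _ b =>
  Vale.Agent.Lib.P058.Univ.exists_identity G (fun t => FreeGroup.of (b t))

variable {N : ℕ}

/-- The isometric permutations of a subset of a Euclidean space. -/
def isoPerm (Y : Set (EuclideanSpace ℝ (Fin N))) : Subgroup (Equiv.Perm Y) where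
  carrier := {π | ∀ a b : Y, dist ((π a : Y) : EuclideanSpace ℝ (Fin N)) (π b : Y) =
    dist (a : EuclideanSpace ℝ (Fin N)) b}
  mul_mem' := by
    intro π ρ hπ hρ a b
    simp only [Equiv.Perm.coe_mul, Function.comp_apply]
    rw [hπ, hρ]
  one_mem' := by
    intro a b
    rfl
  inv_mem' := by
    intro π hπ a b
    have h := hπ (π⁻¹ a) (π⁻¹ b)
    have e : ∀ c : Y, π (π⁻¹ c) = c := fun c => by simp
    rw [e, e] at h
    exact h.symm

theorem isRamsey_empty {ι : Type} [Fintype ι] : IsRamsey (∅ : Set (EuclideanSpace ℝ ι)) := by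
  intro r hr
  refine ⟨1, le_rfl, fun c => ⟨fun _ => 0, ⟨0, by omega⟩, by simp, by simp⟩⟩

/-- A finite set of a Euclidean space with a transitive group of ambient isometries is Ramsey. -/
theorem isRamsey_of_transitive (H : HasIdentities) {Y : Set (EuclideanSpace ℝ (Fin N))}
    (hfin : Y.Finite)
    (htr : ∀ y ∈ Y, ∀ y' ∈ Y, ∃ g : EuclideanSpace ℝ (Fin N) ≃ᵢ EuclideanSpace ℝ (Fin N),
      g '' Y = Y ∧ g y = y') : IsRamsey Y := by
  classical
  by_cases hne : Y.Nonempty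
  swap
  · rw [Set.not_nonempty_iff_eq_empty] at hne
    subst hne
    exact isRamsey_empty
  obtain ⟨y₀, hy₀⟩ := hne
  have : Finite Y := hfin.to_subtype
  let _ : Fintype Y := hfin.fintype
  have hiso : ∀ (g : isoPerm Y) (a b : Y),
      dist ((g • a : Y) : EuclideanSpace ℝ (Fin N)) (g • b : Y) =
        dist (a : EuclideanSpace ℝ (Fin N)) b := fun g a b => g.2 a b
  have htr' : ∀ y : Y, ∃ g : isoPerm Y, g • (⟨y₀, hy₀⟩ : Y) = y := by
    intro y
    obtain ⟨g, hgY, hgy⟩ := htr y₀ hy₀ y y.2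
    have hmem : ∀ a ∈ Y, g a ∈ Y := fun a ha => by
      rw [← hgY]; exact ⟨a, ha, rfl⟩
    have hmem' : ∀ a ∈ Y, g.symm a ∈ Y := fun a ha => by
      rw [← hgY] at ha
      obtain ⟨b, hb, rfl⟩ := ha
      simpa using hb
    let π : Equiv.Perm Y :=
      { toFun := fun a => ⟨g a, hmem a a.2⟩
        invFun := fun a => ⟨g.symm a, hmem' a a.2⟩
        left_inv := fun a => Subtype.ext (by simp)
        right_inv := fun a => Subtype.ext (by simp) }
    have hπ : π ∈ isoPerm Y := by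
      intro a b
      exact g.isometry.dist_eq _ _
    refine ⟨⟨π, hπ⟩, Subtype.ext ?_⟩
    exact hgy
  obtain ⟨W, hW, hid⟩ := H (isoPerm Y) Y (fun t => t⁻¹ • (⟨y₀, hy₀⟩ : Y))
  have hc := certG_of_identity (G := isoPerm Y) (Λ := Y) (fun t => t⁻¹ • (⟨y₀, hy₀⟩ : Y)) W hW hid
  exact isRamsey_of_certG (G := isoPerm Y) (Λ := Y) hiso (⟨y₀, hy₀⟩ : Y) htr'
    (b₀ := fun t => t⁻¹ • (⟨y₀, hy₀⟩ : Y)) (fun _ _ h => h) hc

/-- A set congruent to a subset of a Ramsey set is Ramsey. -/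
theorem isRamsey_of_embed {m : ℕ} {X : Set (EuclideanSpace ℝ (Fin m))}
    {Y : Set (EuclideanSpace ℝ (Fin N))} (hY : IsRamsey Y)
    (f : EuclideanSpace ℝ (Fin m) → EuclideanSpace ℝ (Fin N)) (hf : ∀ x ∈ X, f x ∈ Y)
    (hd : ∀ x ∈ X, ∀ x' ∈ X, dist (f x) (f x') = dist x x') : IsRamsey X := by
  intro r hr
  obtain ⟨D, hD, h⟩ := hY r hr
  refine ⟨D, hD, fun c => ?_⟩
  obtain ⟨F, k, hF, hk⟩ := h c
  refine ⟨F ∘ f, k, fun x hx y hy => ?_, fun x hx => hk _ (hf x hx)⟩
  simp only [Function.comp_apply]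
  rw [hF _ (hf x hx) _ (hf y hy), hd x hx y hy]

/-- Every subtransitive set is Ramsey. -/
theorem isRamsey_of_subtransitive (H : HasIdentities) {m : ℕ} {X : Set (EuclideanSpace ℝ (Fin m))}
    (h : ∃ (N : ℕ) (Y : Set (EuclideanSpace ℝ (Fin N))), Y.Finite ∧
      (∀ y ∈ Y, ∀ y' ∈ Y, ∃ g : EuclideanSpace ℝ (Fin N) ≃ᵢ EuclideanSpace ℝ (Fin N),
        g '' Y = Y ∧ g y = y') ∧
      ∃ f : EuclideanSpace ℝ (Fin m) → EuclideanSpace ℝ (Fin N), (∀ x ∈ X, f x ∈ Y) ∧
        ∀ x ∈ X, ∀ x' ∈ X, dist (f x) (f x') = dist x x') : IsRamsey X := by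
  obtain ⟨N, Y, hfin, htr, f, hf, hd⟩ := h
  exact isRamsey_of_embed (isRamsey_of_transitive H hfin htr) f hf hd

/-- Every finite spherical set with rational coordinates is Ramsey. -/
theorem isRamsey_of_rational_spherical (H : HasIdentities) {m : ℕ}
    (X : Set (EuclideanSpace ℝ (Fin m))) (hfin : X.Finite)
    (hrat : ∀ x ∈ X, ∀ j, ∃ q : ℚ, x j = q)
    (hsph : ∃ (z : EuclideanSpace ℝ (Fin m)) (r : ℝ), ∀ x ∈ X, dist x z = r) : IsRamsey X :=
  isRamsey_of_subtransitive H (rational_spherical_core X hfin hrat hsph)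

/-- Every finite set with a transitive group of ambient isometries is Ramsey. -/
theorem isRamsey_transitive {Y : Set (EuclideanSpace ℝ (Fin N))} (hfin : Y.Finite)
    (htr : ∀ y ∈ Y, ∀ y' ∈ Y, ∃ g : EuclideanSpace ℝ (Fin N) ≃ᵢ EuclideanSpace ℝ (Fin N),
      g '' Y = Y ∧ g y = y') : IsRamsey Y :=
  isRamsey_of_transitive hasIdentities hfin htr

/-- Every finite spherical set with rational coordinates is Ramsey. -/
theorem isRamsey_rational_spherical {m : ℕ}
    (X : Set (EuclideanSpace ℝ (Fin m))) (hfin : X.Finite)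
    (hrat : ∀ x ∈ X, ∀ j, ∃ q : ℚ, x j = q)
    (hsph : ∃ (z : EuclideanSpace ℝ (Fin m)) (r : ℝ), ∀ x ∈ X, dist x z = r) : IsRamsey X :=
  isRamsey_of_rational_spherical hasIdentities X hfin hrat hsph

end Vale.Agent.Lib.P058.Bridge
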