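import Mathlib

open Finset

namespace Vale.Agent.Lib.P058.NotSub

lemma sum_single {Y : Type*} [Fintype Y] [DecidableEq Y] (a : Y) (f : Y → ℝ) :
    ∑ x, (((if a = x then (1 : ℚ) else 0) : ℚ) : ℝ) * f x = f a := by
  rw [Finset.sum_eq_single a]
  · simp
  · intro b _ hb
    simp [Ne.symm hb]
  · simp

/-- The core: permutations `π i` of a finite set and a function `φ` not fixed by all of them with
`∑ w i (φ ∘ π i - φ) = 0` force an algebraic relation over the rationals among the `w i`. -/
theorem core {Y : Type*} [Fintype Y] [DecidableEq Y] {n d : ℕ} (π : Fin n → Equiv.Perm Y)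
    (φ : Y → ℝ) (c0 : Fin n → ℚ) (c : Fin n → Fin d → ℚ) (s : Fin d → ℝ)
    (hker : ∀ y, ∑ i, ((c0 i : ℝ) + ∑ k, (c i k : ℝ) * s k) * (φ (π i y) - φ y) = 0)
    (hnf : ∃ i y, φ (π i y) ≠ φ y) (sstar : Fin d → ℚ)
    (hpos : ∀ i, 0 < c0 i + ∑ k, c i k * sstar k) : ¬ AlgebraicIndependent ℚ s := by
  classical
  let H : Subgroup (Equiv.Perm Y) := Subgroup.closure (Set.range π)
  let _ : Fintype H := Fintype.ofFinite H
  have hcard : (0 : ℝ) < Fintype.card H := by exact_mod_cast Fintype.card_pos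
  have hcardQ : (0 : ℚ) < Fintype.card H := by exact_mod_cast Fintype.card_pos
  let av : (Y → ℝ) → Y → ℝ := fun f y => (∑ h : H, f ((h : Equiv.Perm Y) y)) / Fintype.card H
  have hπmem : ∀ i, π i ∈ H := fun i => Subgroup.subset_closure ⟨i, rfl⟩
  -- the average is invariant
  have hav1 : ∀ f i y, av (fun z => f (π i z)) y = av f y := by
    intro f i y
    simp only [av]
    congr 1
    exact Equiv.sum_comp (Equiv.mulLeft (⟨π i, hπmem i⟩ : H)) (fun h : H => f ((h : Equiv.Perm Y) y))
  have hav2 : ∀ f i y, av f (π i y) = av f y := by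
    intro f i y
    simp only [av]
    congr 1
    exact Equiv.sum_comp (Equiv.mulRight (⟨π i, hπmem i⟩ : H)) (fun h : H => f ((h : Equiv.Perm Y) y))
  have hfix : ∀ f : Y → ℝ, (∀ i y, f (π i y) = f y) → ∀ y, av f y = f y := by
    intro f hf y
    have hh : ∀ g (hg : g ∈ H), ∀ z, f (g z) = f z := by
      intro g hg
      induction hg using Subgroup.closure_induction with
      | mem x hx =>
        obtain ⟨i, rfl⟩ := hx
        exact hf i
      | one => intro z; rfl
      | mul a b _ _ ha hb =>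
        intro z
        rw [Equiv.Perm.mul_apply, ha, hb]
      | inv a _ ha =>
        intro z
        have := ha (a⁻¹ z)
        have h2 : a (a⁻¹ z) = z := by simp
        rw [h2] at this
        exact this.symm
    simp only [av]
    rw [Finset.sum_congr rfl fun (h : H) _ => hh h.1 h.2 y, Finset.sum_const, Finset.card_univ, nsmul_eq_mul]
    field_simp
  have havfix : ∀ f y, av (av f) y = av f y := fun f y => hfix (av f) (fun i z => hav2 f i z) y
  have havadd : ∀ (f g : Y → ℝ) y, av (fun z => f z - g z) y = av f y - av g y := by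
    intro f g y
    simp only [av, Finset.sum_sub_distrib, sub_div]
  -- the matrices
  let Eq : Matrix Y Y ℚ := fun y y' =>
    (∑ h : H, if (h : Equiv.Perm Y) y = y' then (1 : ℚ) else 0) / Fintype.card H
  let Tq : Fin n → Matrix Y Y ℚ := fun i y y' =>
    (if π i y = y' then (1 : ℚ) else 0) - (if y = y' then (1 : ℚ) else 0)
  let Bp : Matrix Y Y (MvPolynomial (Fin d) ℚ) := fun y y' =>
    ∑ i, (MvPolynomial.C (c0 i) + ∑ k, MvPolynomial.C (c i k) * MvPolynomial.X k)
      * MvPolynomial.C (Tq i y y') + MvPolynomial.C (Eq y y')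
  let Mr : (Fin n → ℝ) → Matrix Y Y ℝ := fun t y y' =>
    ∑ i, t i * ((Tq i y y' : ℚ) : ℝ) + ((Eq y y' : ℚ) : ℝ)
  have heval : ∀ t : Fin d → ℝ, MvPolynomial.aeval t Bp.det
      = (Mr fun i => (c0 i : ℝ) + ∑ k, (c i k : ℝ) * t k).det := by
    intro t
    have h1 := RingHom.map_det ((MvPolynomial.aeval t : MvPolynomial (Fin d) ℚ →ₐ[ℚ] ℝ).toRingHom) Bp
    have h2 : ((MvPolynomial.aeval t : MvPolynomial (Fin d) ℚ →ₐ[ℚ] ℝ).toRingHom).mapMatrix Bp
        = Mr fun i => (c0 i : ℝ) + ∑ k, (c i k : ℝ) * t k := by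
      ext y y'
      change MvPolynomial.aeval t (Bp y y') = _
      simp [Bp, Mr, map_sum, map_add, map_mul]
    rw [h2] at h1
    exact h1
  have hmul : ∀ (t : Fin n → ℝ) (f : Y → ℝ) y,
      (Mr t).mulVec f y = ∑ i, t i * (f (π i y) - f y) + av f y := by
    intro t f y
    have e1 : (Mr t).mulVec f y
        = ∑ x, (∑ i, t i * ((Tq i y x : ℚ) : ℝ) + ((Eq y x : ℚ) : ℝ)) * f x := rfl
    rw [e1]
    simp only [add_mul, Finset.sum_add_distrib, Finset.sum_mul]
    congr 1
    · rw [Finset.sum_comm]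
      refine Finset.sum_congr rfl fun i _ => ?_
      have e2 : ∀ x, t i * ((Tq i y x : ℚ) : ℝ) * f x
          = t i * ((((if π i y = x then (1 : ℚ) else 0) : ℚ) : ℝ) * f x
            - (((if y = x then (1 : ℚ) else 0) : ℚ) : ℝ) * f x) := by
        intro x
        simp only [Tq, Rat.cast_sub]
        ring
      simp only [e2]
      rw [← Finset.mul_sum, Finset.sum_sub_distrib, sum_single, sum_single]
    · have e3 : ∀ x, ((Eq y x : ℚ) : ℝ) * f x
          = (∑ h : H, (((if (h : Equiv.Perm Y) y = x then (1 : ℚ) else 0) : ℚ) : ℝ) * f x)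
            / Fintype.card H := by
        intro x
        simp only [Eq, Rat.cast_div, Rat.cast_sum, Rat.cast_natCast, ← Finset.sum_mul,
          div_mul_eq_mul_div]
      simp only [e3]
      rw [← Finset.sum_div, Finset.sum_comm]
      simp only [sum_single]
      rfl
  -- vanishing at `w`
  have hzero : (Mr fun i => (c0 i : ℝ) + ∑ k, (c i k : ℝ) * s k).det = 0 := by
    rw [← Matrix.exists_mulVec_eq_zero_iff]
    refine ⟨fun y => φ y - av φ y, ?_, ?_⟩
    · intro h0
      obtain ⟨i, y, hy⟩ := hnf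
      apply hy
      have h1 : ∀ z, φ z = av φ z := fun z => by
        have := congrFun h0 z
        simpa [sub_eq_zero] using this
      rw [h1, h1 y, hav2]
    · ext y
      rw [hmul]
      have h1 : ∑ i, ((c0 i : ℝ) + ∑ k, (c i k : ℝ) * s k)
          * ((φ (π i y) - av φ (π i y)) - (φ y - av φ y)) = 0 := by
        rw [← hker y]
        refine Finset.sum_congr rfl fun i _ => ?_
        rw [hav2]
        ring
      rw [h1, zero_add, havadd, havfix, sub_self]
      rfl
  -- nonvanishing at positive points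
  have hone : ∀ t : Fin n → ℝ, (∀ i, 0 < t i) → (Mr t).det ≠ 0 := by
    intro t ht hdet
    rw [← Matrix.exists_mulVec_eq_zero_iff] at hdet
    obtain ⟨f, hf0, hf⟩ := hdet
    have hf' : ∀ y, ∑ i, t i * (f (π i y) - f y) + av f y = 0 := by
      intro y
      have := congrFun hf y
      rw [hmul] at this
      simpa using this
    have hav0 : ∀ y, av f y = 0 := by
      intro y
      have h1 : av (fun z => ∑ i, t i * (f (π i z) - f z) + av f z) y = 0 := by
        simp only [hf']
        simp [av]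
      have h2 : av (fun z => ∑ i, t i * (f (π i z) - f z) + av f z) y
          = ∑ i, t i * (av (fun z => f (π i z)) y - av f y) + av (av f) y := by
        simp only [av, Finset.sum_add_distrib, add_div, Finset.sum_div]
        congr 1
        rw [Finset.sum_comm]
        refine Finset.sum_congr rfl fun i _ => ?_
        rw [← Finset.sum_sub_distrib, Finset.mul_sum]
        refine Finset.sum_congr rfl fun x _ => ?_
        ring
      rw [h2] at h1
      have h3 : ∑ i : Fin n, t i * (av (fun z => f (π i z)) y - av f y) = 0 := by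
        refine Finset.sum_eq_zero fun i _ => ?_
        rw [hav1, sub_self, mul_zero]
      rw [h3, zero_add, havfix] at h1
      exact h1
    have hA : ∀ y, ∑ i, t i * (f (π i y) - f y) = 0 := fun y => by
      have := hf' y
      rw [hav0, add_zero] at this
      exact this
    have hsq : ∑ i, t i * ∑ y, (f (π i y) - f y) ^ 2 = 0 := by
      have h1 : ∀ i, t i * ∑ y, (f (π i y) - f y) ^ 2
          = -2 * ∑ y, f y * (t i * (f (π i y) - f y)) := by
        intro i
        have h2 : ∑ y, f (π i y) ^ 2 = ∑ y, f y ^ 2 := Equiv.sum_comp (π i) (fun y => f y ^ 2)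
        have h3 : ∑ y, (f (π i y) - f y) ^ 2
            = ∑ y, f (π i y) ^ 2 + ∑ y, f y ^ 2 - 2 * ∑ y, f y * f (π i y) := by
          rw [Finset.mul_sum, ← Finset.sum_add_distrib, ← Finset.sum_sub_distrib]
          exact Finset.sum_congr rfl fun y _ => by ring
        have h4 : -2 * ∑ y, f y * (t i * (f (π i y) - f y))
            = t i * (2 * ∑ y, f y ^ 2 - 2 * ∑ y, f y * f (π i y)) := by
          rw [Finset.mul_sum, Finset.mul_sum, Finset.mul_sum, ← Finset.sum_sub_distrib,
            Finset.mul_sum]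
          exact Finset.sum_congr rfl fun y _ => by ring
        rw [h3, h2, h4]
        ring
      simp only [h1]
      rw [← Finset.mul_sum, Finset.sum_comm]
      have h5 : ∀ y, ∑ i, f y * (t i * (f (π i y) - f y)) = 0 := fun y => by
        rw [← Finset.mul_sum, hA, mul_zero]
      simp [h5]
    have hfixf : ∀ i y, f (π i y) = f y := by
      intro i y
      have h1 := (Finset.sum_eq_zero_iff_of_nonneg
        (fun i _ => mul_nonneg (ht i).le
          (Finset.sum_nonneg fun y _ => sq_nonneg (f (π i y) - f y)))).mp hsq i (Finset.mem_univ i)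
      have h1' := (mul_eq_zero.mp h1).resolve_left (ht i).ne'
      have h2 := (Finset.sum_eq_zero_iff_of_nonneg
        (fun y _ => sq_nonneg (f (π i y) - f y))).mp h1' y (Finset.mem_univ y)
      have h3 := pow_eq_zero_iff (two_ne_zero) |>.mp h2
      linarith
    apply hf0
    ext y
    have := hfix f hfixf y
    rw [hav0] at this
    exact this.symm
  intro hind
  have h0 : Bp.det = 0 := by
    have h1 : MvPolynomial.aeval s Bp.det = 0 := by rw [heval, hzero]
    exact (algebraicIndependent_iff.mp hind) _ h1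
  have hstar := heval (fun k => (sstar k : ℝ))
  rw [h0, map_zero] at hstar
  refine hone _ (fun i => ?_) hstar.symm
  have := hpos i
  exact_mod_cast this

/-- Short name of Euclidean space. -/
abbrev E (N : ℕ) := EuclideanSpace ℝ (Fin N)

lemma dist_sq_eq {N : ℕ} (x y : E N) : dist x y ^ 2 = ∑ i, (x i - y i) ^ 2 := by
  rw [EuclideanSpace.dist_eq, Real.sq_sqrt (Finset.sum_nonneg fun _ _ => sq_nonneg _)]
  refine Finset.sum_congr rfl fun i _ => ?_
  rw [Real.dist_eq, sq_abs]

/-- Expansion of the squared norm of a combination through distances. -/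
lemma sq_comb {N n : ℕ} (p : Fin n → E N) (o : E N) (w : Fin n → ℝ) :
    ∑ κ, (∑ i, w i * (p i κ - o κ)) ^ 2
      = ∑ i, ∑ j, w i * w j * ((dist (p i) o ^ 2 + dist (p j) o ^ 2 - dist (p i) (p j) ^ 2) / 2) := by
  have h1 : ∀ i j, (dist (p i) o ^ 2 + dist (p j) o ^ 2 - dist (p i) (p j) ^ 2) / 2
      = ∑ κ, (p i κ - o κ) * (p j κ - o κ) := by
    intro i j
    rw [dist_sq_eq, dist_sq_eq, dist_sq_eq, ← Finset.sum_add_distrib, ← Finset.sum_sub_distrib,
      Finset.sum_div]
    refine Finset.sum_congr rfl fun κ _ => ?_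
    ring
  have e : ∀ κ, (∑ i, w i * (p i κ - o κ)) ^ 2
      = ∑ i, ∑ j, (w i * (p i κ - o κ)) * (w j * (p j κ - o κ)) := by
    intro κ
    rw [sq, Finset.sum_mul_sum]
  rw [Finset.sum_congr rfl fun κ _ => e κ, Finset.sum_comm]
  refine Finset.sum_congr rfl fun i _ => ?_
  rw [Finset.sum_comm]
  refine Finset.sum_congr rfl fun j _ => ?_
  rw [h1, Finset.mul_sum]
  refine Finset.sum_congr rfl fun κ _ => ?_
  ring

/-- The obstruction in unfolded form: if the points `x i` and `x0` of a Euclidean space, not all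
equal, embed isometrically in a finite transitive set, then the coefficients of any relation
`∑ w i (x i - x0) = 0` are algebraically dependent over the rationals. -/
theorem not_algInd {m n N d : ℕ} (x : Fin n → E m) (x0 : E m) (c0 : Fin n → ℚ)
    (c : Fin n → Fin d → ℚ) (s : Fin d → ℝ) (w : Fin n → ℝ)
    (hw : ∀ i, w i = (c0 i : ℝ) + ∑ k, (c i k : ℝ) * s k) (sstar : Fin d → ℚ)
    (hpos : ∀ i, 0 < c0 i + ∑ k, c i k * sstar k)
    (hdep : ∑ i, w i • (x i - x0) = 0) (hne : ∃ i, x i ≠ x0)
    (Y : Set (E N)) (hY : Y.Finite)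
    (htr : ∀ u ∈ Y, ∀ v ∈ Y, ∃ g : E N ≃ᵢ E N, g '' Y = Y ∧ g u = v)
    (f : E m → E N) (hfY : ∀ z ∈ insert x0 (Set.range x), f z ∈ Y)
    (hfd : ∀ z ∈ insert x0 (Set.range x), ∀ z' ∈ insert x0 (Set.range x),
      dist (f z) (f z') = dist z z') : ¬ AlgebraicIndependent ℚ s := by
  classical
  have hx0 : x0 ∈ insert x0 (Set.range x) := Set.mem_insert _ _
  have hxi : ∀ i, x i ∈ insert x0 (Set.range x) := fun i => Set.mem_insert_of_mem _ ⟨i, rfl⟩
  set y0 := f x0 with hy0
  have hy0Y : y0 ∈ Y := hfY _ hx0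
  let p : Fin n → E N := fun i => f (x i)
  have hpY : ∀ i, p i ∈ Y := fun i => hfY _ (hxi i)
  -- the relation survives in the target
  have hdepX : ∀ κ, ∑ i, w i * (x i κ - x0 κ) = 0 := by
    intro κ
    have h1 := congrArg (fun v : E m => v κ) hdep
    simpa using h1
  have hdepY : ∀ κ, ∑ i, w i * (p i κ - y0 κ) = 0 := by
    have h1 := sq_comb p y0 w
    have h2 := sq_comb x x0 w
    have h3 : ∑ κ, (∑ i, w i * (x i κ - x0 κ)) ^ 2 = 0 := by
      simp [hdepX]
    have h4 : ∑ κ, (∑ i, w i * (p i κ - y0 κ)) ^ 2 = 0 := by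
      rw [h1, ← h3, h2]
      refine Finset.sum_congr rfl fun i _ => Finset.sum_congr rfl fun j _ => ?_
      simp only [p, hy0]
      rw [hfd _ (hxi i) _ hx0, hfd _ (hxi j) _ hx0, hfd _ (hxi i) _ (hxi j)]
    intro κ
    have h5 := (Finset.sum_eq_zero_iff_of_nonneg (fun _ _ => sq_nonneg _)).mp h4 κ (Finset.mem_univ κ)
    exact pow_eq_zero_iff two_ne_zero |>.mp h5
  -- the permutations
  have hg : ∀ i, ∃ g : E N ≃ᵢ E N, g '' Y = Y ∧ g y0 = p i := fun i => htr _ hy0Y _ (hpY i)
  choose g hgY hgy using hg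
  have hgm : ∀ i u, u ∈ Y → g i u ∈ Y := fun i u hu => by
    rw [← hgY i]
    exact ⟨u, hu, rfl⟩
  have hgs : ∀ i u, u ∈ Y → (g i).symm u ∈ Y := fun i u hu => by
    rw [← hgY i] at hu
    obtain ⟨v, hv, rfl⟩ := hu
    simpa using hv
  let π : Fin n → Equiv.Perm ↥Y := fun i =>
    { toFun := fun u => ⟨(g i).symm u, hgs i u u.2⟩
      invFun := fun u => ⟨g i u, hgm i u u.2⟩
      left_inv := fun u => by simp
      right_inv := fun u => by simp }
  have hπ : ∀ i (u : ↥Y), ((π i u : ↥Y) : E N) = (g i).symm u := fun i u => rfl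
  let φ : ↥Y → ℝ := fun u => dist (u : E N) y0 ^ 2
  have hφ : ∀ i (u : ↥Y), φ (π i u) = dist (u : E N) (p i) ^ 2 := by
    intro i u
    simp only [φ, hπ]
    rw [← hgy i, ← (g i).dist_eq ((g i).symm u) y0]
    simp
  have _ : Fintype ↥Y := hY.fintype
  let _ : Fintype ↥Y := hY.fintype
  -- one value
  set C : ℝ := ∑ i, w i * ∑ κ, (p i κ ^ 2 - y0 κ ^ 2) with hC
  have hS : ∀ u : ↥Y, ∑ i, w i * (φ (π i u) - φ u) = C := by
    intro u
    have h1 : ∀ i, φ (π i u) - φ u
        = ∑ κ, (p i κ ^ 2 - y0 κ ^ 2) - 2 * ∑ κ, (u : E N) κ * (p i κ - y0 κ) := by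
      intro i
      rw [hφ]
      simp only [φ]
      rw [dist_sq_eq, dist_sq_eq, ← Finset.sum_sub_distrib, Finset.mul_sum,
        ← Finset.sum_sub_distrib]
      refine Finset.sum_congr rfl fun κ _ => ?_
      ring
    have h1' : ∀ i, w i * (φ (π i u) - φ u) = w i * ∑ κ, (p i κ ^ 2 - y0 κ ^ 2)
        - w i * (2 * ∑ κ, (u : E N) κ * (p i κ - y0 κ)) := by
      intro i
      rw [h1 i, mul_sub]
    rw [Finset.sum_congr rfl fun i _ => h1' i, Finset.sum_sub_distrib]
    have h2 : ∑ i, w i * (2 * ∑ κ, (u : E N) κ * (p i κ - y0 κ)) = 0 := by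
      have h3 : ∑ i, w i * (2 * ∑ κ, (u : E N) κ * (p i κ - y0 κ))
          = 2 * ∑ κ, (u : E N) κ * ∑ i, w i * (p i κ - y0 κ) := by
        simp only [Finset.mul_sum]
        rw [Finset.sum_comm]
        refine Finset.sum_congr rfl fun κ _ => Finset.sum_congr rfl fun i _ => ?_
        ring
      rw [h3]
      simp [hdepY]
    rw [h2, sub_zero]
  have hC0 : C = 0 := by
    have h1 : ∑ u : ↥Y, ∑ i, w i * (φ (π i u) - φ u) = 0 := by
      rw [Finset.sum_comm]
      refine Finset.sum_eq_zero fun i _ => ?_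
      rw [← Finset.mul_sum, Finset.sum_sub_distrib, Equiv.sum_comp (π i) φ, sub_self, mul_zero]
    simp only [hS, Finset.sum_const, Finset.card_univ, nsmul_eq_mul] at h1
    have hcard : (Fintype.card ↥Y : ℝ) ≠ 0 := by
      have : Nonempty ↥Y := ⟨⟨y0, hy0Y⟩⟩
      exact_mod_cast Fintype.card_ne_zero
    exact (mul_eq_zero.mp h1).resolve_left hcard
  refine core π φ c0 c s (fun u => by simp only [← hw]; rw [hS, hC0]) ?_ sstar hpos
  obtain ⟨i, hi⟩ := hne
  refine ⟨i, ⟨y0, hy0Y⟩, ?_⟩
  rw [hφ]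
  simp only [φ, dist_self]
  have h1 : dist y0 (p i) ≠ 0 := by
    rw [dist_comm]
    simp only [p, hy0]
    rw [hfd _ (hxi i) _ hx0]
    exact dist_ne_zero.mpr hi
  have h2 := pow_pos (lt_of_le_of_ne dist_nonneg h1.symm) 2
  norm_num
  exact dist_ne_zero.mp h1

/-- The coefficients of a relation among points of a finite transitive set, not all equal, are
algebraically dependent. -/
theorem not_algInd_w {m n N : ℕ} (x : Fin n → E m) (x0 : E m) (w : Fin n → ℝ)
    (hdep : ∑ i, w i • (x i - x0) = 0) (hne : ∃ i, x i ≠ x0)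
    (Y : Set (E N)) (hY : Y.Finite)
    (htr : ∀ u ∈ Y, ∀ v ∈ Y, ∃ g : E N ≃ᵢ E N, g '' Y = Y ∧ g u = v)
    (f : E m → E N) (hfY : ∀ z ∈ insert x0 (Set.range x), f z ∈ Y)
    (hfd : ∀ z ∈ insert x0 (Set.range x), ∀ z' ∈ insert x0 (Set.range x),
      dist (f z) (f z') = dist z z') : ¬ AlgebraicIndependent ℚ w := by
  classical
  refine not_algInd x x0 (fun _ => 0) (fun i k => if i = k then 1 else 0) w w
    (fun i => ?_) (fun _ => 1) (fun i => ?_) hdep hne Y hY htr f hfY hfd
  · simp only [Rat.cast_zero, zero_add]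
    rw [Finset.sum_eq_single i]
    · simp
    · intro b _ hb
      simp [Ne.symm hb]
    · simp
  · simp

/-- A quadrilateral whose diagonals cut each other in the ratios given by `p` and `q`: if `p, q`
are algebraically independent then it does not embed in a finite transitive set. -/
theorem quad_not {m N : ℕ} (A B C D : E m) (p q : ℝ)
    (hPQ : (1 - p) • A + p • C = (1 - q) • B + q • D) (hAD : A ≠ D)
    (hind : AlgebraicIndependent ℚ ![p, q])
    (Y : Set (E N)) (hY : Y.Finite)
    (htr : ∀ u ∈ Y, ∀ v ∈ Y, ∃ g : E N ≃ᵢ E N, g '' Y = Y ∧ g u = v)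
    (f : E m → E N) (hfY : ∀ z ∈ ({A, B, C, D} : Set (E m)), f z ∈ Y)
    (hfd : ∀ z ∈ ({A, B, C, D} : Set (E m)), ∀ z' ∈ ({A, B, C, D} : Set (E m)),
      dist (f z) (f z') = dist z z') : False := by
  classical
  have hset : insert D (Set.range ![A, C, B]) = ({A, B, C, D} : Set (E m)) := by
    ext z
    simp only [Set.mem_insert_iff, Set.mem_range, Set.mem_singleton_iff, Fin.exists_fin_succ]
    simp
    constructor
    · rintro (h | h | h | h) <;> simp [h]
    · rintro (h | h | h | h) <;> simp [h]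
  refine not_algInd ![A, C, B] D ![1, 0, -1] ![![-1, 0], ![1, 0], ![0, 1]] ![p, q]
    ![1 - p, p, -(1 - q)] ?_ ![1 / 2, 2] ?_ ?_ ?_ Y hY htr f ?_ ?_ hind
  · intro i
    fin_cases i <;> simp [Fin.sum_univ_two] <;> ring
  · intro i
    fin_cases i <;> norm_num [Fin.sum_univ_two]
  · simp only [Fin.sum_univ_three, Matrix.cons_val_zero, Matrix.cons_val_one, Matrix.cons_val]
    have h : (1 - p) • (A - D) + p • (C - D) + (-(1 - q)) • (B - D)
        = ((1 - p) • A + p • C) - ((1 - q) • B + q • D) := by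
      simp only [smul_sub, neg_smul, sub_smul, one_smul]
      abel_nf
    rw [h, hPQ, sub_self]
  · exact ⟨0, by simpa using hAD⟩
  · rw [hset]
    exact hfY
  · rw [hset]
    exact hfd

end Vale.Agent.Lib.P058.NotSub
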