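import Vale.Agent.Lib.P058.Final

open Finset

namespace Vale.Agent.Lib.P058.RatDep

/-- Quadratic expression of a square array. -/
def qf {R : Type*} [CommRing R] {n : ℕ} (M : Fin n → Fin n → R) (v : Fin n → R) : R :=
  ∑ j, ∑ l, M j l * (v j * v l)

/-- A positive rational is a sum of four rational squares. -/
theorem rat_four_squares (q : ℚ) (hq : 0 < q) : ∃ c : Fin 4 → ℚ, q = ∑ κ, c κ ^ 2 := by
  obtain ⟨a, b, c, d, h⟩ := Nat.sum_four_squares (q.num.toNat * q.den)
  have hden : (0 : ℚ) < q.den := by exact_mod_cast q.pos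
  have hnum : ((q.num.toNat : ℕ) : ℚ) = (q.num : ℚ) := by
    have : ((q.num.toNat : ℕ) : ℤ) = q.num := Int.toNat_of_nonneg (Rat.num_pos.mpr hq).le
    exact_mod_cast this
  refine ⟨![(a : ℚ) / q.den, (b : ℚ) / q.den, (c : ℚ) / q.den, (d : ℚ) / q.den], ?_⟩
  simp only [Fin.sum_univ_four, Matrix.cons_val]
  have h' : (a : ℚ) ^ 2 + (b : ℚ) ^ 2 + (c : ℚ) ^ 2 + (d : ℚ) ^ 2 = (q.num : ℚ) * q.den := by
    have := congrArg (fun z : ℕ => (z : ℚ)) h
    simp only [Nat.cast_add, Nat.cast_pow, Nat.cast_mul] at this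
    rw [this, hnum]
  have hq' : q = (q.num : ℚ) / q.den := (Rat.num_div_den q).symm
  have : (a : ℚ) ^ 2 / (q.den : ℚ) ^ 2 + (b : ℚ) ^ 2 / (q.den : ℚ) ^ 2 + (c : ℚ) ^ 2 / (q.den : ℚ) ^ 2
      + (d : ℚ) ^ 2 / (q.den : ℚ) ^ 2 = ((q.num : ℚ) * q.den) / (q.den : ℚ) ^ 2 := by
    rw [← h']; ring
  simp only [div_pow]
  rw [this]
  conv_lhs => rw [hq']
  field_simp

/-- A positive definite rational form is a sum of squares of rational linear forms. -/
theorem rat_sos {n : ℕ} (M : Fin n → Fin n → ℚ) (hM : ∀ v : Fin n → ℚ, v ≠ 0 → 0 < qf M v) :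
    ∃ (D : ℕ) (R : Fin D → Fin n → ℚ), ∀ v : Fin n → ℚ,
      qf M v = ∑ κ, (∑ j, R κ j * v j) ^ 2 := by
  classical
  let Q : QuadraticForm ℚ (Fin n → ℚ) := Matrix.toQuadraticForm' (Matrix.of M)
  have hQ : ∀ v, Q v = qf M v := by
    intro v
    simp only [Q, Matrix.toQuadraticForm', LinearMap.BilinMap.toQuadraticMap_apply,
      Matrix.toLinearMap₂'_apply, qf, Matrix.of_apply]
    simp
    refine Finset.sum_congr rfl fun j _ => Finset.sum_congr rfl fun l _ => ?_
    ring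
  obtain ⟨w, ⟨e⟩⟩ := Q.equivalent_weightedSumSquares
  have he : ∀ v, ∑ i, w i * ((e.toLinearEquiv v) i * (e.toLinearEquiv v) i) = qf M v := by
    intro v
    have := e.map_app v
    rw [← hQ, ← this, QuadraticMap.weightedSumSquares_apply]
    simp [smul_eq_mul]
  have hw : ∀ i, 0 < w i := by
    intro i
    set v := e.toLinearEquiv.symm (Pi.single i 1) with hv
    have hv0 : v ≠ 0 := by
      intro h
      have h2 : e.toLinearEquiv v = Pi.single i 1 := by rw [hv]; simp
      rw [h, map_zero] at h2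
      have := congrFun h2 i
      simp at this
    have h1 := hM v hv0
    rw [← he v] at h1
    have h2 : e.toLinearEquiv v = Pi.single i 1 := by rw [hv]; simp
    rw [h2] at h1
    rw [Finset.sum_eq_single i] at h1
    · simpa using h1
    · intro b _ hb
      simp [Pi.single_eq_of_ne hb]
    · simp
  choose c hc using fun i => rat_four_squares (w i) (hw i)
  let R0 : Fin (Module.finrank ℚ (Fin n → ℚ)) × Fin 4 → Fin n → ℚ := fun x j =>
    c x.1 x.2 * (e.toLinearEquiv (Pi.single j 1)) x.1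
  have hlin : ∀ (v : Fin n → ℚ) (i : Fin (Module.finrank ℚ (Fin n → ℚ))),
      (e.toLinearEquiv v) i = ∑ j, v j * (e.toLinearEquiv (Pi.single j 1)) i := by
    intro v i
    have h1 : v = ∑ j, v j • (Pi.single j 1 : Fin n → ℚ) := by
      ext k
      simp [Finset.sum_apply, Pi.single_apply]
    conv_lhs => rw [h1]
    rw [map_sum]
    simp [Finset.sum_apply]
  refine ⟨Module.finrank ℚ (Fin n → ℚ) * 4, fun κ j => R0 (finProdFinEquiv.symm κ) j, fun v => ?_⟩
  rw [← he v]
  have h2 : ∑ κ : Fin (Module.finrank ℚ (Fin n → ℚ) * 4), (∑ j, R0 (finProdFinEquiv.symm κ) j * v j) ^ 2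
      = ∑ x : Fin (Module.finrank ℚ (Fin n → ℚ)) × Fin 4, (∑ j, R0 x j * v j) ^ 2 :=
    Equiv.sum_comp finProdFinEquiv.symm
      (fun x : Fin (Module.finrank ℚ (Fin n → ℚ)) × Fin 4 => (∑ j, R0 x j * v j) ^ 2)
  rw [h2, Fintype.sum_prod_type]
  refine Finset.sum_congr rfl fun i _ => ?_
  have h3 : ∀ κ : Fin 4, (∑ j, R0 (i, κ) j * v j) ^ 2
      = c i κ ^ 2 * ((e.toLinearEquiv v) i * (e.toLinearEquiv v) i) := by
    intro κ
    rw [hlin v i, ← sq, ← mul_pow, Finset.mul_sum]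
    congr 1
    refine Finset.sum_congr rfl fun j _ => ?_
    simp only [R0]
    ring
  rw [Finset.sum_congr rfl fun κ _ => h3 κ, ← Finset.sum_mul, ← hc i]

/-- Short name of Euclidean space. -/
abbrev E (N : ℕ) := EuclideanSpace ℝ (Fin N)

/-- Transitive sets. -/
def IsTr {N : ℕ} (Y : Set (E N)) : Prop :=
  ∀ y ∈ Y, ∀ y' ∈ Y, ∃ g : E N ≃ᵢ E N, g '' Y = Y ∧ g y = y'

/-- The array `D` is the array of squared distances of a family of points in a finite transitive
set. -/
def SubT {ι : Type*} (D : ι → ι → ℝ) : Prop :=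
  ∃ (N : ℕ) (Y : Set (E N)), Y.Finite ∧ IsTr Y ∧ ∃ p : ι → E N, (∀ i, p i ∈ Y) ∧
    ∀ i i', dist (p i) (p i') ^ 2 = D i i'

theorem SubT.smul {ι : Type*} {D : ι → ι → ℝ} (h : SubT D) {μ : ℝ} (hμ : 0 < μ) :
    SubT (fun i i' => μ * D i i') := by
  obtain ⟨N, Y, hfin, htr, p, hp, hd⟩ := h
  set c := Real.sqrt μ with hcd
  have hc : 0 < c := Real.sqrt_pos.mpr hμ
  have hc2 : c ^ 2 = μ := Real.sq_sqrt hμ.le
  refine ⟨N, (fun y => c • y) '' Y, hfin.image _, ?_, fun i => c • p i, fun i => ⟨_, hp i, rfl⟩, ?_⟩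
  · rintro _ ⟨y, hy, rfl⟩ _ ⟨y', hy', rfl⟩
    obtain ⟨g, hg, hgy⟩ := htr y hy y' hy'
    have hgm : ∀ u ∈ Y, g u ∈ Y := fun u hu => by rw [← hg]; exact ⟨u, hu, rfl⟩
    have hgs : ∀ u ∈ Y, g.symm u ∈ Y := fun u hu => by
      rw [← hg] at hu
      obtain ⟨v, hv, rfl⟩ := hu
      simpa using hv
    let g' : E N ≃ᵢ E N := IsometryEquiv.mk' (fun x => c • g (c⁻¹ • x))
      (fun x => c • g.symm (c⁻¹ • x))
      (by intro x; simp [smul_smul, hc.ne'])
      (by
        refine Isometry.of_dist_eq fun a b => ?_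
        rw [dist_smul₀, g.dist_eq, dist_smul₀, ← mul_assoc, ← norm_mul, mul_inv_cancel₀ hc.ne']
        simp)
    have hg'a : ∀ x, g' x = c • g (c⁻¹ • x) := fun x => rfl
    refine ⟨g', ?_, ?_⟩
    · ext x
      constructor
      · rintro ⟨_, ⟨u, hu, rfl⟩, rfl⟩
        refine ⟨g u, hgm u hu, ?_⟩
        simp [hg'a, smul_smul, hc.ne']
      · rintro ⟨u, hu, rfl⟩
        refine ⟨c • g.symm u, ⟨_, hgs u hu, rfl⟩, ?_⟩
        simp [hg'a, smul_smul, hc.ne']
    · simp [hg'a, smul_smul, hc.ne', hgy]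
  · intro i i'
    rw [dist_smul₀, mul_pow, hd, Real.norm_eq_abs, sq_abs, hc2]

/-- Concatenation of two vectors. -/
noncomputable def join {N N' : ℕ} (u : E N) (v : E N') : E (N + N') :=
  WithLp.toLp 2 (Fin.append (fun i => u i) (fun i => v i))

/-- First block of a vector. -/
noncomputable def fstP {N N' : ℕ} (x : E (N + N')) : E N :=
  WithLp.toLp 2 (fun i => x (Fin.castAdd N' i))

/-- Second block of a vector. -/
noncomputable def sndP {N N' : ℕ} (x : E (N + N')) : E N' :=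
  WithLp.toLp 2 (fun i => x (Fin.natAdd N i))

lemma dist_sq_eq {N : ℕ} (x y : E N) : dist x y ^ 2 = ∑ i, (x i - y i) ^ 2 := by
  rw [EuclideanSpace.dist_eq, Real.sq_sqrt (Finset.sum_nonneg fun _ _ => sq_nonneg _)]
  refine Finset.sum_congr rfl fun i _ => ?_
  rw [Real.dist_eq, sq_abs]

lemma dist_join_sq {N N' : ℕ} (u u' : E N) (v v' : E N') :
    dist (join u v) (join u' v') ^ 2 = dist u u' ^ 2 + dist v v' ^ 2 := by
  rw [dist_sq_eq, dist_sq_eq, dist_sq_eq, Fin.sum_univ_add]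
  simp [join]

lemma fstP_join {N N' : ℕ} (u : E N) (v : E N') : fstP (join u v) = u := by
  ext i; simp [fstP, join]

lemma sndP_join {N N' : ℕ} (u : E N) (v : E N') : sndP (join u v) = v := by
  ext i; simp [sndP, join]

lemma join_fst_snd {N N' : ℕ} (x : E (N + N')) : join (fstP x) (sndP x) = x := by
  ext i
  simp only [join, fstP, sndP, PiLp.toLp_apply]
  refine Fin.addCases (fun j => ?_) (fun j => ?_) i <;> simp

theorem SubT.add {ι : Type*} {D D' : ι → ι → ℝ} (h : SubT D) (h' : SubT D') :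
    SubT (fun i i' => D i i' + D' i i') := by
  obtain ⟨N, Y, hfin, htr, p, hp, hd⟩ := h
  obtain ⟨N', Y', hfin', htr', p', hp', hd'⟩ := h'
  refine ⟨N + N', (fun q : E N × E N' => join q.1 q.2) '' (Y ×ˢ Y'), (hfin.prod hfin').image _, ?_,
    fun i => join (p i) (p' i), fun i => ⟨(p i, p' i), ⟨hp i, hp' i⟩, rfl⟩, ?_⟩
  · rintro _ ⟨⟨y1, y2⟩, ⟨hy1, hy2⟩, rfl⟩ _ ⟨⟨z1, z2⟩, ⟨hz1, hz2⟩, rfl⟩
    obtain ⟨g, hg, hgy⟩ := htr y1 hy1 z1 hz1
    obtain ⟨g', hg', hgy'⟩ := htr' y2 hy2 z2 hz2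
    have hgm : ∀ u ∈ Y, g u ∈ Y := fun u hu => by rw [← hg]; exact ⟨u, hu, rfl⟩
    have hgs : ∀ u ∈ Y, g.symm u ∈ Y := fun u hu => by
      rw [← hg] at hu
      obtain ⟨v, hv, rfl⟩ := hu
      simpa using hv
    have hgm' : ∀ u ∈ Y', g' u ∈ Y' := fun u hu => by rw [← hg']; exact ⟨u, hu, rfl⟩
    have hgs' : ∀ u ∈ Y', g'.symm u ∈ Y' := fun u hu => by
      rw [← hg'] at hu
      obtain ⟨v, hv, rfl⟩ := hu
      simpa using hv
    let G : E (N + N') ≃ᵢ E (N + N') := IsometryEquiv.mk'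
      (fun x => join (g (fstP x)) (g' (sndP x)))
      (fun x => join (g.symm (fstP x)) (g'.symm (sndP x)))
      (by intro x; simp [fstP_join, sndP_join, join_fst_snd])
      (by
        refine Isometry.of_dist_eq fun a b => ?_
        refine (sq_eq_sq₀ dist_nonneg dist_nonneg).mp ?_
        rw [dist_join_sq, g.dist_eq, g'.dist_eq]
        conv_rhs => rw [← join_fst_snd a, ← join_fst_snd b]
        rw [dist_join_sq])
    have hGa : ∀ x, G x = join (g (fstP x)) (g' (sndP x)) := fun x => rfl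
    refine ⟨G, ?_, ?_⟩
    · ext x
      constructor
      · rintro ⟨_, ⟨⟨u, u'⟩, ⟨hu, hu'⟩, rfl⟩, rfl⟩
        refine ⟨(g u, g' u'), ⟨hgm u hu, hgm' u' hu'⟩, ?_⟩
        simp [hGa, fstP_join, sndP_join]
      · rintro ⟨⟨u, u'⟩, ⟨hu, hu'⟩, rfl⟩
        refine ⟨join (g.symm u) (g'.symm u'), ⟨(g.symm u, g'.symm u'), ⟨hgs u hu, hgs' u' hu'⟩, rfl⟩, ?_⟩
        simp [hGa, fstP_join, sndP_join]
    · simp [hGa, fstP_join, sndP_join, hgy, hgy']
  · intro i i'
    rw [dist_join_sq, hd, hd']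

theorem SubT.sum {ι κ : Type*} (s : Finset κ) (D0 : ι → ι → ℝ) (D : κ → ι → ι → ℝ)
    (h0 : SubT D0) (h : ∀ k ∈ s, SubT (D k)) :
    SubT (fun i i' => D0 i i' + ∑ k ∈ s, D k i i') := by
  classical
  induction s using Finset.induction_on with
  | empty => simpa using h0
  | insert x s hx ih =>
    have h1 := ih (fun k hk => h k (Finset.mem_insert_of_mem hk))
    have h2 := h1.add (h x (Finset.mem_insert_self x s))
    convert h2 using 3
    rw [Finset.sum_insert hx]
    ring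

/-- A positive definite rational array taking one value on all the rational rows `a i` gives a
rational spherical set, so its array of squared distances is realized in a transitive set. -/
theorem subT_of_rat {ι : Type*} [Finite ι] {n : ℕ} (a : ι → Fin n → ℚ) (M : Fin n → Fin n → ℚ)
    (hM : ∀ v : Fin n → ℚ, v ≠ 0 → 0 < qf M v) (hL : ∀ i i', qf M (a i) = qf M (a i')) :
    SubT (fun i i' => ((qf M (a i - a i') : ℚ) : ℝ)) := by
  classical
  obtain ⟨D, R, hR⟩ := rat_sos M hM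
  let pt : ι → E D := fun i => WithLp.toLp 2 (fun κ => ((∑ j, R κ j * a i j : ℚ) : ℝ))
  have hpt : ∀ i i', dist (pt i) (pt i') ^ 2 = ((qf M (a i - a i') : ℚ) : ℝ) := by
    intro i i'
    rw [dist_sq_eq, hR]
    push_cast
    refine Finset.sum_congr rfl fun κ _ => ?_
    simp only [pt, Pi.sub_apply, Rat.cast_sum, Rat.cast_mul, Rat.cast_sub]
    rw [← Finset.sum_sub_distrib]
    congr 1
    refine Finset.sum_congr rfl fun j _ => ?_
    ring
  have hnorm : ∀ i, dist (pt i) 0 ^ 2 = ((qf M (a i) : ℚ) : ℝ) := by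
    intro i
    rw [dist_sq_eq, hR]
    push_cast
    refine Finset.sum_congr rfl fun κ _ => ?_
    simp [pt]
  have hcore := Vale.Agent.Lib.P058.rational_spherical_core (Set.range pt) (Set.finite_range pt)
    (by
      rintro _ ⟨i, rfl⟩ κ
      exact ⟨_, rfl⟩)
    (by
      rcases isEmpty_or_nonempty ι with hι | ⟨⟨i0⟩⟩
      · exact ⟨0, 0, by rintro _ ⟨i, rfl⟩; exact (hι.false i).elim⟩
      · refine ⟨0, dist (pt i0) 0, ?_⟩
        rintro _ ⟨i, rfl⟩
        refine (sq_eq_sq₀ dist_nonneg dist_nonneg).mp ?_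
        rw [hnorm, hnorm, hL])
  obtain ⟨N, Y, hfin, htr, f, hfY, hfd⟩ := hcore
  refine ⟨N, Y, hfin, htr, fun i => f (pt i), fun i => hfY _ ⟨i, rfl⟩, fun i i' => ?_⟩
  rw [hfd _ ⟨i, rfl⟩ _ ⟨i', rfl⟩, hpt]

/-- Positive definiteness survives small changes of the array. -/
theorem margin {n : ℕ} (G : Fin n → Fin n → ℝ) (hPD : ∀ v : Fin n → ℝ, v ≠ 0 → 0 < qf G v) :
    ∃ lam : ℝ, 0 < lam ∧ ∀ M : Fin n → Fin n → ℝ, (∑ j, ∑ l, |M j l - G j l|) < lam →
      ∀ v : Fin n → ℝ, v ≠ 0 → 0 < qf M v := by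
  classical
  obtain ⟨lam, hlam, hmin⟩ : ∃ lam : ℝ, 0 < lam ∧ ∀ u : Fin n → ℝ, ‖u‖ = 1 → lam ≤ qf G u := by
    have hS : IsCompact (Metric.sphere (0 : Fin n → ℝ) 1) := isCompact_sphere _ _
    have hcont : Continuous (qf G) := by
      unfold qf
      fun_prop
    rcases (Metric.sphere (0 : Fin n → ℝ) 1).eq_empty_or_nonempty with h | h
    · refine ⟨1, one_pos, fun u hu => ?_⟩
      have : u ∈ Metric.sphere (0 : Fin n → ℝ) 1 := by simpa using hu
      rw [h] at this
      exact this.elim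
    · obtain ⟨v0, hv0, hv⟩ := hS.exists_isMinOn h hcont.continuousOn
      have hne : v0 ≠ 0 := by
        rintro rfl
        simp at hv0
      exact ⟨qf G v0, hPD v0 hne, fun u hu => hv (by simpa using hu)⟩
  refine ⟨lam, hlam, fun M hM v hv => ?_⟩
  have hs : 0 < ‖v‖ := norm_pos_iff.mpr hv
  set u : Fin n → ℝ := ‖v‖⁻¹ • v with hu
  have hu1 : ‖u‖ = 1 := by
    rw [hu, norm_smul, norm_inv, norm_norm, inv_mul_cancel₀ hs.ne']
  have hq : qf M v = ‖v‖ ^ 2 * qf M u := by
    unfold qf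
    rw [Finset.mul_sum]
    refine Finset.sum_congr rfl fun j _ => ?_
    rw [Finset.mul_sum]
    refine Finset.sum_congr rfl fun l _ => ?_
    simp only [hu, Pi.smul_apply, smul_eq_mul]
    field_simp
  have hbd : ∀ j, |u j| ≤ 1 := fun j => by
    have := norm_le_pi_norm u j
    rwa [hu1, Real.norm_eq_abs] at this
  have hdiff : qf G u - (∑ j, ∑ l, |M j l - G j l|) ≤ qf M u := by
    have h1 : qf G u - qf M u ≤ ∑ j, ∑ l, |M j l - G j l| := by
      unfold qf
      rw [← Finset.sum_sub_distrib]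
      refine Finset.sum_le_sum fun j _ => ?_
      rw [← Finset.sum_sub_distrib]
      refine Finset.sum_le_sum fun l _ => ?_
      have h2 : G j l * (u j * u l) - M j l * (u j * u l) = (G j l - M j l) * (u j * u l) := by ring
      rw [h2]
      have h3 : |u j * u l| ≤ 1 := by
        rw [abs_mul]
        exact mul_le_one₀ (hbd j) (abs_nonneg _) (hbd l)
      calc (G j l - M j l) * (u j * u l) ≤ |(G j l - M j l) * (u j * u l)| := le_abs_self _
        _ = |M j l - G j l| * |u j * u l| := by rw [abs_mul, abs_sub_comm]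
        _ ≤ |M j l - G j l| * 1 := mul_le_mul_of_nonneg_left h3 (abs_nonneg _)
        _ = |M j l - G j l| := mul_one _
    linarith
  have hpos : 0 < qf M u := by
    have := hmin u hu1
    linarith
  rw [hq]
  positivity

lemma qf_sum {R : Type*} [CommRing R] {n : ℕ} {κ : Type*} (S : Finset κ) (c : κ → R)
    (B : κ → Fin n → Fin n → R) (v : Fin n → R) :
    qf (fun j l => ∑ s ∈ S, c s * B s j l) v = ∑ s ∈ S, c s * qf (B s) v := by
  unfold qf
  simp only [Finset.sum_mul, Finset.mul_sum]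
  have h : ∀ j, ∑ l, ∑ s ∈ S, c s * B s j l * (v j * v l)
      = ∑ s ∈ S, ∑ l, c s * B s j l * (v j * v l) := fun j => Finset.sum_comm
  simp only [h]
  rw [Finset.sum_comm]
  refine Finset.sum_congr rfl fun s _ => Finset.sum_congr rfl fun j _ =>
    Finset.sum_congr rfl fun l _ => ?_
  ring

lemma qf_add_arr {R : Type*} [CommRing R] {n : ℕ} (M N : Fin n → Fin n → R) (v : Fin n → R) :
    qf (fun j l => M j l + N j l) v = qf M v + qf N v := by
  unfold qf
  simp only [add_mul, Finset.sum_add_distrib]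

lemma qf_mul_arr {R : Type*} [CommRing R] {n : ℕ} (c : R) (M : Fin n → Fin n → R)
    (v : Fin n → R) : qf (fun j l => c * M j l) v = c * qf M v := by
  unfold qf
  simp only [Finset.mul_sum, mul_assoc]

/-- The rational reduction: a real positive definite array with one value on the rational rows
is a positive combination of such rational arrays. -/
theorem decomposition {ι : Type*} [Finite ι] {n : ℕ} (a : ι → Fin n → ℚ) (G : Fin n → Fin n → ℝ)
    (hPD : ∀ v : Fin n → ℝ, v ≠ 0 → 0 < qf G v)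
    (hL : ∀ i i', qf G (fun j => (a i j : ℝ)) = qf G (fun j => (a i' j : ℝ))) :
    SubT (fun i i' => qf G (fun j => (a i j : ℝ) - (a i' j : ℝ))) := by
  classical
  let W : Submodule ℚ ℝ := Submodule.span ℚ (Set.range (fun p : Fin n × Fin n => G p.1 p.2))
  have : FiniteDimensional ℚ W := FiniteDimensional.span_of_finite ℚ (Set.finite_range _)
  let e := Module.finBasis ℚ W
  have hmem : ∀ j l, G j l ∈ W := fun j l => Submodule.subset_span ⟨(j, l), rfl⟩
  let gw : Fin n → Fin n → W := fun j l => ⟨G j l, hmem j l⟩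
  let B : Fin (Module.finrank ℚ W) → Fin n → Fin n → ℚ := fun s j l => e.repr (gw j l) s
  let Es : Fin (Module.finrank ℚ W) → ℝ := fun s => ((e s : W) : ℝ)
  have hG : ∀ j l, G j l = ∑ s, (B s j l : ℝ) * Es s := by
    intro j l
    have h := e.sum_repr (gw j l)
    have h2 := congrArg (fun y : W => (y : ℝ)) h
    simp only [AddSubmonoidClass.coe_finsetSum, Submodule.coe_smul, Rat.smul_def] at h2
    exact h2.symm
  have hlin : ∀ C : Fin n → Fin n → ℚ, (∑ j, ∑ l, (C j l : ℝ) * G j l = 0) →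
      ∀ s, ∑ j, ∑ l, C j l * B s j l = 0 := by
    intro C hC s
    have hy : (∑ j, ∑ l, C j l • gw j l : W) = 0 := by
      apply Subtype.ext
      simp only [AddSubmonoidClass.coe_finsetSum, Submodule.coe_smul, Rat.smul_def,
        ZeroMemClass.coe_zero]
      exact hC
    have h3 := congrArg (fun y => e.repr y s) hy
    simpa [map_sum, Finsupp.finsetSum_apply] using h3
  have hBL : ∀ s i i', qf (B s) (a i) = qf (B s) (a i') := by
    intro s i i'
    have h4 := hlin (fun j l => a i j * a i l - a i' j * a i' l) (by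
      have h5 := hL i i'
      unfold qf at h5
      rw [← sub_eq_zero, ← Finset.sum_sub_distrib] at h5
      rw [← h5]
      refine Finset.sum_congr rfl fun j _ => ?_
      rw [← Finset.sum_sub_distrib]
      refine Finset.sum_congr rfl fun l _ => ?_
      push_cast
      ring) s
    unfold qf
    rw [← sub_eq_zero, ← Finset.sum_sub_distrib, ← h4]
    refine Finset.sum_congr rfl fun j _ => ?_
    rw [← Finset.sum_sub_distrib]
    refine Finset.sum_congr rfl fun l _ => ?_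
    ring
  obtain ⟨lam, hlam, hpert⟩ := margin G hPD
  let Bn : Fin (Module.finrank ℚ W) → ℝ := fun s => ∑ j, ∑ l, |(B s j l : ℝ)|
  have hBn : ∀ s, 0 ≤ Bn s := fun s =>
    Finset.sum_nonneg fun _ _ => Finset.sum_nonneg fun _ _ => abs_nonneg _
  set A : ℝ := 1 + ∑ s, Bn s with hAdef
  have hA1 : 1 ≤ A := by
    have : 0 ≤ ∑ s, Bn s := Finset.sum_nonneg fun s _ => hBn s
    linarith
  have hA : 0 < A := by linarith
  have hBnA : ∀ s, Bn s ≤ A := fun s => by
    have : Bn s ≤ ∑ s, Bn s := Finset.single_le_sum (fun s _ => hBn s) (Finset.mem_univ s)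
    linarith
  obtain ⟨ε, hε0, hε1⟩ := exists_rat_btwn (show (0 : ℝ) < lam / (2 * A) by positivity)
  have hε2 : 2 * (ε : ℝ) * A < lam := by
    rw [lt_div_iff₀ (by positivity)] at hε1
    linarith
  set tt : ℝ := (Module.finrank ℚ W : ℝ) + 1 with htt
  have htt0 : 0 < tt := by positivity
  set η : ℝ := (ε : ℝ) / tt with hη
  have hη0 : 0 < η := by positivity
  have hq : ∀ s, ∃ q : ℚ, Es s - η < q ∧ (q : ℝ) < Es s := fun s =>
    exists_rat_btwn (by linarith)
  choose q hq1 hq2 using hq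
  let d : Fin (Module.finrank ℚ W) → ℝ := fun s => Es s - q s
  have hd0 : ∀ s, 0 < d s := fun s => by
    have := hq2 s
    simp only [d]
    linarith
  have hd1 : ∀ s, d s < η := fun s => by
    have := hq1 s
    simp only [d]
    linarith
  let P0 : Fin n → Fin n → ℚ := fun j l => ∑ s, q s * B s j l
  let V : Fin (Module.finrank ℚ W) → Fin n → Fin n → ℚ := fun s j l => P0 j l + ε * B s j l
  have hP0 : ∀ j l, G j l = (P0 j l : ℝ) + ∑ s, d s * (B s j l : ℝ) := by
    intro j l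
    rw [hG j l]
    simp only [P0, d]
    push_cast
    rw [← Finset.sum_add_distrib]
    refine Finset.sum_congr rfl fun s _ => ?_
    ring
  have hsumd : ∑ s, d s * Bn s ≤ η * A := by
    have h1 : ∑ s, d s * Bn s ≤ ∑ s, η * Bn s := Finset.sum_le_sum fun s _ =>
      mul_le_mul_of_nonneg_right (hd1 s).le (hBn s)
    rw [← Finset.mul_sum] at h1
    have h2 : η * ∑ s, Bn s ≤ η * A := mul_le_mul_of_nonneg_left (by linarith) hη0.le
    linarith
  have hηε : η ≤ ε := by
    rw [hη]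
    refine div_le_self (by positivity) ?_
    rw [htt]
    have : (0 : ℝ) ≤ (Module.finrank ℚ W : ℝ) := Nat.cast_nonneg _
    linarith
  have hP0bd : ∀ j l, |(P0 j l : ℝ) - G j l| ≤ ∑ s, d s * |(B s j l : ℝ)| := by
    intro j l
    rw [hP0 j l]
    have : (P0 j l : ℝ) - ((P0 j l : ℝ) + ∑ s, d s * (B s j l : ℝ))
        = -∑ s, d s * (B s j l : ℝ) := by ring
    rw [this, abs_neg]
    refine (Finset.abs_sum_le_sum_abs _ _).trans (le_of_eq ?_)
    refine Finset.sum_congr rfl fun s _ => ?_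
    rw [abs_mul, abs_of_pos (hd0 s)]
  have hP0sum : ∑ j, ∑ l, |(P0 j l : ℝ) - G j l| ≤ η * A := by
    refine le_trans ?_ hsumd
    have h1 : ∑ j, ∑ l, |(P0 j l : ℝ) - G j l| ≤ ∑ j, ∑ l, ∑ s, d s * |(B s j l : ℝ)| :=
      Finset.sum_le_sum fun j _ => Finset.sum_le_sum fun l _ => hP0bd j l
    refine h1.trans (le_of_eq ?_)
    have h2 : ∀ j, ∑ l, ∑ s, d s * |(B s j l : ℝ)| = ∑ s, ∑ l, d s * |(B s j l : ℝ)| :=
      fun j => Finset.sum_comm
    simp only [h2]
    rw [Finset.sum_comm]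
    refine Finset.sum_congr rfl fun s _ => ?_
    simp only [Bn, Finset.mul_sum]
  have hεA : η * A ≤ ε * A := mul_le_mul_of_nonneg_right hηε hA.le
  have hε0' : 0 < (ε : ℝ) := hε0
  have hP0PD : ∀ v : Fin n → ℝ, v ≠ 0 → 0 < qf (fun j l => (P0 j l : ℝ)) v :=
    hpert _ (by nlinarith)
  have hVsum : ∀ s, ∑ j, ∑ l, |((V s j l : ℚ) : ℝ) - G j l| < lam := by
    intro s
    have h1 : ∑ j, ∑ l, |((V s j l : ℚ) : ℝ) - G j l|
        ≤ ∑ j, ∑ l, (|(P0 j l : ℝ) - G j l| + (ε : ℝ) * |(B s j l : ℝ)|) := by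
      refine Finset.sum_le_sum fun j _ => Finset.sum_le_sum fun l _ => ?_
      simp only [V]
      push_cast
      have : (P0 j l : ℝ) + (ε : ℝ) * (B s j l : ℝ) - G j l
          = ((P0 j l : ℝ) - G j l) + (ε : ℝ) * (B s j l : ℝ) := by ring
      rw [this]
      refine (abs_add_le _ _).trans ?_
      rw [abs_mul, abs_of_pos hε0']
    have h2 : ∑ j, ∑ l, (|(P0 j l : ℝ) - G j l| + (ε : ℝ) * |(B s j l : ℝ)|)
        = ∑ j, ∑ l, |(P0 j l : ℝ) - G j l| + (ε : ℝ) * Bn s := by
      simp only [Finset.sum_add_distrib, Bn, Finset.mul_sum]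
    have h3 : (ε : ℝ) * Bn s ≤ ε * A := mul_le_mul_of_nonneg_left (hBnA s) hε0'.le
    rw [h2] at h1
    linarith
  have hVPD : ∀ s, ∀ v : Fin n → ℝ, v ≠ 0 → 0 < qf (fun j l => ((V s j l : ℚ) : ℝ)) v :=
    fun s => hpert _ (hVsum s)
  have hcast : ∀ (M : Fin n → Fin n → ℚ) (v : Fin n → ℚ),
      ((qf M v : ℚ) : ℝ) = qf (fun j l => (M j l : ℝ)) (fun j => (v j : ℝ)) := by
    intro M v
    simp [qf]
  have hratPD : ∀ M : Fin n → Fin n → ℚ,
      (∀ v : Fin n → ℝ, v ≠ 0 → 0 < qf (fun j l => (M j l : ℝ)) v) →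
      ∀ v : Fin n → ℚ, v ≠ 0 → 0 < qf M v := by
    intro M hM v hv
    have h1 : (fun j => (v j : ℝ)) ≠ 0 := by
      intro h0
      apply hv
      ext j
      have := congrFun h0 j
      simpa using this
    have h2 := hM _ h1
    rw [← hcast] at h2
    exact_mod_cast h2
  have hP0L : ∀ i i', qf P0 (a i) = qf P0 (a i') := by
    intro i i'
    have h1 : ∀ v, qf P0 v = ∑ s, q s * qf (B s) v := fun v => qf_sum Finset.univ q B v
    rw [h1, h1]
    exact Finset.sum_congr rfl fun s _ => by rw [hBL s i i']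
  have hVL : ∀ s i i', qf (V s) (a i) = qf (V s) (a i') := by
    intro s i i'
    have h1 : ∀ v, qf (V s) v = qf P0 v + ε * qf (B s) v := fun v => by
      rw [← qf_mul_arr, ← qf_add_arr]
    rw [h1, h1, hP0L i i', hBL s i i']
  have h0 := subT_of_rat a P0 (hratPD P0 hP0PD) hP0L
  have hs : ∀ s, SubT (fun i i' => ((qf (V s) (a i - a i') : ℚ) : ℝ)) := fun s =>
    subT_of_rat a (V s) (hratPD (V s) (hVPD s)) (hVL s)
  let μ : Fin (Module.finrank ℚ W) → ℝ := fun s => d s / ε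
  have hμ : ∀ s, 0 < μ s := fun s => div_pos (hd0 s) hε0'
  have hsumμ : ∑ s, μ s < 1 := by
    have h1 : ∑ s, d s ≤ ∑ _s : Fin (Module.finrank ℚ W), η :=
      Finset.sum_le_sum fun s _ => (hd1 s).le
    rw [Finset.sum_const, Finset.card_univ, Fintype.card_fin, nsmul_eq_mul] at h1
    have h2 : (Module.finrank ℚ W : ℝ) * η < ε := by
      rw [hη, ← mul_div_assoc, div_lt_iff₀ htt0, htt]
      have : (0 : ℝ) < ε := hε0'
      nlinarith
    have h3 : ∑ s, μ s = (∑ s, d s) / ε := by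
      simp only [μ, Finset.sum_div]
    rw [h3, div_lt_one hε0']
    linarith
  have hμ0 : 0 < 1 - ∑ s, μ s := by linarith
  have hall := SubT.sum Finset.univ
    (fun i i' => (1 - ∑ s, μ s) * ((qf P0 (a i - a i') : ℚ) : ℝ))
    (fun s i i' => μ s * ((qf (V s) (a i - a i') : ℚ) : ℝ))
    (h0.smul hμ0) (fun s _ => (hs s).smul (hμ s))
  have hcast' : ∀ (M : Fin n → Fin n → ℚ) (i i' : ι), ((qf M (a i - a i') : ℚ) : ℝ)
      = qf (fun j l => (M j l : ℝ)) (fun j => (a i j : ℝ) - (a i' j : ℝ)) := by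
    intro M i i'
    rw [hcast]
    congr 1
    ext j
    simp
  have hGf : G = fun j l => (P0 j l : ℝ) + ∑ s, d s * (B s j l : ℝ) := by
    ext j l
    exact hP0 j l
  have hVf : ∀ s, (fun j l => ((V s j l : ℚ) : ℝ))
      = fun j l => (P0 j l : ℝ) + (ε : ℝ) * (B s j l : ℝ) := by
    intro s
    ext j l
    simp only [V]
    push_cast
    ring
  convert hall using 3 with i i'
  rw [hcast', hGf, qf_add_arr]
  simp only [hcast', hVf, qf_add_arr, qf_mul_arr]
  rw [qf_sum Finset.univ d (fun s j l => (B s j l : ℝ))]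
  set v : Fin n → ℝ := fun j => (a i j : ℝ) - (a i' j : ℝ)
  set X := qf (fun j l => (P0 j l : ℝ)) v
  have hterm : ∀ s, μ s * (X + (ε : ℝ) * qf (fun j l => (B s j l : ℝ)) v)
      = μ s * X + d s * qf (fun j l => (B s j l : ℝ)) v := by
    intro s
    simp only [μ]
    field_simp
  rw [Finset.sum_congr rfl fun s _ => hterm s, Finset.sum_add_distrib, ← Finset.sum_mul]
  ring

/-- The main theorem in unfolded form: a finite set on a sphere, all of whose points are rational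
affine combinations of a fixed affinely independent family, embeds isometrically in a finite
transitive set. -/
theorem ratdep_core {m n : ℕ} (X : Set (E m)) (hfin : X.Finite) (b : Fin n → E m)
    (hb : AffineIndependent ℝ b)
    (hX : ∀ x ∈ X, ∃ a : Fin n → ℚ, ∑ j, a j = 1 ∧ x = ∑ j, (a j : ℝ) • b j)
    (hsph : ∃ (z : E m) (r : ℝ), ∀ x ∈ X, dist x z = r) :
    ∃ (N : ℕ) (Y : Set (E N)), Y.Finite ∧
      (∀ y ∈ Y, ∀ y' ∈ Y, ∃ g : E N ≃ᵢ E N, g '' Y = Y ∧ g y = y') ∧
      ∃ f : E m → E N, (∀ x ∈ X, f x ∈ Y) ∧ ∀ x ∈ X, ∀ x' ∈ X, dist (f x) (f x') = dist x x' := by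
  classical
  obtain ⟨z, r, hzr⟩ := hsph
  have : Finite ↥X := hfin.to_subtype
  choose a ha1 ha2 using fun i : ↥X => hX i i.2
  let c : Fin n → Fin m → ℝ := fun j κ => b j κ - z κ
  let G : Fin n → Fin n → ℝ := fun j l => ∑ κ, c j κ * c l κ + 1
  have hqf : ∀ v : Fin n → ℝ, qf G v = ∑ κ, (∑ j, v j * c j κ) ^ 2 + (∑ j, v j) ^ 2 := by
    intro v
    unfold qf
    have h1 : ∀ κ, (∑ j, v j * c j κ) ^ 2 = ∑ j, ∑ l, (v j * c j κ) * (v l * c l κ) := by
      intro κ
      rw [sq, Finset.sum_mul_sum]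
    have h2 : (∑ j, v j) ^ 2 = ∑ j, ∑ l, v j * v l := by
      rw [sq, Finset.sum_mul_sum]
    rw [h2]
    simp only [h1]
    have h3 : ∑ κ, ∑ j, ∑ l, (v j * c j κ) * (v l * c l κ)
        = ∑ j, ∑ l, ∑ κ, (v j * c j κ) * (v l * c l κ) := by
      rw [Finset.sum_comm]
      refine Finset.sum_congr rfl fun j _ => ?_
      rw [Finset.sum_comm]
    rw [h3, ← Finset.sum_add_distrib]
    refine Finset.sum_congr rfl fun j _ => ?_
    rw [← Finset.sum_add_distrib]
    refine Finset.sum_congr rfl fun l _ => ?_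
    simp only [G, add_mul, one_mul, Finset.sum_mul]
    congr 1
    refine Finset.sum_congr rfl fun κ _ => ?_
    ring
  have hPD : ∀ v : Fin n → ℝ, v ≠ 0 → 0 < qf G v := by
    intro v hv
    by_contra hcon
    rw [hqf] at hcon
    push Not at hcon
    have hA : 0 ≤ ∑ κ, (∑ j, v j * c j κ) ^ 2 := Finset.sum_nonneg fun _ _ => sq_nonneg _
    have hB : 0 ≤ (∑ j, v j) ^ 2 := sq_nonneg _
    have hsum0 : ∑ j, v j = 0 := by
      have : (∑ j, v j) ^ 2 = 0 := by linarith
      exact pow_eq_zero_iff (by norm_num) |>.mp this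
    have hκ : ∀ κ, ∑ j, v j * c j κ = 0 := by
      intro κ
      have h1 : ∑ κ, (∑ j, v j * c j κ) ^ 2 = 0 := by linarith
      have h2 := (Finset.sum_eq_zero_iff_of_nonneg (fun _ _ => sq_nonneg _)).mp h1 κ
        (Finset.mem_univ κ)
      exact pow_eq_zero_iff (by norm_num) |>.mp h2
    have hzero : ∑ j, v j • b j = 0 := by
      ext κ
      have h3 := hκ κ
      simp only [c, mul_sub, Finset.sum_sub_distrib] at h3
      rw [← Finset.sum_mul, hsum0, zero_mul, sub_zero] at h3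
      simpa using h3
    apply hv
    ext j
    exact affineIndependent_iff.mp hb Finset.univ v hsum0 hzero j (Finset.mem_univ j)
  have hcoord : ∀ (i : ↥X) κ, (i : E m) κ = ∑ j, (a i j : ℝ) * b j κ := by
    intro i κ
    conv_lhs => rw [ha2 i]
    simp
  have hone : ∀ i : ↥X, ∑ j, (a i j : ℝ) = 1 := by
    intro i
    have := ha1 i
    exact_mod_cast this
  have hval : ∀ i : ↥X, qf G (fun j => (a i j : ℝ)) = r ^ 2 + 1 := by
    intro i
    rw [hqf, hone i, ← hzr i i.2, dist_sq_eq]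
    congr 1
    · refine Finset.sum_congr rfl fun κ _ => ?_
      simp only [c, mul_sub, Finset.sum_sub_distrib]
      rw [← Finset.sum_mul, hone i, one_mul, ← hcoord]
    · norm_num
  have hdist : ∀ i i' : ↥X, qf G (fun j => (a i j : ℝ) - (a i' j : ℝ)) = dist (i : E m) i' ^ 2 := by
    intro i i'
    rw [hqf, dist_sq_eq]
    have h0 : ∑ j, ((a i j : ℝ) - (a i' j : ℝ)) = 0 := by
      rw [Finset.sum_sub_distrib, hone i, hone i', sub_self]
    rw [h0]
    have h1 : ∀ κ, ∑ j, ((a i j : ℝ) - (a i' j : ℝ)) * c j κ = (i : E m) κ - (i' : E m) κ := by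
      intro κ
      have e1 : ∑ j, ((a i j : ℝ) - (a i' j : ℝ)) * c j κ
          = ∑ j, ((a i j : ℝ) - (a i' j : ℝ)) * b j κ
            - (∑ j, ((a i j : ℝ) - (a i' j : ℝ))) * z κ := by
        rw [Finset.sum_mul, ← Finset.sum_sub_distrib]
        refine Finset.sum_congr rfl fun j _ => ?_
        simp only [c]
        ring
      rw [e1, h0, zero_mul, sub_zero, hcoord, hcoord, ← Finset.sum_sub_distrib]
      refine Finset.sum_congr rfl fun j _ => ?_
      ring
    simp only [h1]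
    norm_num
  have hsub := decomposition a G hPD (fun i i' => by rw [hval, hval])
  obtain ⟨N, Y, hYfin, hYtr, p, hp, hd⟩ := hsub
  refine ⟨N, Y, hYfin, hYtr, fun x => if h : x ∈ X then p ⟨x, h⟩ else 0, ?_, ?_⟩
  · intro x hx
    simp only [dif_pos hx]
    exact hp _
  · intro x hx x' hx'
    simp only [dif_pos hx, dif_pos hx']
    refine (sq_eq_sq₀ dist_nonneg dist_nonneg).mp ?_
    rw [hd]
    exact hdist ⟨x, hx⟩ ⟨x', hx'⟩

end Vale.Agent.Lib.P058.RatDep
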