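import Vale.Agent.Lib.P058.Subtrans
import Vale.Agent.Lib.P058.NotSub
import Vale.Agent.Lib.P058.RatDep

namespace Vale.Agent.Lib.P058.NotSub

open Vale.Agent.Lib.P058

/-- The coefficients of an affine relation among the points of a subtransitive set, not all equal,
are algebraically dependent over the rationals. -/
theorem not_algInd_of_isSubtransitive {m n : ℕ} (x : Fin n → EuclideanSpace ℝ (Fin m))
    (x0 : EuclideanSpace ℝ (Fin m)) (w : Fin n → ℝ)
    (hdep : ∑ i, w i • (x i - x0) = 0) (hne : ∃ i, x i ≠ x0)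
    (h : IsSubtransitive (insert x0 (Set.range x))) : ¬ AlgebraicIndependent ℚ w := by
  obtain ⟨N, Y, f, ⟨hY, htr⟩, hfY, hfd⟩ := h
  exact not_algInd_w x x0 w hdep hne Y hY htr f hfY hfd

/-- A quadrilateral whose diagonals cut each other in ratios `p`, `q` algebraically independent
over the rationals is not subtransitive. -/
theorem quad_not_isSubtransitive {m : ℕ} (A B C D : EuclideanSpace ℝ (Fin m)) (p q : ℝ)
    (hPQ : (1 - p) • A + p • C = (1 - q) • B + q • D) (hAD : A ≠ D)
    (hind : AlgebraicIndependent ℚ ![p, q]) : ¬ IsSubtransitive ({A, B, C, D} : Set _) := by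
  rintro ⟨N, Y, f, ⟨hY, htr⟩, hfY, hfd⟩
  exact quad_not A B C D p q hPQ hAD hind Y hY htr f hfY hfd

/-- A finite set on a sphere whose points are rational affine combinations of an affinely
independent family is subtransitive. -/
theorem ratdep_isSubtransitive {m n : ℕ} (X : Set (EuclideanSpace ℝ (Fin m))) (hfin : X.Finite)
    (b : Fin n → EuclideanSpace ℝ (Fin m)) (hb : AffineIndependent ℝ b)
    (hX : ∀ x ∈ X, ∃ a : Fin n → ℚ, ∑ j, a j = 1 ∧ x = ∑ j, (a j : ℝ) • b j)
    (hsph : ∃ (z : EuclideanSpace ℝ (Fin m)) (r : ℝ), ∀ x ∈ X, dist x z = r) :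
    IsSubtransitive X := by
  obtain ⟨N, Y, hY, htr, f, hfY, hfd⟩ := Vale.Agent.Lib.P058.RatDep.ratdep_core X hfin b hb hX hsph
  exact ⟨N, Y, f, ⟨hY, htr⟩, hfY, hfd⟩

end Vale.Agent.Lib.P058.NotSub
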