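import Vale.Agent.Lib.P058.Subtrans
import Vale.Agent.Lib.P058.FG
import Vale.Agent.Lib.P058.Univ

/-! # P058: subtransitive sets are exactly the sets that are Ramsey in the powers of a finite set

`IsPowerRamsey A`: there is one finite set `L` of a Euclidean space such that for every number of
colours there is `N` such that every colouring of `L ^ N`, with the Euclidean metric of the product,
has a monochromatic congruent copy of `A`.

* Subtransitive implies power Ramsey: take `L` a rescaled finite transitive set, tokens the group of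
its isometries, and a word identity for the column `t ↦ t⁻¹ x₀` (right translations of the tokens
are isometries on this column; the length of the identity does not depend on the number of colours).
* Power Ramsey implies subtransitive: colour a word by the numbers of occurrences of the letters,
modulo a large constant. Two words of a copy differ in boundedly many positions, so all words of a
monochromatic copy are rearrangements of one word, and the rearrangements of a word form a finite
transitive set. -/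

namespace Vale.Agent.Lib.P058

open Finset

/-- Every `r`-colouring of the power `L ^ N`, with the Euclidean metric of the product, is constant
on the image of `A` under a map preserving distances on `A`. -/
def PowerArrows {ι : Type*} [Fintype ι] (A : Set (EuclideanSpace ℝ ι)) {m : ℕ}
    (L : Set (EuclideanSpace ℝ (Fin m))) (r N : ℕ) : Prop :=
  ∀ c : (Fin N → L) → Fin r, ∃ (f : EuclideanSpace ℝ ι → (Fin N → L)) (k : Fin r),
    (∀ x ∈ A, ∀ y ∈ A,
      ∑ p, dist (f x p : EuclideanSpace ℝ (Fin m)) (f y p) ^ 2 = dist x y ^ 2) ∧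
    ∀ x ∈ A, c (f x) = k

/-- `A` is Ramsey in the powers of one finite set `L`, which does not depend on the number of
colours. -/
def IsPowerRamsey {ι : Type*} [Fintype ι] (A : Set (EuclideanSpace ℝ ι)) : Prop :=
  ∃ (m : ℕ) (L : Set (EuclideanSpace ℝ (Fin m))), L.Finite ∧
    ∀ r : ℕ, 2 ≤ r → ∃ N : ℕ, PowerArrows A L r N

namespace PowerAux

/-- Equal numbers of occurrences: the words are rearrangements of each other. -/
theorem exists_perm_of_counts {N : ℕ} {Λ : Type*} [DecidableEq Λ] (w w' : Fin N → Λ)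
    (h : ∀ l, (univ.filter (fun p => w p = l)).card = (univ.filter (fun p => w' p = l)).card) :
    ∃ σ : Equiv.Perm (Fin N), ∀ p, w' p = w (σ p) := by
  classical
  have hc : ∀ l, Fintype.card {p // w' p = l} = Fintype.card {p // w p = l} := by
    intro l
    rw [Fintype.card_subtype, Fintype.card_subtype, h l]
  let e : ∀ l, {p // w' p = l} ≃ {p // w p = l} := fun l => Fintype.equivOfCardEq (hc l)
  let σ : Equiv.Perm (Fin N) := (Equiv.sigmaFiberEquiv w').symm.trans
    ((Equiv.sigmaCongrRight e).trans (Equiv.sigmaFiberEquiv w))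
  refine ⟨σ, fun p => ?_⟩
  have : σ p = (e (w' p) ⟨p, rfl⟩).1 := rfl
  rw [this]
  exact ((e (w' p) ⟨p, rfl⟩).2).symm

theorem eq_of_mod_eq {a b d M : ℕ} (h : a % M = b % M) (h1 : a ≤ b + d) (h2 : b ≤ a + d)
    (hd : d < M) : a = b := by
  rcases le_total a b with hab | hab
  · have hdvd : M ∣ b - a := (Nat.modEq_iff_dvd' hab).1 h
    have := Nat.eq_zero_of_dvd_of_lt hdvd (by omega)
    omega
  · have hdvd : M ∣ a - b := (Nat.modEq_iff_dvd' hab).1 h.symm
    have := Nat.eq_zero_of_dvd_of_lt hdvd (by omega)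
    omega

theorem count_le_add {N : ℕ} {Λ : Type*} [DecidableEq Λ] (u v : Fin N → Λ) (l : Λ) :
    (univ.filter (fun p => u p = l)).card ≤ (univ.filter (fun p => v p = l)).card +
      (univ.filter (fun p => u p ≠ v p)).card := by
  calc (univ.filter (fun p => u p = l)).card
      ≤ ((univ.filter (fun p => v p = l)) ∪ (univ.filter (fun p => u p ≠ v p))).card := by
        refine Finset.card_le_card fun p hp => ?_
        simp only [mem_filter, mem_union, mem_univ, true_and] at hp ⊢
        by_cases h : u p = v p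
        · exact Or.inl (h ▸ hp)
        · exact Or.inr h
    _ ≤ _ := Finset.card_union_le _ _

section vec

variable {N m : ℕ}

/-- The word as a vector, the coordinates being indexed through `e`. -/
noncomputable def vec {n : ℕ} (e : Fin N × Fin m ≃ Fin n) (w : Fin N → EuclideanSpace ℝ (Fin m)) :
    EuclideanSpace ℝ (Fin n) :=
  WithLp.toLp 2 (fun j => (w (e.symm j).1) (e.symm j).2)

theorem dist_vec_sq {n : ℕ} (e : Fin N × Fin m ≃ Fin n) (u v : Fin N → EuclideanSpace ℝ (Fin m)) :
    dist (vec e u) (vec e v) ^ 2 = ∑ p, dist (u p) (v p) ^ 2 := by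
  rw [EuclideanSpace.dist_eq, Real.sq_sqrt (Finset.sum_nonneg fun _ _ => by positivity)]
  have h1 := Equiv.sum_comp e (fun j => dist ((vec e u) j) ((vec e v) j) ^ 2)
  rw [← h1, Fintype.sum_prod_type]
  simp only [vec, PiLp.toLp_apply, Equiv.symm_apply_apply]
  refine Finset.sum_congr rfl fun p _ => ?_
  rw [EuclideanSpace.dist_eq, Real.sq_sqrt (Finset.sum_nonneg fun _ _ => by positivity)]

/-- The permutation of the coordinates induced by a permutation of the positions. -/
noncomputable def posPerm {n : ℕ} (e : Fin N × Fin m ≃ Fin n) (τ : Equiv.Perm (Fin N)) :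
    Equiv.Perm (Fin n) :=
  e.symm.trans ((Equiv.prodCongr τ (Equiv.refl _)).trans e)

/-- The isometry permuting the positions. -/
noncomputable def posIso {n : ℕ} (e : Fin N × Fin m ≃ Fin n) (τ : Equiv.Perm (Fin N)) :
    EuclideanSpace ℝ (Fin n) ≃ᵢ EuclideanSpace ℝ (Fin n) :=
  (LinearIsometryEquiv.piLpCongrLeft 2 ℝ ℝ (posPerm e τ).symm).toIsometryEquiv

theorem posIso_vec {n : ℕ} (e : Fin N × Fin m ≃ Fin n) (τ : Equiv.Perm (Fin N))
    (w : Fin N → EuclideanSpace ℝ (Fin m)) :
    posIso e τ (vec e w) = vec e (w ∘ τ) := by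
  ext j
  simp only [posIso, LinearIsometryEquiv.coe_toIsometryEquiv, LinearIsometryEquiv.piLpCongrLeft_apply]
  simp [vec, Equiv.piCongrLeft', posPerm]

/-- The rearrangements of a word form a finite transitive set. -/
theorem isTransitiveSet_range {n : ℕ} (e : Fin N × Fin m ≃ Fin n)
    (w : Fin N → EuclideanSpace ℝ (Fin m)) :
    IsTransitiveSet (Set.range fun σ : Equiv.Perm (Fin N) => vec e (w ∘ σ)) := by
  refine ⟨Set.finite_range _, ?_⟩
  rintro _ ⟨σ, rfl⟩ _ ⟨σ', rfl⟩
  refine ⟨posIso e (σ⁻¹ * σ'), ?_, ?_⟩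
  · ext y
    constructor
    · rintro ⟨_, ⟨ρ, rfl⟩, rfl⟩
      refine ⟨ρ * (σ⁻¹ * σ'), ?_⟩
      change vec e (w ∘ ((ρ * (σ⁻¹ * σ') : Equiv.Perm (Fin N)) : Fin N → Fin N)) =
        posIso e (σ⁻¹ * σ') (vec e (w ∘ ρ))
      rw [posIso_vec]
      rfl
    · rintro ⟨ρ, rfl⟩
      refine ⟨vec e (w ∘ ((ρ * (σ⁻¹ * σ')⁻¹ : Equiv.Perm (Fin N)) : Fin N → Fin N)),
        ⟨ρ * (σ⁻¹ * σ')⁻¹, rfl⟩, ?_⟩
      rw [posIso_vec]
      have : (w ∘ ((ρ * (σ⁻¹ * σ')⁻¹ : Equiv.Perm (Fin N)) : Fin N → Fin N)) ∘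
          ((σ⁻¹ * σ' : Equiv.Perm (Fin N)) : Fin N → Fin N) = w ∘ ρ := by
        funext p
        simp
      rw [this]
  · rw [posIso_vec]
    have : (w ∘ σ) ∘ ((σ⁻¹ * σ' : Equiv.Perm (Fin N)) : Fin N → Fin N) = w ∘ σ' := by
      funext p
      simp
    rw [this]

end vec

end PowerAux

open PowerAux

/-- **Power Ramsey implies subtransitive.** -/
theorem IsPowerRamsey.isSubtransitive {ι : Type*} [Fintype ι] {A : Set (EuclideanSpace ℝ ι)}
    (hA : A.Finite) (h : IsPowerRamsey A) : IsSubtransitive A := by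
  classical
  obtain ⟨m, L, hL, hR⟩ := h
  letI : Fintype L := hL.fintype
  -- the empty case
  rcases A.eq_empty_or_nonempty with rfl | ⟨x₀, hx₀⟩
  · refine ⟨0, ∅, fun _ => 0, ⟨Set.finite_empty, by simp⟩, by simp, by simp⟩
  -- the smallest square distance of the letters
  have hδ : ∃ δ : ℝ, 0 < δ ∧ ∀ a b : L, a ≠ b →
      δ ≤ dist (a : EuclideanSpace ℝ (Fin m)) b ^ 2 := by
    by_cases hne : (univ.filter (fun q : L × L => q.1 ≠ q.2)).Nonempty
    · obtain ⟨q, hq, hmin⟩ := Finset.exists_min_image _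
        (fun q : L × L => dist (q.1 : EuclideanSpace ℝ (Fin m)) q.2 ^ 2) hne
      have hq' : q.1 ≠ q.2 := (mem_filter.1 hq).2
      refine ⟨_, ?_, fun a b hab => hmin (a, b) (mem_filter.2 ⟨mem_univ _, hab⟩)⟩
      have : (q.1 : EuclideanSpace ℝ (Fin m)) ≠ q.2 := fun h => hq' (Subtype.ext h)
      exact pow_pos (dist_pos.2 this) 2
    · refine ⟨1, one_pos, fun a b hab => ?_⟩
      exact absurd ⟨(a, b), mem_filter.2 ⟨mem_univ _, hab⟩⟩ hne
  obtain ⟨δ, hδ0, hδ⟩ := hδ
  -- the bound for the square distances of `A`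
  obtain ⟨C, hC⟩ := Metric.isBounded_iff.1 hA.isBounded
  obtain ⟨K, hK⟩ := exists_nat_gt (C ^ 2 / δ)
  have hK' : C ^ 2 < K * δ := (div_lt_iff₀ hδ0).1 hK
  -- the colouring
  let T := L → Fin (K + 1)
  let r : ℕ := Fintype.card T + 2
  obtain ⟨N, hN⟩ := hR r (by omega)
  let colour : (Fin N → L) → T := fun w l =>
    ⟨(univ.filter (fun p => w p = l)).card % (K + 1), Nat.mod_lt _ (by omega)⟩
  obtain ⟨f, k, hfd, hfc⟩ := hN (fun w => Fin.castLE (by omega) (Fintype.equivFin T (colour w)))
  have hcol : ∀ x ∈ A, ∀ y ∈ A, colour (f x) = colour (f y) := by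
    intro x hx y hy
    have h1 := (hfc x hx).trans (hfc y hy).symm
    exact (Fintype.equivFin T).injective (Fin.castLE_injective _ h1)
  -- two words of the copy differ in fewer than `K` positions
  have hdiff : ∀ x ∈ A, ∀ y ∈ A, (univ.filter (fun p => f x p ≠ f y p)).card < K := by
    intro x hx y hy
    have h1 : ((univ.filter (fun p => f x p ≠ f y p)).card : ℝ) * δ ≤
        ∑ p, dist (f x p : EuclideanSpace ℝ (Fin m)) (f y p) ^ 2 := by
      calc ((univ.filter (fun p => f x p ≠ f y p)).card : ℝ) * δ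
          = ∑ _p ∈ univ.filter (fun p => f x p ≠ f y p), δ := by
            rw [Finset.sum_const, nsmul_eq_mul]
        _ ≤ ∑ p ∈ univ.filter (fun p => f x p ≠ f y p),
              dist (f x p : EuclideanSpace ℝ (Fin m)) (f y p) ^ 2 :=
            Finset.sum_le_sum fun p hp => hδ _ _ (mem_filter.1 hp).2
        _ ≤ _ := Finset.sum_le_sum_of_subset_of_nonneg (subset_univ _)
            fun _ _ _ => by positivity
    rw [hfd x hx y hy] at h1
    have h2 : dist x y ^ 2 ≤ C ^ 2 :=
      pow_le_pow_left₀ dist_nonneg (hC hx hy) 2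
    have h3 : ((univ.filter (fun p => f x p ≠ f y p)).card : ℝ) * δ < K * δ := by linarith
    exact_mod_cast lt_of_mul_lt_mul_right h3 hδ0.le
  -- all words of the copy have the same numbers of occurrences
  have hcount : ∀ x ∈ A, ∀ l, (univ.filter (fun p => f x₀ p = l)).card =
      (univ.filter (fun p => f x p = l)).card := by
    intro x hx l
    have h1 : (colour (f x₀) l).1 = (colour (f x) l).1 := by rw [hcol x₀ hx₀ x hx]
    have h2 := hdiff x₀ hx₀ x hx
    have h3 : (univ.filter (fun p => f x p ≠ f x₀ p)).card =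
        (univ.filter (fun p => f x₀ p ≠ f x p)).card := by
      congr 1
      ext p
      simp [ne_comm]
    refine eq_of_mod_eq h1 (count_le_add _ _ l) ?_ (d := (univ.filter (fun p => f x₀ p ≠ f x p)).card)
      (by omega)
    have := count_le_add (f x) (f x₀) l
    omega
  -- the transitive set
  let e : Fin N × Fin m ≃ Fin (Fintype.card (Fin N × Fin m)) := Fintype.equivFin _
  let co : (Fin N → L) → (Fin N → EuclideanSpace ℝ (Fin m)) := fun w p => (w p : _)
  refine ⟨_, _, fun a => vec e (co (f a)), isTransitiveSet_range e (co (f x₀)), ?_, ?_⟩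
  · intro a ha
    obtain ⟨σ, hσ⟩ := exists_perm_of_counts (f x₀) (f a) (hcount a ha)
    refine ⟨σ, ?_⟩
    show vec e (co (f x₀) ∘ σ) = vec e (co (f a))
    congr 1
    funext p
    simp only [co, Function.comp_apply, hσ p]
  · intro a ha b hb
    have h1 : dist (vec e (co (f a))) (vec e (co (f b))) ^ 2 = dist a b ^ 2 := by
      rw [dist_vec_sq]
      exact hfd a ha b hb
    exact (pow_left_inj₀ dist_nonneg dist_nonneg (by norm_num)).mp h1

/-- The distance preserving permutations of `X`. -/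
def isoPerm {n : ℕ} (X : Set (EuclideanSpace ℝ (Fin n))) : Subgroup (Equiv.Perm X) where
  carrier := {σ | ∀ a b : X, dist ((σ a : X) : EuclideanSpace ℝ (Fin n)) (σ b : X) =
    dist (a : EuclideanSpace ℝ (Fin n)) b}
  mul_mem' := by
    intro σ τ hσ hτ a b
    simp only [Equiv.Perm.coe_mul, Function.comp_apply]
    rw [hσ, hτ]
  one_mem' := by
    intro a b
    simp
  inv_mem' := by
    intro σ hσ a b
    have h := hσ (σ⁻¹ a) (σ⁻¹ b)
    simpa using h.symm

theorem isoPerm_transitive {n : ℕ} {X : Set (EuclideanSpace ℝ (Fin n))} (hX : IsTransitiveSet X)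
    (a b : X) : ∃ γ : isoPerm X, (γ : Equiv.Perm X) a = b := by
  obtain ⟨φ, himg, hφ⟩ := hX.2 a.1 a.2 b.1 b.2
  have hmaps : ∀ x : X, φ x.1 ∈ X := fun x =>
    (Set.ext_iff.1 himg (φ x.1)).1 ⟨x.1, x.2, rfl⟩
  let s : X → X := fun x => ⟨φ x.1, hmaps x⟩
  have hinj : Function.Injective s := by
    intro x y hxy
    exact Subtype.ext (φ.injective (congrArg Subtype.val hxy))
  have hsurj : Function.Surjective s := by
    intro y
    have hy : y.1 ∈ φ '' X := by
      rw [himg]
      exact y.2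
    obtain ⟨x, hx, hxy⟩ := hy
    exact ⟨⟨x, hx⟩, Subtype.ext hxy⟩
  let σ : Equiv.Perm X := Equiv.ofBijective s ⟨hinj, hsurj⟩
  have hσ : σ ∈ isoPerm X := by
    intro x y
    exact φ.dist_eq x.1 y.1
  exact ⟨⟨σ, hσ⟩, Subtype.ext hφ⟩

/-- **Subtransitive implies power Ramsey.** -/
theorem IsSubtransitive.isPowerRamsey {ι : Type*} [Fintype ι] {A : Set (EuclideanSpace ℝ ι)}
    (h : IsSubtransitive A) : IsPowerRamsey A := by
  classical
  obtain ⟨n, X, g, hX, hg, hd⟩ := h
  -- the empty case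
  rcases X.eq_empty_or_nonempty with rfl | ⟨x₀', hx₀'⟩
  · have hA : ∀ a, a ∉ A := fun a ha => by simpa using hg a ha
    refine ⟨0, ∅, Set.finite_empty, fun r hr => ⟨0, fun c => ?_⟩⟩
    exact ⟨fun _ p => p.elim0, c (fun p => p.elim0), fun x hx => absurd hx (hA x),
      fun x hx => absurd hx (hA x)⟩
  have : Finite X := hX.1
  letI : Fintype X := Fintype.ofFinite X
  have : Finite (isoPerm X) := inferInstance
  let x₀ : X := ⟨x₀', hx₀'⟩
  -- the column
  let b₀ : isoPerm X → X := fun t => ((t⁻¹ : isoPerm X) : Equiv.Perm X) x₀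
  obtain ⟨W, hW, hid⟩ := Univ.exists_identity (isoPerm X) (Γ := FreeGroup X)
    (fun t => FreeGroup.of (b₀ t))
  obtain ⟨κ, hκ, hne, mm, hcopy⟩ := FG.certG_of_identity b₀ W hW hid
  -- rescaled letters
  let μ : ℝ := (Fintype.card κ : ℝ)
  have hμ : 0 < μ := by
    simp only [μ]
    exact_mod_cast Fintype.card_pos
  let sc : EuclideanSpace ℝ (Fin n) → EuclideanSpace ℝ (Fin n) := fun x => (Real.sqrt μ)⁻¹ • x
  have hsc : ∀ a b : EuclideanSpace ℝ (Fin n), dist (sc a) (sc b) ^ 2 = dist a b ^ 2 / μ := by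
    intro a b
    simp only [sc]
    rw [dist_smul₀, Real.norm_eq_abs, abs_of_pos (inv_pos.mpr (Real.sqrt_pos.mpr hμ)), mul_pow,
      inv_pow, Real.sq_sqrt hμ.le]
    field_simp
  let scale : X → sc '' X := fun x => ⟨sc x, x, x.2, rfl⟩
  refine ⟨n, sc '' X, hX.1.image _, fun r _ => ?_⟩
  obtain ⟨N, hN⟩ := hcopy r
  refine ⟨N, fun c => ?_⟩
  obtain ⟨s, hs1, hs2⟩ := hN (fun u => c (scale ∘ u))
  let M : κ → isoPerm X → X := fun k t => b₀ (t * mm k)
  let word : isoPerm X → Fin N → X := fun t p => ev M (s p) t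
  -- tokens of the points of `A`
  have htok : ∀ a (ha : a ∈ A), ∃ t : isoPerm X, b₀ t = ⟨g a, hg a ha⟩ := by
    intro a ha
    obtain ⟨γ, hγ⟩ := isoPerm_transitive hX x₀ ⟨g a, hg a ha⟩
    refine ⟨γ⁻¹, ?_⟩
    simp only [b₀, inv_inv]
    exact hγ
  choose! tok htok' using htok
  have hsum : ∀ t t' : isoPerm X, ∑ p, dist (((scale ∘ word t) p : sc '' X) : EuclideanSpace ℝ (Fin n))
      ((scale ∘ word t') p : sc '' X) ^ 2 =
      dist ((b₀ t : X) : EuclideanSpace ℝ (Fin n)) (b₀ t') ^ 2 := by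
    intro t t'
    let F : κ → ℝ := fun k => dist ((M k t : X) : EuclideanSpace ℝ (Fin n)) (M k t') ^ 2 / μ
    have h1 : ∀ p, dist (((scale ∘ word t) p : sc '' X) : EuclideanSpace ℝ (Fin n))
        ((scale ∘ word t') p : sc '' X) ^ 2 = wt F (s p) := by
      intro p
      simp only [word, Function.comp_apply, scale]
      rcases s p with i | l
      · simp only [ev, wt, Sum.elim_inl, F]
        exact hsc _ _
      · simp [ev, wt]
    rw [Finset.sum_congr rfl fun p _ => h1 p, hs1 F]
    have h2 : ∀ k, F k = dist ((b₀ t : X) : EuclideanSpace ℝ (Fin n)) (b₀ t') ^ 2 / μ := by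
      intro k
      simp only [F, M, b₀]
      have h3 : ∀ t : isoPerm X, (((t * mm k)⁻¹ : isoPerm X) : Equiv.Perm X) x₀ =
          (((mm k)⁻¹ : isoPerm X) : Equiv.Perm X) (((t⁻¹ : isoPerm X) : Equiv.Perm X) x₀) := by
        intro t
        simp [mul_inv_rev]
      rw [h3 t, h3 t', ((mm k)⁻¹ : isoPerm X).2]
    rw [Finset.sum_congr rfl fun k _ => h2 k, Finset.sum_const, Finset.card_univ, nsmul_eq_mul]
    simp only [μ] at *
    field_simp
  refine ⟨fun a => if ha : a ∈ A then scale ∘ word (tok a) else fun _ => scale x₀,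
    c (scale ∘ word 1), ?_, ?_⟩
  · intro a ha b hb
    simp only [dif_pos ha, dif_pos hb]
    rw [hsum, htok' a ha, htok' b hb]
    exact congrArg (· ^ 2) (hd a ha b hb)
  · intro a ha
    simp only [dif_pos ha]
    exact hs2 _ _

/-- The two notions agree on finite sets. -/
theorem isPowerRamsey_iff {ι : Type*} [Fintype ι] {A : Set (EuclideanSpace ℝ ι)} (hA : A.Finite) :
    IsPowerRamsey A ↔ IsSubtransitive A :=
  ⟨IsPowerRamsey.isSubtransitive hA, IsSubtransitive.isPowerRamsey⟩

/-- `A` is Ramsey with a finite set `L`, which may depend on the number of colours. -/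
def IsLocalRamsey {ι : Type*} [Fintype ι] (A : Set (EuclideanSpace ℝ ι)) : Prop :=
  ∀ r : ℕ, 2 ≤ r → ∃ (m : ℕ) (L : Set (EuclideanSpace ℝ (Fin m))), L.Finite ∧ ∃ N : ℕ,
    PowerArrows A L r N

/-- Power Ramsey sets are locally Ramsey: the order of the quantifiers. -/
theorem IsPowerRamsey.isLocalRamsey {ι : Type*} [Fintype ι] {A : Set (EuclideanSpace ℝ ι)}
    (h : IsPowerRamsey A) : IsLocalRamsey A := by
  obtain ⟨m, L, hL, hR⟩ := h
  exact fun r hr => ⟨m, L, hL, hR r hr⟩

/-- Locally Ramsey sets are Ramsey. -/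
theorem IsLocalRamsey.isRamsey {ι : Type*} [Fintype ι] {A : Set (EuclideanSpace ℝ ι)}
    (h : IsLocalRamsey A) : IsRamsey A := by
  classical
  intro r hr
  obtain ⟨m, L, hL, N, hN⟩ := h r hr
  let e : Fin N × Fin m ≃ Fin (Fintype.card (Fin N × Fin m)) := Fintype.equivFin _
  -- one extra coordinate, to have a positive dimension
  let j : EuclideanSpace ℝ (Fin (Fintype.card (Fin N × Fin m))) →
      EuclideanSpace ℝ (Fin (Fintype.card (Fin N × Fin m) + 1)) :=
    fun x => WithLp.toLp 2 (Fin.snoc (α := fun _ => ℝ) (fun p => x p) (0 : ℝ))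
  have hj : ∀ x y, dist (j x) (j y) = dist x y := by
    intro x y
    rw [EuclideanSpace.dist_eq, EuclideanSpace.dist_eq, Fin.sum_univ_castSucc]
    simp [j]
  let co : (Fin N → L) → (Fin N → EuclideanSpace ℝ (Fin m)) := fun w p => (w p : _)
  refine ⟨Fintype.card (Fin N × Fin m) + 1, by omega, fun c => ?_⟩
  obtain ⟨f, k, hfd, hfc⟩ := hN (fun w => c (j (PowerAux.vec e (co w))))
  refine ⟨fun a => j (PowerAux.vec e (co (f a))), k, fun a ha b hb => ?_, hfc⟩
  rw [hj]
  have h1 : dist (PowerAux.vec e (co (f a))) (PowerAux.vec e (co (f b))) ^ 2 = dist a b ^ 2 := by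
    rw [PowerAux.dist_vec_sq]
    exact hfd a ha b hb
  exact (pow_left_inj₀ dist_nonneg dist_nonneg (by norm_num)).mp h1

/-- Compactness: a finite Ramsey set is locally Ramsey, even with `N = 1`. -/
theorem IsRamsey.isLocalRamsey {ι : Type*} [Fintype ι] {A : Set (EuclideanSpace ℝ ι)}
    (hA : A.Finite) (h : IsRamsey A) : IsLocalRamsey A := by
  classical
  intro r hr
  obtain ⟨D, -, hc⟩ := h r hr
  by_contra hno
  have hbad : ∀ F : Finset (EuclideanSpace ℝ (Fin D)), ¬ PowerArrows A (F : Set (EuclideanSpace ℝ (Fin D))) r 1 := by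
    intro F hF
    exact hno ⟨D, _, F.finite_toSet, 1, hF⟩
  have hbad' : ∀ F : Finset (EuclideanSpace ℝ (Fin D)), ∃ c : (Fin 1 → (F : Set (EuclideanSpace ℝ (Fin D)))) → Fin r,
      ∀ (f : EuclideanSpace ℝ ι → (Fin 1 → (F : Set (EuclideanSpace ℝ (Fin D))))) (k : Fin r),
        (∀ x ∈ A, ∀ y ∈ A, ∑ p, dist (f x p : EuclideanSpace ℝ (Fin D)) (f y p) ^ 2 = dist x y ^ 2) →
        ¬ ∀ x ∈ A, c (f x) = k := by
    intro F
    have := hbad F
    unfold PowerArrows at this
    push Not at this
    obtain ⟨c, hc'⟩ := this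
    refine ⟨c, fun f k hf hall => ?_⟩
    obtain ⟨x, hx, hne⟩ := hc' f k hf
    exact hne (hall x hx)
  choose cF hcF using hbad'
  -- colourings of the whole space
  let d : Finset (EuclideanSpace ℝ (Fin D)) → EuclideanSpace ℝ (Fin D) → Fin r := fun F x =>
    if hx : x ∈ F then cF F (fun _ => ⟨x, hx⟩) else ⟨0, by omega⟩
  let u : Ultrafilter (Finset (EuclideanSpace ℝ (Fin D))) := Ultrafilter.of Filter.atTop
  have hlim : ∀ x, ∃ i : Fin r, ∀ᶠ F in (u : Filter _), d F x = i := by
    intro x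
    obtain ⟨i, hi⟩ := Ultrafilter.eq_pure_of_finite (Ultrafilter.map (fun F => d F x) u)
    refine ⟨i, ?_⟩
    have : ({i} : Set (Fin r)) ∈ Ultrafilter.map (fun F => d F x) u := by
      rw [hi]
      exact Ultrafilter.mem_pure.2 rfl
    exact Ultrafilter.mem_map.1 this
  choose col hcol using hlim
  obtain ⟨f, k, hfd, hfc⟩ := hc col
  -- one finite set works for the whole copy
  have hle : ((u : Filter (Finset (EuclideanSpace ℝ (Fin D))))) ≤ Filter.atTop := Ultrafilter.of_le _
  have h1 : ∀ᶠ F in (u : Filter (Finset (EuclideanSpace ℝ (Fin D)))),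
      insert 0 (hA.toFinset.image f) ≤ F :=
    hle (Filter.eventually_ge_atTop _)
  have h2 : ∀ᶠ F in (u : Filter (Finset (EuclideanSpace ℝ (Fin D)))), ∀ x ∈ A, d F (f x) = k := by
    have : ∀ x ∈ hA.toFinset, ∀ᶠ F in (u : Filter (Finset (EuclideanSpace ℝ (Fin D)))),
        d F (f x) = k := by
      intro x hx
      have hx' := hA.mem_toFinset.1 hx
      have := hcol (f x)
      rwa [hfc x hx'] at this
    have h3 := (Filter.eventually_all_finset hA.toFinset).2 this
    exact h3.mono fun F hF x hx => hF x (hA.mem_toFinset.2 hx)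
  obtain ⟨F, hF1, hF2⟩ := (h1.and h2).exists
  have h0F : (0 : EuclideanSpace ℝ (Fin D)) ∈ F := hF1 (Finset.mem_insert_self _ _)
  have hfF : ∀ x ∈ A, f x ∈ F := fun x hx =>
    hF1 (Finset.mem_insert_of_mem (Finset.mem_image_of_mem f (hA.mem_toFinset.2 hx)))
  refine hcF F (fun x => if hx : x ∈ A then (fun _ => ⟨f x, hfF x hx⟩) else (fun _ => ⟨0, h0F⟩)) k
    ?_ ?_
  · intro x hx y hy
    simp only [dif_pos hx, dif_pos hy, Fin.sum_univ_one]
    exact congrArg (· ^ 2) (hfd x hx y hy)
  · intro x hx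
    have := hF2 x hx
    simp only [d, dif_pos (hfF x hx)] at this
    simp only [dif_pos hx]
    exact this

/-- For finite sets: Ramsey means `L` may depend on the number of colours, subtransitive means that
one `L` works for all numbers of colours. -/
theorem ramsey_quantifiers {ι : Type*} [Fintype ι] {A : Set (EuclideanSpace ℝ ι)} (hA : A.Finite) :
    (IsRamsey A ↔ IsLocalRamsey A) ∧ (IsSubtransitive A ↔ IsPowerRamsey A) ∧
      (IsSubtransitive A → IsRamsey A) :=
  ⟨⟨IsRamsey.isLocalRamsey hA, IsLocalRamsey.isRamsey⟩,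
   (isPowerRamsey_iff hA).symm,
   fun h => h.isPowerRamsey.isLocalRamsey.isRamsey⟩

end Vale.Agent.Lib.P058
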