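import Vale.Agent.Lib.P058.Subtrans

/-! # P058: subtransitive distance matrices in orbit form -/

namespace Vale.Agent.Lib.P058.RatAff

open Finset

/-- A matrix `D` is in orbit form: there are a finite index type, a vector and for each `a` a
permutation of the coordinates of the vector, such that `D a b` is the squared distance of the
permuted vectors. -/
def OrbitRep {ι : Type} (D : ι → ι → ℝ) : Prop :=
  ∃ (κ : Type) (_ : Fintype κ) (_ : DecidableEq κ) (v : κ → ℝ) (σ : ι → Equiv.Perm κ),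
    ∀ a b, ∑ k, (v (σ a k) - v (σ b k)) ^ 2 = D a b

theorem OrbitRep.add {ι : Type} {D D' : ι → ι → ℝ} (h : OrbitRep D) (h' : OrbitRep D') {s t : ℝ}
    (hs : 0 < s) (ht : 0 < t) : OrbitRep fun a b => s * D a b + t * D' a b := by
  obtain ⟨κ, _, _, v, σ, e⟩ := h
  obtain ⟨κ', _, _, v', σ', e'⟩ := h'
  refine ⟨κ ⊕ κ', inferInstance, inferInstance,
    Sum.elim (fun k => Real.sqrt s * v k) (fun k => Real.sqrt t * v' k),
    fun a => Equiv.sumCongr (σ a) (σ' a), fun a b => ?_⟩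
  show _ = s * D a b + t * D' a b
  rw [Fintype.sum_sum_type, ← e a b, ← e' a b, Finset.mul_sum, Finset.mul_sum]
  congr 1
  · refine Finset.sum_congr rfl fun k _ => ?_
    simp only [Equiv.sumCongr_apply, Sum.map_inl, Sum.elim_inl]
    have := Real.mul_self_sqrt hs.le
    calc (Real.sqrt s * v (σ a k) - Real.sqrt s * v (σ b k)) ^ 2
        = (Real.sqrt s * Real.sqrt s) * (v (σ a k) - v (σ b k)) ^ 2 := by ring
      _ = _ := by rw [this]
  · refine Finset.sum_congr rfl fun k _ => ?_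
    simp only [Equiv.sumCongr_apply, Sum.map_inr, Sum.elim_inr]
    have := Real.mul_self_sqrt ht.le
    calc (Real.sqrt t * v' (σ' a k) - Real.sqrt t * v' (σ' b k)) ^ 2
        = (Real.sqrt t * Real.sqrt t) * (v' (σ' a k) - v' (σ' b k)) ^ 2 := by ring
      _ = _ := by rw [this]

theorem OrbitRep.congr {ι : Type} {D D' : ι → ι → ℝ} (h : OrbitRep D) (e : ∀ a b, D a b = D' a b) :
    OrbitRep D' := by
  have : D = D' := by
    funext a b
    exact e a b
  rwa [← this]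

theorem dist_sq_eq {κ : Type} [Fintype κ] (x y : EuclideanSpace ℝ κ) :
    dist x y ^ 2 = ∑ k, (x k - y k) ^ 2 := by
  rw [EuclideanSpace.dist_eq, Real.sq_sqrt (Finset.sum_nonneg fun _ _ => by positivity)]
  refine Finset.sum_congr rfl fun k _ => ?_
  rw [Real.dist_eq, sq_abs]

/-- The distance preserving permutations of a set. -/
def isoG {N : ℕ} (Y : Set (EuclideanSpace ℝ (Fin N))) : Subgroup (Equiv.Perm Y) where
  carrier := {σ | ∀ a b : Y, dist ((σ a : Y) : EuclideanSpace ℝ (Fin N)) (σ b : Y)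
    = dist (a : EuclideanSpace ℝ (Fin N)) b}
  one_mem' := fun _ _ => rfl
  mul_mem' := fun {σ τ} hσ hτ a b => (hσ (τ a) (τ b)).trans (hτ a b)
  inv_mem' := fun {σ} hσ a b => by
    have := hσ (σ⁻¹ a) (σ⁻¹ b)
    simpa using this.symm

theorem orbitRep_of_transitive {ι : Type} {N : ℕ} (Y : Set (EuclideanSpace ℝ (Fin N)))
    (hfin : Y.Finite)
    (htr : ∀ y ∈ Y, ∀ y' ∈ Y, ∃ g : EuclideanSpace ℝ (Fin N) ≃ᵢ EuclideanSpace ℝ (Fin N),
      g '' Y = Y ∧ g y = y')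
    (f : ι → EuclideanSpace ℝ (Fin N)) (hf : ∀ a, f a ∈ Y) :
    OrbitRep fun a b => dist (f a) (f b) ^ 2 := by
  classical
  by_cases hne : Nonempty ι
  swap
  · refine ⟨Empty, inferInstance, inferInstance, fun e => e.elim,
      fun a => (hne ⟨a⟩).elim, fun a => (hne ⟨a⟩).elim⟩
  obtain ⟨a0⟩ := hne
  haveI : Finite Y := hfin
  letI : Fintype (isoG Y) := Fintype.ofFinite _
  let y0 : Y := ⟨f a0, hf a0⟩
  have hg : ∀ a, ∃ g : isoG Y, ((g : Equiv.Perm Y) y0 : EuclideanSpace ℝ (Fin N)) = f a := by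
    intro a
    obtain ⟨g, hgY, hga⟩ := htr (f a0) (hf a0) (f a) (hf a)
    have hmem : ∀ y ∈ Y, g y ∈ Y := fun y hy => hgY ▸ Set.mem_image_of_mem g hy
    have hmem' : ∀ y ∈ Y, g.symm y ∈ Y := by
      intro y hy
      rw [← hgY] at hy
      obtain ⟨z, hz, rfl⟩ := hy
      simpa using hz
    let σ : Equiv.Perm Y :=
      { toFun := fun y => ⟨g y.1, hmem y.1 y.2⟩
        invFun := fun y => ⟨g.symm y.1, hmem' y.1 y.2⟩
        left_inv := fun y => Subtype.ext (by simp)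
        right_inv := fun y => Subtype.ext (by simp) }
    exact ⟨⟨σ, fun p q => g.isometry.dist_eq p.1 q.1⟩, hga⟩
  choose g hgf using hg
  have hcard : (0 : ℝ) < Fintype.card (isoG Y) := by
    exact_mod_cast Fintype.card_pos
  let c : ℝ := Real.sqrt (Fintype.card (isoG Y))⁻¹
  have hc : c * c = (Fintype.card (isoG Y) : ℝ)⁻¹ :=
    Real.mul_self_sqrt (inv_nonneg.2 hcard.le)
  refine ⟨isoG Y × Fin N, inferInstance, inferInstance,
    fun p => c * (((p.1 : Equiv.Perm Y) y0 : EuclideanSpace ℝ (Fin N)) p.2),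
    fun a => (Equiv.mulRight (g a)).prodCongr (Equiv.refl _), fun a b => ?_⟩
  show _ = dist (f a) (f b) ^ 2
  rw [Fintype.sum_prod_type]
  have hterm : ∀ h : isoG Y, ∑ e : Fin N,
      (c * ((((h * g a : isoG Y) : Equiv.Perm Y) y0 : EuclideanSpace ℝ (Fin N)) e)
        - c * ((((h * g b : isoG Y) : Equiv.Perm Y) y0 : EuclideanSpace ℝ (Fin N)) e)) ^ 2
      = (Fintype.card (isoG Y) : ℝ)⁻¹ * dist (f a) (f b) ^ 2 := by
    intro h
    have h1 : dist ((((h * g a : isoG Y) : Equiv.Perm Y) y0 : EuclideanSpace ℝ (Fin N)))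
        (((h * g b : isoG Y) : Equiv.Perm Y) y0 : EuclideanSpace ℝ (Fin N)) = dist (f a) (f b) := by
      have := h.2 ((g a : Equiv.Perm Y) y0) ((g b : Equiv.Perm Y) y0)
      rw [hgf, hgf] at this
      exact this
    rw [← h1, dist_sq_eq, Finset.mul_sum, ← hc]
    refine Finset.sum_congr rfl fun e _ => ?_
    ring
  simp only [Equiv.prodCongr_apply, Prod.map, Equiv.coe_mulRight, Equiv.refl_apply, id]
  simp_rw [hterm]
  rw [Finset.sum_const, Finset.card_univ, nsmul_eq_mul, ← mul_assoc, mul_inv_cancel₀ hcard.ne', one_mul]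

theorem isSubtransitive_of_orbitRep {ι : Type} {m : ℕ} (x : ι → EuclideanSpace ℝ (Fin m))
    (h : OrbitRep fun a b => dist (x a) (x b) ^ 2) : IsSubtransitive (Set.range x) := by
  classical
  obtain ⟨κ, _, _, v, σ, e⟩ := h
  let n := Fintype.card κ
  let E : κ ≃ Fin n := Fintype.equivFin κ
  let w : Fin n → ℝ := fun p => v (E.symm p)
  let P : Equiv.Perm (Fin n) → EuclideanSpace ℝ (Fin n) := fun τ => WithLp.toLp 2 fun p => w (τ p)
  have hP : ∀ τ p, P τ p = w (τ p) := fun τ p => rfl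
  let τ : ι → Equiv.Perm (Fin n) := fun a => (E.symm.trans (σ a)).trans E
  have hτ : ∀ a p, w (τ a p) = v (σ a (E.symm p)) := by
    intro a p
    simp [w, τ]
  have hdist : ∀ a b, dist (P (τ a)) (P (τ b)) = dist (x a) (x b) := by
    intro a b
    have h1 : dist (P (τ a)) (P (τ b)) ^ 2 = dist (x a) (x b) ^ 2 := by
      have ee : dist (x a) (x b) ^ 2 = ∑ k, (v (σ a k) - v (σ b k)) ^ 2 := (e a b).symm
      rw [dist_sq_eq, ee]
      simp only [hP, hτ]
      exact Equiv.sum_comp E.symm fun k => (v (σ a k) - v (σ b k)) ^ 2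
    exact (sq_eq_sq₀ dist_nonneg dist_nonneg).1 h1
  -- coordinate permutations
  let gρ : Equiv.Perm (Fin n) → EuclideanSpace ℝ (Fin n) ≃ᵢ EuclideanSpace ℝ (Fin n) := fun ρ =>
    (LinearIsometryEquiv.piLpCongrLeft 2 ℝ ℝ ρ.symm).toIsometryEquiv
  have hgρ : ∀ ρ τ', gρ ρ (P τ') = P (τ' * ρ) := by
    intro ρ τ'
    ext p
    simp [gρ, P]
  refine ⟨n, Set.range P, fun y => if hy : ∃ a, x a = y then P (τ hy.choose) else 0,
    ⟨Set.finite_range P, ?_⟩, ?_, ?_⟩
  · rintro _ ⟨τ₁, rfl⟩ _ ⟨τ₂, rfl⟩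
    refine ⟨gρ (τ₁⁻¹ * τ₂), ?_, ?_⟩
    · ext y
      constructor
      · rintro ⟨_, ⟨τ₃, rfl⟩, rfl⟩
        exact ⟨τ₃ * (τ₁⁻¹ * τ₂), (hgρ _ _).symm⟩
      · rintro ⟨τ₃, rfl⟩
        refine ⟨P (τ₃ * (τ₁⁻¹ * τ₂)⁻¹), ⟨_, rfl⟩, ?_⟩
        rw [hgρ, inv_mul_cancel_right]
    · rw [hgρ, mul_inv_cancel_left]
  · rintro _ ⟨a, rfl⟩
    have hy : ∃ a', x a' = x a := ⟨a, rfl⟩
    simp only [dif_pos hy]
    exact ⟨_, rfl⟩
  · rintro _ ⟨a, rfl⟩ _ ⟨b, rfl⟩
    have hy : ∃ a', x a' = x a := ⟨a, rfl⟩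
    have hz : ∃ a', x a' = x b := ⟨b, rfl⟩
    simp only [dif_pos hy, dif_pos hz]
    rw [hdist, hy.choose_spec, hz.choose_spec]

end Vale.Agent.Lib.P058.RatAff
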