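import Vale.Agent.Lib.P058.Defs

/-! # Finite Ramsey theorem for subsets of bounded size (ultrafilter proof) -/

namespace Vale.Agent.Lib.P058

open Filter

namespace RamseyBoundedAux

variable {C : Type} [Finite C]

lemma exists_ev (g : ℕ → C) : ∃ c, ∀ᶠ x in (hyperfilter ℕ : Filter ℕ), g x = c := by
  obtain ⟨c, hc⟩ := ((hyperfilter ℕ).map g).eq_pure_of_finite
  refine ⟨c, ?_⟩
  have h : ({c} : Set C) ∈ (((hyperfilter ℕ).map g : Ultrafilter C) : Filter C) := by
    rw [hc]; simp
  exact h

/-- The ultrafilter limit of a finitely valued sequence. -/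
noncomputable def lim (g : ℕ → C) : C := (exists_ev g).choose

lemma lim_spec (g : ℕ → C) : ∀ᶠ x in (hyperfilter ℕ : Filter ℕ), g x = lim g :=
  (exists_ev g).choose_spec

/-- Iterated limits. -/
noncomputable def Ls (f : Finset ℕ → C) : ℕ → Finset ℕ → C
  | 0, S => f S
  | i + 1, S => lim (fun x => Ls f i (insert x S))

lemma Ls_step (f : Finset ℕ → C) (i : ℕ) (S : Finset ℕ) :
    ∀ᶠ x in (hyperfilter ℕ : Filter ℕ), Ls f i (insert x S) = Ls f (i + 1) S :=
  lim_spec (fun x => Ls f i (insert x S))

lemma eventually_gt (b : ℕ) : ∀ᶠ x in (hyperfilter ℕ : Filter ℕ), b < x := by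
  have h1 : ∀ᶠ x in (cofinite : Filter ℕ), b < x := by
    rw [Nat.cofinite_eq_atTop]; exact eventually_gt_atTop b
  exact hyperfilter_le_cofinite h1

lemma finite_homog (f : Finset ℕ → C) (m n : ℕ) :
    ∃ H : Finset ℕ, H.card = n ∧ ∀ S, S ⊆ H → ∀ i, i + S.card ≤ m →
      Ls f i S = Ls f (i + S.card) ∅ := by
  induction n with
  | zero =>
    refine ⟨∅, rfl, ?_⟩
    intro S hS i _
    have : S = ∅ := Finset.subset_empty.mp hS
    subst this
    simp
  | succ n ih =>
    obtain ⟨H, hcard, hH⟩ := ih
    have hev : ∀ᶠ x in (hyperfilter ℕ : Filter ℕ),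
        (∀ S ∈ H.powerset, ∀ i ∈ Finset.range (m + 1), Ls f i (insert x S) = Ls f (i + 1) S) ∧
          x ∉ H := by
      refine Filter.Eventually.and ?_ ?_
      · rw [Filter.eventually_all_finset]
        intro S _
        rw [Filter.eventually_all_finset]
        intro i _
        exact Ls_step f i S
      · have h1 : ∀ᶠ x in (hyperfilter ℕ : Filter ℕ), (H.sup id) < x := eventually_gt _
        filter_upwards [h1] with x hx hxH
        have : x ≤ H.sup id := Finset.le_sup (f := id) hxH
        omega
    obtain ⟨a, ha, haH⟩ := hev.exists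
    refine ⟨insert a H, by rw [Finset.card_insert_of_notMem haH, hcard], ?_⟩
    intro S hS i hi
    by_cases haS : a ∈ S
    · have hS' : S.erase a ⊆ H := by
        intro y hy
        have hy' := Finset.mem_erase.mp hy
        have := hS hy'.2
        rcases Finset.mem_insert.mp this with h | h
        · exact absurd h hy'.1
        · exact h
      have hcardS : S.card = (S.erase a).card + 1 := by
        rw [Finset.card_erase_of_mem haS]
        have : 0 < S.card := Finset.card_pos.mpr ⟨a, haS⟩
        omega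
      have hins : insert a (S.erase a) = S := Finset.insert_erase haS
      have h1 := ha (S.erase a) (Finset.mem_powerset.mpr hS') i
        (Finset.mem_range.mpr (by omega))
      rw [hins] at h1
      rw [h1, hH (S.erase a) hS' (i + 1) (by omega), hcardS]
      congr 1
      omega
    · have hS' : S ⊆ H := by
        intro y hy
        have := hS hy
        rcases Finset.mem_insert.mp this with h | h
        · exact absurd (h ▸ hy) haS
        · exact h
      exact hH S hS' i hi

lemma finite_uniform (f : Finset ℕ → C) (m n : ℕ) :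
    ∃ H : Finset ℕ, H.card = n ∧ ∀ S S' : Finset ℕ, S ⊆ H → S' ⊆ H → S.card = S'.card →
      S.card ≤ m → f S = f S' := by
  obtain ⟨H, hcard, hH⟩ := finite_homog f m n
  refine ⟨H, hcard, ?_⟩
  intro S S' hS hS' hc hm
  have h1 := hH S hS 0 (by omega)
  have h2 := hH S' hS' 0 (by omega)
  simp only [Ls, zero_add] at h1 h2
  rw [h1, h2, hc]

end RamseyBoundedAux

open RamseyBoundedAux in
/-- Finite Ramsey: colours of subsets of `ℕ`; a homogeneous set inside `[0,L)` of size `≥ h`. -/
theorem ramsey_bounded (C : Type) [Finite C] (m h : ℕ) :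
    ∃ L : ℕ, ∀ f : Finset ℕ → C, ∃ H : Finset ℕ, (∀ x ∈ H, x < L) ∧ h ≤ H.card ∧
      ∀ S S' : Finset ℕ, S ⊆ H → S' ⊆ H → S.card = S'.card → S.card ≤ m → f S = f S' := by
  by_contra hcon
  push Not at hcon
  choose F hF using hcon
  let finf : Finset ℕ → C := fun S => lim (fun L => F L S)
  obtain ⟨H, hcard, hH⟩ := finite_uniform finf m h
  have hev : ∀ᶠ L in (hyperfilter ℕ : Filter ℕ),
      (∀ S ∈ H.powerset, F L S = finf S) ∧ (∀ x ∈ H, x < L) := by
    refine Filter.Eventually.and ?_ ?_
    · rw [Filter.eventually_all_finset]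
      intro S _
      exact lim_spec (fun L => F L S)
    · rw [Filter.eventually_all_finset]
      intro x _
      exact eventually_gt x
  obtain ⟨L, hL1, hL2⟩ := hev.exists
  obtain ⟨S, S', hS, hS', hc, hm, hne⟩ := hF L H hL2 hcard.ge
  apply hne
  rw [hL1 S (Finset.mem_powerset.mpr hS), hL1 S' (Finset.mem_powerset.mpr hS')]
  exact hH S S' hS hS' hc hm

end Vale.Agent.Lib.P058
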