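import Mathlib

/-! # P058: rational points of a rational subspace, positive combinations -/

namespace Vale.Agent.Lib.P058.RatAff

open Finset

/-- A property closed under convex combinations which holds at the rational points of an open set
holds on the open set. -/
theorem box {J : Type} [Fintype J] [DecidableEq J] (P : (J → ℝ) → Prop) (U : Set (J → ℝ))
    (hU : IsOpen U) (hrat : ∀ y ∈ U, (∀ j, ∃ q : ℚ, y j = q) → P y)
    (hconv : ∀ y z : J → ℝ, P y → P z → ∀ s t : ℝ, 0 < s → 0 < t → s + t = 1 → P (s • y + t • z))
    (a : J → ℝ) (ha : a ∈ U) : P a := by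
  obtain ⟨ε, hε, hball⟩ := Metric.isOpen_iff.1 hU a ha
  have key : ∀ F : Finset J, ∀ y : J → ℝ, (∀ j, |y j - a j| < ε) →
      (∀ j, j ∉ F → ∃ q : ℚ, y j = q) → P y := by
    intro F
    induction F using Finset.induction_on with
    | empty =>
      intro y hy hq
      refine hrat y (hball ?_) (fun j => hq j (by simp))
      rw [Metric.mem_ball, dist_pi_lt_iff hε]
      intro j
      rw [Real.dist_eq]
      exact hy j
    | insert j0 F hj0 ih =>
      intro y hy hq
      have hlo : a j0 - ε < y j0 := by
        have := (abs_lt.1 (hy j0)).1
        linarith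
      have hhi : y j0 < a j0 + ε := by
        have := (abs_lt.1 (hy j0)).2
        linarith
      obtain ⟨q1, h1, h2⟩ := exists_rat_btwn hlo
      obtain ⟨q2, h3, h4⟩ := exists_rat_btwn hhi
      have hq12 : (q1 : ℝ) < q2 := h2.trans h3
      have hup : ∀ q : ℚ, a j0 - ε < q → (q : ℝ) < a j0 + ε →
          P (Function.update y j0 (q : ℝ)) := by
        intro q hq1 hq2
        refine ih _ ?_ ?_
        · intro j
          by_cases e : j = j0
          · subst e
            simp only [Function.update_self]
            rw [abs_lt]
            constructor <;> linarith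
          · simp only [Function.update_of_ne e]
            exact hy j
        · intro j hj
          by_cases e : j = j0
          · subst e
            exact ⟨q, by simp⟩
          · simp only [Function.update_of_ne e]
            exact hq j (by simp [e, hj])
      have hd : (0 : ℝ) < q2 - q1 := by linarith
      have hP := hconv _ _ (hup q1 h1 (by linarith)) (hup q2 (by linarith) h4)
        ((q2 - y j0) / (q2 - q1)) ((y j0 - q1) / (q2 - q1))
        (div_pos (by linarith) hd) (div_pos (by linarith) hd)
        (by field_simp; ring)
      convert hP using 1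
      funext j
      by_cases e : j = j0
      · subst e
        simp only [Pi.add_apply, Pi.smul_apply, smul_eq_mul, Function.update_self]
        field_simp
        ring
      · simp only [Pi.add_apply, Pi.smul_apply, smul_eq_mul, Function.update_of_ne e]
        field_simp
        ring
  refine key Finset.univ a (fun j => ?_) (fun j hj => (hj (Finset.mem_univ j)).elim)
  simpa using hε

/-- The rational linear equations `L`. -/
def IsSol {E : Type} [Fintype E] (L : List (E → ℚ)) (x : E → ℝ) : Prop :=
  ∀ γ ∈ L, ∑ e, (γ e : ℝ) * x e = 0

/-- Real solutions of rational linear equations are spanned by rational solutions. -/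
theorem mem_span_rat {E : Type} [Fintype E] [DecidableEq E] (L : List (E → ℚ)) (x : E → ℝ)
    (hx : IsSol L x) :
    x ∈ Submodule.span ℝ {u : E → ℝ | (∀ e, ∃ q : ℚ, u e = q) ∧ IsSol L u} := by
  induction L generalizing x with
  | nil =>
    have hx' : x = ∑ e, x e • (Pi.single e 1 : E → ℝ) := by
      funext e
      simp [Finset.sum_apply, Pi.single_apply]
    rw [hx']
    refine Submodule.sum_mem _ fun e _ => Submodule.smul_mem _ _ (Submodule.subset_span ?_)
    refine ⟨fun e' => ?_, fun γ hγ => by simp at hγ⟩
    by_cases h : e' = e
    · subst h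
      exact ⟨1, by simp⟩
    · exact ⟨0, by simp [Pi.single_apply, h]⟩
  | cons γ L ih =>
    have hxL : IsSol L x := fun γ' hγ' => hx γ' (List.mem_cons_of_mem _ hγ')
    have hxγ : ∑ e, (γ e : ℝ) * x e = 0 := hx γ List.mem_cons_self
    have hspan := ih x hxL
    let φ : (E → ℝ) → ℝ := fun u => ∑ e, (γ e : ℝ) * u e
    have φadd : ∀ u v, φ (u + v) = φ u + φ v := by
      intro u v
      simp only [φ, Pi.add_apply, mul_add, Finset.sum_add_distrib]
    have φsmul : ∀ (c : ℝ) u, φ (c • u) = c * φ u := by
      intro c u
      simp only [φ, Pi.smul_apply, smul_eq_mul, Finset.mul_sum]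
      refine Finset.sum_congr rfl fun e _ => by ring
    have φrat : ∀ u : E → ℝ, (∀ e, ∃ q : ℚ, u e = q) → ∃ q : ℚ, φ u = q := by
      intro u hu
      choose q hq using hu
      refine ⟨∑ e, γ e * q e, ?_⟩
      simp only [φ, hq]
      push_cast
      rfl
    by_cases hall : ∀ u : E → ℝ, (∀ e, ∃ q : ℚ, u e = q) → IsSol L u → φ u = 0
    · refine Submodule.span_mono ?_ hspan
      rintro u ⟨h1, h2⟩
      refine ⟨h1, ?_⟩
      intro γ' hγ'
      rcases List.mem_cons.1 hγ' with rfl | hγ''
      · exact hall u h1 h2
      · exact h2 γ' hγ''
    · push Not at hall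
      obtain ⟨u0, hu0, hu0L, hφ⟩ := hall
      obtain ⟨q0, hq0⟩ := φrat u0 hu0
      have hisL : ∀ (u v : E → ℝ) (c : ℝ), IsSol L u → IsSol L v → IsSol L (u - c • v) := by
        intro u v c hu hv γ' hγ'
        have h1 := hu γ' hγ'
        have h2 := hv γ' hγ'
        simp only [Pi.sub_apply, Pi.smul_apply, smul_eq_mul, mul_sub, Finset.sum_sub_distrib]
        have : ∑ e, (γ' e : ℝ) * (c * v e) = c * ∑ e, (γ' e : ℝ) * v e := by
          rw [Finset.mul_sum]
          refine Finset.sum_congr rfl fun e _ => by ring
        rw [this, h1, h2]
        ring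
      have key : ∀ y ∈ Submodule.span ℝ {u : E → ℝ | (∀ e, ∃ q : ℚ, u e = q) ∧ IsSol L u},
          y - (φ y / φ u0) • u0 ∈
            Submodule.span ℝ {u : E → ℝ | (∀ e, ∃ q : ℚ, u e = q) ∧ IsSol (γ :: L) u} := by
        intro y hy
        induction hy using Submodule.span_induction with
        | mem u hu =>
          refine Submodule.subset_span ⟨?_, ?_⟩
          · intro e
            obtain ⟨q1, hq1⟩ := hu.1 e
            obtain ⟨q2, hq2⟩ := hu0 e
            obtain ⟨q3, hq3⟩ := φrat u hu.1
            refine ⟨q1 - (q3 / q0) * q2, ?_⟩
            simp only [Pi.sub_apply, Pi.smul_apply, smul_eq_mul, hq1, hq2, hq3, hq0]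
            push_cast
            rfl
          · intro γ' hγ'
            rcases List.mem_cons.1 hγ' with rfl | hγ''
            · have e1 : φ (u - (φ u / φ u0) • u0) = 0 := by
                have : u - (φ u / φ u0) • u0 = u + (-(φ u / φ u0)) • u0 := by
                  simp [sub_eq_add_neg]
                rw [this, φadd, φsmul]
                field_simp
                ring
              exact e1
            · exact hisL u u0 _ hu.2 hu0L γ' hγ''
        | zero =>
          have : (0 : E → ℝ) - (φ 0 / φ u0) • u0 = 0 := by
            have h0 : φ 0 = 0 := by simp [φ]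
            simp [h0]
          rw [this]
          exact Submodule.zero_mem _
        | add y z _ _ hy hz =>
          have : y + z - (φ (y + z) / φ u0) • u0
              = (y - (φ y / φ u0) • u0) + (z - (φ z / φ u0) • u0) := by
            rw [φadd, add_div, add_smul]
            abel
          rw [this]
          exact Submodule.add_mem _ hy hz
        | smul c y _ hy =>
          have : c • y - (φ (c • y) / φ u0) • u0 = c • (y - (φ y / φ u0) • u0) := by
            rw [φsmul, smul_sub, smul_smul, mul_div_assoc]
          rw [this]
          exact Submodule.smul_mem _ c hy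
      have := key x hspan
      have h0 : φ x = 0 := hxγ
      simpa [h0] using this

end Vale.Agent.Lib.P058.RatAff
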