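import Mathlib

/-! # P058: rational positive semidefinite matrices are Gram matrices of rational vectors -/

namespace Vale.Agent.Lib.P058.RatAff

open Finset

theorem rat_four_squares (a : ℚ) (ha : 0 ≤ a) : ∃ u : Fin 4 → ℚ, ∑ k, u k * u k = a := by
  have hnum : 0 ≤ a.num := Rat.num_nonneg.2 ha
  obtain ⟨p, q, r, s, h⟩ := Nat.sum_four_squares (a.num.toNat * a.den)
  have hd : (a.den : ℚ) ≠ 0 := by exact_mod_cast a.den_nz
  refine ⟨![p / a.den, q / a.den, r / a.den, s / a.den], ?_⟩
  simp only [Fin.sum_univ_four, Matrix.cons_val]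
  have h1 : ((p : ℚ) ^ 2 + q ^ 2 + r ^ 2 + s ^ 2) = a.num * a.den := by
    have : ((a.num.toNat : ℤ) : ℚ) = a.num := by
      rw [Int.toNat_of_nonneg hnum]
    rw [← this]
    exact_mod_cast h
  have h2 : a = a.num / a.den := (Rat.num_div_den a).symm
  have : p / (a.den : ℚ) * (p / a.den) + q / a.den * (q / a.den) + r / a.den * (r / a.den)
      + s / a.den * (s / a.den) = ((p : ℚ) ^ 2 + q ^ 2 + r ^ 2 + s ^ 2) / (a.den * a.den) := by
    field_simp
  rw [this, h1]
  conv_rhs => rw [h2]
  field_simp

theorem rat_cholesky (n : ℕ) (G : Fin n → Fin n → ℚ) (hsym : ∀ i j, G i j = G j i)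
    (hpsd : ∀ c : Fin n → ℚ, 0 ≤ ∑ i, ∑ j, c i * c j * G i j) :
    ∃ (κ : Type) (_ : Fintype κ) (y : Fin n → κ → ℚ), ∀ i j, ∑ k, y i k * y j k = G i j := by
  induction n with
  | zero => exact ⟨Empty, inferInstance, fun i => i.elim0, fun i => i.elim0⟩
  | succ n ih =>
    let a : ℚ := G 0 0
    let g : Fin n → ℚ := fun j => G 0 j.succ
    -- expansion of the form
    have hexp : ∀ (t : ℚ) (c' : Fin n → ℚ),
        ∑ i, ∑ j, (Fin.cons t c' : Fin (n + 1) → ℚ) i * (Fin.cons t c' : Fin (n + 1) → ℚ) j * G i j
        = t * t * a + 2 * t * ∑ j, c' j * g j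
          + ∑ i, ∑ j, c' i * c' j * G i.succ j.succ := by
      intro t c'
      simp only [Fin.sum_univ_succ, Fin.cons_zero, Fin.cons_succ]
      have hs : ∑ x, c' x * t * G x.succ 0 = t * ∑ j, c' j * g j := by
        rw [Finset.mul_sum]
        refine Finset.sum_congr rfl fun j _ => ?_
        rw [hsym j.succ 0]
        ring
      have hs2 : ∑ x, t * c' x * G 0 x.succ = t * ∑ j, c' j * g j := by
        rw [Finset.mul_sum]
        refine Finset.sum_congr rfl fun j _ => ?_
        ring
      rw [hs2]
      simp only [Finset.sum_add_distrib]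
      rw [hs]
      ring
    have ha : 0 ≤ a := by
      have := hpsd (Fin.cons 1 0)
      rw [hexp] at this
      simpa using this
    -- if `a = 0` then the first row vanishes
    have hg0 : a = 0 → ∀ j, g j = 0 := by
      intro h0 j
      by_contra hne
      have := hpsd (Fin.cons (-(G j.succ j.succ + 1) / (2 * g j)) (Pi.single j 1))
      rw [hexp, h0] at this
      have e1 : ∑ i, (Pi.single j 1 : Fin n → ℚ) i * g i = g j := by
        simp [Pi.single_apply]
      have e2 : ∑ i, ∑ i', (Pi.single j 1 : Fin n → ℚ) i * (Pi.single j 1 : Fin n → ℚ) i'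
          * G i.succ i'.succ = G j.succ j.succ := by
        simp [Pi.single_apply]
      rw [e1, e2] at this
      have e3 : 2 * (-(G j.succ j.succ + 1) / (2 * g j)) * g j = -(G j.succ j.succ + 1) := by
        field_simp
      rw [e3] at this
      linarith
    -- Schur complement
    let G' : Fin n → Fin n → ℚ := fun i j => G i.succ j.succ - g i * g j / a
    have hsym' : ∀ i j, G' i j = G' j i := by
      intro i j
      simp only [G']
      rw [hsym i.succ j.succ]
      ring
    have hpsd' : ∀ c : Fin n → ℚ, 0 ≤ ∑ i, ∑ j, c i * c j * G' i j := by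
      intro c
      by_cases h0 : a = 0
      · have := hpsd (Fin.cons 0 c)
        rw [hexp] at this
        simp only [zero_mul, mul_zero, add_zero, zero_add] at this
        refine this.trans_eq ?_
        refine Finset.sum_congr rfl fun i _ => Finset.sum_congr rfl fun j _ => ?_
        simp [G', h0]
      · set S := ∑ j, c j * g j with hS
        have := hpsd (Fin.cons (-S / a) c)
        rw [hexp] at this
        have e : ∑ i, ∑ j, c i * c j * G' i j
            = ∑ i, ∑ j, c i * c j * G i.succ j.succ - S * S / a := by
          have : S * S / a = ∑ i, ∑ j, c i * c j * (g i * g j / a) := by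
            rw [hS, Finset.sum_mul_sum, Finset.sum_div]
            refine Finset.sum_congr rfl fun i _ => ?_
            rw [Finset.sum_div]
            refine Finset.sum_congr rfl fun j _ => ?_
            ring
          rw [this, ← Finset.sum_sub_distrib]
          refine Finset.sum_congr rfl fun i _ => ?_
          rw [← Finset.sum_sub_distrib]
          refine Finset.sum_congr rfl fun j _ => ?_
          simp only [G']
          ring
        rw [e]
        have e2 : -S / a * (-S / a) * a + 2 * (-S / a) * S = -(S * S / a) := by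
          field_simp
          ring
        linarith
    obtain ⟨κ, _, y', hy'⟩ := ih G' hsym' hpsd'
    obtain ⟨u, hu⟩ := rat_four_squares a ha
    refine ⟨Fin 4 ⊕ κ, inferInstance,
      Fin.cases (Sum.elim u fun _ => 0) (fun i => Sum.elim (fun k => g i / a * u k) (y' i)), ?_⟩
    have hg : ∀ j, g j / a * a = g j := by
      intro j
      by_cases h0 : a = 0
      · simp [hg0 h0 j]
      · field_simp
    intro i j
    refine Fin.cases ?_ (fun i' => ?_) i <;> refine Fin.cases ?_ (fun j' => ?_) j
    · simp only [Fin.cases_zero, Fintype.sum_sum_type, Sum.elim_inl, Sum.elim_inr, mul_zero,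
        Finset.sum_const_zero, add_zero]
      exact hu
    · simp only [Fin.cases_zero, Fin.cases_succ, Fintype.sum_sum_type, Sum.elim_inl, Sum.elim_inr,
        zero_mul, Finset.sum_const_zero, add_zero]
      have : ∑ k, u k * (g j' / a * u k) = g j' / a * ∑ k, u k * u k := by
        rw [Finset.mul_sum]
        refine Finset.sum_congr rfl fun k _ => by ring
      rw [this, hu, hg]
    · simp only [Fin.cases_zero, Fin.cases_succ, Fintype.sum_sum_type, Sum.elim_inl, Sum.elim_inr,
        mul_zero, Finset.sum_const_zero, add_zero]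
      have : ∑ k, (g i' / a * u k) * u k = g i' / a * ∑ k, u k * u k := by
        rw [Finset.mul_sum]
        refine Finset.sum_congr rfl fun k _ => by ring
      rw [this, hu, hg, hsym]
    · simp only [Fin.cases_succ, Fintype.sum_sum_type, Sum.elim_inl, Sum.elim_inr]
      rw [hy']
      have : ∑ k, (g i' / a * u k) * (g j' / a * u k) = g i' / a * (g j' / a) * ∑ k, u k * u k := by
        rw [Finset.mul_sum]
        refine Finset.sum_congr rfl fun k _ => by ring
      rw [this, hu]
      simp only [G']
      by_cases h0 : a = 0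
      · simp [h0]
      · field_simp
        ring

end Vale.Agent.Lib.P058.RatAff
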