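import Vale.Agent.Lib.P058.RatDepMain

/-! # P058: on sets with rational affine structure, Ramsey implies spherical -/

namespace Vale.Agent.Lib.P058.RatAff

open Finset

section identities
variable {E : Type} [NormedAddCommGroup E] [InnerProductSpace ℝ E] {ι : Type} [Fintype ι]

theorem weighted_row (c : ι → ℝ) (hc0 : ∑ i, c i = 0) (z : ι → E) (i : ι) :
    ∑ j, c j * ‖z i - z j‖ ^ 2
      = -2 * inner ℝ (z i) (∑ j, c j • z j) + ∑ j, c j * ‖z j‖ ^ 2 := by
  have h1 : ∀ j, c j * ‖z i - z j‖ ^ 2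
      = c j * ‖z i‖ ^ 2 - 2 * (c j * inner ℝ (z i) (z j)) + c j * ‖z j‖ ^ 2 := by
    intro j
    rw [norm_sub_sq_real]
    ring
  simp only [h1]
  rw [Finset.sum_add_distrib, Finset.sum_sub_distrib, ← Finset.sum_mul, hc0, ← Finset.mul_sum,
    inner_sum]
  simp only [real_inner_smul_right]
  ring

theorem weighted_all (c : ι → ℝ) (hc0 : ∑ i, c i = 0) (z : ι → E) :
    ∑ i, c i * ∑ j, c j * ‖z i - z j‖ ^ 2 = -2 * ‖∑ j, c j • z j‖ ^ 2 := by
  simp only [weighted_row c hc0 z]
  have h1 : ∀ i, c i * (-2 * inner ℝ (z i) (∑ j, c j • z j) + ∑ j, c j * ‖z j‖ ^ 2)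
      = -2 * (c i * inner ℝ (z i) (∑ j, c j • z j)) + c i * ∑ j, c j * ‖z j‖ ^ 2 := by
    intro i
    ring
  simp only [h1]
  rw [Finset.sum_add_distrib, ← Finset.sum_mul, hc0, zero_mul, add_zero, ← Finset.mul_sum,
    ← real_inner_self_eq_norm_sq, sum_inner]
  simp only [real_inner_smul_left]

end identities

/-- Weighted sums of squared norms are constant on congruent copies, for an affine dependency. -/
theorem weighted_norm_eq {ι : Type} [Fintype ι] {E E' : Type} [NormedAddCommGroup E]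
    [InnerProductSpace ℝ E] [NormedAddCommGroup E'] [InnerProductSpace ℝ E'] (c : ι → ℝ)
    (hc0 : ∑ i, c i = 0) (x : ι → E) (hx : ∑ i, c i • x i = 0) (y : ι → E')
    (hd : ∀ i j, dist (y i) (y j) = dist (x i) (x j)) :
    ∑ i, c i * ‖y i‖ ^ 2 = ∑ i, c i * ‖x i‖ ^ 2 := by
  have hd' : ∀ i j, ‖y i - y j‖ = ‖x i - x j‖ := by
    intro i j
    rw [← dist_eq_norm, ← dist_eq_norm, hd]
  have hY : ∑ j, c j • y j = 0 := by
    have h1 := weighted_all c hc0 y
    have h2 := weighted_all c hc0 x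
    simp only [hd'] at h1
    rw [hx, norm_zero] at h2
    rw [h2] at h1
    have h3 : ‖∑ j, c j • y j‖ ^ 2 = 0 := by
      simp only [ne_eq, OfNat.ofNat_ne_zero, not_false_eq_true, zero_pow, mul_zero] at h1
      linarith
    exact norm_eq_zero.1 ((pow_eq_zero_iff two_ne_zero).1 h3)
  cases isEmpty_or_nonempty ι with
  | inl h =>
    simp
  | inr h =>
    obtain ⟨i⟩ := h
    have h1 := weighted_row c hc0 y i
    have h2 := weighted_row c hc0 x i
    rw [hY, inner_zero_right] at h1
    rw [hx, inner_zero_right] at h2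
    simp only [hd'] at h1
    linarith

/-- A non spherical affine dependency with integer weights prevents the Ramsey property. -/
theorem not_isRamsey_of_weight {ι : Type} [Fintype ι] {m : ℕ} (x : ι → EuclideanSpace ℝ (Fin m))
    (c : ι → ℤ) (hc0 : ∑ i, c i = 0) (hx : ∑ i, (c i : ℝ) • x i = 0)
    (hΞ : ∑ i, (c i : ℝ) * ‖x i‖ ^ 2 ≠ 0) : ¬ IsRamsey (Set.range x) := by
  intro hR
  set Ξ := ∑ i, (c i : ℝ) * ‖x i‖ ^ 2 with hΞdef
  have hM : 0 < 2 * |Ξ| := by positivity
  set M := 2 * |Ξ| with hMdef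
  let Λ : ℕ := ∑ i, (c i).natAbs
  obtain ⟨D, _, h⟩ := hR (2 * Λ + 2) (by omega)
  let R : ℝ := ((2 * Λ + 2 : ℕ) : ℝ)
  have hRpos : 0 < R := by
    simp only [R]
    positivity
  let g : EuclideanSpace ℝ (Fin D) → ℝ := fun y => Int.fract (‖y‖ ^ 2 / M)
  have hg0 : ∀ y, 0 ≤ g y := fun y => Int.fract_nonneg _
  have hg1 : ∀ y, g y < 1 := fun y => Int.fract_lt_one _
  let col : EuclideanSpace ℝ (Fin D) → Fin (2 * Λ + 2) := fun y =>
    ⟨⌊g y * R⌋₊, by
      rw [Nat.floor_lt (mul_nonneg (hg0 y) hRpos.le)]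
      have := mul_lt_mul_of_pos_right (hg1 y) hRpos
      simpa [R] using this⟩
  obtain ⟨f, k, hd, hk⟩ := h col
  let y : ι → EuclideanSpace ℝ (Fin D) := fun i => f (x i)
  have hcell : ∀ i, |g (y i) - (k : ℕ) / R| < 1 / R := by
    intro i
    have h1 : ⌊g (y i) * R⌋₊ = (k : ℕ) := by
      have := hk (x i) ⟨i, rfl⟩
      exact congrArg Fin.val this
    have h2 := (Nat.floor_eq_iff (mul_nonneg (hg0 _) hRpos.le)).1 h1
    rw [abs_lt]
    constructor
    · have : (k : ℝ) / R ≤ g (y i) := by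
        rw [div_le_iff₀ hRpos]
        exact h2.1
      have h3 : 0 < 1 / R := by positivity
      linarith
    · have : g (y i) < ((k : ℕ) + 1) / R := by
        rw [lt_div_iff₀ hRpos]
        exact h2.2
      have h4 : ((k : ℕ) + 1 : ℝ) / R = (k : ℕ) / R + 1 / R := by
        rw [add_div]
      linarith
  have hc0R : ∑ i, (c i : ℝ) = 0 := by
    exact_mod_cast hc0
  have hw := weighted_norm_eq (fun i => (c i : ℝ)) hc0R x hx y
    (fun i j => hd (x i) ⟨i, rfl⟩ (x j) ⟨j, rfl⟩)
  -- integer parts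
  let n : ι → ℤ := fun i => ⌊‖y i‖ ^ 2 / M⌋
  have hsplit : ∀ i, ‖y i‖ ^ 2 / M = n i + g (y i) := fun i =>
    (Int.floor_add_fract _).symm
  let N : ℤ := ∑ i, c i * n i
  let δ : ℝ := ∑ i, (c i : ℝ) * (g (y i) - (k : ℕ) / R)
  have hE : Ξ / M = N + δ := by
    have h1 : Ξ / M = ∑ i, (c i : ℝ) * (‖y i‖ ^ 2 / M) := by
      rw [hΞdef, ← hw, Finset.sum_div]
      exact Finset.sum_congr rfl fun i _ => by ring
    rw [h1]
    simp only [hsplit, N, δ]
    push_cast
    rw [← Finset.sum_add_distrib]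
    have h2 : ∑ i, (c i : ℝ) * (n i + g (y i))
        = ∑ i, ((c i : ℝ) * n i + (c i : ℝ) * (g (y i) - (k : ℕ) / R))
          + (∑ i, (c i : ℝ)) * ((k : ℕ) / R) := by
      rw [Finset.sum_mul, ← Finset.sum_add_distrib]
      exact Finset.sum_congr rfl fun i _ => by ring
    rw [h2, hc0R, zero_mul, add_zero]
  have hδ : |δ| < 1 / 2 := by
    have h1 : |δ| ≤ ∑ i, |(c i : ℝ)| * (1 / R) := by
      refine (Finset.abs_sum_le_sum_abs _ _).trans (Finset.sum_le_sum fun i _ => ?_)
      rw [abs_mul]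
      exact mul_le_mul_of_nonneg_left (hcell i).le (abs_nonneg _)
    have h2 : ∑ i, |(c i : ℝ)| * (1 / R) = (Λ : ℝ) * (1 / R) := by
      rw [← Finset.sum_mul]
      congr 1
      simp only [Λ]
      rw [Nat.cast_sum]
      refine Finset.sum_congr rfl fun i _ => ?_
      rw [Nat.cast_natAbs, Int.cast_abs]
    have h3 : (Λ : ℝ) * (1 / R) < 1 / 2 := by
      have : R = 2 * (Λ : ℝ) + 2 := by
        simp only [R]
        push_cast
        ring
      rw [this]
      have hL : (0 : ℝ) ≤ Λ := Nat.cast_nonneg _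
      rw [mul_one_div, div_lt_div_iff₀ (by positivity) (by norm_num)]
      linarith
    linarith
  have habs : |Ξ / M| = 1 / 2 := by
    rw [abs_div, hMdef, abs_mul, abs_abs]
    have h1 : |Ξ| ≠ 0 := abs_ne_zero.2 hΞ
    norm_num
    field_simp
  rw [hE] at habs
  by_cases hN : N = 0
  · rw [hN] at habs
    simp only [Int.cast_zero, zero_add] at habs
    linarith
  · have h1 : (1 : ℝ) ≤ |(N : ℝ)| := by
      have : (1 : ℤ) ≤ |N| := Int.one_le_abs hN
      exact_mod_cast this
    have h2 : |(N : ℝ)| ≤ |(N : ℝ) + δ| + |δ| := by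
      have := abs_sub (((N : ℝ) + δ)) δ
      simpa using this
    linarith

/-- A finite family of rationals has a common denominator. -/
theorem exists_common_den {ι : Type} [Fintype ι] (q : ι → ℚ) :
    ∃ N : ℕ, 0 < N ∧ ∀ i, ∃ n : ℤ, q i * N = n := by
  classical
  refine ⟨∏ j, (q j).den, Finset.prod_pos fun j _ => (q j).den_pos, fun i => ?_⟩
  obtain ⟨t, ht⟩ := Finset.dvd_prod_of_mem (fun j => (q j).den) (Finset.mem_univ i)
  refine ⟨(q i).num * t, ?_⟩
  rw [ht]
  push_cast
  rw [← mul_assoc, Rat.mul_den_eq_num]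

/-- On sets with a rational affine structure, Ramsey implies spherical. -/
theorem spherical_of_isRamsey {ι : Type} [Fintype ι] {d m : ℕ} (r : ι → Fin d → ℚ)
    (f : Fin d → EuclideanSpace ℝ (Fin m)) (hf : LinearIndependent ℝ f)
    (x0 : EuclideanSpace ℝ (Fin m))
    (hR : IsRamsey (Set.range fun i => x0 + ∑ p, (r i p : ℝ) • f p)) :
    ∃ (z : EuclideanSpace ℝ (Fin m)) (ρ : ℝ), ∀ i, dist (x0 + ∑ p, (r i p : ℝ) • f p) z = ρ := by
  classical
  by_contra hns
  let A : Fin d → Fin d → ℝ := fun p q => inner ℝ (f p) (f q)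
  let τ : ι → ℝ := fun i => - ∑ p, ∑ q, (r i p : ℝ) * r i q * A p q
  -- a solution of the linear system gives a center
  have hnosol : ¬ ∃ (b : Fin d → ℝ) (C : ℝ),
      ∀ i, 2 * ∑ p, (r i p : ℝ) * b p - C = τ i := by
    rintro ⟨b, C, hb⟩
    apply hns
    -- solve `A w = b`
    let Am : Matrix (Fin d) (Fin d) ℝ := Matrix.of A
    have hinj : Function.Injective Am.mulVec := by
      intro w w' h
      by_contra hne
      have hw : w - w' ≠ 0 := sub_ne_zero.2 hne
      have h1 : ∑ p, (w - w') p • f p ≠ 0 := by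
        intro h0
        apply hw
        funext p
        exact Fintype.linearIndependent_iff.1 hf _ h0 p
      have h2 : 0 < inner ℝ (∑ p, (w - w') p • f p) (∑ p, (w - w') p • f p) :=
        real_inner_self_pos.2 h1
      rw [inner_sum_sum] at h2
      have h3 : Am.mulVec (w - w') = 0 := by
        rw [Matrix.mulVec_sub, h, sub_self]
      have h4 : ∑ p, ∑ q, (w - w') p * (w - w') q * inner ℝ (f p) (f q)
          = ∑ p, (w - w') p * Am.mulVec (w - w') p := by
        refine Finset.sum_congr rfl fun p _ => ?_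
        simp only [Matrix.mulVec, dotProduct, Finset.mul_sum, Am, A, Matrix.of_apply]
        refine Finset.sum_congr rfl fun q _ => by ring
      rw [h4, h3] at h2
      simp at h2
    have hsurj : Function.Surjective Am.mulVec :=
      Matrix.mulVec_surjective_iff_isUnit.2 (Matrix.mulVec_injective_iff_isUnit.1 hinj)
    obtain ⟨w, hw⟩ := hsurj b
    let u : EuclideanSpace ℝ (Fin m) := ∑ q, w q • f q
    have hu : ∀ p, inner ℝ (f p) u = b p := by
      intro p
      rw [← hw]
      simp only [u, inner_sum, real_inner_smul_right, Matrix.mulVec, dotProduct, Am, A,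
        Matrix.of_apply]
      exact Finset.sum_congr rfl fun q _ => by ring
    refine ⟨x0 - u, Real.sqrt (‖u‖ ^ 2 + C), fun i => ?_⟩
    have h2 : dist (x0 + ∑ p, (r i p : ℝ) • f p) (x0 - u) ^ 2 = ‖u‖ ^ 2 + C := by
      rw [dist_eq_norm, ← real_inner_self_eq_norm_sq]
      have e : x0 + ∑ p, (r i p : ℝ) • f p - (x0 - u) = u + ∑ p, (r i p : ℝ) • f p := by
        abel
      have e4 : inner ℝ (∑ p, (r i p : ℝ) • f p) (∑ p, (r i p : ℝ) • f p)
          = ∑ p, ∑ q, (r i p : ℝ) * (r i q : ℝ) * inner ℝ (f p) (f q) := inner_sum_sum _ _ _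
      rw [e, inner_add_left, inner_add_right, inner_add_right, e4, real_inner_self_eq_norm_sq]
      have e2 : inner ℝ (∑ p, (r i p : ℝ) • f p) u = ∑ p, (r i p : ℝ) * b p := by
        rw [sum_inner]
        refine Finset.sum_congr rfl fun p _ => ?_
        rw [real_inner_smul_left, hu]
      have e3 : inner ℝ u (∑ p, (r i p : ℝ) • f p) = ∑ p, (r i p : ℝ) * b p := by
        rw [real_inner_comm, e2]
      rw [e2, e3]
      have := hb i
      simp only [τ, A] at this
      linarith
    rw [← h2, Real.sqrt_sq dist_nonneg]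
  -- the separating functional
  let col : Fin d ⊕ Unit → (ι → ℝ) :=
    Sum.elim (fun p i => 2 * (r i p : ℝ)) (fun _ _ => -1)
  have hτ : τ ∉ Submodule.span ℝ (Set.range col) := by
    intro hmem
    obtain ⟨a, ha⟩ := (Submodule.mem_span_range_iff_exists_fun ℝ).1 hmem
    apply hnosol
    refine ⟨fun p => a (Sum.inl p), a (Sum.inr ()), fun i => ?_⟩
    have h1 := congrFun ha i
    rw [Fintype.sum_sum_type] at h1
    simp only [Finset.sum_apply, Pi.add_apply, Pi.smul_apply, smul_eq_mul, col, Sum.elim_inl,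
      Sum.elim_inr, Fintype.univ_unit, Finset.sum_singleton] at h1
    rw [← h1, Finset.mul_sum]
    have : ∀ p, 2 * ((r i p : ℝ) * a (Sum.inl p)) = a (Sum.inl p) * (2 * (r i p : ℝ)) := by
      intro p
      ring
    simp only [this]
    ring
  obtain ⟨F, hFτ, hFk⟩ := Submodule.exists_le_ker_of_notMem hτ
  let c : ι → ℝ := fun i => F (Pi.single i 1)
  have hF : ∀ y : ι → ℝ, F y = ∑ i, c i * y i := by
    intro y
    have hy : y = ∑ i, y i • (Pi.single i 1 : ι → ℝ) := by
      funext e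
      simp [Finset.sum_apply, Pi.single_apply]
    conv_lhs => rw [hy]
    rw [map_sum]
    refine Finset.sum_congr rfl fun i _ => ?_
    rw [map_smul, smul_eq_mul, mul_comm]
  have hcol : ∀ e, F (col e) = 0 := fun e =>
    hFk (Submodule.subset_span ⟨e, rfl⟩)
  have hc1 : ∑ i, c i = 0 := by
    have := hcol (Sum.inr ())
    rw [hF] at this
    simp only [col, Sum.elim_inr] at this
    have h2 : ∑ i, c i * (-1 : ℝ) = - ∑ i, c i := by
      rw [← Finset.sum_mul]
      ring
    rw [h2] at this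
    linarith
  have hcp : ∀ p, ∑ i, c i * (r i p : ℝ) = 0 := by
    intro p
    have := hcol (Sum.inl p)
    rw [hF] at this
    simp only [col, Sum.elim_inl] at this
    have h2 : ∑ i, c i * (2 * (r i p : ℝ)) = 2 * ∑ i, c i * (r i p : ℝ) := by
      rw [Finset.mul_sum]
      exact Finset.sum_congr rfl fun i _ => by ring
    rw [h2] at this
    linarith
  -- rational solutions
  let L : List (ι → ℚ) := (fun _ => 1) :: (Finset.univ.toList : List (Fin d)).map fun p i => r i p
  have hL : ∀ y : ι → ℝ, IsSol L y ↔ (∑ i, y i = 0 ∧ ∀ p, ∑ i, y i * (r i p : ℝ) = 0) := by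
    intro y
    constructor
    · intro h
      refine ⟨?_, fun p => ?_⟩
      · have := h _ List.mem_cons_self
        simpa using this
      · have := h (fun i => r i p) (List.mem_cons_of_mem _
          (List.mem_map.2 ⟨p, Finset.mem_toList.2 (Finset.mem_univ p), rfl⟩))
        rw [← this]
        exact Finset.sum_congr rfl fun i _ => by ring
    · rintro ⟨h1, h2⟩ γ hγ
      rcases List.mem_cons.1 hγ with rfl | hγ'
      · simpa using h1
      · obtain ⟨p, _, rfl⟩ := List.mem_map.1 hγ'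
        rw [← h2 p]
        exact Finset.sum_congr rfl fun i _ => by ring
  have hspan := mem_span_rat L c ((hL c).2 ⟨hc1, hcp⟩)
  have hex : ∃ u : ι → ℝ, (∀ e, ∃ q : ℚ, u e = q) ∧ IsSol L u ∧ ∑ i, u i * τ i ≠ 0 := by
    by_contra hall
    push Not at hall
    have hzero : ∀ y ∈ Submodule.span ℝ {u : ι → ℝ | (∀ e, ∃ q : ℚ, u e = q) ∧ IsSol L u},
        ∑ i, y i * τ i = 0 := by
      intro y hy
      induction hy using Submodule.span_induction with
      | mem u hu => exact hall u hu.1 hu.2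
      | zero => simp
      | add y z _ _ hy hz =>
        simp only [Pi.add_apply, add_mul, Finset.sum_add_distrib, hy, hz, add_zero]
      | smul a y _ hy =>
        simp only [Pi.smul_apply, smul_eq_mul, mul_assoc, ← Finset.mul_sum, hy, mul_zero]
    have h0 := hzero c hspan
    apply hFτ
    rw [hF]
    exact h0
  obtain ⟨u, huq, huL, huτ⟩ := hex
  obtain ⟨hu1, hup⟩ := (hL u).1 huL
  choose q hq using huq
  obtain ⟨N, hNpos, hN⟩ := exists_common_den q
  choose n hn using hN
  have hnu : ∀ i, (n i : ℝ) = u i * N := by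
    intro i
    rw [hq i]
    have := hn i
    exact_mod_cast this.symm
  have hNR : (N : ℝ) ≠ 0 := by
    exact_mod_cast hNpos.ne'
  let x : ι → EuclideanSpace ℝ (Fin m) := fun i => x0 + ∑ p, (r i p : ℝ) • f p
  have hn0 : ∑ i, n i = 0 := by
    have : ((∑ i, n i : ℤ) : ℝ) = 0 := by
      push_cast
      simp only [hnu]
      rw [← Finset.sum_mul, hu1, zero_mul]
    exact_mod_cast this
  have hnp : ∀ p, ∑ i, (n i : ℝ) * (r i p : ℝ) = 0 := by
    intro p
    simp only [hnu]
    have : ∑ i, u i * (N : ℝ) * (r i p : ℝ) = (N : ℝ) * ∑ i, u i * (r i p : ℝ) := by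
      rw [Finset.mul_sum]
      exact Finset.sum_congr rfl fun i _ => by ring
    rw [this, hup, mul_zero]
  have hnR : ∑ i, (n i : ℝ) = 0 := by
    exact_mod_cast hn0
  have hdep : ∑ i, (n i : ℝ) • x i = 0 := by
    simp only [x, smul_add, Finset.sum_add_distrib, ← Finset.sum_smul, hnR, zero_smul, zero_add,
      Finset.smul_sum, smul_smul]
    rw [Finset.sum_comm]
    refine Finset.sum_eq_zero fun p _ => ?_
    rw [← Finset.sum_smul, hnp, zero_smul]
  have hnorm : ∀ i, ‖x i‖ ^ 2 = ‖x0‖ ^ 2 + 2 * ∑ p, (r i p : ℝ) * inner ℝ x0 (f p) - τ i := by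
    intro i
    simp only [x]
    rw [← real_inner_self_eq_norm_sq, inner_add_left, inner_add_right, inner_add_right,
      inner_sum_sum, real_inner_self_eq_norm_sq]
    have e2 : inner ℝ x0 (∑ p, (r i p : ℝ) • f p) = ∑ p, (r i p : ℝ) * inner ℝ x0 (f p) := by
      rw [inner_sum]
      refine Finset.sum_congr rfl fun p _ => ?_
      rw [real_inner_smul_right]
    have e3 : inner ℝ (∑ p, (r i p : ℝ) • f p) x0 = ∑ p, (r i p : ℝ) * inner ℝ x0 (f p) := by
      rw [real_inner_comm, e2]
    rw [e2, e3]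
    simp only [τ, A]
    ring
  have hΞ : ∑ i, (n i : ℝ) * ‖x i‖ ^ 2 ≠ 0 := by
    have e1 : ∑ i, (n i : ℝ) * ‖x i‖ ^ 2 = - ((N : ℝ) * ∑ i, u i * τ i) := by
      simp only [hnorm, mul_sub, mul_add]
      rw [Finset.sum_sub_distrib, Finset.sum_add_distrib, ← Finset.sum_mul, hnR, zero_mul, zero_add]
      have e2 : ∑ i, (n i : ℝ) * (2 * ∑ p, (r i p : ℝ) * inner ℝ x0 (f p)) = 0 := by
        have : ∀ i, (n i : ℝ) * (2 * ∑ p, (r i p : ℝ) * inner ℝ x0 (f p))
            = ∑ p, 2 * inner ℝ x0 (f p) * ((n i : ℝ) * (r i p : ℝ)) := by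
          intro i
          rw [Finset.mul_sum, Finset.mul_sum]
          exact Finset.sum_congr rfl fun p _ => by ring
        simp only [this]
        rw [Finset.sum_comm]
        refine Finset.sum_eq_zero fun p _ => ?_
        rw [← Finset.mul_sum, hnp, mul_zero]
      rw [e2, zero_sub, Finset.mul_sum]
      congr 1
      exact Finset.sum_congr rfl fun i _ => by rw [hnu]; ring
    rw [e1]
    exact neg_ne_zero.2 (mul_ne_zero hNR huτ)
  exact not_isRamsey_of_weight x n hn0 hdep hΞ hR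

end Vale.Agent.Lib.P058.RatAff
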