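import Vale.Agent.Lib.P058.Defs

/-! # P058: literal transitive and subtransitive sets

A finite set `X` of a Euclidean space is transitive if the isometries of the space mapping `X` onto
itself act transitively on `X`; a finite set is subtransitive if it is congruent to a subset of a
finite transitive set, in a Euclidean space of any dimension. The theorem below passes from finite
groups acting on `X` to this literal form. -/

namespace Vale.Agent.Lib.P058

/-- `X` is a finite transitive set: the isometries of the ambient Euclidean space that map `X` onto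
itself act transitively on `X`. -/
def IsTransitiveSet {ι : Type*} [Fintype ι] (X : Set (EuclideanSpace ℝ ι)) : Prop :=
  X.Finite ∧ ∀ x ∈ X, ∀ y ∈ X,
    ∃ φ : EuclideanSpace ℝ ι ≃ᵢ EuclideanSpace ℝ ι, φ '' X = X ∧ φ x = y

/-- `A` is subtransitive: some map preserving all distances on `A` sends `A` into a finite
transitive set of some Euclidean space. -/
def IsSubtransitive {ι : Type*} [Fintype ι] (A : Set (EuclideanSpace ℝ ι)) : Prop :=
  ∃ (n : ℕ) (X : Set (EuclideanSpace ℝ (Fin n))) (f : EuclideanSpace ℝ ι → EuclideanSpace ℝ (Fin n)),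
    IsTransitiveSet X ∧ (∀ a ∈ A, f a ∈ X) ∧ ∀ a ∈ A, ∀ b ∈ A, dist (f a) (f b) = dist a b

/-- A finite transitive set carries a finite group acting transitively by isometries. -/
theorem IsTransitiveSet.isRamsey_of_master {n : ℕ} {X : Set (EuclideanSpace ℝ (Fin n))}
    (hX : IsTransitiveSet X)
    (master : ∀ (Γ : Type) [Group Γ] [Fintype Γ] [MulAction Γ X],
      (∀ (g : Γ) (a b : X),
        dist ((g • a : X) : EuclideanSpace ℝ (Fin n)) (g • b : X) =
          dist (a : EuclideanSpace ℝ (Fin n)) b) →
      (∀ a b : X, ∃ g : Γ, g • a = b) → IsRamsey X) :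
    IsRamsey X := by
  classical
  obtain ⟨hfin, htr⟩ := hX
  haveI : Finite X := hfin
  -- the group of distance preserving permutations of `X`
  let Γ : Subgroup (Equiv.Perm X) :=
    { carrier := {σ | ∀ a b : X, dist ((σ a : X) : EuclideanSpace ℝ (Fin n)) (σ b : X) =
        dist (a : EuclideanSpace ℝ (Fin n)) b}
      mul_mem' := by
        intro σ τ hσ hτ a b
        simp only [Equiv.Perm.coe_mul, Function.comp_apply]
        rw [hσ, hτ]
      one_mem' := by
        intro a b
        simp
      inv_mem' := by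
        intro σ hσ a b
        have h := hσ (σ⁻¹ a) (σ⁻¹ b)
        simpa using h.symm }
  haveI : Fintype Γ := Fintype.ofFinite Γ
  refine master Γ ?_ ?_
  · intro g a b
    exact g.2 a b
  · intro a b
    obtain ⟨φ, himg, hφ⟩ := htr a.1 a.2 b.1 b.2
    have hmaps : ∀ x : X, φ x.1 ∈ X := fun x =>
      (Set.ext_iff.1 himg (φ x.1)).1 ⟨x.1, x.2, rfl⟩
    let s : X → X := fun x => ⟨φ x.1, hmaps x⟩
    have hinj : Function.Injective s := by
      intro x y hxy
      exact Subtype.ext (φ.injective (congrArg Subtype.val hxy))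
    have hsurj : Function.Surjective s := by
      intro y
      have hy : y.1 ∈ φ '' X := by
        rw [himg]
        exact y.2
      obtain ⟨x, hx, hxy⟩ := hy
      exact ⟨⟨x, hx⟩, Subtype.ext hxy⟩
    let σ : Equiv.Perm X := Equiv.ofBijective s ⟨hinj, hsurj⟩
    have hσ : σ ∈ Γ := by
      intro x y
      exact φ.dist_eq x.1 y.1
    refine ⟨⟨σ, hσ⟩, Subtype.ext hφ⟩

/-- Subsets of congruent copies of Ramsey sets are Ramsey. -/
theorem isRamsey_of_congruent_subset {ι : Type*} [Fintype ι] {A : Set (EuclideanSpace ℝ ι)} {n : ℕ}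
    {X : Set (EuclideanSpace ℝ (Fin n))} (f : EuclideanSpace ℝ ι → EuclideanSpace ℝ (Fin n))
    (hX : IsRamsey X) (hf : ∀ a ∈ A, f a ∈ X)
    (hd : ∀ a ∈ A, ∀ b ∈ A, dist (f a) (f b) = dist a b) : IsRamsey A := by
  intro r hr
  obtain ⟨D, hD, h⟩ := hX r hr
  refine ⟨D, hD, fun c => ?_⟩
  obtain ⟨g, k, hg, hk⟩ := h c
  refine ⟨g ∘ f, k, ?_, ?_⟩
  · intro x hx y hy
    rw [Function.comp_apply, Function.comp_apply, hg _ (hf x hx) _ (hf y hy), hd x hx y hy]
  · intro x hx
    exact hk _ (hf x hx)

/-- If every set with a transitive isometric action of a finite group is Ramsey, then every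
subtransitive set is Ramsey. -/
theorem isRamsey_of_isSubtransitive
    (master : ∀ (n : ℕ) (X : Set (EuclideanSpace ℝ (Fin n))) (Γ : Type) [Group Γ] [Fintype Γ]
      [MulAction Γ X],
      (∀ (g : Γ) (a b : X),
        dist ((g • a : X) : EuclideanSpace ℝ (Fin n)) (g • b : X) =
          dist (a : EuclideanSpace ℝ (Fin n)) b) →
      (∀ a b : X, ∃ g : Γ, g • a = b) → IsRamsey X)
    {ι : Type*} [Fintype ι] {A : Set (EuclideanSpace ℝ ι)} (hA : IsSubtransitive A) : IsRamsey A := by
  obtain ⟨n, X, f, hX, hf, hd⟩ := hA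
  exact isRamsey_of_congruent_subset f (hX.isRamsey_of_master (master n X)) hf hd

end Vale.Agent.Lib.P058
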