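import Vale.Agent.Lib.P058.FG
import Vale.Agent.Lib.P058.Univ
import Vale.Agent.Lib.P058.Subtrans

/-! # P058: every finite set with a transitive group of isometries is Ramsey -/

namespace Vale.Agent.Lib.P058

/-- A set with a transitive isometric action of a finite group is Ramsey. -/
theorem isRamsey_of_group_action {ι Γ : Type} [Fintype ι] [Group Γ] [Fintype Γ]
    (X : Set (EuclideanSpace ℝ ι)) [MulAction Γ X]
    (hiso : ∀ (g : Γ) (a b : X),
      dist ((g • a : X) : EuclideanSpace ℝ ι) (g • b : X) = dist (a : EuclideanSpace ℝ ι) b)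
    (htr : ∀ a b : X, ∃ g : Γ, g • a = b) : IsRamsey X := by
  classical
  by_cases hne : Nonempty X
  · obtain ⟨x₀⟩ := hne
    obtain ⟨W, hW, hid⟩ := Univ.exists_identity Γ (fun t : Γ => (FreeGroup.of t : FreeGroup Γ))
    have hcert : CertG (id : Γ → Γ) := FG.certG_of_identity id W hW (by simpa using hid)
    exact isRamsey_of_certG hiso x₀ (fun y => htr x₀ y) (b₀ := id)
      (fun t t' h => by simp only [id] at h; rw [h]) hcert
  · intro r hr
    refine ⟨1, le_refl _, fun c => ⟨fun _ => 0, ⟨0, by omega⟩, ?_, ?_⟩⟩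
    · intro x hx
      exact absurd ⟨⟨x, hx⟩⟩ hne
    · intro x hx
      exact absurd ⟨⟨x, hx⟩⟩ hne

/-- Every subtransitive set is Ramsey. -/
theorem isRamsey_of_subtransitive {ι : Type*} [Fintype ι] {A : Set (EuclideanSpace ℝ ι)}
    (hA : IsSubtransitive A) : IsRamsey A :=
  isRamsey_of_isSubtransitive
    (fun _ X _ _ _ _ hiso htr => isRamsey_of_group_action X hiso htr) hA

end Vale.Agent.Lib.P058
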