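import Vale.Agent.Lib.P058.RatDepBox
import Vale.Agent.Lib.P058.RatDepRep
import Vale.Agent.Lib.P058.RatDepChol
import Vale.Agent.Lib.P058.Final
import Vale.Agent.Lib.P058.UnivRamsey

/-! # P058: spherical sets with rational affine dependencies are subtransitive and Ramsey -/

namespace Vale.Agent.Lib.P058.RatAff

open Finset Filter Topology

/-- Gram computation for a family of rational vectors. -/
theorem gram_sum {κ : Type} [Fintype κ] {d : ℕ} (y : Fin d → κ → ℝ) (c e : Fin d → ℝ) :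
    ∑ k, (∑ p, c p * y p k) * (∑ q, e q * y q k)
      = ∑ p, ∑ q, c p * e q * ∑ k, y p k * y q k := by
  calc ∑ k, (∑ p, c p * y p k) * (∑ q, e q * y q k)
      = ∑ k, ∑ p, ∑ q, c p * e q * (y p k * y q k) := by
        refine Finset.sum_congr rfl fun k _ => ?_
        rw [Finset.sum_mul_sum]
        refine Finset.sum_congr rfl fun p _ => Finset.sum_congr rfl fun q _ => by ring
    _ = ∑ p, ∑ k, ∑ q, c p * e q * (y p k * y q k) := Finset.sum_comm
    _ = ∑ p, ∑ q, ∑ k, c p * e q * (y p k * y q k) := by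
        refine Finset.sum_congr rfl fun p _ => Finset.sum_comm
    _ = _ := by
        refine Finset.sum_congr rfl fun p _ => Finset.sum_congr rfl fun q _ => by
          rw [Finset.mul_sum]

/-- The rational case, for a symmetric matrix. -/
theorem orbitRep_rational_sym {ι : Type} [Finite ι] {d : ℕ} (r : ι → Fin d → ℚ)
    (A : Fin d → Fin d → ℚ) (b : Fin d → ℚ) (C : ℚ) (hsym : ∀ p q, A p q = A q p)
    (hpd : ∀ v : Fin d → ℝ, v ≠ 0 → 0 < ∑ p, ∑ q, v p * v q * (A p q : ℝ))
    (hsph : ∀ i, ∑ p, ∑ q, (r i p : ℝ) * r i q * (A p q : ℝ) + 2 * ∑ p, (r i p : ℝ) * b p = C) :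
    OrbitRep fun i j => ∑ p, ∑ q, ((r i p : ℝ) - r j p) * ((r i q : ℝ) - r j q) * (A p q : ℝ) := by
  classical
  have hpsd : ∀ c : Fin d → ℚ, 0 ≤ ∑ p, ∑ q, c p * c q * A p q := by
    intro c
    by_cases hc : c = 0
    · simp [hc]
    · have hc' : (fun p => (c p : ℝ)) ≠ 0 := by
        intro h
        apply hc
        funext p
        have := congrFun h p
        simpa using this
      have := hpd _ hc'
      have h2 : (0 : ℝ) ≤ ((∑ p, ∑ q, c p * c q * A p q : ℚ) : ℝ) := by
        push_cast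
        exact this.le
      exact_mod_cast h2
  obtain ⟨κ, _, y0, hy0⟩ := rat_cholesky d A hsym hpsd
  let M := Fintype.card κ
  let E : κ ≃ Fin M := Fintype.equivFin κ
  let yq : Fin d → Fin M → ℚ := fun p k => y0 p (E.symm k)
  let y : Fin d → Fin M → ℝ := fun p k => (yq p k : ℝ)
  have hy : ∀ p q, ∑ k, y p k * y q k = (A p q : ℝ) := by
    intro p q
    rw [← hy0 p q]
    push_cast
    exact Equiv.sum_comp E.symm fun k => (y0 p k : ℝ) * y0 q k
  -- the center
  let Am : Matrix (Fin d) (Fin d) ℝ := Matrix.of fun p q => (A p q : ℝ)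
  have hinj : Function.Injective Am.mulVec := by
    intro w w' h
    by_contra hne
    have hw : w - w' ≠ 0 := sub_ne_zero.2 hne
    have h1 := hpd _ hw
    have h2 : Am.mulVec (w - w') = 0 := by
      rw [Matrix.mulVec_sub, h, sub_self]
    have h3 : ∑ p, ∑ q, (w - w') p * (w - w') q * (A p q : ℝ)
        = ∑ p, (w - w') p * Am.mulVec (w - w') p := by
      refine Finset.sum_congr rfl fun p _ => ?_
      simp only [Matrix.mulVec, dotProduct, Finset.mul_sum, Am, Matrix.of_apply]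
      refine Finset.sum_congr rfl fun q _ => by ring
    rw [h3, h2] at h1
    simp at h1
  have hsurj : Function.Surjective Am.mulVec :=
    Matrix.mulVec_surjective_iff_isUnit.2 (Matrix.mulVec_injective_iff_isUnit.1 hinj)
  obtain ⟨w, hw⟩ := hsurj fun p => (b p : ℝ)
  have hw' : ∀ p, ∑ q, (A p q : ℝ) * w q = b p := fun p => congrFun hw p
  -- the points
  let Y : ι → EuclideanSpace ℝ (Fin M) := fun i => WithLp.toLp 2 fun k => ∑ p, (r i p : ℝ) * y p k
  have hYa : ∀ i k, Y i k = ∑ p, (r i p : ℝ) * y p k := fun i k => rfl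
  let u : EuclideanSpace ℝ (Fin M) := WithLp.toLp 2 fun k => ∑ q, w q * y q k
  have hua : ∀ k, u k = ∑ q, w q * y q k := fun k => rfl
  have hcross : ∀ i, ∑ k, Y i k * u k = ∑ p, (r i p : ℝ) * b p := by
    intro i
    simp only [hYa, hua]
    rw [gram_sum]
    refine Finset.sum_congr rfl fun p _ => ?_
    rw [← hw' p, Finset.mul_sum]
    refine Finset.sum_congr rfl fun q _ => ?_
    rw [hy p q]
    ring
  have hself : ∀ i, ∑ k, Y i k * Y i k = ∑ p, ∑ q, (r i p : ℝ) * r i q * (A p q : ℝ) := by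
    intro i
    simp only [hYa]
    rw [gram_sum]
    refine Finset.sum_congr rfl fun p _ => Finset.sum_congr rfl fun q _ => ?_
    rw [hy p q]
  have hdc : ∀ i, dist (Y i) (-u) ^ 2 = C + ∑ k, u k * u k := by
    intro i
    rw [dist_sq_eq]
    have e1 : ∑ k, (Y i k - (-u) k) ^ 2
        = ∑ k, Y i k * Y i k + 2 * ∑ k, Y i k * u k + ∑ k, u k * u k := by
      rw [Finset.mul_sum, ← Finset.sum_add_distrib, ← Finset.sum_add_distrib]
      refine Finset.sum_congr rfl fun k _ => ?_
      simp only [PiLp.neg_apply]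
      ring
    rw [e1, hself, hcross, hsph]
  have hsphere : ∃ (z : EuclideanSpace ℝ (Fin M)) (ρ : ℝ), ∀ x ∈ Set.range Y, dist x z = ρ := by
    refine ⟨-u, Real.sqrt (C + ∑ k, u k * u k), ?_⟩
    rintro _ ⟨i, rfl⟩
    rw [← hdc i, Real.sqrt_sq dist_nonneg]
  have hrat : ∀ x ∈ Set.range Y, ∀ k, ∃ q : ℚ, x k = q := by
    rintro _ ⟨i, rfl⟩ k
    refine ⟨∑ p, r i p * yq p k, ?_⟩
    rw [hYa]
    push_cast
    rfl
  obtain ⟨N, Y', hfin, htr, f, hf, hd⟩ := rational_spherical_core (Set.range Y)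
    (Set.finite_range Y) hrat hsphere
  have hrep := orbitRep_of_transitive Y' hfin htr (fun i => f (Y i)) (fun i => hf _ ⟨i, rfl⟩)
  refine hrep.congr fun i j => ?_
  rw [hd _ ⟨i, rfl⟩ _ ⟨j, rfl⟩, dist_sq_eq]
  have e1 : ∀ k, (Y i k - Y j k) = ∑ p, ((r i p : ℝ) - r j p) * y p k := by
    intro k
    rw [hYa, hYa, ← Finset.sum_sub_distrib]
    refine Finset.sum_congr rfl fun p _ => by ring
  have e2 : ∑ k, (Y i k - Y j k) ^ 2
      = ∑ k, (∑ p, ((r i p : ℝ) - r j p) * y p k) * (∑ q, ((r i q : ℝ) - r j q) * y q k) := by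
    refine Finset.sum_congr rfl fun k _ => ?_
    rw [e1, sq]
  rw [e2, gram_sum]
  refine Finset.sum_congr rfl fun p _ => Finset.sum_congr rfl fun q _ => ?_
  rw [hy p q]

/-- Quadratic forms do not see the antisymmetric part. -/
theorem form_symm {R : Type} [Field R] [CharZero R] {d : ℕ} (c : Fin d → R) (A : Fin d → Fin d → R) :
    ∑ p, ∑ q, c p * c q * ((A p q + A q p) / 2) = ∑ p, ∑ q, c p * c q * A p q := by
  have h : ∑ p, ∑ q, c p * c q * A q p = ∑ p, ∑ q, c p * c q * A p q := by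
    rw [Finset.sum_comm]
    refine Finset.sum_congr rfl fun p _ => Finset.sum_congr rfl fun q _ => by ring
  have h2 : ∑ p, ∑ q, c p * c q * ((A p q + A q p) / 2)
      = (∑ p, ∑ q, c p * c q * A p q + ∑ p, ∑ q, c p * c q * A q p) / 2 := by
    rw [← Finset.sum_add_distrib, Finset.sum_div]
    refine Finset.sum_congr rfl fun p _ => ?_
    rw [← Finset.sum_add_distrib, Finset.sum_div]
    refine Finset.sum_congr rfl fun q _ => by ring
  rw [h2, h]
  ring

/-- The rational case. -/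
theorem orbitRep_rational {ι : Type} [Finite ι] {d : ℕ} (r : ι → Fin d → ℚ)
    (A : Fin d → Fin d → ℚ) (b : Fin d → ℚ) (C : ℚ)
    (hpd : ∀ v : Fin d → ℝ, v ≠ 0 → 0 < ∑ p, ∑ q, v p * v q * (A p q : ℝ))
    (hsph : ∀ i, ∑ p, ∑ q, (r i p : ℝ) * r i q * (A p q : ℝ) + 2 * ∑ p, (r i p : ℝ) * b p = C) :
    OrbitRep fun i j => ∑ p, ∑ q, ((r i p : ℝ) - r j p) * ((r i q : ℝ) - r j q) * (A p q : ℝ) := by
  have hcast : ∀ (c : Fin d → ℝ), ∑ p, ∑ q, c p * c q * (((A p q + A q p) / 2 : ℚ) : ℝ)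
      = ∑ p, ∑ q, c p * c q * (A p q : ℝ) := by
    intro c
    have := form_symm c fun p q => (A p q : ℝ)
    rw [← this]
    push_cast
    rfl
  have h := orbitRep_rational_sym r (fun p q => (A p q + A q p) / 2) b C
    (fun p q => by ring) (fun v hv => by rw [hcast]; exact hpd v hv)
    (fun i => by
      have := hcast (fun p => (r i p : ℝ))
      rw [this]
      exact hsph i)
  refine h.congr fun i j => ?_
  exact hcast fun p => (r i p : ℝ) - r j p

/-- Positive definiteness is an open condition. -/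
theorem isOpen_pd (d : ℕ) : IsOpen {M : Fin d → Fin d → ℝ | ∀ v : Fin d → ℝ, v ≠ 0 →
    0 < ∑ p, ∑ q, v p * v q * M p q} := by
  have hK : IsCompact (Metric.sphere (0 : Fin d → ℝ) 1) := isCompact_sphere 0 1
  have hcont : Continuous fun z : (Fin d → Fin d → ℝ) × (Fin d → ℝ) =>
      ∑ p, ∑ q, z.2 p * z.2 q * z.1 p q := by
    fun_prop
  rw [isOpen_iff_eventually]
  intro M hM
  have hK' : ∀ y ∈ Metric.sphere (0 : Fin d → ℝ) 1,
      ∀ᶠ z : (Fin d → Fin d → ℝ) × (Fin d → ℝ) in 𝓝 (M, y),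
        0 < ∑ p, ∑ q, z.2 p * z.2 q * z.1 p q := by
    intro y hy
    have hy0 : y ≠ 0 := by
      rintro rfl
      simp at hy
    exact hcont.continuousAt.eventually (lt_mem_nhds (hM y hy0))
  have := hK.eventually_forall_of_forall_eventually
    (P := fun (M : Fin d → Fin d → ℝ) (y : Fin d → ℝ) => 0 < ∑ p, ∑ q, y p * y q * M p q) hK'
  filter_upwards [this] with M' hM' v hv
  have hn : 0 < ‖v‖ := norm_pos_iff.2 hv
  have h1 : (‖v‖⁻¹ • v) ∈ Metric.sphere (0 : Fin d → ℝ) 1 := by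
    rw [mem_sphere_zero_iff_norm, norm_smul, norm_inv, norm_norm, inv_mul_cancel₀ hn.ne']
  have h2 := hM' _ h1
  have h3 : ∑ p, ∑ q, v p * v q * M' p q
      = ‖v‖ * ‖v‖ * ∑ p, ∑ q, (‖v‖⁻¹ • v) p * (‖v‖⁻¹ • v) q * M' p q := by
    simp only [Finset.mul_sum]
    refine Finset.sum_congr rfl fun p _ => Finset.sum_congr rfl fun q _ => ?_
    simp only [Pi.smul_apply, smul_eq_mul]
    field_simp
  rw [h3]
  positivity

/-- Coordinates: quadratic form entries, linear entries, constant. -/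
abbrev Co (d : ℕ) := (Fin d × Fin d) ⊕ (Fin d ⊕ Unit)

/-- The coefficients of the sphere equation of the rational point `s`. -/
def sphCoef {d : ℕ} (s : Fin d → ℚ) : Co d → ℚ :=
  Sum.elim (fun pq => s pq.1 * s pq.2) (Sum.elim (fun p => 2 * s p) fun _ => -1)

theorem sphCoef_sum {d : ℕ} (s : Fin d → ℚ) (x : Co d → ℝ) :
    ∑ e, (sphCoef s e : ℝ) * x e
      = ∑ p, ∑ q, (s p : ℝ) * s q * x (Sum.inl (p, q))
        + 2 * ∑ p, (s p : ℝ) * x (Sum.inr (Sum.inl p)) - x (Sum.inr (Sum.inr ())) := by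
  rw [Fintype.sum_sum_type, Fintype.sum_sum_type, Fintype.sum_prod_type]
  simp only [sphCoef, Sum.elim_inl, Sum.elim_inr, Fintype.univ_unit, Finset.sum_singleton]
  push_cast
  rw [Finset.mul_sum]
  have : ∀ p : Fin d, 2 * (s p : ℝ) * x (Sum.inr (Sum.inl p))
      = 2 * ((s p : ℝ) * x (Sum.inr (Sum.inl p))) := fun p => by ring
  simp only [this]
  ring

/-- The real case. -/
theorem orbitRep_real {ι : Type} [Fintype ι] {d : ℕ} (r : ι → Fin d → ℚ) (x : Co d → ℝ)
    (hpd : ∀ v : Fin d → ℝ, v ≠ 0 → 0 < ∑ p, ∑ q, v p * v q * x (Sum.inl (p, q)))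
    (hsph : ∀ i, ∑ e, (sphCoef (r i) e : ℝ) * x e = 0) :
    OrbitRep fun i j => ∑ p, ∑ q, ((r i p : ℝ) - r j p) * ((r i q : ℝ) - r j q)
      * x (Sum.inl (p, q)) := by
  classical
  let L : List (Co d → ℚ) := (Finset.univ.toList : List ι).map fun i => sphCoef (r i)
  have hL : ∀ y : Co d → ℝ, IsSol L y ↔ ∀ i, ∑ e, (sphCoef (r i) e : ℝ) * y e = 0 := by
    intro y
    constructor
    · intro h i
      exact h _ (List.mem_map.2 ⟨i, Finset.mem_toList.2 (Finset.mem_univ i), rfl⟩)
    · intro h γ hγ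
      obtain ⟨i, _, rfl⟩ := List.mem_map.1 hγ
      exact h i
  have hspan := mem_span_rat L x ((hL x).2 hsph)
  obtain ⟨n, a, g, hag⟩ := Submodule.mem_span_set'.1 hspan
  let φ : (Fin n → ℝ) → (Co d → ℝ) := fun a' => ∑ j, a' j • (g j : Co d → ℝ)
  have hφe : ∀ a' e, φ a' e = ∑ j, a' j * (g j : Co d → ℝ) e := by
    intro a' e
    simp [φ, Finset.sum_apply]
  have hφcont : Continuous fun a' : Fin n → ℝ => fun p q => φ a' (Sum.inl (p, q)) := by
    simp only [hφe]
    fun_prop
  let U : Set (Fin n → ℝ) := (fun a' : Fin n → ℝ => fun p q => φ a' (Sum.inl (p, q))) ⁻¹'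
    {M : Fin d → Fin d → ℝ | ∀ v : Fin d → ℝ, v ≠ 0 → 0 < ∑ p, ∑ q, v p * v q * M p q}
  have hU : IsOpen U := (isOpen_pd d).preimage hφcont
  have hxφ : φ a = x := hag
  have haU : a ∈ U := by
    intro v hv
    show 0 < ∑ p, ∑ q, v p * v q * φ a (Sum.inl (p, q))
    rw [hxφ]
    exact hpd v hv
  let Dm : (Co d → ℝ) → ι → ι → ℝ := fun y i j =>
    ∑ p, ∑ q, ((r i p : ℝ) - r j p) * ((r i q : ℝ) - r j q) * y (Sum.inl (p, q))
  have hbox := box (fun a' => OrbitRep (Dm (φ a'))) U hU ?_ ?_ a haU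
  · have : Dm (φ a) = fun i j => ∑ p, ∑ q, ((r i p : ℝ) - r j p) * ((r i q : ℝ) - r j q)
        * x (Sum.inl (p, q)) := by
      rw [hxφ]
    show OrbitRep (fun i j => _)
    rw [← this]
    exact hbox
  · -- rational points
    intro y hyU hyq
    choose qa hqa using hyq
    have hφq : ∀ e, ∃ q : ℚ, φ y e = q := by
      intro e
      have : ∀ j, ∃ q : ℚ, (g j : Co d → ℝ) e = q := fun j => (g j).2.1 e
      choose qg hqg using this
      refine ⟨∑ j, qa j * qg j, ?_⟩
      rw [hφe]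
      push_cast
      exact Finset.sum_congr rfl fun j _ => by rw [hqa, hqg]
    choose Q hQ using hφq
    have hyL : ∀ i, ∑ e, (sphCoef (r i) e : ℝ) * φ y e = 0 := by
      intro i
      simp only [hφe, Finset.mul_sum]
      rw [Finset.sum_comm]
      refine Finset.sum_eq_zero fun j _ => ?_
      have h0 := (hL _).1 (g j).2.2 i
      have : ∑ e, (sphCoef (r i) e : ℝ) * (y j * (g j : Co d → ℝ) e)
          = y j * ∑ e, (sphCoef (r i) e : ℝ) * (g j : Co d → ℝ) e := by
        rw [Finset.mul_sum]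
        exact Finset.sum_congr rfl fun e _ => by ring
      rw [this, h0, mul_zero]
    have h := orbitRep_rational r (fun p q => Q (Sum.inl (p, q))) (fun p => Q (Sum.inr (Sum.inl p)))
      (Q (Sum.inr (Sum.inr ())))
      (fun v hv => by
        have : 0 < ∑ p, ∑ q, v p * v q * φ y (Sum.inl (p, q)) := hyU v hv
        simpa only [hQ] using this)
      (fun i => by
        have := hyL i
        rw [sphCoef_sum] at this
        simp only [hQ] at this
        linarith)
    refine h.congr fun i j => ?_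
    simp only [Dm, hQ]
  · -- convex combinations
    intro y z hy hz s t hs ht _
    have := hy.add hz hs ht
    refine this.congr fun i j => ?_
    simp only [Dm, Finset.mul_sum]
    rw [← Finset.sum_add_distrib]
    refine Finset.sum_congr rfl fun p _ => ?_
    rw [← Finset.sum_add_distrib]
    refine Finset.sum_congr rfl fun q _ => ?_
    have : φ (s • y + t • z) (Sum.inl (p, q))
        = s * φ y (Sum.inl (p, q)) + t * φ z (Sum.inl (p, q)) := by
      simp only [hφe, Pi.add_apply, Pi.smul_apply, smul_eq_mul, Finset.mul_sum,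
        ← Finset.sum_add_distrib]
      exact Finset.sum_congr rfl fun j _ => by ring
    rw [this]
    ring

/-- Inner products of combinations. -/
theorem inner_sum_sum {m d : ℕ} (f : Fin d → EuclideanSpace ℝ (Fin m)) (c c' : Fin d → ℝ) :
    inner ℝ (∑ p, c p • f p) (∑ q, c' q • f q)
      = ∑ p, ∑ q, c p * c' q * inner ℝ (f p) (f q) := by
  rw [sum_inner]
  refine Finset.sum_congr rfl fun p _ => ?_
  rw [inner_sum]
  refine Finset.sum_congr rfl fun q _ => ?_
  rw [real_inner_smul_left, real_inner_smul_right]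
  ring

/-- A spherical set which is the image of a rational set under an injective affine map has the orbit
form. -/
theorem orbitRep_affine {ι : Type} [Fintype ι] {d m : ℕ} (r : ι → Fin d → ℚ)
    (f : Fin d → EuclideanSpace ℝ (Fin m)) (hf : LinearIndependent ℝ f)
    (x0 : EuclideanSpace ℝ (Fin m))
    (hsph : ∃ (z : EuclideanSpace ℝ (Fin m)) (ρ : ℝ),
      ∀ i, dist (x0 + ∑ p, (r i p : ℝ) • f p) z = ρ) :
    OrbitRep fun i j => dist (x0 + ∑ p, (r i p : ℝ) • f p) (x0 + ∑ p, (r j p : ℝ) • f p) ^ 2 := by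
  obtain ⟨z, ρ, hρ⟩ := hsph
  let u := x0 - z
  let x : Co d → ℝ := Sum.elim (fun pq => inner ℝ (f pq.1) (f pq.2))
    (Sum.elim (fun p => inner ℝ (f p) u) fun _ => ρ ^ 2 - inner ℝ u u)
  have hpd : ∀ v : Fin d → ℝ, v ≠ 0 → 0 < ∑ p, ∑ q, v p * v q * x (Sum.inl (p, q)) := by
    intro v hv
    have h1 : ∑ p, v p • f p ≠ 0 := by
      intro h
      apply hv
      funext p
      exact Fintype.linearIndependent_iff.1 hf v h p
    have h2 : 0 < inner ℝ (∑ p, v p • f p) (∑ p, v p • f p) :=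
      real_inner_self_pos.2 h1
    rw [inner_sum_sum] at h2
    exact h2
  have hs : ∀ i, ∑ e, (sphCoef (r i) e : ℝ) * x e = 0 := by
    intro i
    rw [sphCoef_sum]
    have h1 := hρ i
    have h2 : dist (x0 + ∑ p, (r i p : ℝ) • f p) z ^ 2 = ρ ^ 2 := by rw [h1]
    rw [dist_eq_norm, ← real_inner_self_eq_norm_sq] at h2
    have e : x0 + ∑ p, (r i p : ℝ) • f p - z = u + ∑ p, (r i p : ℝ) • f p := by
      simp only [u]
      abel
    rw [e, inner_add_left, inner_add_right, inner_add_right, inner_sum_sum] at h2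
    have e2 : inner ℝ (∑ p, (r i p : ℝ) • f p) u = ∑ p, (r i p : ℝ) * inner ℝ (f p) u := by
      rw [sum_inner]
      refine Finset.sum_congr rfl fun p _ => ?_
      rw [real_inner_smul_left]
    have e3 : inner ℝ u (∑ p, (r i p : ℝ) • f p) = ∑ p, (r i p : ℝ) * inner ℝ (f p) u := by
      rw [real_inner_comm, e2]
    rw [e2, e3] at h2
    simp only [x, Sum.elim_inl, Sum.elim_inr]
    linarith
  refine (orbitRep_real r x hpd hs).congr fun i j => ?_
  rw [dist_eq_norm, ← real_inner_self_eq_norm_sq]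
  have e : x0 + ∑ p, (r i p : ℝ) • f p - (x0 + ∑ p, (r j p : ℝ) • f p)
      = ∑ p, ((r i p : ℝ) - r j p) • f p := by
    simp only [sub_smul, Finset.sum_sub_distrib]
    abel
  rw [e, inner_sum_sum]
  rfl

/-- **Theorem.** A finite set on a sphere which is the image of a set of rational vectors under an
injective affine map is subtransitive and Ramsey. -/
theorem main {ι : Type} [Fintype ι] {d m : ℕ} (r : ι → Fin d → ℚ)
    (f : Fin d → EuclideanSpace ℝ (Fin m)) (hf : LinearIndependent ℝ f)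
    (x0 : EuclideanSpace ℝ (Fin m))
    (hsph : ∃ (z : EuclideanSpace ℝ (Fin m)) (ρ : ℝ),
      ∀ i, dist (x0 + ∑ p, (r i p : ℝ) • f p) z = ρ) :
    IsSubtransitive (Set.range fun i => x0 + ∑ p, (r i p : ℝ) • f p) ∧
      IsRamsey (Set.range fun i => x0 + ∑ p, (r i p : ℝ) • f p) := by
  have h := isSubtransitive_of_orbitRep _ (orbitRep_affine r f hf x0 hsph)
  exact ⟨h, isRamsey_of_subtransitive h⟩

end Vale.Agent.Lib.P058.RatAff
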