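import Vale.Agent.Lib.P058.X3Func
import Vale.Agent.Lib.P058.GroupTower
import Vale.Agent.Lib.P058.A5Tail

/-! # Reduction of columns along soluble subgroups, and non-free actions through `S_5`

The cyclic reduction of `X3Func` is run along a chain of subgroups of a finite group `Γ`, acting on
itself by right multiplication.  A column with a left kernel is reduced along the preimage of a
point stabilizer of `S_5` to a letter column with two equal letters, which has an explicit tower on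
the alternating group. -/

namespace Vale.Agent.Lib.P058.Sol

open Vale.Agent.Lib.P058

section reduction

variable {Γ : Type} [Group Γ]

/-- Right translation, written as a left action. -/
def acR (k t : Γ) : Γ := t * k⁻¹

theorem acR_mul (g' g t : Γ) : acR (g' * g) t = acR g' (acR g t) := by
  simp [acR, mul_assoc]

/-- Every column can be reduced to a column invariant under the right translations by `S`. -/
def Good (S : Set Γ) : Prop :=
  ∀ z : Γ → ℕ, ∃ Φ : (Γ → ℕ) → ℕ, X3.CR Φ ∧ ∀ g ∈ S, ∀ t, X3.ap acR Φ z (t * g) = X3.ap acR Φ z t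

theorem iter_mul (x t : Γ) (n : ℕ) : (fun u => u * x)^[n] t = t * x ^ n := by
  induction n with
  | zero => simp
  | succ n ih => rw [Function.iterate_succ_apply', ih, pow_succ, mul_assoc]

variable [Fintype Γ]

/-- One cyclic reduction along `x`. -/
theorem neckR (x : Γ) (c : Γ → ℕ) : ∃ Φ : (Γ → ℕ) → ℕ, X3.CR Φ ∧
    (∀ t, X3.ap acR Φ c (t * x) = X3.ap acR Φ c t) ∧
    (∀ y, (∀ (n : ℕ) t, c (t * y * x ^ n) = c (t * x ^ n)) →
      ∀ t, X3.ap acR Φ c (t * y) = X3.ap acR Φ c t) := by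
  have hord : 0 < orderOf x := orderOf_pos x
  obtain ⟨d, hd⟩ : ∃ d, orderOf x = d + 1 := ⟨orderOf x - 1, by omega⟩
  have hper : ∀ t, (fun u => u * x)^[d + 1] t = t := by
    intro t
    rw [iter_mul, ← hd, pow_orderOf_eq_one, mul_one]
  classical
  obtain ⟨Φ₀, h0, h1⟩ := X3.neck_all (fun u : Γ => u * x) d hper c
  let θ : Multiplicative ℕ → Γ := fun n => (x ^ (Multiplicative.toAdd n))⁻¹
  have hap : ∀ (c' : Γ → ℕ) t, X3.ap acR (X3.pull θ Φ₀) c' t
      = Φ₀ (fun n => c' (t * x ^ (Multiplicative.toAdd n))) := by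
    intro c' t
    simp [X3.ap, X3.pull, acR, θ]
  have hap' : ∀ t, X3.ap (X3.actN (fun u : Γ => u * x)) Φ₀ c t
      = Φ₀ (fun n => c (t * x ^ (Multiplicative.toAdd n))) := by
    intro t
    simp only [X3.ap, X3.actN, iter_mul]
  refine ⟨X3.pull θ Φ₀, h0.pull θ, fun t => ?_, fun y hy t => ?_⟩
  · rw [hap, hap]
    have := h1 t
    rw [hap', hap'] at this
    exact this
  · rw [hap, hap]
    congr 1
    funext n
    exact hy _ t

/-- One step of a chain of subgroups with abelian sections. -/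
theorem good_step (K K' : Subgroup Γ) (hle : K' ≤ K)
    (hcomm : ∀ a ∈ K, ∀ b ∈ K, a * b * a⁻¹ * b⁻¹ ∈ K') (h : Good (K' : Set Γ)) :
    Good (K : Set Γ) := by
  classical
  intro z
  have H : ∀ A : Finset Γ, (∀ g ∈ A, g ∈ K) → ∃ Φ : (Γ → ℕ) → ℕ, X3.CR Φ ∧
      (∀ g ∈ K', ∀ t, X3.ap acR Φ z (t * g) = X3.ap acR Φ z t) ∧
      (∀ g ∈ A, ∀ t, X3.ap acR Φ z (t * g) = X3.ap acR Φ z t) := by
    intro A
    induction A using Finset.induction_on with
    | empty =>
      intro _
      obtain ⟨Φ, h1, h2⟩ := h z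
      exact ⟨Φ, h1, h2, by simp⟩
    | insert x A _ ih =>
      intro hA
      obtain ⟨Φ₀, h0, hK', hA'⟩ := ih (fun g hg => hA g (Finset.mem_insert_of_mem hg))
      have hxK : x ∈ K := hA x (Finset.mem_insert_self _ _)
      set c₀ := X3.ap acR Φ₀ z with hc₀
      obtain ⟨Φ₁, h1, hx, hpres⟩ := neckR x c₀
      have hcmp : X3.ap acR (X3.cmp Φ₁ Φ₀) z = X3.ap acR Φ₁ c₀ := by
        rw [X3.ap_cmp acR acR_mul]
      -- invariance of `c₀` is kept for elements of `K`
      have keep : ∀ g ∈ K, (∀ t, c₀ (t * g) = c₀ t) → ∀ t, X3.ap acR Φ₁ c₀ (t * g) = X3.ap acR Φ₁ c₀ t := by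
        intro g hg hinv
        refine hpres g fun n t => ?_
        have hxn : (x ^ n)⁻¹ ∈ K := K.inv_mem (K.pow_mem hxK n)
        have hκ : g⁻¹ * (x ^ n)⁻¹ * g⁻¹⁻¹ * (x ^ n)⁻¹⁻¹ ∈ K' :=
          hcomm _ (K.inv_mem hg) _ hxn
        have e : t * g * x ^ n = t * x ^ n * g * (g⁻¹ * (x ^ n)⁻¹ * g⁻¹⁻¹ * (x ^ n)⁻¹⁻¹) := by
          group
        rw [e, hK' _ hκ, hinv]
      refine ⟨X3.cmp Φ₁ Φ₀, h1.cmp h0, fun g hg t => ?_, fun g hg t => ?_⟩
      · rw [hcmp]
        exact keep g (hle hg) (hK' g hg) t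
      · rw [hcmp]
        rcases Finset.mem_insert.mp hg with rfl | hgA
        · exact hx t
        · exact keep g (hA g hg) (hA' g hgA) t
  obtain ⟨Φ, h1, -, h3⟩ := H (Finset.univ.filter (· ∈ K)) (by simp)
  exact ⟨Φ, h1, fun g hg t => h3 g (by simpa using hg) t⟩

theorem good_bot : Good ((⊥ : Subgroup Γ) : Set Γ) := by
  intro z
  refine ⟨X3.idF, X3.CR.idF, fun g hg t => ?_⟩
  have : g = 1 := by simpa using hg
  rw [this, mul_one]

/-- The derived series of a subgroup, inside the ambient group. -/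
def ders (H : Subgroup Γ) : ℕ → Subgroup Γ
  | 0 => H
  | n + 1 => ⁅ders H n, ders H n⁆

theorem map_ders (H : Subgroup Γ) (n : ℕ) :
    (derivedSeries H n).map H.subtype = ders H n := by
  induction n with
  | zero =>
    rw [derivedSeries_zero, ← MonoidHom.range_eq_map, Subgroup.range_subtype]
    rfl
  | succ n ih => rw [derivedSeries_succ, Subgroup.map_commutator, ih]; rfl

/-- Soluble subgroups reduce every column. -/
theorem good_of_solvable (H : Subgroup Γ) (hs : Group.IsSolvable H) : Good (H : Set Γ) := by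
  obtain ⟨n, hn⟩ := hs.solvable
  have hbot : ders H n = ⊥ := by
    rw [← map_ders, hn]
    simp
  have key : ∀ i, i ≤ n → Good (ders H (n - i) : Set Γ) := by
    intro i
    induction i with
    | zero =>
      intro _
      simpa [hbot] using (good_bot (Γ := Γ))
    | succ i ih =>
      intro hi
      have h1 := ih (by omega)
      have e : n - i = (n - (i + 1)) + 1 := by omega
      rw [e] at h1
      refine good_step _ _ (Subgroup.commutator_le_self _) (fun a ha b hb => ?_) h1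
      have := Subgroup.commutator_mem_commutator ha hb
      simpa [commutatorElement_def] using this
  simpa [ders] using key n le_rfl

end reduction

section perms

open Equiv Equiv.Perm

/-- The Klein group fixing the last letter. -/
def V4 : Subgroup (Perm (Fin 5)) where
  carrier := {σ | σ 4 = 4 ∧ σ * σ = 1 ∧ sign σ = 1}
  mul_mem' := by
    have : ∀ a b : Perm (Fin 5), (a 4 = 4 ∧ a * a = 1 ∧ sign a = 1) → (b 4 = 4 ∧ b * b = 1 ∧ sign b = 1) →
        ((a * b) 4 = 4 ∧ (a * b) * (a * b) = 1 ∧ sign (a * b) = 1) := by decide +kernel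
    exact fun {a b} ha hb => this a b ha hb
  one_mem' := by decide
  inv_mem' := by
    have : ∀ a : Perm (Fin 5), (a 4 = 4 ∧ a * a = 1 ∧ sign a = 1) →
        (a⁻¹ 4 = 4 ∧ a⁻¹ * a⁻¹ = 1 ∧ sign a⁻¹ = 1) := by decide +kernel
    exact fun {a} ha => this a ha

/-- The alternating group fixing the last letter. -/
def A4 : Subgroup (Perm (Fin 5)) where
  carrier := {σ | σ 4 = 4 ∧ sign σ = 1}
  mul_mem' := by
    have : ∀ a b : Perm (Fin 5), (a 4 = 4 ∧ sign a = 1) → (b 4 = 4 ∧ sign b = 1) →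
        ((a * b) 4 = 4 ∧ sign (a * b) = 1) := by decide +kernel
    exact fun {a b} ha hb => this a b ha hb
  one_mem' := by decide
  inv_mem' := by
    have : ∀ a : Perm (Fin 5), (a 4 = 4 ∧ sign a = 1) → (a⁻¹ 4 = 4 ∧ sign a⁻¹ = 1) := by decide +kernel
    exact fun {a} ha => this a ha

/-- The stabilizer of the last letter. -/
def S4 : Subgroup (Perm (Fin 5)) where
  carrier := {σ | σ 4 = 4}
  mul_mem' := by
    have : ∀ a b : Perm (Fin 5), a 4 = 4 → b 4 = 4 → (a * b) 4 = 4 := by decide +kernel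
    exact fun {a b} ha hb => this a b ha hb
  one_mem' := by decide
  inv_mem' := by
    have : ∀ a : Perm (Fin 5), a 4 = 4 → a⁻¹ 4 = 4 := by decide +kernel
    exact fun {a} ha => this a ha

theorem comm_S4 : ∀ a b : Perm (Fin 5), a 4 = 4 → b 4 = 4 →
    ((a * b * a⁻¹ * b⁻¹) 4 = 4 ∧ sign (a * b * a⁻¹ * b⁻¹) = 1) := by decide +kernel

theorem comm_A4 : ∀ a b : Perm (Fin 5), (a 4 = 4 ∧ sign a = 1) → (b 4 = 4 ∧ sign b = 1) →
    ((a * b * a⁻¹ * b⁻¹) 4 = 4 ∧ (a * b * a⁻¹ * b⁻¹) * (a * b * a⁻¹ * b⁻¹) = 1 ∧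
      sign (a * b * a⁻¹ * b⁻¹) = 1) := by decide +kernel

theorem comm_V4 : ∀ a b : Perm (Fin 5), (a 4 = 4 ∧ a * a = 1 ∧ sign a = 1) →
    (b 4 = 4 ∧ b * b = 1 ∧ sign b = 1) → a * b * a⁻¹ * b⁻¹ = 1 := by decide +kernel

variable {Γ : Type} [Group Γ] [Fintype Γ]

/-- Reduction along the preimage of the stabilizer of the last letter. -/
theorem good_comap_S4 (ρ : Γ →* Perm (Fin 5)) (hker : Group.IsSolvable ρ.ker) :
    Good ((S4.comap ρ : Subgroup Γ) : Set Γ) := by
  have h0 : Good ((ρ.ker : Subgroup Γ) : Set Γ) := good_of_solvable _ hker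
  have h1 : Good ((V4.comap ρ : Subgroup Γ) : Set Γ) := by
    refine good_step _ ρ.ker (fun g hg => ?_) (fun a ha b hb => ?_) h0
    · have hg' : ρ g = 1 := hg
      show ρ g ∈ V4
      rw [hg']
      exact V4.one_mem
    · have h := comm_V4 (ρ a) (ρ b) ha hb
      rw [MonoidHom.mem_ker, map_mul, map_mul, map_mul, map_inv, map_inv]
      exact h
  have h2 : Good ((A4.comap ρ : Subgroup Γ) : Set Γ) := by
    refine good_step _ (V4.comap ρ) (fun g hg => ?_) (fun a ha b hb => ?_) h1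
    · have hg' : ρ g 4 = 4 ∧ ρ g * ρ g = 1 ∧ sign (ρ g) = 1 := hg
      exact ⟨hg'.1, hg'.2.2⟩
    · have h := comm_A4 (ρ a) (ρ b) ha hb
      show ρ (a * b * a⁻¹ * b⁻¹) ∈ V4
      rw [map_mul, map_mul, map_mul, map_inv, map_inv]
      exact h
  refine good_step _ (A4.comap ρ) (fun g hg => ?_) (fun a ha b hb => ?_) h2
  · have hg' : ρ g 4 = 4 ∧ sign (ρ g) = 1 := hg
    exact hg'.1
  · have h := comm_S4 (ρ a) (ρ b) ha hb
    show ρ (a * b * a⁻¹ * b⁻¹) ∈ A4
    rw [map_mul, map_mul, map_mul, map_inv, map_inv]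
    exact h

end perms

end Vale.Agent.Lib.P058.Sol
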