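import Vale.Agent.Lib.P058.DelRamsey

/-! # The level step of the deletion tower -/

namespace Vale.Agent.Lib.P058

open Finset

/-- Constant columns give a copy trivially. -/
theorem Copy.of_const {U ι Λ : Type*} [Fintype ι] {M : ι → U → Λ}
    (h : ∀ i t t', M i t = M i t') : Copy M := by
  classical
  intro r
  refine ⟨Fintype.card ι, fun χ => ?_⟩
  let e : Fin (Fintype.card ι) ≃ ι := (Fintype.equivFin ι).symm
  refine ⟨fun p => Sum.inl (e p), fun g => ?_, fun t t' => ?_⟩
  · simpa [wt] using Equiv.sum_comp e g
  · congr 1
    funext p
    simpa [ev] using h _ _ _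

/-- Copies transfer along a reindexing. -/
theorem Copy.reindex {U ι ι' Λ : Type*} [Fintype ι] [Fintype ι'] (e : ι ≃ ι') {M : ι' → U → Λ}
    (h : Copy (fun i => M (e i))) : Copy M := by
  intro r
  obtain ⟨N, hN⟩ := h r
  refine ⟨N, fun χ => ?_⟩
  obtain ⟨s, hs, hm⟩ := hN χ
  refine ⟨fun p => (s p).elim (fun i => Sum.inl (e i)) Sum.inr, fun g => ?_, fun t t' => ?_⟩
  · have h1 := hs (fun i => g (e i))
    rw [Equiv.sum_comp e g] at h1
    rw [← h1]
    refine Finset.sum_congr rfl fun p _ => ?_
    cases hx : s p <;> simp [wt, hx]
  · have h2 := hm t t'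
    convert h2 using 2 <;>
    · funext p
      cases hx : s p <;> simp [ev, hx]

section lists

variable {Λ : Type*} [DecidableEq Λ]

theorem sub_extend (δ : Λ) {L h : ℕ} (θ : Fin h → Fin L) (hθ : StrictMono θ) (v : Fin h → Λ) :
    sub δ (Function.extend θ v (fun _ => δ)) = (List.ofFn v).filter (· ≠ δ) := by
  unfold sub
  set u : Fin L → Λ := Function.extend θ v (fun _ => δ) with hu
  have hu1 : ∀ k, u (θ k) = v k := fun k => hθ.injective.extend_apply v _ k
  have hu2 : ∀ p, (¬ ∃ k, θ k = p) → u p = δ := fun p hp => Function.extend_apply' _ _ _ hp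
  rw [List.ofFn_eq_map, List.ofFn_eq_map, List.filter_map, List.filter_map]
  have key : (List.finRange L).filter ((fun x => decide (x ≠ δ)) ∘ u) =
      ((List.finRange h).filter ((fun x => decide (x ≠ δ)) ∘ v)).map θ := by
    refine List.Pairwise.eq_of_mem_iff (r := (· < ·)) ?_ ?_ ?_
    · exact List.Pairwise.filter _ (List.sortedLT_finRange L).pairwise
    · exact List.Pairwise.map θ (fun a b hab => hθ hab)
        (List.Pairwise.filter _ (List.sortedLT_finRange h).pairwise)
    · intro p
      simp only [List.mem_filter, List.mem_finRange, true_and, Function.comp, decide_eq_true_eq,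
        List.mem_map]
      constructor
      · intro hp
        by_cases hk : ∃ k, θ k = p
        · obtain ⟨k, rfl⟩ := hk
          exact ⟨k, by rwa [hu1] at hp, rfl⟩
        · exact absurd (hu2 p hk) hp
      · rintro ⟨k, hk, rfl⟩
        rwa [hu1]
  rw [key, List.map_map]
  congr 1
  funext k
  exact hu1 k

theorem ofFn_getD {β : Type*} (l : List β) (d : β) {h : ℕ} (hl : l.length ≤ h) :
    List.ofFn (fun k : Fin h => l.getD k d) = l ++ List.replicate (h - l.length) d := by
  apply List.ext_getElem
  · simp; omega
  · intro i h1 h2
    simp only [List.getElem_ofFn, List.getD_eq_getElem?_getD]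
    by_cases hi : i < l.length
    · simp [List.getElem_append, hi]
    · simp [List.getElem_append, hi]

theorem filter_ofFn_getD (δ : Λ) (l : List Λ) {h : ℕ} (hl : l.length ≤ h) :
    (List.ofFn (fun k : Fin h => l.getD k δ)).filter (· ≠ δ) = l.filter (· ≠ δ) := by
  rw [ofFn_getD l δ hl, List.filter_append]
  have : (List.replicate (h - l.length) δ).filter (· ≠ δ) = [] := by
    simp [List.filter_replicate]
  simp [this]

theorem length_flatMap_le {α β : Type*} (l : List α) (G : α → List β) (c : ℕ)
    (hc : ∀ x, (G x).length ≤ c) : (l.flatMap G).length ≤ l.length * c := by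
  induction l with
  | nil => simp
  | cons a l ih =>
    simp only [List.flatMap_cons, List.length_append, List.length_cons]
    have := hc a
    nlinarith

theorem sum_map_flatMap {α β : Type*} (l : List α) (G : α → List β) (W : β → ℝ) :
    ((l.flatMap G).map W).sum = (l.map fun x => ((G x).map W).sum).sum := by
  induction l with
  | nil => simp
  | cons a l ih => simp [List.flatMap_cons, ih]

end lists

/-- The level step: if every designated column `M' i` (over the alphabet `Λ'`) is, after deleting
the default letter `δ`, the reading of the `b` columns `Lst i j`, then a copy at the upper level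
gives a copy at the lower level. -/
theorem Copy.step {U ι Λ Λ' : Type} [Fintype ι] [Fintype Λ] [DecidableEq Λ] [Fintype Λ']
    (δ : Λ) (dec : Λ' → List Λ) (hdec : ∀ l, δ ∉ dec l) {M' : ι → U → Λ'} (b : ℕ)
    (Lst : ι → Fin b → U → Λ)
    (h : ∀ i t, (List.ofFn fun j => Lst i j t).filter (· ≠ δ) = dec (M' i t))
    (hc : Copy M') : Copy (fun x : ι × Fin b => Lst x.1 x.2) := by
  classical
  intro r
  obtain ⟨N', hN'⟩ := hc r
  -- bound on the decoded length
  let D : ℕ := Finset.univ.sup (fun l => (dec l).length)
  have hD : ∀ l, (dec l).length ≤ D := fun l =>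
    Finset.le_sup (f := fun l => (dec l).length) (Finset.mem_univ l)
  obtain ⟨L, hL⟩ := del_ramsey δ r (N' * D) (N' * (b + D))
  refine ⟨L, fun χ => ?_⟩
  obtain ⟨H, hcard, hH⟩ := hL χ
  let θ : Fin (N' * (b + D)) ↪o Fin L := H.orderEmbOfCardLe hcard
  have hθH : ∀ k, θ k ∈ H := fun k => H.orderEmbOfCardLe_mem hcard k
  have hθm : StrictMono θ := θ.strictMono
  -- placement of a list on the first positions of `H`
  let Pl : {β : Type} → β → List β → Fin L → β := fun {β} d v =>
    Function.extend θ (fun k : Fin (N' * (b + D)) => v.getD k d) (fun _ => d)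
  have Pl_out : ∀ {β : Type} (d : β) (v : List β) (p : Fin L), p ∉ H → Pl d v p = d := by
    intro β d v p hp
    refine Function.extend_apply' _ _ _ ?_
    rintro ⟨k, rfl⟩
    exact hp (hθH k)
  have Pl_sub : ∀ v : List Λ, v.length ≤ N' * (b + D) → sub δ (Pl δ v) = v.filter (· ≠ δ) := by
    intro v hv
    have := sub_extend δ θ hθm (fun k : Fin (N' * (b + D)) => v.getD k δ)
    simp only [Pl]
    rw [this, filter_ofFn_getD δ v hv]
  -- the induced colouring of upper words
  let flat : (Fin N' → Λ') → List Λ := fun w => (List.ofFn w).flatMap dec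
  have flat_len : ∀ w, (flat w).length ≤ N' * D := by
    intro w
    have := length_flatMap_le (List.ofFn w) dec D hD
    simpa [flat] using this
  have flat_filter : ∀ w, (flat w).filter (· ≠ δ) = flat w := by
    intro w
    refine List.filter_eq_self.2 ?_
    intro a ha
    simp only [flat, List.mem_flatMap] at ha
    obtain ⟨l, _, hl⟩ := ha
    have : a ≠ δ := by
      rintro rfl
      exact hdec l hl
    simpa using this
  obtain ⟨s', hs', hm'⟩ := hN' (fun w => χ (Pl δ (flat w)))
  -- expansion of slots
  let G : ι ⊕ Λ' → List ((ι × Fin b) ⊕ Λ) := fun x =>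
    x.elim (fun i => (List.finRange b).map fun j => Sum.inl (i, j))
      (fun l => (dec l).map Sum.inr)
  have G_len : ∀ x, (G x).length ≤ b + D := by
    intro x
    cases x with
    | inl i => simp [G]
    | inr l =>
      have := hD l
      simp only [G, Sum.elim_inr, List.length_map]
      omega
  let Sig : List ((ι × Fin b) ⊕ Λ) := (List.ofFn s').flatMap G
  have Sig_len : Sig.length ≤ N' * (b + D) := by
    have := length_flatMap_le (List.ofFn s') G (b + D) G_len
    simpa [Sig] using this
  let s : Fin L → (ι × Fin b) ⊕ Λ := Pl (Sum.inr δ) Sig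
  refine ⟨s, fun g => ?_, fun t t' => ?_⟩
  · -- the weight identity
    let g' : ι → ℝ := fun i => ∑ j, g (i, j)
    have h0 : ∑ p, wt g (s p) = ∑ k : Fin (N' * (b + D)), wt g (Sig.getD k (Sum.inr δ)) := by
      symm
      refine Fintype.sum_of_injective θ hθm.injective _ _ ?_ ?_
      · intro p hp
        have : s p = Sum.inr δ := by
          refine Function.extend_apply' _ _ _ ?_
          simpa using hp
        simp [this, wt]
      · intro k
        have : s (θ k) = Sig.getD k (Sum.inr δ) := hθm.injective.extend_apply _ _ k
        rw [this]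
    have h1 : ∑ k : Fin (N' * (b + D)), wt g (Sig.getD k (Sum.inr δ)) = (Sig.map (wt g)).sum := by
      rw [← List.sum_ofFn]
      have h2 : List.ofFn (fun k : Fin (N' * (b + D)) => wt g (Sig.getD k (Sum.inr δ))) =
          (List.ofFn (fun k : Fin (N' * (b + D)) => Sig.getD k (Sum.inr δ))).map (wt g) := by
        rw [List.map_ofFn]
        rfl
      rw [h2, ofFn_getD Sig _ Sig_len, List.map_append, List.sum_append]
      simp [wt]
    have h3 : (Sig.map (wt g)).sum = ∑ p, wt g' (s' p) := by
      simp only [Sig]
      rw [sum_map_flatMap, List.map_ofFn, List.sum_ofFn]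
      refine Finset.sum_congr rfl fun p _ => ?_
      simp only [Function.comp]
      cases hx : s' p with
      | inl i =>
        have e1 : (wt g ∘ fun j => (Sum.inl (i, j) : (ι × Fin b) ⊕ Λ)) = fun j => g (i, j) := rfl
        simp only [G, Sum.elim_inl, List.map_map]
        rw [e1, ← List.ofFn_eq_map, List.sum_ofFn]
        rfl
      | inr l =>
        simp [G, wt, Function.comp_def]
    rw [h0, h1, h3, hs' g', Fintype.sum_prod_type]
  · -- the colours
    have key : ∀ t, χ (fun p => ev (fun x : ι × Fin b => Lst x.1 x.2) (s p) t) =
        χ (Pl δ (flat fun p => ev M' (s' p) t)) := by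
      intro t
      have hword : (fun p => ev (fun x : ι × Fin b => Lst x.1 x.2) (s p) t) =
          Pl δ (Sig.map fun y => ev (fun x : ι × Fin b => Lst x.1 x.2) y t) := by
        funext p
        by_cases hp : ∃ k, θ k = p
        · obtain ⟨k, rfl⟩ := hp
          have e1 : s (θ k) = Sig.getD k (Sum.inr δ) := hθm.injective.extend_apply _ _ k
          have e2 : Pl δ (Sig.map fun y => ev (fun x : ι × Fin b => Lst x.1 x.2) y t) (θ k) =
              (Sig.map fun y => ev (fun x : ι × Fin b => Lst x.1 x.2) y t).getD k δ :=
            hθm.injective.extend_apply _ _ k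
          rw [e1, e2]
          simp only [List.getD_eq_getElem?_getD, List.getElem?_map]
          cases hx : Sig[(k : ℕ)]? <;> simp [ev, hx]
        · have e1 : s p = Sum.inr δ := Function.extend_apply' _ _ _ hp
          have e2 : Pl δ (Sig.map fun y => ev (fun x : ι × Fin b => Lst x.1 x.2) y t) p = δ :=
            Function.extend_apply' _ _ _ hp
          rw [e1, e2]
          simp [ev]
      have hfl : (Sig.map fun y => ev (fun x : ι × Fin b => Lst x.1 x.2) y t).filter (· ≠ δ) =
          flat fun p => ev M' (s' p) t := by
        simp only [Sig, flat, List.map_flatMap, List.filter_flatMap]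
        have : (fun p => ev M' (s' p) t) = (fun x => ev M' x t) ∘ s' := rfl
        rw [this, ← List.map_ofFn, List.flatMap_map]
        congr 1
        funext x
        cases x with
        | inl i =>
          have := h i t
          simp only [G, Sum.elim_inl, List.map_map, ev]
          rw [List.ofFn_eq_map] at this
          exact this
        | inr l =>
          simp only [G, Sum.elim_inr, List.map_map, ev]
          have e : ((fun y : (ι × Fin b) ⊕ Λ => Sum.elim (fun i : ι × Fin b => Lst i.1 i.2 t) id y) ∘
              Sum.inr) = (id : Λ → Λ) := by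
            funext a
            rfl
          rw [e, List.map_id]
          exact List.filter_eq_self.2 fun a ha => by
            have : a ≠ δ := by
              rintro rfl
              exact hdec l ha
            simpa using this
      rw [hword]
      refine hH _ _ ?_ ?_ ?_ ?_
      · intro p hp
        by_contra hpH
        exact hp (Pl_out _ _ p hpH)
      · intro p hp
        by_contra hpH
        exact hp (Pl_out _ _ p hpH)
      · have hlen : (Sig.map fun y => ev (fun x : ι × Fin b => Lst x.1 x.2) y t).length ≤
            N' * (b + D) := by simpa using Sig_len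
        have hlen2 : (flat fun p => ev M' (s' p) t).length ≤ N' * (b + D) := by
          refine (flat_len _).trans ?_
          exact Nat.mul_le_mul_left _ (by omega)
        rw [Pl_sub _ hlen, Pl_sub _ hlen2, hfl, flat_filter]
      · have hlen : (Sig.map fun y => ev (fun x : ι × Fin b => Lst x.1 x.2) y t).length ≤
            N' * (b + D) := by simpa using Sig_len
        rw [Pl_sub _ hlen, hfl]
        exact flat_len _
    rw [key t, key t']
    exact hm' t t'

end Vale.Agent.Lib.P058
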