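import Vale.Agent.Lib.P058.Subtrans
import Vale.Agent.Lib.P058.Final

/-! # P058: spherical sets with rational coordinates are subtransitive, literal form -/

namespace Vale.Agent.Lib.P058

/-- A finite set of rational points on a sphere is subtransitive, in the form of `Subtrans`. -/
theorem isSubtransitive_of_rational {m : ℕ} (X : Set (EuclideanSpace ℝ (Fin m))) (hfin : X.Finite)
    (hrat : ∀ x ∈ X, ∀ j, ∃ q : ℚ, x j = q)
    (hsph : ∃ (z : EuclideanSpace ℝ (Fin m)) (r : ℝ), ∀ x ∈ X, dist x z = r) :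
    IsSubtransitive X := by
  obtain ⟨N, Y, hY, htr, f, hf, hd⟩ := rational_spherical_core X hfin hrat hsph
  exact ⟨N, Y, f, ⟨hY, htr⟩, hf, hd⟩

end Vale.Agent.Lib.P058
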