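import Vale.Agent.Lib.P058.Basic

open Finset

namespace Vale.Agent.Lib.P058

set_option linter.unusedSectionVars false

variable {ι κ : Type*} [Fintype ι] [Nonempty ι] [DecidableEq ι] [Fintype κ] [DecidableEq κ]

/-- The largest marginal value at the level `s`. -/
noncomputable def top (b : ι → κ → ℤ) (τ : (κ → ℤ) →₀ ℝ) (s : ℤ) : ℝ :=
  (univ : Finset ι).sup' univ_nonempty (fun i => mg b i τ s)

/-- The amount by which row `i` lies below the top at the level `s`. -/
noncomputable def gap (b : ι → κ → ℤ) (τ : (κ → ℤ) →₀ ℝ) (i : ι) (s : ℤ) : ℝ :=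
  top b τ s - mg b i τ s

lemma gap_nonneg (b : ι → κ → ℤ) (τ : (κ → ℤ) →₀ ℝ) (i : ι) (s : ℤ) : 0 ≤ gap b τ i s := by
  unfold gap top
  have := Finset.le_sup' (fun i => mg b i τ s) (Finset.mem_univ i)
  linarith

lemma gap_le_dfc (b : ι → κ → ℤ) (τ : (κ → ℤ) →₀ ℝ) (i : ι) (s : ℤ) :
    gap b τ i s ≤ dfc b τ s := by
  unfold gap top
  obtain ⟨i', _, hi'⟩ := Finset.exists_mem_eq_sup' (s := (univ : Finset ι)) univ_nonempty
    (fun i => mg b i τ s)
  rw [hi']
  exact (le_abs_self _).trans (abs_sub_le_dfc b τ s i' i)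

/-- The correction at the level `s`. -/
noncomputable def addAt (b : ι → κ → ℤ) (col : ι → ℤ → κ → ℤ) (τ : (κ → ℤ) →₀ ℝ) (s : ℤ) :
    (κ → ℤ) →₀ ℝ :=
  ∑ i, Finsupp.single (col i s) (gap b τ i s)

lemma addAt_nonneg (b : ι → κ → ℤ) (col : ι → ℤ → κ → ℤ) (τ : (κ → ℤ) →₀ ℝ) (s : ℤ)
    (n : κ → ℤ) : 0 ≤ addAt b col τ s n := by
  unfold addAt
  rw [Finsupp.finsetSum_apply]
  refine Finset.sum_nonneg fun i _ => ?_
  rw [Finsupp.single_apply]
  split_ifs
  · exact gap_nonneg _ _ _ _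
  · exact le_rfl

lemma mg_add_addAt (b : ι → κ → ℤ) (col : ι → ℤ → κ → ℤ) (τ : (κ → ℤ) →₀ ℝ) (s t : ℤ) (j : ι) :
    mg b j (τ + addAt b col τ s) t
      = mg b j τ t + ∑ i, if lev b j (col i s) = t then gap b τ i s else 0 := by
  unfold addAt
  rw [map_add, Finsupp.add_apply, map_sum, Finsupp.finsetSum_apply]
  congr 1
  refine Finset.sum_congr rfl fun i _ => ?_
  rw [mg_single]

lemma cost_addAt (b : ι → κ → ℤ) (col : ι → ℤ → κ → ℤ) (τ : (κ → ℤ) →₀ ℝ) (s : ℤ) :
    cost (addAt b col τ s) = ∑ i, gap b τ i s * ((nsq (col i s) : ℤ) : ℝ) := by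
  unfold addAt
  rw [map_sum]
  refine Finset.sum_congr rfl fun i _ => ?_
  rw [cost_single]

/-- Hypotheses on the columns used at the level `s`. -/
structure LevelHyp (b : ι → κ → ℤ) (col : ι → ℤ → κ → ℤ) (ψ : ℤ → ℝ) (s : ℤ) : Prop where
  hlev : ∀ i, lev b i (col i s) = s
  hlt : ∀ i j, i ≠ j → |lev b j (col i s)| < |s|
  hpsi : ∀ i j, i ≠ j → 4 * (Fintype.card ι : ℝ) ^ 3 * ψ (lev b j (col i s)) ≤ ψ s
  hcost : ∀ i, 2 * (Fintype.card ι : ℝ) * ((nsq (col i s) : ℤ) : ℝ) ≤ ψ s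

section level

variable {b : ι → κ → ℤ} {col : ι → ℤ → κ → ℤ} {ψ : ℤ → ℝ} {s : ℤ}

lemma sum_ite_at_s (h : LevelHyp b col ψ s) (τ : (κ → ℤ) →₀ ℝ) (j : ι) :
    (∑ i, if lev b j (col i s) = s then gap b τ i s else 0) = gap b τ j s := by
  rw [Finset.sum_eq_single j]
  · rw [if_pos (h.hlev j)]
  · intro i _ hij
    rw [if_neg]
    intro heq
    have := h.hlt i j hij
    rw [heq] at this
    exact lt_irrefl _ this
  · intro hj
    exact absurd (Finset.mem_univ j) hj

lemma mg_at_s (h : LevelHyp b col ψ s) (τ : (κ → ℤ) →₀ ℝ) (j : ι) :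
    mg b j (τ + addAt b col τ s) s = top b τ s := by
  rw [mg_add_addAt, sum_ite_at_s h]
  unfold gap
  ring

lemma dfc_at_s (h : LevelHyp b col ψ s) (τ : (κ → ℤ) →₀ ℝ) :
    dfc b (τ + addAt b col τ s) s = 0 := by
  rw [dfc_eq_zero_iff]
  intro i j
  rw [mg_at_s h, mg_at_s h]

lemma mg_away (h : LevelHyp b col ψ s) (τ : (κ → ℤ) →₀ ℝ) (t : ℤ) (ht : t ≠ s) (ht2 : |s| ≤ |t|)
    (j : ι) : mg b j (τ + addAt b col τ s) t = mg b j τ t := by
  rw [mg_add_addAt]
  have : (∑ i, if lev b j (col i s) = t then gap b τ i s else 0) = 0 := by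
    refine Finset.sum_eq_zero fun i _ => ?_
    rw [if_neg]
    intro heq
    by_cases hij : i = j
    · subst hij
      rw [h.hlev] at heq
      exact ht heq.symm
    · have := h.hlt i j hij
      rw [heq] at this
      exact absurd ht2 (not_le.mpr this)
  rw [this, add_zero]

lemma dfc_away (h : LevelHyp b col ψ s) (τ : (κ → ℤ) →₀ ℝ) (t : ℤ) (ht : t ≠ s)
    (ht2 : |s| ≤ |t|) : dfc b (τ + addAt b col τ s) t = dfc b τ t := by
  unfold dfc
  refine Finset.sum_congr rfl fun i _ => Finset.sum_congr rfl fun j _ => ?_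
  rw [mg_away h τ t ht ht2, mg_away h τ t ht ht2]

/-- The extra mass in row `j` at the level `t`. -/
noncomputable def extra (b : ι → κ → ℤ) (col : ι → ℤ → κ → ℤ) (τ : (κ → ℤ) →₀ ℝ) (s t : ℤ)
    (j : ι) : ℝ :=
  ∑ i, if lev b j (col i s) = t then gap b τ i s else 0

lemma extra_nonneg (τ : (κ → ℤ) →₀ ℝ) (s t : ℤ) (j : ι) : 0 ≤ extra b col τ s t j := by
  unfold extra
  refine Finset.sum_nonneg fun i _ => ?_
  split_ifs
  · exact gap_nonneg _ _ _ _
  · exact le_rfl

lemma dfc_le (τ : (κ → ℤ) →₀ ℝ) (t : ℤ) :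
    dfc b (τ + addAt b col τ s) t
      ≤ dfc b τ t + 2 * (Fintype.card ι : ℝ) * ∑ j, extra b col τ s t j := by
  have hbound : ∀ i j : ι, |mg b i (τ + addAt b col τ s) t - mg b j (τ + addAt b col τ s) t|
      ≤ |mg b i τ t - mg b j τ t| + (extra b col τ s t i + extra b col τ s t j) := by
    intro i j
    rw [mg_add_addAt, mg_add_addAt]
    change |mg b i τ t + extra b col τ s t i - (mg b j τ t + extra b col τ s t j)| ≤ _
    have h1 := extra_nonneg (b := b) (col := col) τ s t i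
    have h2 := extra_nonneg (b := b) (col := col) τ s t j
    have : mg b i τ t + extra b col τ s t i - (mg b j τ t + extra b col τ s t j)
        = (mg b i τ t - mg b j τ t) + (extra b col τ s t i - extra b col τ s t j) := by ring
    rw [this]
    refine (abs_add_le _ _).trans ?_
    have : |extra b col τ s t i - extra b col τ s t j| ≤ extra b col τ s t i + extra b col τ s t j := by
      rw [abs_le]; constructor <;> linarith
    linarith
  unfold dfc
  calc ∑ i, ∑ j, |mg b i (τ + addAt b col τ s) t - mg b j (τ + addAt b col τ s) t|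
      ≤ ∑ i, ∑ j, (|mg b i τ t - mg b j τ t| + (extra b col τ s t i + extra b col τ s t j)) :=
        Finset.sum_le_sum fun i _ => Finset.sum_le_sum fun j _ => hbound i j
    _ = ∑ i, ∑ j, |mg b i τ t - mg b j τ t|
          + 2 * (Fintype.card ι : ℝ) * ∑ j, extra b col τ s t j := by
        simp only [Finset.sum_add_distrib]
        have e1 : ∑ i : ι, ∑ _j : ι, extra b col τ s t i
            = (Fintype.card ι : ℝ) * ∑ j, extra b col τ s t j := by
          simp [Finset.sum_const, Finset.card_univ, nsmul_eq_mul, Finset.mul_sum]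
        have e2 : ∑ _i : ι, ∑ j : ι, extra b col τ s t j
            = (Fintype.card ι : ℝ) * ∑ j, extra b col τ s t j := by
          simp [Finset.sum_const, Finset.card_univ, nsmul_eq_mul]
        rw [e1, e2]
        ring

lemma pot_extra (h : LevelHyp b col ψ s) (hψ : ∀ t, 0 ≤ ψ t) (A : Finset ℤ)
    (hA : ∀ t ∈ A, |t| < |s|) (τ : (κ → ℤ) →₀ ℝ) (j : ι) :
    ∑ t ∈ A, ψ t * extra b col τ s t j
      ≤ (Fintype.card ι : ℝ) * (ψ s / (4 * (Fintype.card ι : ℝ) ^ 3) * dfc b τ s) := by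
  have hK : (0 : ℝ) < (Fintype.card ι : ℝ) := by
    exact_mod_cast Fintype.card_pos
  have hswap : ∑ t ∈ A, ψ t * extra b col τ s t j
      = ∑ i, ∑ t ∈ A, ψ t * (if lev b j (col i s) = t then gap b τ i s else 0) := by
    unfold extra
    simp only [Finset.mul_sum]
    rw [Finset.sum_comm]
  rw [hswap]
  have hterm : ∀ i, ∑ t ∈ A, ψ t * (if lev b j (col i s) = t then gap b τ i s else 0)
      ≤ ψ s / (4 * (Fintype.card ι : ℝ) ^ 3) * dfc b τ s := by
    intro i
    have hnn : 0 ≤ ψ s / (4 * (Fintype.card ι : ℝ) ^ 3) * dfc b τ s :=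
      mul_nonneg (div_nonneg (hψ s) (by positivity)) (dfc_nonneg _ _ _)
    by_cases hmem : lev b j (col i s) ∈ A
    · rw [Finset.sum_eq_single (lev b j (col i s))]
      · rw [if_pos rfl]
        have hij : i ≠ j := by
          rintro rfl
          have := hA _ hmem
          rw [h.hlev] at this
          exact lt_irrefl _ this
        have h1 := h.hpsi i j hij
        have h2 := gap_le_dfc b τ i s
        have h3 := gap_nonneg b τ i s
        have h4 : ψ (lev b j (col i s)) ≤ ψ s / (4 * (Fintype.card ι : ℝ) ^ 3) := by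
          rw [le_div_iff₀ (by positivity)]
          linarith
        exact mul_le_mul h4 h2 h3 (div_nonneg (hψ s) (by positivity))
      · intro t _ ht
        rw [if_neg (Ne.symm ht), mul_zero]
      · intro hh
        exact absurd hmem hh
    · have : ∑ t ∈ A, ψ t * (if lev b j (col i s) = t then gap b τ i s else 0) = 0 := by
        refine Finset.sum_eq_zero fun t ht => ?_
        rw [if_neg, mul_zero]
        rintro rfl
        exact hmem ht
      rw [this]
      exact hnn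
  calc ∑ i, ∑ t ∈ A, ψ t * (if lev b j (col i s) = t then gap b τ i s else 0)
      ≤ ∑ _i : ι, ψ s / (4 * (Fintype.card ι : ℝ) ^ 3) * dfc b τ s :=
        Finset.sum_le_sum fun i _ => hterm i
    _ = _ := by simp [Finset.sum_const, Finset.card_univ, nsmul_eq_mul]

lemma level_pot (h : LevelHyp b col ψ s) (hψ : ∀ t, 0 ≤ ψ t) (A : Finset ℤ)
    (hA : ∀ t ∈ A, |t| < |s|) (τ : (κ → ℤ) →₀ ℝ) :
    ∑ t ∈ A, ψ t * dfc b (τ + addAt b col τ s) t + cost (addAt b col τ s)
      ≤ ∑ t ∈ A, ψ t * dfc b τ t + ψ s * dfc b τ s := by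
  have hK : (0 : ℝ) < (Fintype.card ι : ℝ) := by
    exact_mod_cast Fintype.card_pos
  have h1 : ∑ t ∈ A, ψ t * dfc b (τ + addAt b col τ s) t
      ≤ ∑ t ∈ A, ψ t * dfc b τ t
        + 2 * (Fintype.card ι : ℝ) * ∑ j, ∑ t ∈ A, ψ t * extra b col τ s t j := by
    have : ∑ t ∈ A, ψ t * dfc b (τ + addAt b col τ s) t
        ≤ ∑ t ∈ A, ψ t * (dfc b τ t + 2 * (Fintype.card ι : ℝ) * ∑ j, extra b col τ s t j) :=
      Finset.sum_le_sum fun t _ => mul_le_mul_of_nonneg_left (dfc_le τ t) (hψ t)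
    refine this.trans (le_of_eq ?_)
    simp only [mul_add, Finset.sum_add_distrib]
    congr 1
    have e : ∀ t, ψ t * (2 * (Fintype.card ι : ℝ) * ∑ j, extra b col τ s t j)
        = 2 * (Fintype.card ι : ℝ) * ∑ j, ψ t * extra b col τ s t j := by
      intro t
      rw [Finset.mul_sum, Finset.mul_sum, Finset.mul_sum]
      exact Finset.sum_congr rfl fun j _ => by ring
    simp only [e]
    rw [← Finset.mul_sum, Finset.sum_comm]
  have h2 : ∑ j, ∑ t ∈ A, ψ t * extra b col τ s t j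
      ≤ (Fintype.card ι : ℝ) * ((Fintype.card ι : ℝ)
          * (ψ s / (4 * (Fintype.card ι : ℝ) ^ 3) * dfc b τ s)) := by
    calc ∑ j, ∑ t ∈ A, ψ t * extra b col τ s t j
        ≤ ∑ _j : ι, (Fintype.card ι : ℝ) * (ψ s / (4 * (Fintype.card ι : ℝ) ^ 3) * dfc b τ s) :=
          Finset.sum_le_sum fun j _ => pot_extra h hψ A hA τ j
      _ = _ := by simp [Finset.sum_const, Finset.card_univ, nsmul_eq_mul]
  have h3 : cost (addAt b col τ s) ≤ (Fintype.card ι : ℝ) * (dfc b τ s * (ψ s / (2 * (Fintype.card ι : ℝ)))) := by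
    rw [cost_addAt]
    calc ∑ i, gap b τ i s * ((nsq (col i s) : ℤ) : ℝ)
        ≤ ∑ _i : ι, dfc b τ s * (ψ s / (2 * (Fintype.card ι : ℝ))) := by
          refine Finset.sum_le_sum fun i _ => ?_
          have hn : (0 : ℝ) ≤ ((nsq (col i s) : ℤ) : ℝ) := by
            unfold nsq
            exact_mod_cast Finset.sum_nonneg fun p _ => sq_nonneg (col i s p)
          have hc : ((nsq (col i s) : ℤ) : ℝ) ≤ ψ s / (2 * (Fintype.card ι : ℝ)) := by
            rw [le_div_iff₀ (by positivity)]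
            linarith [h.hcost i]
          exact mul_le_mul (gap_le_dfc b τ i s) hc hn (dfc_nonneg _ _ _)
      _ = _ := by simp [Finset.sum_const, Finset.card_univ, nsmul_eq_mul]
  have e1 : 2 * (Fintype.card ι : ℝ) * ((Fintype.card ι : ℝ) * ((Fintype.card ι : ℝ)
      * (ψ s / (4 * (Fintype.card ι : ℝ) ^ 3) * dfc b τ s))) = ψ s * dfc b τ s / 2 := by
    field_simp
    ring
  have e2 : (Fintype.card ι : ℝ) * (dfc b τ s * (ψ s / (2 * (Fintype.card ι : ℝ))))
      = ψ s * dfc b τ s / 2 := by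
    field_simp
  have h4 : 2 * (Fintype.card ι : ℝ) * ∑ j, ∑ t ∈ A, ψ t * extra b col τ s t j
      ≤ ψ s * dfc b τ s / 2 := by
    rw [← e1]
    exact mul_le_mul_of_nonneg_left h2 (by positivity)
  linarith [e2 ▸ h3]

end level

/-- The potential of `τ` on the levels up to `T`. -/
noncomputable def pot (b : ι → κ → ℤ) (ψ : ℤ → ℝ) (T : ℕ) (τ : (κ → ℤ) →₀ ℝ) : ℝ :=
  ∑ t ∈ Finset.Icc (-(T : ℤ)) (T : ℤ), ψ t * dfc b τ t

lemma Icc_succ_sum (f : ℤ → ℝ) (T : ℕ) :
    ∑ t ∈ Finset.Icc (-((T + 1 : ℕ) : ℤ)) ((T + 1 : ℕ) : ℤ), f t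
      = ∑ t ∈ Finset.Icc (-(T : ℤ)) (T : ℤ), f t + f ((T : ℤ) + 1) + f (-((T : ℤ) + 1)) := by
  have h : Finset.Icc (-((T + 1 : ℕ) : ℤ)) ((T + 1 : ℕ) : ℤ)
      = insert (-((T : ℤ) + 1)) (insert ((T : ℤ) + 1) (Finset.Icc (-(T : ℤ)) (T : ℤ))) := by
    ext x
    simp only [Finset.mem_Icc, Finset.mem_insert, Nat.cast_add, Nat.cast_one]
    omega
  rw [h, Finset.sum_insert, Finset.sum_insert]
  · ring
  · simp only [Finset.mem_Icc]; omega
  · simp only [Finset.mem_insert, Finset.mem_Icc]; omega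

/-- The main sweep: a defect above `T0` can be pushed down with nonnegative corrections. -/
theorem sweep {b : ι → κ → ℤ} {col : ι → ℤ → κ → ℤ} {ψ : ℤ → ℝ} (T0 : ℕ) (hψ : ∀ t, 0 ≤ ψ t)
    (h : ∀ s : ℤ, (T0 : ℤ) < |s| → LevelHyp b col ψ s) :
    ∀ T : ℕ, T0 ≤ T → ∀ τ : (κ → ℤ) →₀ ℝ, (∀ t : ℤ, (T : ℤ) < |t| → dfc b τ t = 0) →
      ∃ α : (κ → ℤ) →₀ ℝ, (∀ n, 0 ≤ α n) ∧ (∀ t : ℤ, (T0 : ℤ) < |t| → dfc b (τ + α) t = 0) ∧
        pot b ψ T0 (τ + α) + cost α ≤ pot b ψ T τ := by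
  intro T hT
  induction T, hT using Nat.le_induction with
  | base =>
    intro τ hτ
    refine ⟨0, fun _ => le_rfl, ?_, ?_⟩
    · simpa using hτ
    · simp
  | succ T hT ih =>
    intro τ hτ
    set s1 : ℤ := (T : ℤ) + 1 with hs1
    set s2 : ℤ := -((T : ℤ) + 1) with hs2
    have habs1 : |s1| = (T : ℤ) + 1 := by
      rw [hs1]; exact abs_of_nonneg (by positivity)
    have habs2 : |s2| = (T : ℤ) + 1 := by
      rw [hs2, abs_neg]; exact abs_of_nonneg (by positivity)
    have hT' : (T0 : ℤ) ≤ (T : ℤ) := by exact_mod_cast hT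
    have h1 : LevelHyp b col ψ s1 := h s1 (by rw [habs1]; omega)
    have h2 : LevelHyp b col ψ s2 := h s2 (by rw [habs2]; omega)
    have hne : s2 ≠ s1 := by rw [hs1, hs2]; omega
    set τ1 := τ + addAt b col τ s1 with hτ1
    set τ2 := τ1 + addAt b col τ1 s2 with hτ2
    have hA1 : ∀ t ∈ Finset.Icc (-(T : ℤ)) (T : ℤ), |t| < |s1| := by
      intro t ht
      rw [Finset.mem_Icc] at ht
      rw [habs1, abs_lt]
      constructor <;> omega
    have hA2 : ∀ t ∈ Finset.Icc (-(T : ℤ)) (T : ℤ), |t| < |s2| := by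
      intro t ht
      rw [Finset.mem_Icc] at ht
      rw [habs2, abs_lt]
      constructor <;> omega
    have p1 := level_pot h1 hψ _ hA1 τ
    have p2 := level_pot h2 hψ _ hA2 τ1
    have d1 : dfc b τ1 s2 = dfc b τ s2 :=
      dfc_away h1 τ s2 hne (by rw [habs1, habs2])
    have hzero : ∀ t : ℤ, (T : ℤ) < |t| → dfc b τ2 t = 0 := by
      intro t ht
      by_cases ht2 : t = s2
      · rw [ht2]; exact dfc_at_s h2 τ1
      · have ht3 : |s2| ≤ |t| := by rw [habs2]; omega
        rw [hτ2, dfc_away h2 τ1 t ht2 ht3]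
        by_cases ht4 : t = s1
        · rw [ht4]; exact dfc_at_s h1 τ
        · have ht5 : |s1| ≤ |t| := by rw [habs1]; omega
          rw [hτ1, dfc_away h1 τ t ht4 ht5]
          by_cases ht6 : (((T + 1 : ℕ) : ℤ)) < |t|
          · exact hτ t ht6
          · exfalso
            have ht7 : |t| = (T : ℤ) + 1 := by push_cast at ht6; omega
            have : t = (T : ℤ) + 1 ∨ t = -((T : ℤ) + 1) := by
              rcases abs_cases t with ⟨h', _⟩ | ⟨h', _⟩
              · left; omega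
              · right; omega
            rcases this with h' | h'
            · exact ht4 h'
            · exact ht2 h'
    obtain ⟨α2, hα2, hz, hp⟩ := ih τ2 hzero
    refine ⟨addAt b col τ s1 + addAt b col τ1 s2 + α2, ?_, ?_, ?_⟩
    · intro n
      simp only [Finsupp.add_apply]
      have a1 := addAt_nonneg b col τ s1 n
      have a2 := addAt_nonneg b col τ1 s2 n
      have a3 := hα2 n
      linarith
    · intro t ht
      have : τ + (addAt b col τ s1 + addAt b col τ1 s2 + α2) = τ2 + α2 := by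
        rw [hτ2, hτ1]; abel
      rw [this]
      exact hz t ht
    · have e : τ + (addAt b col τ s1 + addAt b col τ1 s2 + α2) = τ2 + α2 := by
        rw [hτ2, hτ1]; abel
      rw [e, map_add, map_add]
      have e2 : pot b ψ (T + 1) τ = pot b ψ T τ + ψ s1 * dfc b τ s1 + ψ s2 * dfc b τ s2 := by
        unfold pot
        exact Icc_succ_sum (fun t => ψ t * dfc b τ t) T
      rw [e2]
      unfold pot at hp p1 p2 ⊢
      rw [d1] at p2
      linarith

end Vale.Agent.Lib.P058
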