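import Vale.Agent.Lib.P058.Columns
import Vale.Agent.Lib.P058.Fourier

open Finset

namespace Vale.Agent.Lib.P058

set_option linter.unusedSectionVars false

variable {ι κ : Type*} [Fintype ι] [Nonempty ι] [DecidableEq ι] [Fintype κ] [DecidableEq κ]

/-- Measures whose marginals agree above the level `T0`. -/
noncomputable def highEq (b : ι → κ → ℤ) (T0 : ℕ) : Submodule ℝ ((κ → ℤ) →₀ ℝ) where
  carrier := {ξ | ∀ t : ℤ, (T0 : ℤ) < |t| → ∀ i j, mg b i ξ t = mg b j ξ t}
  add_mem' := by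
    intro x y hx hy t ht i j
    simp only [map_add, Finsupp.add_apply]
    rw [hx t ht i j, hy t ht i j]
  zero_mem' := by
    intro t _ i j
    simp
  smul_mem' := by
    intro c x hx t ht i j
    simp only [map_smul, Finsupp.smul_apply]
    rw [hx t ht i j]

/-- The index set of the low levels. -/
abbrev LowIdx (ι : Type*) (T0 : ℕ) := ι × ↥(Finset.Icc (-(T0 : ℤ)) (T0 : ℤ))

/-- The low level defect map. -/
noncomputable def lowDef (b : ι → κ → ℤ) (T0 : ℕ) (i0 : ι) :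
    ((κ → ℤ) →₀ ℝ) →ₗ[ℝ] (LowIdx ι T0 → ℝ) :=
  LinearMap.pi fun y =>
    (Finsupp.lapply (R := ℝ) (M := ℝ) (y.2 : ℤ)).comp (mg b y.1)
      - (Finsupp.lapply (R := ℝ) (M := ℝ) (y.2 : ℤ)).comp (mg b i0)

lemma lowDef_apply (b : ι → κ → ℤ) (T0 : ℕ) (i0 : ι) (ξ : (κ → ℤ) →₀ ℝ) (y : LowIdx ι T0) :
    lowDef b T0 i0 ξ y = mg b y.1 ξ y.2 - mg b i0 ξ y.2 := by
  simp [lowDef, LinearMap.pi_apply]

/-- The low level correction: the low defect can be removed linearly, with a uniform bound and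
a fixed finite support. -/
theorem lowFix (b : ι → κ → ℤ) (T0 : ℕ) (i0 : ι) :
    ∃ (Sg : Finset (κ → ℤ)) (K : ℝ), 0 ≤ K ∧ ∀ w : (κ → ℤ) →₀ ℝ, w ∈ highEq b T0 →
      ∀ η : ℝ, 0 ≤ η → (∀ i (t : ℤ), |t| ≤ (T0 : ℤ) → |mg b i w t - mg b i0 w t| ≤ η) →
      ∃ ξ : (κ → ℤ) →₀ ℝ, (∀ n, n ∉ Sg → ξ n = 0) ∧ (∀ n, |ξ n| ≤ K * η) ∧
        (∀ p q, |mom p q ξ| ≤ K * η) ∧ ∀ (t : ℤ) (i j : ι), mg b i (w - ξ) t = mg b j (w - ξ) t := by
  classical
  set I0 := highEq b T0 with hI0
  set Dfn := lowDef b T0 i0 with hDfn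
  set W : Submodule ℝ (LowIdx ι T0 → ℝ) := I0.map Dfn with hW
  set B := Module.finBasis ℝ W with hB
  have hex : ∀ l, ∃ ξ : (κ → ℤ) →₀ ℝ, ξ ∈ I0 ∧ Dfn ξ = (B l : LowIdx ι T0 → ℝ) := by
    intro l
    have h0 : ((B l : W) : LowIdx ι T0 → ℝ) ∈ I0.map Dfn := (B l).2
    obtain ⟨ξ, h1, h2⟩ := (Submodule.mem_map).mp h0
    exact ⟨ξ, h1, h2⟩
  choose ξs hξs1 hξs2 using hex
  -- the coordinates are bounded
  set φ : _ → (W →L[ℝ] ℝ) := fun l => (B.coord l).toContinuousLinearMap with hφ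
  set K1 : ℝ := ∑ l, ‖φ l‖ with hK1
  have hK1nn : 0 ≤ K1 := Finset.sum_nonneg fun _ _ => ContinuousLinearMap.opNorm_nonneg _
  have hφle : ∀ l, ‖φ l‖ ≤ K1 := fun l =>
    Finset.single_le_sum (f := fun l => ‖φ l‖) (fun _ _ => ContinuousLinearMap.opNorm_nonneg _)
      (Finset.mem_univ l)
  set K2 : ℝ := ∑ l, ∑ n ∈ (ξs l).support, |ξs l n| with hK2
  have hK2nn : 0 ≤ K2 := Finset.sum_nonneg fun _ _ => Finset.sum_nonneg fun _ _ => abs_nonneg _
  have hK2le : ∀ l n, |ξs l n| ≤ K2 := by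
    intro l n
    by_cases hn : n ∈ (ξs l).support
    · calc |ξs l n| ≤ ∑ n ∈ (ξs l).support, |ξs l n| :=
            Finset.single_le_sum (f := fun n => |ξs l n|) (fun _ _ => abs_nonneg _) hn
        _ ≤ K2 := Finset.single_le_sum (f := fun l => ∑ n ∈ (ξs l).support, |ξs l n|)
            (fun _ _ => Finset.sum_nonneg fun _ _ => abs_nonneg _) (Finset.mem_univ l)
    · rw [Finsupp.notMem_support_iff.mp hn, abs_zero]
      exact hK2nn
  set K3 : ℝ := ∑ l, ∑ p, ∑ q, |mom p q (ξs l)| with hK3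
  have hK3nn : 0 ≤ K3 := Finset.sum_nonneg fun _ _ =>
    Finset.sum_nonneg fun _ _ => Finset.sum_nonneg fun _ _ => abs_nonneg _
  have hK3le : ∀ l p q, |mom p q (ξs l)| ≤ K3 := by
    intro l p q
    calc |mom p q (ξs l)| ≤ ∑ q, |mom p q (ξs l)| :=
          Finset.single_le_sum (f := fun q => |mom p q (ξs l)|) (fun _ _ => abs_nonneg _)
            (Finset.mem_univ q)
      _ ≤ ∑ p, ∑ q, |mom p q (ξs l)| :=
          Finset.single_le_sum (f := fun p => ∑ q, |mom p q (ξs l)|)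
            (fun _ _ => Finset.sum_nonneg fun _ _ => abs_nonneg _) (Finset.mem_univ p)
      _ ≤ K3 := Finset.single_le_sum (f := fun l => ∑ p, ∑ q, |mom p q (ξs l)|)
          (fun _ _ => Finset.sum_nonneg fun _ _ => Finset.sum_nonneg fun _ _ => abs_nonneg _)
          (Finset.mem_univ l)
  set d : ℝ := (Module.finrank ℝ W : ℝ) with hd
  refine ⟨Finset.univ.biUnion fun l => (ξs l).support, d * (K1 * (K2 + K3)),
    by positivity, ?_⟩
  intro w hw η hη hlow
  have hmem : Dfn w ∈ W := Submodule.mem_map_of_mem hw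
  set u : W := ⟨Dfn w, hmem⟩ with hu
  have hunorm : ‖u‖ ≤ η := by
    rw [Submodule.coe_norm, hu]
    refine (pi_norm_le_iff_of_nonneg hη).mpr fun y => ?_
    simp only
    rw [hDfn, lowDef_apply, Real.norm_eq_abs]
    refine hlow y.1 y.2 ?_
    have := y.2.2
    rw [Finset.mem_Icc] at this
    exact abs_le.mpr this
  set c : _ → ℝ := fun l => B.repr u l with hc
  have hcle : ∀ l, |c l| ≤ K1 * η := by
    intro l
    have h1 : c l = φ l u := by
      simp [hc, hφ]
    rw [h1, ← Real.norm_eq_abs]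
    refine ((φ l).le_opNorm u).trans ?_
    exact mul_le_mul (hφle l) hunorm (norm_nonneg _) hK1nn
  have hsumbound : ∀ f : _ → ℝ, ∀ C : ℝ, (∀ l, |f l| ≤ C) → 0 ≤ C →
      |∑ l, c l * f l| ≤ d * (K1 * η * C) := by
    intro f C hf hC
    calc |∑ l, c l * f l| ≤ ∑ l, |c l * f l| := Finset.abs_sum_le_sum_abs _ _
      _ ≤ ∑ _l : Fin (Module.finrank ℝ W), K1 * η * C := by
          refine Finset.sum_le_sum fun l _ => ?_
          rw [abs_mul]
          exact mul_le_mul (hcle l) (hf l) (abs_nonneg _) (by positivity)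
      _ = d * (K1 * η * C) := by
          simp [Finset.sum_const, Finset.card_univ, nsmul_eq_mul, hd]
  set ξ : (κ → ℤ) →₀ ℝ := ∑ l, c l • ξs l with hξ
  have hξapply : ∀ n, ξ n = ∑ l, c l * ξs l n := by
    intro n
    rw [hξ, Finsupp.finsetSum_apply]
    rfl
  have hξmem : ξ ∈ I0 := Submodule.sum_mem _ fun l _ => Submodule.smul_mem _ _ (hξs1 l)
  have hDξ : Dfn ξ = Dfn w := by
    rw [hξ, map_sum]
    simp only [map_smul]
    have h1 : ∀ l, c l • Dfn (ξs l) = ((c l • B l : W) : LowIdx ι T0 → ℝ) := by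
      intro l
      rw [hξs2 l]
      rfl
    simp only [h1]
    have h2 := B.sum_repr u
    have h3 : ((∑ l, (c l • B l) : W) : LowIdx ι T0 → ℝ) = Dfn w := by
      rw [h2]
    rw [← h3]
    push_cast
    rfl
  refine ⟨ξ, ?_, ?_, ?_, ?_⟩
  · intro n hn
    rw [hξapply]
    refine Finset.sum_eq_zero fun l _ => ?_
    have : n ∉ (ξs l).support := by
      intro h
      exact hn (Finset.mem_biUnion.mpr ⟨l, Finset.mem_univ l, h⟩)
    rw [Finsupp.notMem_support_iff.mp this, mul_zero]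
  · intro n
    rw [hξapply]
    have h1 := hsumbound (fun l => ξs l n) (K2 + K3)
      (fun l => (hK2le l n).trans (by linarith)) (by linarith)
    refine h1.trans (le_of_eq ?_)
    ring
  · intro p q
    have h0 : mom p q ξ = ∑ l, c l * mom p q (ξs l) := by
      rw [hξ, map_sum]
      simp only [map_smul, smul_eq_mul]
    rw [h0]
    have h1 := hsumbound (fun l => mom p q (ξs l)) (K2 + K3)
      (fun l => (hK3le l p q).trans (by linarith)) (by linarith)
    refine h1.trans (le_of_eq ?_)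
    ring
  · -- equal marginals everywhere
    have hdiffmem : w - ξ ∈ I0 := Submodule.sub_mem _ hw hξmem
    have hD0 : Dfn (w - ξ) = 0 := by
      rw [map_sub, hDξ, sub_self]
    have hto : ∀ (t : ℤ) (i : ι), mg b i (w - ξ) t = mg b i0 (w - ξ) t := by
      intro t i
      by_cases ht : (T0 : ℤ) < |t|
      · exact hdiffmem t ht i i0
      · push Not at ht
        have hty : t ∈ Finset.Icc (-(T0 : ℤ)) (T0 : ℤ) := by
          rw [Finset.mem_Icc]
          exact abs_le.mp ht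
        have := congrFun hD0 (i, ⟨t, hty⟩)
        rw [hDfn, lowDef_apply] at this
        simp only [Pi.zero_apply] at this
        linarith
    intro t i j
    rw [hto t i, hto t j]

/-- The elementary bound on the potential of the Gaussian measure. -/
lemma pot_le (b : ι → κ → ℤ) (K L : ℕ) (τ : (κ → ℤ) →₀ ℝ) {D : ℝ} (hD0 : 0 ≤ D)
    (hD : ∀ t i j, |mg b i τ t - mg b j τ t| ≤ D) :
    pot b (psiK K) L τ
      ≤ (2 * (L : ℝ) + 1) * (1 + (L : ℝ)) ^ K * ((Fintype.card ι : ℝ) ^ 2 * D) := by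
  unfold pot
  have hdfc : ∀ t, dfc b τ t ≤ (Fintype.card ι : ℝ) ^ 2 * D := by
    intro t
    unfold dfc
    calc ∑ i, ∑ j, |mg b i τ t - mg b j τ t| ≤ ∑ _i : ι, ∑ _j : ι, D :=
          Finset.sum_le_sum fun i _ => Finset.sum_le_sum fun j _ => hD t i j
      _ = (Fintype.card ι : ℝ) ^ 2 * D := by
          simp [Finset.sum_const, Finset.card_univ, nsmul_eq_mul]
          ring
  have hterm : ∀ t ∈ Finset.Icc (-(L : ℤ)) (L : ℤ),
      psiK K t * dfc b τ t ≤ (1 + (L : ℝ)) ^ K * ((Fintype.card ι : ℝ) ^ 2 * D) := by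
    intro t ht
    have ht2 : |t| ≤ (L : ℤ) := abs_le.mpr (Finset.mem_Icc.mp ht)
    have ht3 : |(t : ℝ)| ≤ (L : ℝ) := by
      have : ((|t| : ℤ) : ℝ) ≤ ((L : ℤ) : ℝ) := by exact_mod_cast ht2
      simpa using this
    refine mul_le_mul ?_ (hdfc t) (dfc_nonneg _ _ _) (by positivity)
    unfold psiK
    exact pow_le_pow_left₀ (by positivity) (by linarith) K
  calc ∑ t ∈ Finset.Icc (-(L : ℤ)) (L : ℤ), psiK K t * dfc b τ t
      ≤ ∑ _t ∈ Finset.Icc (-(L : ℤ)) (L : ℤ),
          (1 + (L : ℝ)) ^ K * ((Fintype.card ι : ℝ) ^ 2 * D) := Finset.sum_le_sum hterm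
    _ = (2 * (L : ℝ) + 1) * (1 + (L : ℝ)) ^ K * ((Fintype.card ι : ℝ) ^ 2 * D) := by
        rw [Finset.sum_const, Int.card_Icc, nsmul_eq_mul]
        have : ((((L : ℤ) + 1 - -(L : ℤ)).toNat : ℕ) : ℝ) = 2 * (L : ℝ) + 1 := by
          have h : ((L : ℤ) + 1 - -(L : ℤ)).toNat = 2 * L + 1 := by omega
          rw [h]
          push_cast
          ring
        rw [this]
        ring

/-- The explicit error function. -/
noncomputable def errFun (B K n kk : ℕ) (m : ℝ) (S : ℕ) : ℝ :=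
  (2 * ((2 * S * B : ℕ) : ℝ) + 1) * (1 + ((2 * S * B : ℕ) : ℝ)) ^ K * ((kk : ℝ) ^ 2
    * ((sqS (S : ℝ)) ^ n * (2 * ((n : ℝ) + 1) * 2 ^ n
      * (Real.exp (-((S : ℝ) / m ^ 2)) + delta (S : ℝ)))))

lemma sqS_le {x : ℝ} (hx : 1 ≤ x) : sqS x ≤ 3 * x := by
  unfold sqS
  rw [Real.sqrt_le_left (by positivity)]
  have := Real.pi_lt_four
  nlinarith

lemma errFun_tendsto (B K n kk : ℕ) {m : ℝ} (hm : 1 ≤ m) :
    Filter.Tendsto (errFun B K n kk m) Filter.atTop (nhds 0) := by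
  have hm0 : 0 < m := by linarith
  set K' := 1 + K + n with hK'
  set C : ℝ := (4 * (B : ℝ) + 1) * (1 + 2 * (B : ℝ)) ^ K * ((kk : ℝ) ^ 2 * (3 ^ n
    * (2 * ((n : ℝ) + 1) * 2 ^ n * (1 + 2 * C0)))) with hC
  have hC0 := C0_nonneg
  have hCnn : 0 ≤ C := by rw [hC]; positivity
  have h1 : Filter.Tendsto (fun S : ℕ => (S : ℝ) / m ^ 2) Filter.atTop Filter.atTop :=
    tendsto_natCast_atTop_atTop.atTop_div_const (by positivity)
  have h2 := (Real.tendsto_pow_mul_exp_neg_atTop_nhds_zero K').comp h1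
  have h3 : Filter.Tendsto (fun S : ℕ => C * (m ^ 2) ^ K'
      * (((S : ℝ) / m ^ 2) ^ K' * Real.exp (-((S : ℝ) / m ^ 2)))) Filter.atTop (nhds 0) := by
    simpa using h2.const_mul (C * (m ^ 2) ^ K')
  refine squeeze_zero' ?_ ?_ h3
  · filter_upwards with S
    unfold errFun
    have := delta_nonneg (S : ℝ)
    have := Real.exp_pos (-((S : ℝ) / m ^ 2))
    have hq : 0 ≤ sqS (S : ℝ) := Real.sqrt_nonneg _
    positivity
  · filter_upwards [Filter.eventually_ge_atTop 1] with S hS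
    have hS1 : (1 : ℝ) ≤ (S : ℝ) := by exact_mod_cast hS
    have hS0 : (0 : ℝ) ≤ (S : ℝ) := by linarith
    set x : ℝ := (S : ℝ) with hx
    have hB0 : (0 : ℝ) ≤ (B : ℝ) := by positivity
    have e1 : ((2 * S * B : ℕ) : ℝ) = 2 * x * (B : ℝ) := by
      push_cast; ring
    have f1 : 2 * ((2 * S * B : ℕ) : ℝ) + 1 ≤ (4 * (B : ℝ) + 1) * x := by
      rw [e1]; nlinarith
    have f2 : (1 + ((2 * S * B : ℕ) : ℝ)) ^ K ≤ ((1 + 2 * (B : ℝ)) * x) ^ K := by
      refine pow_le_pow_left₀ (by positivity) ?_ K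
      rw [e1]; nlinarith
    have f3 : (sqS x) ^ n ≤ (3 * x) ^ n :=
      pow_le_pow_left₀ (Real.sqrt_nonneg _) (sqS_le hS1) n
    have f4 : Real.exp (-(x / m ^ 2)) + delta x ≤ (1 + 2 * C0) * Real.exp (-(x / m ^ 2)) := by
      have h5 : Real.exp (-x) ≤ Real.exp (-(x / m ^ 2)) := by
        rw [Real.exp_le_exp, neg_le_neg_iff]
        have h6 : 1 ≤ m ^ 2 := by nlinarith
        rw [div_le_iff₀ (by positivity)]
        nlinarith
      unfold delta
      have h7 : 2 * C0 * Real.exp (-x) ≤ 2 * C0 * Real.exp (-(x / m ^ 2)) :=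
        mul_le_mul_of_nonneg_left h5 (by positivity)
      linarith
    have hexp := Real.exp_pos (-(x / m ^ 2))
    have hd := delta_nonneg x
    unfold errFun
    have hq : 0 ≤ sqS x := Real.sqrt_nonneg _
    set Z : ℝ := 2 * ((n : ℝ) + 1) * 2 ^ n with hZ
    have hZ0 : 0 ≤ Z := by rw [hZ]; positivity
    have hEd : 0 ≤ Real.exp (-(x / m ^ 2)) + delta x := by linarith
    have g1 : (sqS x) ^ n * (Z * (Real.exp (-(x / m ^ 2)) + delta x))
        ≤ (3 * x) ^ n * (Z * ((1 + 2 * C0) * Real.exp (-(x / m ^ 2)))) :=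
      mul_le_mul f3 (mul_le_mul_of_nonneg_left f4 hZ0) (by positivity) (by positivity)
    have g2 : (kk : ℝ) ^ 2 * ((sqS x) ^ n * (Z * (Real.exp (-(x / m ^ 2)) + delta x)))
        ≤ (kk : ℝ) ^ 2 * ((3 * x) ^ n * (Z * ((1 + 2 * C0) * Real.exp (-(x / m ^ 2))))) :=
      mul_le_mul_of_nonneg_left g1 (by positivity)
    have g3 : (2 * ((2 * S * B : ℕ) : ℝ) + 1) * (1 + ((2 * S * B : ℕ) : ℝ)) ^ K
        ≤ ((4 * (B : ℝ) + 1) * x) * ((1 + 2 * (B : ℝ)) * x) ^ K :=
      mul_le_mul f1 f2 (by positivity) (by positivity)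
    calc (2 * ((2 * S * B : ℕ) : ℝ) + 1) * (1 + ((2 * S * B : ℕ) : ℝ)) ^ K * ((kk : ℝ) ^ 2
          * ((sqS x) ^ n * (Z * (Real.exp (-(x / m ^ 2)) + delta x))))
        ≤ ((4 * (B : ℝ) + 1) * x) * ((1 + 2 * (B : ℝ)) * x) ^ K * ((kk : ℝ) ^ 2
          * ((3 * x) ^ n * (Z * ((1 + 2 * C0) * Real.exp (-(x / m ^ 2)))))) :=
          mul_le_mul g3 g2 (by positivity) (by positivity)
      _ = C * (m ^ 2) ^ K' * ((x / m ^ 2) ^ K' * Real.exp (-(x / m ^ 2))) := by
          have hm2 : (m ^ 2) ^ K' * (x / m ^ 2) ^ K' = x ^ K' := by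
            rw [← mul_pow]
            congr 1
            field_simp
          calc _ = C * x ^ K' * Real.exp (-(x / m ^ 2)) := by
                rw [hC, hK', hZ, mul_pow (1 + 2 * (B : ℝ)) x K, mul_pow 3 x n, pow_add, pow_add,
                  pow_one]
                ring
            _ = _ := by
                rw [← hm2]
                ring

/-- Theorem A: exact equality of all marginals together with an almost scalar second moment. -/
theorem thmA {b : ι → κ → ℤ} {ρ : ℤ} {l0 : κ} (hl0 : ∀ i, b i l0 = 1)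
    (hρ : ∀ i, ∑ p, b i p ^ 2 = ρ) (hinj : Function.Injective b) {ε : ℝ} (hε : 0 < ε) :
    ∃ (w : (κ → ℤ) →₀ ℝ) (V : ℝ), (∀ n, 0 ≤ w n) ∧ (∀ i j t, mg b i w t = mg b j w t) ∧ 1 / 2 ≤ V ∧
      ∀ p q, |mom p q w - (if p = q then V else 0)| ≤ ε := by
  classical
  obtain ⟨Kψ, T0, hLH⟩ := exists_levelHyp hl0 hρ hinj
  obtain ⟨i0⟩ := (inferInstance : Nonempty ι)
  obtain ⟨Sg, K, hK0, hfix⟩ := lowFix b T0 i0
  set m : ℝ := 1 + bSize b with hm
  have hm1 : 1 ≤ m := by linarith [bSize_nonneg b]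
  have hmb : ∀ i p, |(b i p : ℝ)| ≤ m := fun i p => by
    have := abs_entry_le_bSize b i p
    linarith
  set B := bNat b with hB
  set n := Fintype.card κ with hn
  set kk := Fintype.card ι with hkk
  have herr := errFun_tendsto B Kψ n kk hm1
  -- smallness of the error
  set target : ℝ := min (ε / (1 + K)) (1 / (2 * (1 + K))) with htarget
  have htpos : 0 < target := by
    rw [htarget]
    exact lt_min (by positivity) (by positivity)
  have hev1 : ∀ᶠ S : ℕ in Filter.atTop, errFun B Kψ n kk m S < target :=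
    herr.eventually (gt_mem_nhds htpos)
  have hdelta : Filter.Tendsto (fun S : ℕ => delta (S : ℝ)) Filter.atTop (nhds 0) := by
    unfold delta
    have h1 : Filter.Tendsto (fun S : ℕ => Real.exp (-(S : ℝ))) Filter.atTop (nhds 0) :=
      Real.tendsto_exp_neg_atTop_nhds_zero.comp tendsto_natCast_atTop_atTop
    simpa using h1.const_mul (2 * C0)
  have hev2 : ∀ᶠ S : ℕ in Filter.atTop, delta (S : ℝ) < 1 :=
    hdelta.eventually (gt_mem_nhds one_pos)
  -- all columns of the finite correction set fit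
  set M : ℕ := 1 + ∑ c ∈ Sg, (nsq c).toNat with hM
  have hnsqle : ∀ c ∈ Sg, nsq c ≤ (M : ℤ) := by
    intro c hc
    have h1 : (nsq c).toNat ≤ ∑ c ∈ Sg, (nsq c).toNat :=
      Finset.single_le_sum (f := fun c => (nsq c).toNat) (fun _ _ => Nat.zero_le _) hc
    have h2 : nsq c ≤ ((nsq c).toNat : ℤ) := Int.self_le_toNat _
    have h3 : ((nsq c).toNat : ℤ) ≤ (M : ℤ) := by
      rw [hM]
      push_cast
      have : (((∑ c ∈ Sg, (nsq c).toNat : ℕ)) : ℤ) = ∑ c ∈ Sg, ((nsq c).toNat : ℤ) := by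
        push_cast; rfl
      have h4 : ((nsq c).toNat : ℤ) ≤ ((∑ c ∈ Sg, (nsq c).toNat : ℕ) : ℤ) := by
        exact_mod_cast h1
      rw [this] at h4
      linarith
    linarith
  obtain ⟨S, hS1, hS2, hSM, hS3⟩ :=
    (hev1.and (hev2.and ((Filter.eventually_ge_atTop M).and (Filter.eventually_ge_atTop 1)))).exists
  -- the Gaussian
  set T : ℕ := 2 * S with hT
  set Sr : ℝ := (S : ℝ) with hSr
  have hSr1 : 1 ≤ Sr := by
    rw [hSr]; exact_mod_cast hS3
  have hSr0 : 0 < Sr := by linarith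
  have hTr : 2 * Sr ≤ (T : ℝ) := by
    rw [hT, hSr]; push_cast; exact le_rfl
  set τ : (κ → ℤ) →₀ ℝ := tauG Sr T with hτ
  set L : ℕ := T * B with hL
  -- the defect bound
  set D : ℝ := (sqS Sr) ^ n * (2 * ((n : ℝ) + 1) * 2 ^ n
      * (Real.exp (-(Sr / m ^ 2)) + delta Sr)) with hD
  have hD0 : 0 ≤ D := by
    have := delta_nonneg Sr
    have := Real.exp_pos (-(Sr / m ^ 2))
    have hq : 0 ≤ sqS Sr := Real.sqrt_nonneg _
    rw [hD]
    positivity
  have hdefect : ∀ t i j, |mg b i τ t - mg b j τ t| ≤ D := fun t i j =>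
    abs_mg_sub_le hl0 hρ hSr1 hTr hS2.le hm1 hmb i j t
  have hpot := pot_le b Kψ L τ hD0 hdefect
  set π₀ : ℝ := errFun B Kψ n kk m S with hπ₀
  have hπeq : (2 * (L : ℝ) + 1) * (1 + (L : ℝ)) ^ Kψ * ((Fintype.card ι : ℝ) ^ 2 * D) = π₀ := by
    rw [hπ₀, hD]
    unfold errFun
    rfl
  rw [hπeq] at hpot
  have hπ0nn : 0 ≤ π₀ := by
    rw [← hπeq]
    positivity
  have hπ1 : (1 + K) * π₀ ≤ ε := by
    have h1 : π₀ ≤ ε / (1 + K) := hS1.le.trans (min_le_left _ _)
    have h2 : 0 < 1 + K := by linarith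
    rw [le_div_iff₀ h2] at h1
    linarith
  have hπ2 : K * π₀ ≤ 1 / 2 := by
    have h1 : π₀ ≤ 1 / (2 * (1 + K)) := hS1.le.trans (min_le_right _ _)
    have h2 : 0 < 1 + K := by linarith
    rw [le_div_iff₀ (by positivity)] at h1
    nlinarith
  -- the sweep
  have hzero : ∀ t : ℤ, (max L T0 : ℤ) < |t| → dfc b τ t = 0 := by
    intro t ht
    rw [dfc_eq_zero_iff]
    intro i j
    have h1 : (L : ℤ) < |t| := lt_of_le_of_lt (le_max_left _ _) ht
    rw [hτ, mg_tauG_eq_zero b Sr T L le_rfl i t h1, mg_tauG_eq_zero b Sr T L le_rfl j t h1]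
  have hψ := psiK_nonneg Kψ
  have hLH' := hLH
  have hsw := sweep (b := b) (col := sweepCol b ρ l0) (ψ := psiK Kψ) T0 hψ hLH (max L T0)
    (le_max_right _ _) τ (by exact_mod_cast hzero)
  obtain ⟨α, hαnn, hαz, hαp⟩ := hsw
  -- potential up to max L T0 of τ is bounded as before
  have hpot2 : pot b (psiK Kψ) (max L T0) τ ≤ π₀ := by
    have hsub : pot b (psiK Kψ) (max L T0) τ = pot b (psiK Kψ) L τ := by
      unfold pot
      refine (Finset.sum_subset ?_ ?_).symm
      · intro t ht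
        rw [Finset.mem_Icc] at ht ⊢
        have h1 : (L : ℤ) ≤ ((max L T0 : ℕ) : ℤ) := by exact_mod_cast le_max_left _ _
        constructor <;> omega
      · intro t _ ht
        have h1 : (L : ℤ) < |t| := by
          by_contra h
          push Not at h
          exact ht (Finset.mem_Icc.mpr (abs_le.mp h))
        have : dfc b τ t = 0 := by
          rw [dfc_eq_zero_iff]
          intro i j
          rw [hτ, mg_tauG_eq_zero b Sr T L le_rfl i t h1, mg_tauG_eq_zero b Sr T L le_rfl j t h1]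
        rw [this, mul_zero]
    rw [hsub]
    exact hpot
  have hpotnn : 0 ≤ pot b (psiK Kψ) T0 (τ + α) :=
    Finset.sum_nonneg fun t _ => mul_nonneg (hψ t) (dfc_nonneg _ _ _)
  have hcostnn : 0 ≤ cost α := cost_nonneg α hαnn
  have hcostle : cost α ≤ π₀ := by linarith
  have hpotle : pot b (psiK Kψ) T0 (τ + α) ≤ π₀ := by linarith
  set w1 := τ + α with hw1
  have hw1mem : w1 ∈ highEq b T0 := by
    intro t ht i j
    have := hαz t ht
    rw [dfc_eq_zero_iff] at this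
    exact this i j
  have hlow : ∀ i (t : ℤ), |t| ≤ (T0 : ℤ) → |mg b i w1 t - mg b i0 w1 t| ≤ π₀ := by
    intro i t ht
    have h1 := abs_sub_le_dfc b w1 t i i0
    have h2 : dfc b w1 t ≤ psiK Kψ t * dfc b w1 t := by
      have := one_le_psiK Kψ t
      have h3 := dfc_nonneg b w1 t
      nlinarith
    have h3 : psiK Kψ t * dfc b w1 t ≤ pot b (psiK Kψ) T0 w1 := by
      unfold pot
      exact Finset.single_le_sum (f := fun t => psiK Kψ t * dfc b w1 t)
        (fun t _ => mul_nonneg (hψ t) (dfc_nonneg _ _ _))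
        (Finset.mem_Icc.mpr (abs_le.mp ht))
    linarith
  obtain ⟨ξ, hξ1, hξ2, hξ3, hξ4⟩ := hfix w1 hw1mem π₀ hπ0nn hlow
  refine ⟨w1 - ξ, mom l0 l0 τ, ?_, fun i j t => hξ4 t i j, ?_, ?_⟩
  · intro c
    rw [Finsupp.sub_apply, hw1, Finsupp.add_apply]
    have hα := hαnn c
    by_cases hc : c ∈ Sg
    · have hns : nsq c ≤ (M : ℤ) := hnsqle c hc
      have hns2 : ((nsq c : ℤ) : ℝ) ≤ Sr := by
        have : ((nsq c : ℤ) : ℝ) ≤ ((M : ℤ) : ℝ) := by exact_mod_cast hns
        have h3 : ((M : ℤ) : ℝ) ≤ Sr := by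
          rw [hSr]; exact_mod_cast hSM
        linarith
      have hbox : c ∈ boxF (κ := κ) T := by
        rw [mem_boxF]
        intro p
        have h1 : c p ^ 2 ≤ nsq c := by
          unfold nsq
          exact Finset.single_le_sum (f := fun r => c r ^ 2) (fun _ _ => sq_nonneg _)
            (Finset.mem_univ p)
        have h2 : |c p| ≤ c p ^ 2 := by
          rw [← sq_abs (c p)]
          by_cases h0 : c p = 0
          · simp [h0]
          · have : 1 ≤ |c p| := Int.one_le_abs h0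
            nlinarith
        have h3 : nsq c ≤ (M : ℤ) := hns
        have h4 : (M : ℤ) ≤ (S : ℤ) := by exact_mod_cast hSM
        have h5 : (T : ℤ) = 2 * (S : ℤ) := by rw [hT]; push_cast; rfl
        have h6 : (0 : ℤ) ≤ (S : ℤ) := by positivity
        linarith
      have h1 : 1 / 2 ≤ τ c := by
        rw [hτ, tauG_apply, if_pos hbox]
        exact half_le_wgt hSr0 hns2
      have h2 := abs_le.mp (hξ2 c)
      linarith [h2.2]
    · rw [hξ1 c hc, sub_zero]
      have := tauG_nonneg Sr T c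
      linarith
  · exact half_le_mom_tauG hSr1 hTr l0
  · intro p q
    have hmom : mom p q (w1 - ξ) = mom p q τ + mom p q α - mom p q ξ := by
      rw [map_sub, hw1, map_add]
    have h1 : |mom p q α| ≤ π₀ := (abs_mom_le_cost p q α hαnn).trans hcostle
    have h2 := hξ3 p q
    have h3 : mom p q τ = if p = q then mom l0 l0 τ else 0 := by
      split_ifs with hpq
      · subst hpq
        exact mom_tauG_diag p l0 Sr T
      · exact mom_tauG_offdiag hpq Sr T
    rw [hmom, ← h3]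
    have h4 : mom p q τ + mom p q α - mom p q ξ - mom p q τ = mom p q α - mom p q ξ := by ring
    rw [h4]
    refine (abs_sub _ _).trans ?_
    linarith

end Vale.Agent.Lib.P058
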