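import Vale.Agent.Lib.P058.ThmA
import Vale.Agent.Lib.P058.Farkas

open Finset

namespace Vale.Agent.Lib.P058

set_option linter.unusedSectionVars false

variable {ι κ : Type*} [Fintype ι] [Nonempty ι] [DecidableEq ι] [Fintype κ] [DecidableEq κ]

/-- Rational marginal. -/
noncomputable def mgQ (b : ι → κ → ℤ) (i : ι) : ((κ → ℤ) →₀ ℚ) →ₗ[ℚ] (ℤ →₀ ℚ) :=
  Finsupp.lmapDomain ℚ ℚ (lev b i)

/-- Rational second moment. -/
noncomputable def momQ (p q : κ) : ((κ → ℤ) →₀ ℚ) →ₗ[ℚ] ℚ :=
  Finsupp.linearCombination ℚ (fun n : κ → ℤ => ((n p : ℚ) * (n q : ℚ)))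

lemma mgQ_single (b : ι → κ → ℤ) (i : ι) (n : κ → ℤ) (a : ℚ) (t : ℤ) :
    mgQ b i (Finsupp.single n a) t = if lev b i n = t then a else 0 := by
  classical
  simp [mgQ, Finsupp.lmapDomain_apply, Finsupp.mapDomain_single, Finsupp.single_apply]

lemma momQ_single (p q : κ) (n : κ → ℤ) (a : ℚ) :
    momQ p q (Finsupp.single n a) = a * ((n p : ℚ) * (n q : ℚ)) := by
  simp [momQ, Finsupp.linearCombination_single]

/-- Marginals of a real measure as finite sums over its support. -/
lemma mg_eq_sum (b : ι → κ → ℤ) (i : ι) (w : (κ → ℤ) →₀ ℝ) (t : ℤ) :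
    mg b i w t = ∑ n ∈ w.support, if lev b i n = t then w n else 0 := by
  classical
  conv_lhs => rw [← Finsupp.sum_single w]
  rw [Finsupp.sum, map_sum, Finsupp.finsetSum_apply]
  exact Finset.sum_congr rfl fun n _ => mg_single b i n _ t

lemma mom_eq_sum (p q : κ) (w : (κ → ℤ) →₀ ℝ) :
    mom p q w = ∑ n ∈ w.support, w n * ((n p : ℝ) * (n q : ℝ)) := by
  classical
  conv_lhs => rw [← Finsupp.sum_single w]
  rw [Finsupp.sum, map_sum]
  exact Finset.sum_congr rfl fun n _ => mom_single p q n _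

/-- Coefficients of the rational system. -/
def sysA (b : ι → κ → ℤ) (s : Finset (κ → ℤ)) (Ls : Finset ℤ) :
    ((ι × ι × ↥Ls) ⊕ (κ × κ × Bool) ⊕ Unit) → (↥s ⊕ Unit) → ℚ
  | Sum.inl (i, j, t), Sum.inl n =>
      (if lev b i n.1 = t.1 then 1 else 0) - (if lev b j n.1 = t.1 then 1 else 0)
  | Sum.inl _, Sum.inr _ => 0
  | Sum.inr (Sum.inl (p, q, true)), Sum.inl n => (n.1 p : ℚ) * (n.1 q : ℚ)
  | Sum.inr (Sum.inl (p, q, true)), Sum.inr _ => if p = q then -1 else 0
  | Sum.inr (Sum.inl (p, q, false)), Sum.inl n => -((n.1 p : ℚ) * (n.1 q : ℚ))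
  | Sum.inr (Sum.inl (p, q, false)), Sum.inr _ => if p = q then 1 else 0
  | Sum.inr (Sum.inr _), Sum.inl _ => 0
  | Sum.inr (Sum.inr _), Sum.inr _ => -1

/-- Right hand sides of the rational system. -/
def sysB (Ls : Finset ℤ) (ι' : Type*) (ε : ℚ) :
    ((ι' × ι' × ↥Ls) ⊕ (κ × κ × Bool) ⊕ Unit) → ℚ
  | Sum.inl _ => 0
  | Sum.inr (Sum.inl _) => ε
  | Sum.inr (Sum.inr _) => -1 / 2

/-- Theorem A over the rationals. -/
theorem thmAQ {b : ι → κ → ℤ} {ρ : ℤ} {l0 : κ} (hl0 : ∀ i, b i l0 = 1)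
    (hρ : ∀ i, ∑ p, b i p ^ 2 = ρ) (hinj : Function.Injective b) {ε : ℚ} (hε : 0 < ε) :
    ∃ (w : (κ → ℤ) →₀ ℚ) (V : ℚ), (∀ n, 0 ≤ w n) ∧ (∀ i j, mgQ b i w = mgQ b j w) ∧ 1 / 2 ≤ V ∧
      ∀ p q, |momQ p q w - (if p = q then V else 0)| ≤ ε := by
  classical
  have hεR : (0 : ℝ) < (ε : ℝ) := by exact_mod_cast hε
  obtain ⟨w, V, hw, hmg, hV, hmom⟩ := thmA hl0 hρ hinj hεR
  set s := w.support with hs
  set Ls : Finset ℤ := Finset.univ.biUnion fun i => s.image (lev b i) with hLs
  set x : (↥s ⊕ Unit) → ℝ := fun u => match u with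
    | Sum.inl n => w n.1
    | Sum.inr _ => V with hx
  have hxnn : ∀ u, 0 ≤ x u := by
    rintro (n | _)
    · exact hw _
    · simp only [hx]; linarith
  have hreal : ∀ c, ∑ u, ((sysA b s Ls c u : ℚ) : ℝ) * x u ≤ ((sysB Ls ι ε c : ℚ) : ℝ) := by
    intro c
    rw [Fintype.sum_sum_type]
    rcases c with ⟨i, j, t⟩ | ⟨p, q, _ | _⟩ | _
    · -- marginal constraints
      simp only [sysA, sysB, hx, Finset.univ_unique, Finset.sum_singleton]
      have h1 := hmg i j t.1
      rw [mg_eq_sum, mg_eq_sum] at h1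
      have h2 : ∑ n : ↥s, (((if lev b i n.1 = t.1 then (1 : ℚ) else 0)
          - (if lev b j n.1 = t.1 then (1 : ℚ) else 0) : ℚ) : ℝ) * w n.1
          = ∑ n ∈ s, (if lev b i n = t.1 then w n else 0)
            - ∑ n ∈ s, (if lev b j n = t.1 then w n else 0) := by
        rw [← Finset.sum_coe_sort s (fun n => if lev b i n = t.1 then w n else 0),
          ← Finset.sum_coe_sort s (fun n => if lev b j n = t.1 then w n else 0),
          ← Finset.sum_sub_distrib]
        refine Finset.sum_congr rfl fun n _ => ?_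
        split_ifs <;> simp
      have h3 : (∑ n ∈ s, (if lev b i n = t.1 then w n else 0))
          - ∑ n ∈ s, (if lev b j n = t.1 then w n else 0) = 0 := sub_eq_zero.mpr h1
      rw [h2, h3]
      simp
    · -- second moment, lower bound
      simp only [sysA, sysB, hx, Finset.univ_unique, Finset.sum_singleton]
      have h1 := (abs_le.mp (hmom p q)).1
      rw [mom_eq_sum] at h1
      have h2 : ∑ n : ↥s, ((-(((n.1 p : ℤ) : ℚ) * ((n.1 q : ℤ) : ℚ)) : ℚ) : ℝ) * w n.1
          = -∑ n ∈ s, w n * ((n p : ℝ) * (n q : ℝ)) := by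
        rw [← Finset.sum_coe_sort s (fun n => w n * ((n p : ℝ) * (n q : ℝ))),
          ← Finset.sum_neg_distrib]
        refine Finset.sum_congr rfl fun n _ => ?_
        push_cast
        ring
      rw [h2]
      split_ifs at h1 ⊢ with hpq
      · push_cast; linarith
      · push_cast; linarith
    · -- second moment, upper bound
      simp only [sysA, sysB, hx, Finset.univ_unique, Finset.sum_singleton]
      have h1 := (abs_le.mp (hmom p q)).2
      rw [mom_eq_sum] at h1
      have h2 : ∑ n : ↥s, ((((n.1 p : ℤ) : ℚ) * ((n.1 q : ℤ) : ℚ) : ℚ) : ℝ) * w n.1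
          = ∑ n ∈ s, w n * ((n p : ℝ) * (n q : ℝ)) := by
        rw [← Finset.sum_coe_sort s (fun n => w n * ((n p : ℝ) * (n q : ℝ)))]
        refine Finset.sum_congr rfl fun n _ => ?_
        push_cast
        ring
      rw [h2]
      split_ifs at h1 ⊢ with hpq
      · push_cast; linarith
      · push_cast; linarith
    · simp only [sysA, sysB, hx, Finset.univ_unique, Finset.sum_singleton]
      push_cast
      simp only [zero_mul, Finset.sum_const_zero]
      linarith
  obtain ⟨y, hynn, hy⟩ := exists_rat_of_real (sysA b s Ls) (sysB Ls ι ε) x hxnn hreal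
  set w' : (κ → ℤ) →₀ ℚ := ∑ n : ↥s, Finsupp.single n.1 (y (Sum.inl n)) with hw'
  have hmg' : ∀ i (t : ℤ), mgQ b i w' t = ∑ n : ↥s, if lev b i n.1 = t then y (Sum.inl n) else 0 := by
    intro i t
    rw [hw', map_sum, Finsupp.finsetSum_apply]
    exact Finset.sum_congr rfl fun n _ => mgQ_single b i n.1 _ t
  have hmom' : ∀ p q, momQ p q w' = ∑ n : ↥s, y (Sum.inl n) * ((n.1 p : ℚ) * (n.1 q : ℚ)) := by
    intro p q
    rw [hw', map_sum]
    exact Finset.sum_congr rfl fun n _ => momQ_single p q n.1 _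
  refine ⟨w', y (Sum.inr ()), ?_, ?_, ?_, ?_⟩
  · intro c
    rw [hw', Finsupp.finsetSum_apply]
    refine Finset.sum_nonneg fun n _ => ?_
    rw [Finsupp.single_apply]
    split_ifs
    · exact hynn _
    · exact le_rfl
  · intro i j
    ext t
    by_cases ht : t ∈ Ls
    · have h1 := hy (Sum.inl (i, j, ⟨t, ht⟩))
      have h2 := hy (Sum.inl (j, i, ⟨t, ht⟩))
      rw [Fintype.sum_sum_type] at h1 h2
      simp only [sysA, sysB, Finset.univ_unique, Finset.sum_singleton, zero_mul, add_zero] at h1 h2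
      have e1 : ∀ i j : ι, ∑ n : ↥s, ((if lev b i n.1 = t then (1 : ℚ) else 0)
          - (if lev b j n.1 = t then (1 : ℚ) else 0)) * y (Sum.inl n)
          = mgQ b i w' t - mgQ b j w' t := by
        intro i j
        rw [hmg', hmg', ← Finset.sum_sub_distrib]
        refine Finset.sum_congr rfl fun n _ => ?_
        split_ifs <;> simp
      rw [e1] at h1 h2
      linarith
    · have hzero : ∀ i : ι, mgQ b i w' t = 0 := by
        intro i
        rw [hmg']
        refine Finset.sum_eq_zero fun n _ => ?_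
        rw [if_neg]
        intro h
        apply ht
        rw [hLs]
        refine Finset.mem_biUnion.mpr ⟨i, Finset.mem_univ _, ?_⟩
        exact Finset.mem_image.mpr ⟨n.1, n.2, h⟩
      rw [hzero i, hzero j]
  · have h1 := hy (Sum.inr (Sum.inr ()))
    rw [Fintype.sum_sum_type] at h1
    simp only [sysA, sysB, Finset.univ_unique, Finset.sum_singleton, zero_mul,
      Finset.sum_const_zero, zero_add] at h1
    have : default = () := rfl
    simp only [this] at h1
    linarith
  · intro p q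
    have h1 := hy (Sum.inr (Sum.inl (p, q, true)))
    have h2 := hy (Sum.inr (Sum.inl (p, q, false)))
    rw [Fintype.sum_sum_type] at h1 h2
    simp only [sysA, sysB, Finset.univ_unique, Finset.sum_singleton] at h1 h2
    have : default = () := rfl
    simp only [this] at h1 h2
    have e1 : ∑ n : ↥s, ((n.1 p : ℚ) * (n.1 q : ℚ)) * y (Sum.inl n) = momQ p q w' := by
      rw [hmom']
      exact Finset.sum_congr rfl fun n _ => by ring
    have e2 : ∑ n : ↥s, (-((n.1 p : ℚ) * (n.1 q : ℚ))) * y (Sum.inl n) = -momQ p q w' := by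
      rw [hmom', ← Finset.sum_neg_distrib]
      exact Finset.sum_congr rfl fun n _ => by ring
    rw [e1] at h1
    rw [e2] at h2
    rw [abs_le]
    split_ifs at h1 h2 ⊢ with hpq
    · constructor <;> linarith
    · constructor <;> linarith

end Vale.Agent.Lib.P058
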