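import Vale.Agent.Lib.P058.Factor

open Finset

namespace Vale.Agent.Lib.P058

set_option linter.unusedSectionVars false

universe u v

variable {ι : Type v} {E : Type u} [Fintype ι] [Nonempty ι] [DecidableEq ι] [Fintype E]
  [DecidableEq E]

/-- The quadratic form of a matrix at an integer vector. -/
def quadQ (Ω : E × E → ℚ) (x : E → ℤ) : ℚ := ∑ e, ∑ f, (x e : ℚ) * Ω (e, f) * (x f : ℚ)

lemma quadQ_add (Ω Ω' : E × E → ℚ) (x : E → ℤ) : quadQ (Ω + Ω') x = quadQ Ω x + quadQ Ω' x := by
  unfold quadQ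
  rw [← Finset.sum_add_distrib]
  refine Finset.sum_congr rfl fun e _ => ?_
  rw [← Finset.sum_add_distrib]
  refine Finset.sum_congr rfl fun f _ => ?_
  simp only [Pi.add_apply]
  ring

lemma quadQ_smul (c : ℚ) (Ω : E × E → ℚ) (x : E → ℤ) : quadQ (c • Ω) x = c * quadQ Ω x := by
  unfold quadQ
  rw [Finset.mul_sum]
  refine Finset.sum_congr rfl fun e _ => ?_
  rw [Finset.mul_sum]
  refine Finset.sum_congr rfl fun f _ => ?_
  simp only [Pi.smul_apply, smul_eq_mul]
  ring

/-- The rational space of symmetric matrices whose quadratic form is constant on the rows. -/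
def hSpace (a : ι → E → ℤ) : Submodule ℚ (E × E → ℚ) where
  carrier := {Ω | (∀ e f, Ω (e, f) = Ω (f, e)) ∧ ∀ i j, quadQ Ω (a i) = quadQ Ω (a j)}
  add_mem' := by
    rintro x y ⟨hx1, hx2⟩ ⟨hy1, hy2⟩
    refine ⟨fun e f => ?_, fun i j => ?_⟩
    · simp only [Pi.add_apply]; rw [hx1, hy1]
    · rw [quadQ_add, quadQ_add, hx2 i j, hy2 i j]
  zero_mem' := by
    refine ⟨fun _ _ => rfl, fun i j => ?_⟩
    simp [quadQ]
  smul_mem' := by
    rintro c x ⟨hx1, hx2⟩
    refine ⟨fun e f => ?_, fun i j => ?_⟩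
    · simp only [Pi.smul_apply]; rw [hx1]
    · rw [quadQ_smul, quadQ_smul, hx2 i j]

/-- The identity matrix. -/
def idM : E × E → ℚ := fun x => if x.1 = x.2 then 1 else 0

lemma quadQ_idM (x : E → ℤ) : quadQ (idM : E × E → ℚ) x = ∑ e, (x e : ℚ) ^ 2 := by
  unfold quadQ idM
  refine Finset.sum_congr rfl fun e _ => ?_
  rw [Finset.sum_eq_single e]
  · simp; ring
  · intro f _ hf
    simp [Ne.symm hf]
  · intro h; exact absurd (Finset.mem_univ e) h

lemma idM_mem {a : ι → E → ℤ} {ρ : ℤ} (hρ : ∀ i, ∑ e, a i e ^ 2 = ρ) :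
    (idM : E × E → ℚ) ∈ hSpace a := by
  refine ⟨fun e f => ?_, fun i j => ?_⟩
  · simp only [idM, eq_comm]
  · rw [quadQ_idM, quadQ_idM]
    have h : ∀ i, ∑ e, ((a i e : ℤ) : ℚ) ^ 2 = (ρ : ℚ) := by
      intro i
      rw [← hρ i]
      push_cast
      rfl
    rw [h, h]

/-- The moment matrix of a rational measure. -/
noncomputable def momM (w : (E → ℤ) →₀ ℚ) : E × E → ℚ := fun x => momQ x.1 x.2 w

lemma momM_add (w w' : (E → ℤ) →₀ ℚ) : momM (w + w') = momM w + momM w' := by
  funext x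
  simp [momM]

lemma momM_smul (c : ℚ) (w : (E → ℤ) →₀ ℚ) : momM (c • w) = c • momM w := by
  funext x
  simp [momM]

lemma quadQ_momM (a : ι → E → ℤ) (i : ι) (w : (E → ℤ) →₀ ℚ) :
    quadQ (momM w) (a i) = Finsupp.linearCombination ℚ (fun t : ℤ => (t : ℚ) ^ 2) (mgQ a i w) := by
  classical
  induction w using Finsupp.induction_linear with
  | zero =>
    have h0 : momM (0 : (E → ℤ) →₀ ℚ) = 0 := by
      funext x
      simp [momM]
    rw [h0]
    simp [quadQ]
  | add w w' h1 h2 =>
    rw [momM_add, quadQ_add, h1, h2, map_add, map_add]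
  | single y c =>
    have h1 : mgQ a i (Finsupp.single y c) = Finsupp.single (lev a i y) c := by
      simp [mgQ, Finsupp.lmapDomain_apply, Finsupp.mapDomain_single]
    rw [h1, Finsupp.linearCombination_single]
    unfold quadQ momM
    simp only [momQ_single, smul_eq_mul]
    unfold lev
    push_cast
    rw [sq, Finset.sum_mul_sum, Finset.mul_sum]
    refine Finset.sum_congr rfl fun e _ => ?_
    rw [Finset.mul_sum]
    refine Finset.sum_congr rfl fun f _ => ?_
    ring

lemma momM_mem {a : ι → E → ℤ} {w : (E → ℤ) →₀ ℚ} (hw : ∀ i j, mgQ a i w = mgQ a j w) :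
    momM w ∈ hSpace a := by
  refine ⟨fun e f => ?_, fun i j => ?_⟩
  · simp only [momM]
    unfold momQ
    have h : (fun n : E → ℤ => ((n e : ℚ) * (n f : ℚ))) = fun n : E → ℤ => ((n f : ℚ) * (n e : ℚ)) := by
      funext n
      ring
    rw [h]
  · rw [quadQ_momM, quadQ_momM, hw i j]

section approx

variable {a : ι → E → ℤ} {ρ : ℤ} {e0 : E}

/-- Approximation of each strictly diagonally dominant element of the space. -/
theorem approx_S (he0 : ∀ i, a i e0 = 1) (hinj : Function.Injective a)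
    {S : E × E → ℚ} (hS : S ∈ hSpace a) (hdom : ∀ p, ∑ q ∈ univ.erase p, |S (p, q)| < S (p, p))
    {δ : ℚ} (hδ : 0 < δ) :
    ∃ (W : (E → ℤ) →₀ ℚ) (V : ℚ), (∀ y, 0 ≤ W y) ∧ (∀ i j, mgQ a i W = mgQ a j W) ∧ 0 < V ∧
      ∀ x, |momM W x - V * S x| ≤ V * δ := by
  classical
  obtain ⟨K, _, _, C, D, hD, hCC, hunit⟩ := exists_factor S hS.1 hdom
  have hDq : (1 : ℚ) ≤ (D : ℚ) := by exact_mod_cast hD
  -- the new rows
  set b : ι → K → ℤ := fun i k => ∑ e, C k e * a i e with hb
  obtain ⟨i0⟩ := (inferInstance : Nonempty ι)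
  set ρ' : ℤ := ∑ k, b i0 k ^ 2 with hρ'
  have hnorm : ∀ i, ((∑ k, b i k ^ 2 : ℤ) : ℚ) = (D : ℚ) * quadQ S (a i) := by
    intro i
    push_cast
    have h1 : ∀ k, ((b i k : ℤ) : ℚ) ^ 2 = ∑ e, ∑ f, ((C k e : ℤ) : ℚ) * ((C k f : ℤ) : ℚ)
        * ((a i e : ℤ) : ℚ) * ((a i f : ℤ) : ℚ) := by
      intro k
      simp only [hb]
      push_cast
      rw [sq, Finset.sum_mul_sum]
      refine Finset.sum_congr rfl fun e _ => Finset.sum_congr rfl fun f _ => ?_
      ring
    simp only [h1]
    rw [Finset.sum_comm]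
    unfold quadQ
    rw [Finset.mul_sum]
    refine Finset.sum_congr rfl fun e _ => ?_
    rw [Finset.sum_comm, Finset.mul_sum]
    refine Finset.sum_congr rfl fun f _ => ?_
    have h2 := hCC e f
    push_cast at h2
    rw [← Finset.sum_mul, ← Finset.sum_mul, h2]
    ring
  have hρb : ∀ i, ∑ k, b i k ^ 2 = ρ' := by
    intro i
    have : ((∑ k, b i k ^ 2 : ℤ) : ℚ) = ((ρ' : ℤ) : ℚ) := by
      rw [hρ', hnorm, hnorm, hS.2 i i0]
    exact_mod_cast this
  obtain ⟨k0, hk0⟩ := hunit e0
  have hbk : ∀ (e : E) (k : K), (∀ r, C k r = uV e r) → ∀ i, b i k = a i e := by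
    intro e k hk i
    simp only [hb, hk]
    exact sum_uV_mul e (a i)
  have hl0 : ∀ i, b i k0 = 1 := fun i => by
    rw [hbk e0 k0 hk0 i, he0 i]
  have hbinj : Function.Injective b := by
    intro i j hij
    apply hinj
    funext e
    obtain ⟨k, hk⟩ := hunit e
    have := congrFun hij k
    rwa [hbk e k hk i, hbk e k hk j] at this
  -- the size of the factor
  set Cm : ℚ := ∑ e, ∑ k, |((C k e : ℤ) : ℚ)| with hCm
  have hCmnn : 0 ≤ Cm := Finset.sum_nonneg fun _ _ => Finset.sum_nonneg fun _ _ => abs_nonneg _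
  have hCmle : ∀ e, ∑ k, |((C k e : ℤ) : ℚ)| ≤ Cm := fun e =>
    Finset.single_le_sum (f := fun e => ∑ k, |((C k e : ℤ) : ℚ)|)
      (fun _ _ => Finset.sum_nonneg fun _ _ => abs_nonneg _) (Finset.mem_univ e)
  set ε : ℚ := δ / (2 * (1 + Cm ^ 2)) with hε
  have hεpos : 0 < ε := by rw [hε]; positivity
  obtain ⟨w, V0, hw, hmg, hV0, hmom⟩ := thmAQ hl0 hρb hbinj hεpos
  -- push forward
  set Φ : (K → ℤ) → (E → ℤ) := fun n e => ∑ k, C k e * n k with hΦ
  set W : (E → ℤ) →₀ ℚ := Finsupp.lmapDomain ℚ ℚ Φ w with hW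
  have hWapply : ∀ y, 0 ≤ W y := by
    intro y
    rw [hW, Finsupp.lmapDomain_apply, Finsupp.mapDomain, Finsupp.sum, Finsupp.finsetSum_apply]
    refine Finset.sum_nonneg fun n _ => ?_
    rw [Finsupp.single_apply]
    split_ifs
    · exact hw n
    · exact le_rfl
  have hlev : ∀ i, lev a i ∘ Φ = lev b i := by
    intro i
    funext n
    simp only [Function.comp, lev, hΦ, hb]
    simp only [Finset.mul_sum, Finset.sum_mul]
    rw [Finset.sum_comm]
    refine Finset.sum_congr rfl fun k _ => Finset.sum_congr rfl fun e _ => ?_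
    ring
  have hmgW : ∀ i, mgQ a i W = mgQ b i w := by
    intro i
    simp only [mgQ, hW, Finsupp.lmapDomain_apply]
    rw [← Finsupp.mapDomain_comp, hlev]
  have hmomW : ∀ e f, momQ e f W
      = ∑ k, ∑ k', ((C k e : ℤ) : ℚ) * ((C k' f : ℤ) : ℚ) * momQ k k' w := by
    intro e f
    have hlin : (momQ e f).comp (Finsupp.lmapDomain ℚ ℚ Φ)
        = ∑ k, ∑ k', (((C k e : ℤ) : ℚ) * ((C k' f : ℤ) : ℚ)) • (momQ k k') := by
      refine Finsupp.lhom_ext fun n c => ?_
      simp only [LinearMap.comp_apply, Finsupp.lmapDomain_apply, Finsupp.mapDomain_single,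
        momQ_single, LinearMap.sum_apply, LinearMap.smul_apply, smul_eq_mul]
      simp only [hΦ]
      push_cast
      rw [Finset.sum_mul_sum, Finset.mul_sum]
      refine Finset.sum_congr rfl fun k _ => ?_
      rw [Finset.mul_sum]
      refine Finset.sum_congr rfl fun k' _ => ?_
      ring
    have := LinearMap.congr_fun hlin w
    rw [hW]
    simpa using this
  refine ⟨W, (D : ℚ) * V0, hWapply, fun i j => ?_, by positivity, fun x => ?_⟩
  · rw [hmgW, hmgW, hmg i j]
  · obtain ⟨e, f⟩ := x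
    simp only [momM]
    rw [hmomW]
    -- main term
    have hmain : ∑ k, ∑ k', ((C k e : ℤ) : ℚ) * ((C k' f : ℤ) : ℚ) * (if k = k' then V0 else 0)
        = (D : ℚ) * V0 * S (e, f) := by
      have h1 : ∀ k, ∑ k', ((C k e : ℤ) : ℚ) * ((C k' f : ℤ) : ℚ) * (if k = k' then V0 else 0)
          = ((C k e : ℤ) : ℚ) * ((C k f : ℤ) : ℚ) * V0 := by
        intro k
        rw [Finset.sum_eq_single k]
        · simp
        · intro k' _ hk'
          simp [Ne.symm hk']
        · intro h; exact absurd (Finset.mem_univ k) h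
      simp only [h1]
      have h2 := hCC e f
      push_cast at h2
      rw [← Finset.sum_mul, h2]
      ring
    rw [← hmain, ← Finset.sum_sub_distrib]
    have hterm : ∀ k, (∑ k', ((C k e : ℤ) : ℚ) * ((C k' f : ℤ) : ℚ) * momQ k k' w)
        - ∑ k', ((C k e : ℤ) : ℚ) * ((C k' f : ℤ) : ℚ) * (if k = k' then V0 else 0)
        = ∑ k', ((C k e : ℤ) : ℚ) * ((C k' f : ℤ) : ℚ)
            * (momQ k k' w - if k = k' then V0 else 0) := by
      intro k
      rw [← Finset.sum_sub_distrib]
      refine Finset.sum_congr rfl fun k' _ => ?_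
      ring
    simp only [hterm]
    have hbound : |∑ k, ∑ k', ((C k e : ℤ) : ℚ) * ((C k' f : ℤ) : ℚ)
        * (momQ k k' w - if k = k' then V0 else 0)|
        ≤ ε * Cm ^ 2 := by
      calc _ ≤ ∑ k, ∑ k', |((C k e : ℤ) : ℚ) * ((C k' f : ℤ) : ℚ)
              * (momQ k k' w - if k = k' then V0 else 0)| := by
            refine (Finset.abs_sum_le_sum_abs _ _).trans (Finset.sum_le_sum fun k _ => ?_)
            exact Finset.abs_sum_le_sum_abs _ _
        _ ≤ ∑ k, ∑ k', |((C k e : ℤ) : ℚ)| * |((C k' f : ℤ) : ℚ)| * ε := by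
            refine Finset.sum_le_sum fun k _ => Finset.sum_le_sum fun k' _ => ?_
            rw [abs_mul, abs_mul]
            exact mul_le_mul_of_nonneg_left (hmom k k') (by positivity)
        _ = (∑ k, |((C k e : ℤ) : ℚ)|) * (∑ k', |((C k' f : ℤ) : ℚ)|) * ε := by
            rw [Finset.sum_mul_sum, Finset.sum_mul]
            refine Finset.sum_congr rfl fun k _ => ?_
            rw [Finset.sum_mul]
        _ ≤ Cm * Cm * ε := by
            refine mul_le_mul_of_nonneg_right ?_ hεpos.le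
            exact mul_le_mul (hCmle e) (hCmle f)
              (Finset.sum_nonneg fun _ _ => abs_nonneg _) hCmnn
        _ = ε * Cm ^ 2 := by ring
    refine hbound.trans ?_
    have h3 : ε * Cm ^ 2 ≤ δ / 2 := by
      rw [hε, div_mul_eq_mul_div, div_le_div_iff₀ (by positivity) (by norm_num)]
      nlinarith [sq_nonneg Cm]
    have h4 : 1 / 2 ≤ (D : ℚ) * V0 := by nlinarith
    nlinarith

end approx

section cone

variable {a : ι → E → ℤ} {ρ : ℤ} {e0 : E}

/-- Theorem B: an exact rational measure with equal marginals and identity second moment. -/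
theorem thmB (he0 : ∀ i, a i e0 = 1) (hinj : Function.Injective a)
    (hρ : ∀ i, ∑ e, a i e ^ 2 = ρ) :
    ∃ W : (E → ℤ) →₀ ℚ, (∀ y, 0 ≤ W y) ∧ (∀ i j, mgQ a i W = mgQ a j W) ∧
      momM W = (idM : E × E → ℚ) := by
  classical
  set H := hSpace a with hH
  have hI : (idM : E × E → ℚ) ∈ H := idM_mem hρ
  set B := Module.finBasis ℚ H with hB
  set r := Module.finrank ℚ H with hr
  -- extend the coordinates to the whole space of matrices
  have hext : ∀ l, ∃ φ : (E × E → ℚ) →ₗ[ℚ] ℚ, φ.comp H.subtype = B.coord l :=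
    fun l => LinearMap.exists_extend (B.coord l)
  choose φ hφ using hext
  have hφapply : ∀ (l) (X : H), φ l (X : E × E → ℚ) = B.repr X l := by
    intro l X
    have := LinearMap.congr_fun (hφ l) X
    simpa using this
  -- the bound for the coordinates
  set Kc : ℚ := ∑ l, ∑ x : E × E, |φ l (fun y => if x = y then 1 else 0)| with hKc
  have hKcnn : 0 ≤ Kc := Finset.sum_nonneg fun _ _ => Finset.sum_nonneg fun _ _ => abs_nonneg _
  have hφbound : ∀ (l) (X : E × E → ℚ) (d : ℚ), 0 ≤ d → (∀ x, |X x| ≤ d) → |φ l X| ≤ Kc * d := by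
    intro l X d hd hX
    rw [LinearMap.pi_apply_eq_sum_univ (φ l) X]
    calc |∑ x, X x • φ l (fun y => if x = y then 1 else 0)|
        ≤ ∑ x, |X x • φ l (fun y => if x = y then 1 else 0)| := Finset.abs_sum_le_sum_abs _ _
      _ ≤ ∑ x, d * |φ l (fun y => if x = y then 1 else 0)| := by
          refine Finset.sum_le_sum fun x _ => ?_
          rw [smul_eq_mul, abs_mul]
          exact mul_le_mul_of_nonneg_right (hX x) (abs_nonneg _)
      _ = d * ∑ x, |φ l (fun y => if x = y then 1 else 0)| := by rw [Finset.mul_sum]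
      _ ≤ d * Kc := by
          refine mul_le_mul_of_nonneg_left ?_ hd
          exact Finset.single_le_sum (f := fun l => ∑ x : E × E, |φ l (fun y => if x = y then 1 else 0)|)
            (fun _ _ => Finset.sum_nonneg fun _ _ => abs_nonneg _) (Finset.mem_univ l)
      _ = Kc * d := by ring
  -- the basis vectors as matrices
  set el : Fin r → (E × E → ℚ) := fun l => (B l : E × E → ℚ) with hel
  have helmem : ∀ l, el l ∈ H := fun l => (B l).2
  have hexpand : ∀ X ∈ H, X = ∑ l, φ l X • el l := by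
    intro X hX
    have h1 := B.sum_repr ⟨X, hX⟩
    have h2 : ((∑ l, B.repr ⟨X, hX⟩ l • B l : H) : E × E → ℚ) = X := by rw [h1]
    have h3 : ∀ l, φ l X = B.repr ⟨X, hX⟩ l := fun l => hφapply l ⟨X, hX⟩
    simp only [h3]
    conv_lhs => rw [← h2]
    push_cast
    rfl
  -- the size of the perturbation
  set A : ℚ := ∑ l, ∑ p, ∑ q, |el l (p, q)| with hA
  have hAnn : 0 ≤ A := Finset.sum_nonneg fun _ _ => Finset.sum_nonneg fun _ _ =>
    Finset.sum_nonneg fun _ _ => abs_nonneg _
  set ε0 : ℚ := 1 / (A + 1) with hε0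
  have hε0pos : 0 < ε0 := by rw [hε0]; positivity
  have hε0A : ε0 * A < 1 := by
    rw [hε0, div_mul_eq_mul_div, one_mul, div_lt_one (by positivity)]
    linarith
  have hrowle : ∀ l p, ∑ q, |el l (p, q)| ≤ A := by
    intro l p
    calc ∑ q, |el l (p, q)| ≤ ∑ p', ∑ q, |el l (p', q)| :=
          Finset.single_le_sum (f := fun p' => ∑ q, |el l (p', q)|)
            (fun _ _ => Finset.sum_nonneg fun _ _ => abs_nonneg _) (Finset.mem_univ p)
      _ ≤ A := Finset.single_le_sum (f := fun l => ∑ p, ∑ q, |el l (p, q)|)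
          (fun _ _ => Finset.sum_nonneg fun _ _ => Finset.sum_nonneg fun _ _ => abs_nonneg _)
          (Finset.mem_univ l)
  -- the target matrices
  set sg : Bool → ℚ := fun s => if s then 1 else -1 with hsg
  have hsgabs : ∀ s, |sg s| = 1 := by
    intro s
    cases s <;> simp [hsg]
  set St : Fin r × Bool → (E × E → ℚ) := fun x => idM + (sg x.2 * ε0) • el x.1 with hSt
  have hStmem : ∀ x, St x ∈ H := fun x =>
    Submodule.add_mem _ hI (Submodule.smul_mem _ _ (helmem x.1))
  have hStdom : ∀ x p, ∑ q ∈ univ.erase p, |St x (p, q)| < St x (p, p) := by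
    intro x p
    have h1 : ∀ q ∈ univ.erase p, |St x (p, q)| = ε0 * |el x.1 (p, q)| := by
      intro q hq
      have hne : p ≠ q := fun h => (Finset.mem_erase.mp hq).1 h.symm
      simp only [hSt, Pi.add_apply, Pi.smul_apply, smul_eq_mul, idM, if_neg hne, zero_add]
      rw [abs_mul, abs_mul, hsgabs, one_mul, abs_of_pos hε0pos]
    rw [Finset.sum_congr rfl h1, ← Finset.mul_sum]
    have h2 : St x (p, p) = 1 + sg x.2 * ε0 * el x.1 (p, p) := by
      simp [hSt, idM]
    rw [h2]
    have h3 : ∑ q ∈ univ.erase p, |el x.1 (p, q)| + |el x.1 (p, p)| ≤ A := by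
      rw [add_comm, Finset.add_sum_erase _ (fun q => |el x.1 (p, q)|) (Finset.mem_univ p)]
      exact hrowle x.1 p
    have h4 : -|sg x.2 * ε0 * el x.1 (p, p)| ≤ sg x.2 * ε0 * el x.1 (p, p) := neg_abs_le _
    have h5 : |sg x.2 * ε0 * el x.1 (p, p)| = ε0 * |el x.1 (p, p)| := by
      rw [abs_mul, abs_mul, hsgabs, one_mul, abs_of_pos hε0pos]
    rw [h5] at h4
    nlinarith
  -- the approximating measures
  set δ : ℚ := ε0 / ((r : ℚ) * Kc + 1) with hδ
  have hδpos : 0 < δ := by rw [hδ]; positivity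
  have happ : ∀ x : Fin r × Bool, ∃ (W : (E → ℤ) →₀ ℚ) (V : ℚ), (∀ y, 0 ≤ W y) ∧
      (∀ i j, mgQ a i W = mgQ a j W) ∧ 0 < V ∧ ∀ z, |momM W z - V * St x z| ≤ V * δ :=
    fun x => approx_S he0 hinj (hStmem x) (hStdom x) hδpos
  choose Wx Vx hWx1 hWx2 hVx hWx3 using happ
  set P : Fin r × Bool → (E × E → ℚ) := fun x => (Vx x)⁻¹ • momM (Wx x) with hP
  have hPmem : ∀ x, P x ∈ H := fun x => Submodule.smul_mem _ _ (momM_mem (hWx2 x))
  set Er : Fin r × Bool → (E × E → ℚ) := fun x => P x - St x with hEr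
  have hErmem : ∀ x, Er x ∈ H := fun x => Submodule.sub_mem _ (hPmem x) (hStmem x)
  have hErbound : ∀ x z, |Er x z| ≤ δ := by
    intro x z
    have h1 := hWx3 x z
    have hV := hVx x
    have h2 : Er x z = (momM (Wx x) z - Vx x * St x z) / Vx x := by
      simp only [hEr, hP, Pi.sub_apply, Pi.smul_apply, smul_eq_mul]
      field_simp
    rw [h2, abs_div, abs_of_pos hV, div_le_iff₀ hV]
    linarith
  rcases farkas (K := ℚ) (Finset.univ : Finset (Fin r × Bool)) P (idM : E × E → ℚ) with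
    ⟨c, hc, hsum⟩ | ⟨f, hf, hfI⟩
  · -- the measure
    refine ⟨∑ x, (c x * (Vx x)⁻¹) • Wx x, ?_, ?_, ?_⟩
    · intro y
      rw [Finsupp.finsetSum_apply]
      refine Finset.sum_nonneg fun x _ => ?_
      simp only [Finsupp.smul_apply, smul_eq_mul]
      have := hVx x
      exact mul_nonneg (mul_nonneg (hc x) (by positivity)) (hWx1 x y)
    · intro i j
      rw [map_sum, map_sum]
      refine Finset.sum_congr rfl fun x _ => ?_
      rw [map_smul, map_smul, hWx2 x i j]
    · rw [← hsum]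
      funext z
      simp only [momM, map_sum, map_smul, hP, Finset.sum_apply, Pi.smul_apply, smul_eq_mul]
      refine Finset.sum_congr rfl fun x _ => ?_
      ring
  · exfalso
    have hfall : ∀ x, 0 ≤ f (P x) := fun x => hf x (Finset.mem_univ x)
    have hfX : ∀ X ∈ H, f X = ∑ l, φ l X * f (el l) := by
      intro X hX
      conv_lhs => rw [hexpand X hX]
      rw [map_sum]
      refine Finset.sum_congr rfl fun l _ => ?_
      rw [map_smul, smul_eq_mul]
    set F : ℚ := ∑ l, |f (el l)| with hF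
    have hFnn : 0 ≤ F := Finset.sum_nonneg fun _ _ => abs_nonneg _
    have hfEr : ∀ x, |f (Er x)| ≤ Kc * δ * F := by
      intro x
      rw [hfX _ (hErmem x), hF, Finset.mul_sum]
      refine (Finset.abs_sum_le_sum_abs _ _).trans (Finset.sum_le_sum fun l _ => ?_)
      rw [abs_mul]
      exact mul_le_mul_of_nonneg_right (hφbound l _ δ hδpos.le (hErbound x)) (abs_nonneg _)
    have hPexp : ∀ x, f (P x) = f idM + sg x.2 * ε0 * f (el x.1) + f (Er x) := by
      intro x
      have h1 : P x = idM + (sg x.2 * ε0) • el x.1 + Er x := by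
        simp only [hEr, hSt]
        abel
      rw [h1, map_add, map_add, map_smul, smul_eq_mul]
    -- each coordinate is small
    have hsmall : ∀ l, ε0 * |f (el l)| ≤ f idM + Kc * δ * F := by
      intro l
      by_cases hs : 0 ≤ f (el l)
      · have h1 := hfall (l, false)
        rw [hPexp] at h1
        have h2 := (abs_le.mp (hfEr (l, false))).2
        simp only [hsg, Bool.false_eq_true, if_false] at h1
        rw [abs_of_nonneg hs]
        linarith
      · push Not at hs
        have h1 := hfall (l, true)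
        rw [hPexp] at h1
        have h2 := (abs_le.mp (hfEr (l, true))).2
        simp only [hsg, if_true] at h1
        rw [abs_of_neg hs]
        linarith
    have hrpos : 0 < r := by
      rw [Nat.pos_iff_ne_zero]
      intro h0
      have h1 := hfX _ hI
      have : IsEmpty (Fin r) := by rw [h0]; exact Fin.isEmpty
      rw [Finset.univ_eq_empty, Finset.sum_empty] at h1
      linarith
    have hrq : (1 : ℚ) ≤ (r : ℚ) := by exact_mod_cast hrpos
    have hsumall : ε0 * F ≤ (r : ℚ) * (f idM + Kc * δ * F) := by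
      rw [hF, Finset.mul_sum]
      calc ∑ l, ε0 * |f (el l)| ≤ ∑ _l : Fin r, (f idM + Kc * δ * ∑ l, |f (el l)|) :=
            Finset.sum_le_sum fun l _ => hsmall l
        _ = _ := by rw [Finset.sum_const, Finset.card_univ, Fintype.card_fin, nsmul_eq_mul]
    have hδ2 : (r : ℚ) * Kc * δ ≤ ε0 := by
      rw [hδ]
      have : (r : ℚ) * Kc * (ε0 / ((r : ℚ) * Kc + 1)) = ε0 * ((r : ℚ) * Kc / ((r : ℚ) * Kc + 1)) := by
        field_simp
      rw [this]
      have h1 : (r : ℚ) * Kc / ((r : ℚ) * Kc + 1) ≤ 1 := by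
        rw [div_le_one (by positivity)]
        linarith
      nlinarith
    have h6 : (r : ℚ) * (Kc * δ * F) ≤ ε0 * F := by
      have : (r : ℚ) * (Kc * δ * F) = ((r : ℚ) * Kc * δ) * F := by ring
      rw [this]
      exact mul_le_mul_of_nonneg_right hδ2 hFnn
    have h7 : (r : ℚ) * f idM < 0 := by nlinarith
    nlinarith

end cone

end Vale.Agent.Lib.P058
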