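import Vale.Agent.Lib.P058.Step

/-! # Towers of translates -/

namespace Vale.Agent.Lib.P058

open Finset

variable {n : ℕ} {U Λ : Type} [Fintype Λ] [DecidableEq Λ]

/-- A tower state: a column `b` has a copy, the designated columns being the translates of `b` by
`g ^ s * m x` with `s : Fin n`, `x : κ`. -/
def Cert (act : Equiv.Perm (Fin n) → U → U) (g : Equiv.Perm (Fin n)) (b : U → Λ) : Prop :=
  ∃ (κ : Type) (_ : Fintype κ) (_ : Nonempty κ) (m : κ → Equiv.Perm (Fin n)),
    Copy (fun x : Fin n × κ => fun t => b (act (g ^ x.1.val * m x.2) t))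

theorem Cert.of_const (act : Equiv.Perm (Fin n) → U → U) (g : Equiv.Perm (Fin n)) {b : U → Λ}
    (h : ∀ t t', b t = b t') : Cert act g b := by
  refine ⟨Unit, inferInstance, inferInstance, fun _ => 1, ?_⟩
  exact Copy.of_const (fun _ t t' => h _ _)

/-- One level of the tower. `act` is a right action: `act g (act h t) = act (h * g) t`. -/
theorem Cert.step (act : Equiv.Perm (Fin n) → U → U)
    (hact : ∀ g h t, act g (act h t) = act (h * g) t) (g : Equiv.Perm (Fin n))
    {b b' : U → Λ} (δ : Λ) (L : List (Equiv.Perm (Fin n))) (hL : L ≠ []) (dec : Λ → List Λ)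
    (hdec : ∀ l, δ ∉ dec l)
    (h : ∀ t, (L.map fun γ => b (act γ t)).filter (· ≠ δ) = dec (b' t))
    (hc : Cert act g b') : Cert act g b := by
  obtain ⟨κ, hκ, hne, m, hcopy⟩ := hc
  have hlen : 0 < L.length := List.length_pos_iff.mpr hL
  obtain ⟨k0⟩ := hne
  refine ⟨κ × Fin L.length, inferInstance, ⟨(k0, ⟨0, hlen⟩)⟩,
    fun x => m x.1 * L.get x.2, ?_⟩
  have hstep := Copy.step δ dec hdec (M' := fun x : Fin n × κ => fun t =>
      b' (act (g ^ x.1.val * m x.2) t)) L.length
    (fun x j t => b (act (L.get j) (act (g ^ x.1.val * m x.2) t)))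
    (by
      intro x t
      have h1 := h (act (g ^ x.1.val * m x.2) t)
      rw [← h1]
      congr 1
      conv_rhs => rw [← List.ofFn_get L]
      rw [List.map_ofFn]
      rfl)
    hcopy
  refine Copy.reindex (Equiv.prodAssoc (Fin n) κ (Fin L.length)) ?_
  convert hstep using 3 with x t
  · simp only [Equiv.prodAssoc_apply]
    rw [hact, mul_assoc]

end Vale.Agent.Lib.P058
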