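import Vale.Agent.Lib.P058.Fam3
import Vale.Agent.Lib.P058.Inst222

/-! # P058: two families of arrangement sets for the union hand-in -/

namespace Vale.Agent.Lib.P058.UnionParts

open Vale.Agent.Lib.P058

/-- All vectors of `ℝ^6` with two coordinates equal to `b`, two coordinates equal to `c` and the
other two coordinates equal to `a`. -/
def XA2B2C2 (a b c : ℝ) : Set (EuclideanSpace ℝ (Fin 6)) :=
  {x | ∃ i j k l : Fin 6, i ≠ j ∧ i ≠ k ∧ i ≠ l ∧ j ≠ k ∧ j ≠ l ∧ k ≠ l ∧
    x i = b ∧ x j = b ∧ x k = c ∧ x l = c ∧ ∀ m, m ≠ i → m ≠ j → m ≠ k → m ≠ l → x m = a}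

theorem isRamsey_XA2B2C2 (a b c : ℝ) : IsRamsey (XA2B2C2 a b c) := by
  have hg : ∀ ω ω' : Fin 6, ∃! s : Fin 6, (Inst222.g ^ s.val) ω = ω' := by
    simp only [ExistsUnique]
    decide +kernel
  let lv : Fin Inst222.A → ℝ := fun l =>
    if l.val = 1 then b else if l.val = 2 then c else a
  have l1 : lv 1 = b := if_pos rfl
  have l2 : lv 2 = c := by
    show (if ((2 : Fin Inst222.A) : ℕ) = 1 then b else if ((2 : Fin Inst222.A) : ℕ) = 2 then c else a) = c
    rw [if_neg (by decide), if_pos (by decide)]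
  have l0 : lv 0 = a := by
    show (if ((0 : Fin Inst222.A) : ℕ) = 1 then b else if ((0 : Fin Inst222.A) : ℕ) = 2 then c else a) = a
    rw [if_neg (by decide), if_neg (by decide)]
  have key := isRamsey_of_cert Inst222.act Inst222.g hg Inst222.col Inst222.col_act 0
    Inst222.cert0 lv
  intro r hr
  obtain ⟨D, hD, h⟩ := key r hr
  refine ⟨D, hD, fun c' => ?_⟩
  obtain ⟨f, k, hf, hk⟩ := h c'
  have hsub : XA2B2C2 a b c ⊆
      {x : EuclideanSpace ℝ (Fin 6) | ∃ t : Inst222.Tok, ∀ ω, x ω = lv (Inst222.col t ω)} := by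
    rintro x ⟨i, j, m, l, hij, him, hil, hjm, hjl, hml, hi, hj, hm, hl, hr⟩
    refine ⟨⟨(i, j, m, l), hij, him, hil, hjm, hjl, hml⟩, fun ω => ?_⟩
    have hc : Inst222.col ⟨(i, j, m, l), hij, him, hil, hjm, hjl, hml⟩ ω =
        if i = ω ∨ j = ω then 1 else if m = ω ∨ l = ω then 2 else 0 := rfl
    rw [hc]
    by_cases h1 : i = ω
    · subst h1
      rw [if_pos (Or.inl rfl), l1, hi]
    · by_cases h2 : j = ω
      · subst h2
        rw [if_pos (Or.inr rfl), l1, hj]
      · rw [if_neg (by tauto)]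
        by_cases h3 : m = ω
        · subst h3
          rw [if_pos (Or.inl rfl), l2, hm]
        · by_cases h4 : l = ω
          · subst h4
            rw [if_pos (Or.inr rfl), l2, hl]
          · rw [if_neg (by tauto), l0]
            exact hr ω (Ne.symm h1) (Ne.symm h2) (Ne.symm h3) (Ne.symm h4)
  exact ⟨f, k, fun x hx y hy => hf x (hsub hx) y (hsub hy), fun x hx => hk x (hsub hx)⟩

/-- All vectors of `ℝ^(n+1)` with one coordinate equal to `c`, three other coordinates equal to `b`,
and all remaining coordinates equal to `a`. -/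
def XFam (n : ℕ) (a b c : ℝ) : Set (EuclideanSpace ℝ (Fin (n + 1))) :=
  {x | ∃ (y : Fin (n + 1)) (B : Finset (Fin (n + 1))), B.card = 3 ∧ y ∉ B ∧ x y = c ∧
    (∀ i ∈ B, x i = b) ∧ ∀ i, i ≠ y → i ∉ B → x i = a}

theorem isRamsey_XFam (n : ℕ) (a b c : ℝ) : IsRamsey (XFam n a b c) := by
  classical
  let lv : Fin 4 → ℝ := ![a, b, c, a]
  have key := isRamsey_of_cert Fam3.act (Fam3.g n) Fam3.hg Fam3.col Fam3.col_act 0 Fam3.cert0 lv
  intro r hr
  obtain ⟨D, hD, h⟩ := key r hr
  refine ⟨D, hD, fun c' => ?_⟩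
  obtain ⟨f, k, hf, hk⟩ := h c'
  have hsub : XFam n a b c ⊆
      {x : EuclideanSpace ℝ (Fin (n + 1)) | ∃ t : Fam3.Tok n, ∀ ω, x ω = lv (Fam3.col t ω)} := by
    rintro x ⟨y, B, hB, hy, hxy, hxB, hxa⟩
    let u : Fin (n + 1) → Fin 4 := fun i => if i = y then 2 else if i ∈ B then 1 else 0
    have hu3 : ∀ i, u i ≠ 3 := by
      intro i
      simp only [u]
      split_ifs <;> decide
    have hu2 : (Finset.univ.filter (fun i => u i = 2)).card = 1 := by
      have : Finset.univ.filter (fun i => u i = 2) = {y} := by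
        ext i
        simp only [Finset.mem_filter, Finset.mem_univ, true_and, Finset.mem_singleton, u]
        split_ifs with h1 h2
        · simpa using h1
        · simp [h1]
        · simp [h1]
      rw [this, Finset.card_singleton]
    have hu1 : (Finset.univ.filter (fun i => u i = 1)).card = 3 := by
      have : Finset.univ.filter (fun i => u i = 1) = B := by
        ext i
        simp only [Finset.mem_filter, Finset.mem_univ, true_and, u]
        split_ifs with h1 h2
        · subst h1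
          simp [hy]
        · simp [h2]
        · simp [h2]
      rw [this, hB]
    refine ⟨⟨u, hu3, hu2, hu1⟩, fun ω => ?_⟩
    show x ω = lv (u ω)
    simp only [u]
    split_ifs with h1 h2
    · subst h1
      simpa [lv] using hxy
    · simpa [lv] using hxB ω h2
    · simpa [lv] using hxa ω h1 h2
  exact ⟨f, k, fun x hx y hy => hf x (hsub hx) y (hsub hy), fun x hx => hk x (hsub hx)⟩

end Vale.Agent.Lib.P058.UnionParts
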