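import Vale.Agent.Lib.P058.X3Final
import Vale.Agent.Lib.P058.GroupTower

/-! # P058: property `R` for every size, and orbits of symmetric groups -/

namespace Vale.Agent.Lib.P058.X3

open Finset

/-- The outer step, abstractly: a column read along `g` through a map `τ₀` to triples of `Dir` is
reduced by property `R` of a larger set `D'`. -/
theorem outer_gen {P Dir D' : Type} [Fintype D'] [DecidableEq D'] [DecidableEq Dir] (hD : R D')
    (ιD : Dir ↪ D') (d₁ : Dir) (g : Dir → Equiv.Perm P) (τ₀ : (Fin 3 → P) → Fin 3 → Dir)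
    (c₂ : (Fin 3 → P) → ℕ)
    (hkey : ∀ t t' d d', Function.Injective t → Function.Injective t' →
      (∀ i, τ₀ t i = d ↔ τ₀ t' i = d') → c₂ (tact (g d) t) = c₂ (tact (g d') t')) :
    ∃ Ω : (Equiv.Perm P → ℕ) → ℕ, CR Ω ∧ ∃ z : (Fin 3 → D') → ℕ, (∀ k τ, z (tact k τ) = z τ) ∧
      ∀ t, Function.Injective t → ap tact Ω c₂ t = z (fun j => ιD (τ₀ t j)) := by
  classical
  let key : (Fin 3 → P) → Dir → (Fin 3 → Bool) := fun t d j => decide (τ₀ t j = d)
  let dom := {p : (Fin 3 → P) × Dir // Function.Injective p.1}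
  let fk : dom → (Fin 3 → Bool) := fun p => key p.1.1 p.1.2
  let gk : dom → ℕ := fun p => c₂ (tact (g p.1.2) p.1.1)
  have hfact : Function.FactorsThrough gk fk := by
    intro p q h
    refine hkey _ _ _ _ p.2 q.2 fun i => ?_
    have := congrFun h i
    simpa [fk, key] using this
  let β : (Fin 3 → Bool) → ℕ := Function.extend fk gk (fun _ => 0)
  have hβ : ∀ t d, Function.Injective t → β (key t d) = c₂ (tact (g d) t) :=
    fun t d hi => hfact.extend_apply _ (⟨(t, d), hi⟩ : dom)
  let d₀ : D' := ιD d₁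
  let e : (Fin 3 → D') → ℕ := fun τ => β (fun j => decide (τ j = d₀))
  obtain ⟨Φ, hΦ, hinv⟩ := hD e
  obtain ⟨Y, iY, ⟨y₀⟩, k, hk⟩ := hΦ
  let ρ : Equiv.Perm D' := Equiv.swap (ιD d₁) ((k y₀)⁻¹ d₀)
  let dirOf : Equiv.Perm D' → D' := fun π => (π * ρ)⁻¹ d₀
  have hy₀ : ∃ d, ιD d = dirOf (k y₀) := by
    refine ⟨d₁, ?_⟩
    simp only [dirOf, mul_inv_rev]
    show ιD d₁ = ρ⁻¹ ((k y₀)⁻¹ d₀)
    have : ρ⁻¹ = ρ := Equiv.swap_inv _ _
    rw [this]
    simp [ρ]
  let v : ℕ := β (fun _ => false)
  let Fh : (Equiv.Perm P → ℕ) → Equiv.Perm D' → ℕ := fun f π =>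
    if h : ∃ d, ιD d = dirOf π then f (g (Classical.choose h)) else v
  have hFh : ∀ t, Function.Injective t → ∀ π : Equiv.Perm D',
      Fh (fun γ => c₂ (tact γ t)) π = e (tact π (tact ρ (fun j => ιD (τ₀ t j)))) := by
    intro t hi π
    have hdec : ∀ j, decide (π (ρ (ιD (τ₀ t j))) = d₀) = decide (ιD (τ₀ t j) = dirOf π) := by
      intro j
      apply decide_eq_decide.mpr
      constructor
      · intro h
        show ιD (τ₀ t j) = (π * ρ)⁻¹ d₀
        rw [Equiv.Perm.eq_inv_iff_eq]
        exact h
      · intro h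
        rw [h]
        show (π * ρ) ((π * ρ)⁻¹ d₀) = d₀
        simp
    have e_eq : e (tact π (tact ρ fun j => ιD (τ₀ t j)))
        = β (fun j => decide (ιD (τ₀ t j) = dirOf π)) := by
      show β _ = _
      congr 1
      funext j
      exact hdec j
    rw [e_eq]
    show (if h : ∃ d, ιD d = dirOf π then c₂ (tact (g (Classical.choose h)) t) else v) = _
    by_cases h : ∃ d, ιD d = dirOf π
    · rw [dif_pos h]
      have hch := Classical.choose_spec h
      have : (fun j => decide (ιD (τ₀ t j) = dirOf π)) = key t (Classical.choose h) := by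
        funext j
        simp only [key]
        apply decide_eq_decide.mpr
        constructor
        · intro h'
          exact ιD.injective (h'.trans hch.symm)
        · intro h'
          rw [h']
          exact hch
      rw [this, hβ _ _ hi]
    · rw [dif_neg h]
      have : (fun j => decide (ιD (τ₀ t j) = dirOf π)) = fun _ => false := by
        funext j
        simp only [decide_eq_false_iff_not]
        exact fun h' => h ⟨_, h'⟩
      rw [this]
  refine ⟨fun f => Φ (Fh f), ?_, ap tact Φ e, hinv, ?_⟩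
  · -- copy reduction
    let Y' := {y : Y // ∃ d, ιD d = dirOf (k y)}
    refine ⟨Y', inferInstance, ⟨⟨y₀, hy₀⟩⟩, fun y => g (Classical.choose y.2), ?_⟩
    intro ι U _ _ G hc
    have h1 := hk ι U (fun i u π => Fh (G i u) π) hc
    have h2 := Copy.drop (ι' := ι × Y') (fun p => (p.1, p.2.1))
      (fun p q h => by
        have h' : (p.1, p.2.1) = (q.1, q.2.1) := h
        have h1 : p.1 = q.1 := (Prod.mk.inj h').1
        have h2 : p.2.1 = q.2.1 := (Prod.mk.inj h').2
        exact Prod.ext h1 (Subtype.ext h2)) v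
      (by
        rintro ⟨i, y⟩ hp u
        have : ¬ ∃ d, ιD d = dirOf (k y) := by
          intro hd
          exact hp ⟨(i, ⟨y, hd⟩), rfl⟩
        simp only [Fh, dif_neg this]) h1
    convert h2 using 3 with p u
    simp only [Fh, dif_pos p.2.2]
  · intro t hi
    have h1 : ap tact (fun f => Φ (Fh f)) c₂ t = ap tact Φ e (tact ρ (fun j => ιD (τ₀ t j))) := by
      simp only [ap]
      congr 1
      funext π
      exact hFh t hi π
    rw [h1, hinv]

/-! ### One more point -/

section succ

variable {β : Type} [Fintype β] [DecidableEq β]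

/-- The action of permutations of `β` on triples of `Option β`. -/
def actO (ρ : Equiv.Perm β) (t : Fin 3 → Option β) : Fin 3 → Option β :=
  tact (Equiv.optionCongr ρ) t

theorem actO_mul (g' g : Equiv.Perm β) (t : Fin 3 → Option β) :
    actO (g' * g) t = actO g' (actO g t) := by
  funext j
  simp only [actO, tact, Equiv.optionCongr_apply]
  cases t j <;> simp

/-- Reduction by the stabiliser of the point `none`. -/
theorem stab_step [Inhabited β] (hβ : R β) (c : (Fin 3 → Option β) → ℕ) :
    ∃ Φ : (Equiv.Perm β → ℕ) → ℕ, CR Φ ∧ ∀ ρ t, ap actO Φ c (actO ρ t) = ap actO Φ c t := by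
  let ψ : (Fin 3 → Option β) → (Fin 3 → β) → (Fin 3 → Option β) :=
    fun s x j => if s j = none then none else some (x j)
  have hψ : ∀ s k x, ψ s (tact k x) = actO k (ψ s x) := by
    intro s k x
    funext j
    by_cases h : s j = none <;> simp [ψ, actO, tact, h, Equiv.optionCongr_apply]
  obtain ⟨Φ, h1, h2⟩ := cover (X := Fin 3 → β) (K := Equiv.Perm β) tact actO actO_mul ψ hψ hβ c
  refine ⟨Φ, h1, fun ρ t => ?_⟩
  let x : Fin 3 → β := fun j => (t j).getD default
  have hx : ψ t x = t := by
    funext j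
    rcases h : t j with _ | a
    · simp [ψ, h]
    · simp [ψ, x, h]
  have := h2 t ρ x
  rw [hψ, hx] at this
  exact this

/-- Injective triples with the same trace at `none` are equal for an invariant column. -/
theorem pattern_none [Inhabited β] (c : (Fin 3 → Option β) → ℕ)
    (hc : ∀ ρ t, c (actO ρ t) = c t) (t t' : Fin 3 → Option β) (hi : Function.Injective t)
    (hi' : Function.Injective t') (hk : ∀ j, t j = none ↔ t' j = none) : c t = c t' := by
  let J := {j : Fin 3 // t j ≠ none}
  obtain ⟨ρ, hρ⟩ := exists_perm_of_ker (ι := J) (fun j => (t j.1).getD default)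
    (fun j => (t' j.1).getD default) (by
      intro j k
      have hj : ∃ a, t j.1 = some a := Option.ne_none_iff_exists'.mp j.2
      have hk1 : ∃ a, t k.1 = some a := Option.ne_none_iff_exists'.mp k.2
      have hj' : ∃ a, t' j.1 = some a :=
        Option.ne_none_iff_exists'.mp fun h => j.2 ((hk _).mpr h)
      have hk' : ∃ a, t' k.1 = some a :=
        Option.ne_none_iff_exists'.mp fun h => k.2 ((hk _).mpr h)
      obtain ⟨a, ha⟩ := hj
      obtain ⟨b, hb⟩ := hk1
      obtain ⟨a', ha'⟩ := hj'
      obtain ⟨b', hb'⟩ := hk'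
      simp only [ha, hb, ha', hb', Option.getD_some]
      constructor
      · rintro rfl
        have : j.1 = k.1 := hi (ha.trans hb.symm)
        rw [this] at ha'
        exact Option.some.inj (ha'.symm.trans hb')
      · rintro rfl
        have : j.1 = k.1 := hi' (ha'.trans hb'.symm)
        rw [this] at ha
        exact Option.some.inj (ha.symm.trans hb))
  rw [← hc ρ t]
  congr 1
  funext j
  simp only [actO, tact, Equiv.optionCongr_apply]
  rcases h : t j with _ | a
  · simp [(hk j).mp h]
  · have hj' : t j ≠ none := by simp [h]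
    have h' := hρ ⟨j, hj'⟩
    rcases h2 : t' j with _ | a'
    · exact absurd ((hk j).mpr h2) hj'
    · simp only [h, h2, Option.getD_some] at h'
      simp [h']

/-- One more point: injective triples. -/
theorem inj_succ [Inhabited β] {D' : Type} [Fintype D'] [DecidableEq D'] (hβ : R β) (hD : R D')
    (ιD : Option β ↪ D') (c : (Fin 3 → Option β) → ℕ) :
    ∃ Φ : (Equiv.Perm (Option β) → ℕ) → ℕ, CR Φ ∧ ∀ t t', Function.Injective t →
      Function.Injective t' → ap tact Φ c t = ap tact Φ c t' := by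
  classical
  obtain ⟨Φ₀, h0, hinv⟩ := stab_step hβ c
  let Φ₀' := pull (fun ρ : Equiv.Perm β => Equiv.optionCongr ρ) Φ₀
  have h0' : CR Φ₀' := h0.pull _
  set c₁ := ap tact Φ₀' c with hc₁
  have hc₁' : ∀ ρ t, c₁ (actO ρ t) = c₁ t := hinv
  let g : Option β → Equiv.Perm (Option β) := fun p => Equiv.swap none p
  have hgn : ∀ p x, g p x = none ↔ x = p := by
    intro p x
    simp only [g]
    constructor
    · intro h
      have := congrArg (Equiv.swap none p) h
      simpa using this
    · rintro rfl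
      simp
  obtain ⟨Ω, h1, z, hz, hΩ⟩ := outer_gen hD ιD none g (fun t => t) c₁ (by
    intro t t' d d' hi hi' hk
    refine pattern_none c₁ hc₁' _ _ (fun a b hab => hi ((g d).injective hab))
      (fun a b hab => hi' ((g d').injective hab)) fun j => ?_
    simp only [tact, hgn]
    exact hk j)
  refine ⟨cmp Ω Φ₀', h1.cmp h0', ?_⟩
  rw [ap_cmp _ tact_mul, ← hc₁]
  intro t t' hi hi'
  rw [hΩ t hi, hΩ t' hi']
  obtain ⟨κ, hκ⟩ := exists_perm_of_ker (fun j => ιD (t j)) (fun j => ιD (t' j)) (fun j k => by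
    rw [ιD.injective.eq_iff, ιD.injective.eq_iff, hi.eq_iff, hi'.eq_iff])
  have : (fun j => ιD (t' j)) = tact κ (fun j => ιD (t j)) := by
    funext j
    exact (hκ j).symm
  rw [this, hz]

end succ

theorem R_succ_of {n D : ℕ} (hn : 3 ≤ n) (hR : R (Fin n)) (hD : R (Fin D)) (hle : n + 1 ≤ D) :
    R (Fin (n + 1)) := by
  classical
  letI : Inhabited (Fin n) := ⟨⟨0, by omega⟩⟩
  obtain ⟨ιD⟩ : Nonempty (Option (Fin n) ↪ Fin D) :=
    Function.Embedding.nonempty_of_card_le (by simp [Fintype.card_option, hle])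
  have h : R (Option (Fin n)) := R_of_inj (by simp [Fintype.card_option]; omega)
    (inj_succ hR hD ιD)
  exact R_congr (finSuccEquiv n).symm h

theorem R_zero : R (Fin 0) := by
  intro z
  exact ⟨idF, CR.idF, fun k t => isEmptyElim (t 0)⟩

theorem R_one : R (Fin 1) := by
  intro z
  refine ⟨idF, CR.idF, fun k t => ?_⟩
  congr 1
  exact Subsingleton.elim _ _

/-- Property `R` holds for every finite size. -/
theorem R_all (n : ℕ) : R (Fin n) := by
  induction n with
  | zero => exact R_zero
  | succ n ih =>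
    rcases Nat.lt_or_ge n 3 with hn | hn
    · interval_cases n
      · exact R_one
      · exact R_two
      · exact R_three
    · obtain ⟨m, hN, -, hm⟩ := exists_R (n + 1)
      exact R_succ_of hn ih hm hN

/-- **Orbits of symmetric groups.** If `Perm (Fin N)` acts transitively by isometries on a set `X`
of a Euclidean space and the stabiliser of some point contains the pointwise stabiliser of three
indices, then `X` is Ramsey. -/
theorem isRamsey_of_perm_orbit {ι : Type} [Fintype ι] {N : ℕ} {X : Set (EuclideanSpace ℝ ι)}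
    [MulAction (Equiv.Perm (Fin N)) X]
    (hiso : ∀ (g : Equiv.Perm (Fin N)) (p q : X),
      dist ((g • p : X) : EuclideanSpace ℝ ι) (g • q : X) = dist (p : EuclideanSpace ℝ ι) q)
    (x₀ : X) (htr : ∀ y : X, ∃ g : Equiv.Perm (Fin N), g • x₀ = y) (a b c : Fin N)
    (hst : ∀ g : Equiv.Perm (Fin N), g a = a → g b = b → g c = c → g • x₀ = x₀) :
    IsRamsey X := by
  classical
  let G := Equiv.Perm (Fin N)
  let u₀ : Fin 3 → Fin N := ![a, b, c]
  -- the points of triples
  have hfact : ∀ g g' : G, tact g u₀ = tact g' u₀ → g • x₀ = g' • x₀ := by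
    intro g g' h
    have hh : ∀ j, g (u₀ j) = g' (u₀ j) := fun j => congrFun h j
    have h' : (g'⁻¹ * g) • x₀ = x₀ := by
      apply hst
      · show g'⁻¹ (g a) = a
        rw [Equiv.Perm.inv_eq_iff_eq]
        exact hh 0
      · show g'⁻¹ (g b) = b
        rw [Equiv.Perm.inv_eq_iff_eq]
        exact hh 1
      · show g'⁻¹ (g c) = c
        rw [Equiv.Perm.inv_eq_iff_eq]
        exact hh 2
    rw [mul_smul] at h'
    exact inv_smul_eq_iff.mp h'
  let ptG : G → EuclideanSpace ℝ ι := fun g => ((g • x₀ : X) : EuclideanSpace ℝ ι)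
  let pt : (Fin 3 → Fin N) → EuclideanSpace ℝ ι :=
    Function.extend (fun g : G => tact g u₀) ptG (fun _ => 0)
  have hfac : Function.FactorsThrough ptG (fun g : G => tact g u₀) := by
    intro g g' h
    simp only [ptG]
    rw [hfact g g' h]
  have hpt : ∀ g : G, pt (tact g u₀) = ptG g := fun g => hfac.extend_apply _ g
  -- labels of points
  let X' : Finset (EuclideanSpace ℝ ι) := Finset.univ.image ptG
  let lab : EuclideanSpace ℝ ι → ℕ := fun p =>
    if h : p ∈ X' then (X'.equivFin ⟨p, h⟩).val else 0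
  let val : ℕ → EuclideanSpace ℝ ι := fun n =>
    if h : n < X'.card then (X'.equivFin.symm ⟨n, h⟩).1 else 0
  have hval : ∀ g : G, val (lab (ptG g)) = ptG g := by
    intro g
    have hm : ptG g ∈ X' := Finset.mem_image_of_mem _ (Finset.mem_univ g)
    simp only [lab, dif_pos hm, val, (X'.equivFin ⟨ptG g, hm⟩).isLt, dif_pos, Fin.eta,
      Equiv.symm_apply_apply]
  let c₀ : (Fin 3 → Fin N) → ℕ := fun τ => lab (pt τ)
  obtain ⟨Φ, ⟨Y, iY, hY, k, hk⟩, hinv⟩ := R_all N c₀
  have h1 := hk Unit G (fun _ u π => c₀ (tact π (tact u u₀)))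
    (Copy.of_const fun _ t t' => by
      show ap tact Φ c₀ (tact t u₀) = ap tact Φ c₀ (tact t' u₀)
      rw [hinv, hinv])
  have hμ : (0 : ℝ) < (Fintype.card (Unit × Y) : ℝ) := by exact_mod_cast Fintype.card_pos
  refine isRamsey_of_copy_points _ h1 val (fun u : G => ptG u) _ hμ ?_ X ?_
  · intro t t'
    have h2 : ∀ κ : Unit × Y, dist (val (c₀ (tact (k κ.2) (tact t u₀))))
        (val (c₀ (tact (k κ.2) (tact t' u₀)))) ^ 2 = dist (ptG t) (ptG t') ^ 2 := by
      intro κ
      have e1 : ∀ u : G, val (c₀ (tact (k κ.2) (tact u u₀))) = ptG (k κ.2 * u) := by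
        intro u
        show val (lab (pt (tact (k κ.2) (tact u u₀)))) = _
        rw [← tact_mul, hpt, hval]
      rw [e1, e1]
      simp only [ptG, mul_smul]
      rw [hiso]
    rw [Finset.sum_congr rfl fun κ _ => h2 κ, Finset.sum_const, Finset.card_univ, nsmul_eq_mul]
  · intro y hy
    obtain ⟨g, hg⟩ := htr ⟨y, hy⟩
    exact ⟨g, by simp only [ptG, hg]⟩

end Vale.Agent.Lib.P058.X3
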