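import Vale.Agent.Lib.P058.Euclid

/-! # P058: reductions of columns by functionals (deletion towers, family form) -/

namespace Vale.Agent.Lib.P058.X3

open Finset

/-! ### Copy-level lemmas -/

/-- Applying a map of alphabets preserves copies. -/
theorem Copy.map {U ι Λ Λ' : Type} [Fintype ι] {M : ι → U → Λ} (φ : Λ → Λ') (h : Copy M) :
    Copy (fun i t => φ (M i t)) := by
  intro r
  obtain ⟨N, hN⟩ := h r
  refine ⟨N, fun χ => ?_⟩
  obtain ⟨s, hs, hm⟩ := hN (fun u => χ (fun p => φ (u p)))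
  refine ⟨fun p => (s p).elim Sum.inl (fun l => Sum.inr (φ l)), fun g => ?_, fun t t' => ?_⟩
  · rw [← hs g]
    refine Finset.sum_congr rfl fun p _ => ?_
    cases hx : s p <;> simp [wt, hx]
  · have h2 := hm t t'
    convert h2 using 2 <;>
    · funext p
      cases hx : s p <;> simp [ev, hx]

/-- Precomposition with a map of tokens. -/
theorem Copy.comp {U U' ι Λ : Type} [Fintype ι] {M : ι → U → Λ} (ψ : U' → U) (h : Copy M) :
    Copy (fun i t => M i (ψ t)) := by
  intro r
  obtain ⟨N, hN⟩ := h r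
  refine ⟨N, fun χ => ?_⟩
  obtain ⟨s, hs, hm⟩ := hN χ
  refine ⟨s, hs, fun t t' => ?_⟩
  have h2 := hm (ψ t) (ψ t')
  convert h2 using 2 <;>
  · funext p
    cases hx : s p <;> simp [ev, hx]

/-- Columns that are constant can be dropped from a copy. `e` selects the kept columns. -/
theorem Copy.drop {U ι ι' Λ : Type} [Fintype ι] [Fintype ι'] {M : ι → U → Λ} (e : ι' → ι)
    (he : Function.Injective e) (v : Λ) (hv : ∀ i, (¬ ∃ j, e j = i) → ∀ t, M i t = v)
    (h : Copy M) : Copy (fun j t => M (e j) t) := by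
  classical
  intro r
  obtain ⟨N, hN⟩ := h r
  refine ⟨N, fun χ => ?_⟩
  obtain ⟨s, hs, hm⟩ := hN χ
  let conv : ι ⊕ Λ → ι' ⊕ Λ := fun x => x.elim
    (fun i => if h : ∃ j, e j = i then Sum.inl (Classical.choose h) else Sum.inr v) Sum.inr
  have hconv1 : ∀ j, conv (Sum.inl (e j)) = Sum.inl j := by
    intro j
    have hex : ∃ j', e j' = e j := ⟨j, rfl⟩
    simp only [conv, Sum.elim_inl, dif_pos hex]
    exact congrArg Sum.inl (he (Classical.choose_spec hex))
  have hconv2 : ∀ i, (¬ ∃ j, e j = i) → conv (Sum.inl i) = Sum.inr v := by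
    intro i hi
    simp only [conv, Sum.elim_inl, dif_neg hi]
  refine ⟨fun p => conv (s p), fun g => ?_, fun t t' => ?_⟩
  · let ĝ : ι → ℝ := fun i => if h : ∃ j, e j = i then g (Classical.choose h) else 0
    have hĝ : ∀ j, ĝ (e j) = g j := by
      intro j
      have hex : ∃ j', e j' = e j := ⟨j, rfl⟩
      simp only [ĝ, dif_pos hex]
      exact congrArg g (he (Classical.choose_spec hex))
    have hsum : ∑ i, ĝ i = ∑ j, g j := by
      have h1 : ∑ i, ĝ i = ∑ i ∈ Finset.univ.image e, ĝ i := by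
        refine (Finset.sum_subset (Finset.subset_univ _) ?_).symm
        intro i _ hi
        have : ¬ ∃ j, e j = i := by
          rintro ⟨j, rfl⟩
          exact hi (Finset.mem_image_of_mem e (Finset.mem_univ j))
        simp only [ĝ, dif_neg this]
      rw [h1, Finset.sum_image (fun a _ b _ hab => he hab)]
      exact Finset.sum_congr rfl fun j _ => hĝ j
    rw [← hsum, ← hs ĝ]
    refine Finset.sum_congr rfl fun p _ => ?_
    rcases hx : s p with i | l
    · by_cases hi : ∃ j, e j = i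
      · obtain ⟨j, rfl⟩ := hi
        simp [hx, hconv1, wt, hĝ]
      · simp [hx, hconv2 i hi, wt, ĝ, dif_neg hi]
    · simp [hx, conv, wt]
  · have h2 := hm t t'
    have key : ∀ (x : ι ⊕ Λ) (y : U), ev (fun j t => M (e j) t) (conv x) y = ev M x y := by
      intro x y
      rcases x with i | l
      · by_cases hi : ∃ j, e j = i
        · obtain ⟨j, rfl⟩ := hi
          simp [hconv1, ev]
        · simp [hconv2 i hi, ev, hv i hi y]
      · simp [conv, ev]
    simp only [key]
    exact h2

/-- With no tokens a copy is trivial. -/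
theorem Copy.of_isEmpty {U ι Λ : Type} [Fintype ι] [IsEmpty U] (M : ι → U → Λ) : Copy M := by
  intro r
  refine ⟨Fintype.card ι, fun χ => ⟨fun p => Sum.inl ((Fintype.equivFin ι).symm p), fun g => ?_,
    fun t => isEmptyElim t⟩⟩
  simpa [wt] using Equiv.sum_comp (Fintype.equivFin ι).symm g

/-- Union of copies over a finite index, over a finite alphabet. -/
theorem Copy.union {U ι κ Λ : Type} [Fintype ι] [Fintype κ] [Fintype Λ]
    (M : κ → ι → U → Λ) (h : ∀ k, Copy (M k)) : Copy (fun (p : κ × ι) t => M p.1 p.2 t) := by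
  classical
  rcases isEmpty_or_nonempty U with hU | ⟨⟨u₀⟩⟩
  · exact Copy.of_isEmpty _
  -- reduce to `Fin m` by induction
  obtain ⟨m, ⟨e⟩⟩ : ∃ m, Nonempty (κ ≃ Fin m) := ⟨_, ⟨Fintype.equivFin κ⟩⟩
  suffices H : ∀ (m : ℕ) (M : Fin m → ι → U → Λ), (∀ k, Copy (M k)) →
      Copy (fun (p : Fin m × ι) t => M p.1 p.2 t) by
    have := H m (fun k => M (e.symm k)) (fun k => h _)
    exact Copy.reindex (M := fun (p : κ × ι) t => M p.1 p.2 t)
      ((Equiv.prodCongr e (Equiv.refl ι)).symm) (by simpa using this)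
  intro m
  induction m with
  | zero =>
    intro M _ r
    refine ⟨0, fun χ => ⟨Fin.elim0, fun g => ?_, fun t t' => ?_⟩⟩
    · simp
    · congr 1
      funext p
      exact p.elim0
  | succ m ih =>
    intro M hM r
    -- the last column family first, then the others with many colours
    obtain ⟨N₂, hN₂⟩ := hM (Fin.last m) r
    let R : ℕ := Fintype.card ((Fin N₂ → Λ) → Fin r)
    obtain ⟨N₁, hN₁⟩ := ih (fun k => M k.castSucc) (fun k => hM _) R
    let eR : ((Fin N₂ → Λ) → Fin r) ≃ Fin R := Fintype.equivFin _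
    refine ⟨N₁ + N₂, fun χ => ?_⟩
    let glue : (Fin N₁ → Λ) → (Fin N₂ → Λ) → (Fin (N₁ + N₂) → Λ) := fun u v => Fin.append u v
    let M₁ : Fin m × ι → U → Λ := fun p t => M p.1.castSucc p.2 t
    obtain ⟨s₁, hs₁, hm₁⟩ := hN₁ (fun u => eR (fun v => χ (glue u v)))
    obtain ⟨s₂, hs₂, hm₂⟩ := hN₂ (fun v => χ (glue (fun p => ev M₁ (s₁ p) u₀) v))
    let emb₁ : (Fin m × ι) ⊕ Λ → (Fin (m + 1) × ι) ⊕ Λ :=
      fun x => x.elim (fun q => Sum.inl (q.1.castSucc, q.2)) Sum.inr
    let emb₂ : ι ⊕ Λ → (Fin (m + 1) × ι) ⊕ Λ :=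
      fun x => x.elim (fun i => Sum.inl (Fin.last m, i)) Sum.inr
    refine ⟨Fin.append (fun p => emb₁ (s₁ p)) (fun p => emb₂ (s₂ p)), fun g => ?_, fun t t' => ?_⟩
    · rw [Fin.sum_univ_add]
      simp only [Fin.append_left, Fin.append_right]
      have h1 := hs₁ (fun q => g (q.1.castSucc, q.2))
      have h2 := hs₂ (fun i => g (Fin.last m, i))
      have e1 : ∀ p, wt g (emb₁ (s₁ p)) = wt (fun q : Fin m × ι => g (q.1.castSucc, q.2)) (s₁ p) := by
        intro p
        cases s₁ p <;> simp [emb₁, wt]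
      have e2 : ∀ p, wt g (emb₂ (s₂ p)) = wt (fun i => g (Fin.last m, i)) (s₂ p) := by
        intro p
        cases s₂ p <;> simp [emb₂, wt]
      simp only [e1, e2, h1, h2]
      rw [Fintype.sum_prod_type (f := fun x : Fin (m + 1) × ι => g x), Fin.sum_univ_castSucc,
        Fintype.sum_prod_type]
    · have key : ∀ y : U, (fun p => ev (fun (p : Fin (m + 1) × ι) t => M p.1 p.2 t)
          (Fin.append (fun p => emb₁ (s₁ p)) (fun p => emb₂ (s₂ p)) p) y)
          = glue (fun p => ev M₁ (s₁ p) y)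
              (fun p => ev (M (Fin.last m)) (s₂ p) y) := by
        intro y
        funext p
        refine Fin.addCases (fun q => ?_) (fun q => ?_) p
        · simp only [glue, Fin.append_left]
          cases s₁ q <;> simp [emb₁, ev, M₁]
        · simp only [glue, Fin.append_right]
          cases s₂ q <;> simp [emb₂, ev]
      rw [key t, key t']
      have e1 : ∀ y, (fun v => χ (glue (fun p => ev M₁ (s₁ p) y) v))
          = (fun v => χ (glue (fun p => ev M₁ (s₁ p) u₀) v)) := fun y => eR.injective (hm₁ y u₀)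
      have e2 := fun y => congrFun (e1 y) (fun p => ev (M (Fin.last m)) (s₂ p) y)
      rw [e2 t, e2 t']
      exact hm₂ t t'

/-- The level step over arbitrary alphabets: only finitely many letters occur. -/
theorem Copy.step_gen {U ι Λ Λ' : Type} [Fintype U] [Fintype ι] [DecidableEq Λ] [Inhabited Λ']
    (δ : Λ) (dec : Λ' → List Λ) (hdec : ∀ l, δ ∉ dec l) {M' : ι → U → Λ'} (b : ℕ)
    (Lst : ι → Fin b → U → Λ)
    (h : ∀ i t, (List.ofFn fun j => Lst i j t).filter (· ≠ δ) = dec (M' i t))
    (hc : Copy M') : Copy (fun x : ι × Fin b => Lst x.1 x.2) := by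
  classical
  -- finite alphabets
  let A : Finset Λ := insert δ (Finset.univ.image fun p : ι × Fin b × U => Lst p.1 p.2.1 p.2.2)
  let A' : Finset Λ' := insert default (Finset.univ.image fun p : ι × U => M' p.1 p.2)
  have hδ : δ ∈ A := Finset.mem_insert_self _ _
  have hL : ∀ i j t, Lst i j t ∈ A := fun i j t => Finset.mem_insert_of_mem
    (Finset.mem_image.mpr ⟨(i, j, t), Finset.mem_univ _, rfl⟩)
  have hM : ∀ i t, M' i t ∈ A' := fun i t => Finset.mem_insert_of_mem
    (Finset.mem_image.mpr ⟨(i, t), Finset.mem_univ _, rfl⟩)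
  let ρ : Λ → {x // x ∈ A} := fun x => if hx : x ∈ A then ⟨x, hx⟩ else ⟨δ, hδ⟩
  have hρ : ∀ x (hx : x ∈ A), ρ x = ⟨x, hx⟩ := fun x hx => dif_pos hx
  let ρ' : Λ' → {x // x ∈ A'} := fun x =>
    if hx : x ∈ A' then ⟨x, hx⟩ else ⟨default, Finset.mem_insert_self _ _⟩
  have hρ' : ∀ x (hx : x ∈ A'), ρ' x = ⟨x, hx⟩ := fun x hx => dif_pos hx
  let δ₁ : {x // x ∈ A} := ⟨δ, hδ⟩
  let dec₁ : {x // x ∈ A'} → List {x // x ∈ A} := fun l => ((dec l.1).map ρ).filter (· ≠ δ₁)
  have hc₁ : Copy (fun i t => (⟨M' i t, hM i t⟩ : {x // x ∈ A'})) := by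
    have := Copy.map ρ' hc
    simpa only [fun i t => hρ' (M' i t) (hM i t)] using this
  have hfilter : ∀ (l : List Λ), (∀ x ∈ l, x ∈ A) →
      ((l.filter (· ≠ δ)).map ρ).filter (· ≠ δ₁) = (l.map ρ).filter (· ≠ δ₁) := by
    intro l
    induction l with
    | nil => simp
    | cons a l ih =>
      intro hl
      have ha : a ∈ A := hl a (List.mem_cons_self)
      have ih' := ih (fun x hx => hl x (List.mem_cons_of_mem _ hx))
      by_cases hae : a = δ
      · subst hae
        have : ρ a = δ₁ := hρ a hδ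
        simpa [this] using ih'
      · have : ρ a ≠ δ₁ := by
          rw [hρ a ha]
          intro h'
          exact hae (congrArg Subtype.val h')
        simpa [hae, this] using ih'
  have hstep := Copy.step (Λ := {x // x ∈ A}) (Λ' := {x // x ∈ A'}) δ₁ dec₁
    (by
      intro l hl
      simp [dec₁] at hl)
    (M' := fun i t => (⟨M' i t, hM i t⟩ : {x // x ∈ A'})) b
    (fun i j t => ⟨Lst i j t, hL i j t⟩)
    (by
      intro i t
      simp only [dec₁]
      rw [← h i t, hfilter _ (by
        intro x hx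
        rw [List.mem_ofFn] at hx
        obtain ⟨j, rfl⟩ := hx
        exact hL i j t)]
      congr 1
      rw [List.map_ofFn]
      congr 1
      funext j
      exact (hρ _ (hL i j t)).symm) hc₁
  exact Copy.map Subtype.val hstep

end Vale.Agent.Lib.P058.X3
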