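import Vale.Agent.Lib.P058.X3Plane

/-! # P058: all arrangements of `(a,…,a,b,c,d)` are Ramsey -/

namespace Vale.Agent.Lib.P058.X3

open Finset

theorem R_congr {α β : Type} (e : α ≃ β) (h : R α) : R β := by
  intro z
  let z' : (Fin 3 → α) → ℕ := fun t => z (fun j => e (t j))
  obtain ⟨Φ, h1, h2⟩ := h z'
  refine ⟨pull (Equiv.permCongr e) Φ, h1.pull _, fun k t => ?_⟩
  have key : ∀ t, ap tact (pull (Equiv.permCongr e) Φ) z t = ap tact Φ z' (fun j => e.symm (t j)) := by
    intro t
    simp only [ap, pull, z']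
    congr 1
  rw [key, key]
  have : (fun j => e.symm (tact k t j)) = tact (e.symm.permCongr k) (fun j => e.symm (t j)) := by
    funext j
    simp [tact, Equiv.permCongr_apply]
  rw [this]
  exact h2 _ _

theorem R_sq (q D : ℕ) (F : Type) [Field F] [Fintype F] (hq : Fintype.card F = q)
    (hR : R (Fin q)) (hD : R (Fin D)) (hle : q + 1 ≤ D) : R (Fin (q * q)) := by
  classical
  let e : F ≃ Fin q := Fintype.equivFinOfCardEq hq
  have hF : R F := R_congr e.symm hR
  obtain ⟨ιD⟩ : Nonempty (Option F ↪ Fin D) :=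
    Function.Embedding.nonempty_of_card_le (by simp [Fintype.card_option, hq, hle])
  have := R_plane hF hD ιD
  exact R_congr ((Equiv.prodCongr e e).trans finProdFinEquiv) this

theorem R_pow (p n D : ℕ) [Fact p.Prime] (hn : n ≠ 0) (hR : R (Fin (p ^ n))) (hD : R (Fin D))
    (hle : p ^ n + 1 ≤ D) : R (Fin (p ^ n * p ^ n)) := by
  classical
  letI : Fintype (GaloisField p n) := Fintype.ofFinite _
  exact R_sq (p ^ n) D (GaloisField p n)
    (by rw [← Nat.card_eq_fintype_card, GaloisField.card p n hn]) hR hD hle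

theorem R_chain (k : ℕ) : R (Fin (2 ^ (2 ^ k))) ∧ R (Fin (3 ^ (2 ^ k))) := by
  induction k with
  | zero =>
    exact ⟨by simpa using R_two, by simpa using R_three⟩
  | succ k ih =>
    obtain ⟨h2, h3⟩ := ih
    have hm : 2 ^ k ≠ 0 := by positivity
    have e2 : 2 ^ (2 ^ k) * 2 ^ (2 ^ k) = 2 ^ (2 ^ (k + 1)) := by
      rw [← pow_add, pow_succ]
      congr 1
      ring
    have e3 : 3 ^ (2 ^ k) * 3 ^ (2 ^ k) = 3 ^ (2 ^ (k + 1)) := by
      rw [← pow_add, pow_succ]
      congr 1
      ring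
    have n2 : R (Fin (2 ^ (2 ^ (k + 1)))) := by
      have := R_pow 2 (2 ^ k) (3 ^ (2 ^ k)) hm h2 h3
        (Nat.succ_le_of_lt (Nat.pow_lt_pow_left (by norm_num) hm))
      rwa [e2] at this
    have n3 : R (Fin (3 ^ (2 ^ (k + 1)))) := by
      have e4 : 2 ^ (2 ^ (k + 1)) = 4 ^ (2 ^ k) := by
        rw [pow_succ, pow_mul']
        norm_num
      have := R_pow 3 (2 ^ k) (2 ^ (2 ^ (k + 1))) hm h3 n2
        (by
          rw [e4]
          exact Nat.succ_le_of_lt (Nat.pow_lt_pow_left (by norm_num) hm))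
      rwa [e3] at this
    exact ⟨n2, n3⟩

/-- Arbitrarily large sizes with property `R`. -/
theorem exists_R (N : ℕ) : ∃ m, N ≤ m + 1 ∧ 3 ≤ m + 1 ∧ R (Fin (m + 1)) := by
  have h1 : N + 3 < 2 ^ (N + 3) := Nat.lt_two_pow_self
  have h2 : 2 ^ (N + 3) < 2 ^ (2 ^ (N + 3)) := Nat.lt_two_pow_self
  obtain ⟨m, hm⟩ : ∃ m, 2 ^ (2 ^ (N + 3)) = m + 1 := ⟨2 ^ (2 ^ (N + 3)) - 1, by omega⟩
  refine ⟨m, by omega, by omega, ?_⟩
  rw [← hm]
  exact (R_chain (N + 3)).1

/-! ### The Euclidean statement -/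

section euclid

variable {m : ℕ}

/-- Injective triples. -/
abbrev Tok (n : ℕ) := {t : Fin 3 → Fin n // Function.Injective t}

/-- The right action on injective triples. -/
def actT {n : ℕ} (γ : Equiv.Perm (Fin n)) (t : Tok n) : Tok n :=
  ⟨fun j => γ⁻¹ (t.1 j), fun _ _ h => t.2 (γ⁻¹.injective h)⟩

/-- The letter at a position. -/
def colT {n : ℕ} (t : Tok n) (ω : Fin n) : Fin 4 :=
  if t.1 0 = ω then 1 else if t.1 1 = ω then 2 else if t.1 2 = ω then 3 else 0

theorem colT_act {n : ℕ} (γ : Equiv.Perm (Fin n)) (t : Tok n) (ω : Fin n) :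
    colT (actT γ t) ω = colT t (γ ω) := by
  have key : ∀ x : Fin n, (γ⁻¹ x = ω) ↔ (x = γ ω) := fun x => by
    rw [Equiv.Perm.inv_eq_iff_eq]
  simp only [colT, actT, key]

theorem pow_rot_val (m k : ℕ) (ω : Fin (m + 1)) :
    (((finRotate (m + 1)) ^ k) ω).val = (ω.val + k) % (m + 1) := by
  induction k with
  | zero =>
    simp [Nat.mod_eq_of_lt ω.isLt]
  | succ k ih =>
    rw [pow_succ', Equiv.Perm.coe_mul, Function.comp_apply, finRotate_succ_apply, Fin.val_add, ih,
      Fin.val_one']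
    exact (Nat.add_mod (ω.val + k) 1 (m + 1)).symm

theorem pow_rot (m : ℕ) (s ω : Fin (m + 1)) : ((finRotate (m + 1)) ^ s.val) ω = ω + s :=
  Fin.ext (by rw [pow_rot_val, Fin.val_add])

theorem rot_regular (m : ℕ) (ω ω' : Fin (m + 1)) :
    ∃! s : Fin (m + 1), ((finRotate (m + 1)) ^ s.val) ω = ω' := by
  refine ⟨ω' - ω, ?_, ?_⟩
  · simp only [pow_rot]
    exact add_sub_cancel ω ω'
  · intro s hs
    rw [pow_rot] at hs
    exact eq_sub_of_add_eq' hs

/-- Property `R` gives the tower certificate for the coordinate column. -/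
theorem cert_of_R (hR : R (Fin (m + 1))) (h3 : 3 ≤ m + 1) (ω₀ : Fin (m + 1)) :
    Cert (actT (n := m + 1)) (finRotate (m + 1)) (fun t => colT t ω₀) := by
  let code : (Fin 3 → Fin (m + 1)) → Fin 4 := fun t =>
    if t 0 = ω₀ then 1 else if t 1 = ω₀ then 2 else if t 2 = ω₀ then 3 else 0
  let c : (Fin 3 → Fin (m + 1)) → ℕ := fun t => (code t).val
  obtain ⟨Φ, ⟨Y, iY, hY, k, hk⟩, hinv⟩ := hR c
  have hconst : ∀ u u' : Tok (m + 1), ap tact Φ c u.1 = ap tact Φ c u'.1 := by
    intro u u'
    obtain ⟨κ, hκ⟩ := exists_perm_of_ker u.1 u'.1 (fun j k => by rw [u.2.eq_iff, u'.2.eq_iff])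
    have : u'.1 = tact κ u.1 := by
      funext j
      exact (hκ j).symm
    rw [this, hinv]
  have h1 := hk Unit (Tok (m + 1)) (fun _ u π => c (tact π u.1))
    (Copy.of_const fun _ t t' => hconst t t')
  let ρ : ℕ → Fin 4 := fun n => if h : n < 4 then ⟨n, h⟩ else 0
  have hρ : ∀ t, ρ (c t) = code t := fun t => by
    simp only [ρ, c, dif_pos (code t).isLt]
  have h2 := Copy.map ρ h1
  simp only [hρ] at h2
  -- symmetrise by the cyclic group
  have h3' := Copy.union (κ := Fin (m + 1))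
    (M := fun (s : Fin (m + 1)) (p : Unit × Y) (t : Tok (m + 1)) =>
      code (tact (k p.2) (actT ((finRotate (m + 1)) ^ s.val) t).1))
    (fun s => Copy.comp (M := fun (p : Unit × Y) (u : Tok (m + 1)) => code (tact (k p.2) u.1))
      (fun t => actT ((finRotate (m + 1)) ^ s.val) t) h2)
  refine ⟨Unit × Y, inferInstance, inferInstance, fun p => (k p.2)⁻¹, ?_⟩
  convert h3' using 3 with x t
  change colT (actT ((finRotate (m + 1)) ^ x.1.val * (k x.2.2)⁻¹) t) ω₀ = _
  have : colT (actT ((finRotate (m + 1)) ^ x.1.val * (k x.2.2)⁻¹) t) ω₀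
      = code (fun j => ((finRotate (m + 1)) ^ x.1.val * (k x.2.2)⁻¹)⁻¹ (t.1 j)) := rfl
  rw [this]
  congr 1

end euclid

/-- All vectors of `ℝ^N` with one coordinate `b`, one coordinate `c`, one coordinate `d`, in three
different places, and all other coordinates equal to `a`. -/
def X3Set (N : ℕ) (a b c d : ℝ) : Set (EuclideanSpace ℝ (Fin N)) :=
  {x | ∃ i j k : Fin N, i ≠ j ∧ i ≠ k ∧ j ≠ k ∧ x i = b ∧ x j = c ∧ x k = d ∧
    ∀ l, l ≠ i → l ≠ j → l ≠ k → x l = a}

theorem isRamsey_X3Set (N : ℕ) (a b c d : ℝ) : IsRamsey (X3Set N a b c d) := by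
  classical
  obtain ⟨m, hN, h3, hR⟩ := exists_R N
  let lv : Fin 4 → ℝ := ![a, b, c, d]
  have key := isRamsey_of_cert (actT (n := m + 1)) (finRotate (m + 1)) (rot_regular m)
    colT colT_act 0 (cert_of_R hR h3 0) lv
  -- padding
  let pad : EuclideanSpace ℝ (Fin N) → EuclideanSpace ℝ (Fin (m + 1)) := fun x =>
    WithLp.toLp 2 (fun l => if h : l.val < N then x ⟨l.val, h⟩ else a)
  have pad_apply : ∀ x l, pad x l = if h : l.val < N then x ⟨l.val, h⟩ else a := fun _ _ => rfl
  have pad_dist : ∀ x y, dist (pad x) (pad y) = dist x y := by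
    intro x y
    rw [EuclideanSpace.dist_eq, EuclideanSpace.dist_eq]
    congr 1
    let e : Fin N ↪ Fin (m + 1) := Fin.castLEEmb hN
    have h0 : ∀ l : Fin (m + 1), l ∉ Finset.univ.map e → dist (pad x l) (pad y l) ^ 2 = 0 := by
      intro l hl
      have : ¬ l.val < N := by
        intro h
        exact hl (Finset.mem_map.mpr ⟨⟨l.val, h⟩, Finset.mem_univ _, Fin.ext rfl⟩)
      simp [pad_apply, this]
    rw [← Finset.sum_subset (Finset.subset_univ (Finset.univ.map e)) (fun l _ hl => h0 l hl),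
      Finset.sum_map]
    refine Finset.sum_congr rfl fun i _ => ?_
    have : (e i).val < N := i.isLt
    simp only [pad_apply, dif_pos this]
    rfl
  have pad_mem : ∀ x ∈ X3Set N a b c d, pad x ∈ {x : EuclideanSpace ℝ (Fin (m + 1)) |
      ∃ t : Tok (m + 1), ∀ ω, x ω = lv (colT t ω)} := by
    rintro x ⟨i, j, k, hij, hik, hjk, hi, hj, hk, hl⟩
    let e : Fin N → Fin (m + 1) := Fin.castLE hN
    have he : Function.Injective e := Fin.castLE_injective hN
    have h01 : e i ≠ e j := fun h => hij (he h)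
    have h02 : e i ≠ e k := fun h => hik (he h)
    have h12 : e j ≠ e k := fun h => hjk (he h)
    refine ⟨⟨![e i, e j, e k], ?_⟩, fun ω => ?_⟩
    · intro p q
      fin_cases p <;> fin_cases q <;> simp [h01, h02, h12, h01.symm, h02.symm, h12.symm]
    · rw [pad_apply]
      have hcol : colT ⟨![e i, e j, e k], by
          intro p q
          fin_cases p <;> fin_cases q <;> simp [h01, h02, h12, h01.symm, h02.symm, h12.symm]⟩ ω
          = if e i = ω then 1 else if e j = ω then 2 else if e k = ω then 3 else 0 := rfl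
      rw [hcol]
      by_cases w1 : e i = ω
      · subst w1
        have : (e i).val < N := i.isLt
        rw [dif_pos this, if_pos rfl]
        exact hi
      · rw [if_neg w1]
        by_cases w2 : e j = ω
        · subst w2
          have : (e j).val < N := j.isLt
          rw [dif_pos this, if_pos rfl]
          exact hj
        · rw [if_neg w2]
          by_cases w3 : e k = ω
          · subst w3
            have : (e k).val < N := k.isLt
            rw [dif_pos this, if_pos rfl]
            exact hk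
          · rw [if_neg w3]
            by_cases hω : ω.val < N
            · rw [dif_pos hω]
              refine hl _ ?_ ?_ ?_
              · intro h; exact w1 (Fin.ext (by simp [e, ← h]))
              · intro h; exact w2 (Fin.ext (by simp [e, ← h]))
              · intro h; exact w3 (Fin.ext (by simp [e, ← h]))
            · rw [dif_neg hω]
              rfl
  intro r hr
  obtain ⟨D, hD, h⟩ := key r hr
  refine ⟨D, hD, fun c' => ?_⟩
  obtain ⟨f, k, hf, hk⟩ := h c'
  refine ⟨fun x => f (pad x), k, fun x hx y hy => ?_, fun x hx => hk _ (pad_mem x hx)⟩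
  rw [hf _ (pad_mem x hx) _ (pad_mem y hy), pad_dist]

end Vale.Agent.Lib.P058.X3
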