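import Vale.Agent.Lib.P058.X3Core

/-! # P058: functionals reading a column along group elements -/

namespace Vale.Agent.Lib.P058.X3

open Finset

/-- Encoding of lists of labels as labels. -/
def node (l : List ℕ) : ℕ := Encodable.encode l

/-- Decoding of labels. -/
def kids (n : ℕ) : List ℕ := (Encodable.decode n).getD []

theorem kids_node (l : List ℕ) : kids (node l) = l := by simp [kids, node]

/-- A functional of a reading `f : K → ℕ` is *copy reducing* if a copy of the evaluated columns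
gives a copy of the columns read at a fixed finite nonempty family of elements of `K`. -/
def CR {K : Type} (Φ : (K → ℕ) → ℕ) : Prop :=
  ∃ (Y : Type) (_ : Fintype Y) (_ : Nonempty Y) (k : Y → K),
    ∀ (ι U : Type) [Fintype ι] [Fintype U] (F : ι → U → K → ℕ),
      Copy (fun i u => Φ (F i u)) → Copy (fun (p : ι × Y) u => F p.1 u (k p.2))

/-- Composition of functionals: first `Φ₁`, then `Φ₂`. -/
def cmp {K : Type} [Mul K] (Φ₂ Φ₁ : (K → ℕ) → ℕ) : (K → ℕ) → ℕ :=
  fun f => Φ₂ (fun g => Φ₁ (fun g' => f (g' * g)))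

theorem CR.cmp {K : Type} [Mul K] {Φ₂ Φ₁ : (K → ℕ) → ℕ} (h₂ : CR Φ₂) (h₁ : CR Φ₁) :
    CR (cmp Φ₂ Φ₁) := by
  obtain ⟨Y₂, _, ⟨y₂⟩, k₂, hk₂⟩ := h₂
  obtain ⟨Y₁, _, ⟨y₁⟩, k₁, hk₁⟩ := h₁
  refine ⟨Y₂ × Y₁, inferInstance, ⟨(y₂, y₁)⟩, fun y => k₁ y.2 * k₂ y.1, ?_⟩
  intro ι U _ _ F hc
  have a := hk₂ ι U (fun i u g => Φ₁ (fun g' => F i u (g' * g))) hc
  have b := hk₁ (ι × Y₂) U (fun p u g' => F p.1 u (g' * k₂ p.2)) a
  exact Copy.reindex (M := fun (p : ι × (Y₂ × Y₁)) u => F p.1 u (k₁ p.2.2 * k₂ p.2.1))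
    (Equiv.prodAssoc ι Y₂ Y₁) b

/-- Reading along a list with a deleted letter. -/
def rd {K : Type} (δ : ℕ) (L : List K) : (K → ℕ) → ℕ :=
  fun f => node ((L.map f).filter (· ≠ δ))

theorem CR.rd {K : Type} (δ : ℕ) (L : List K) (hL : L ≠ []) : CR (rd δ L) := by
  have hlen : 0 < L.length := List.length_pos_iff.mpr hL
  refine ⟨Fin L.length, inferInstance, ⟨⟨0, hlen⟩⟩, L.get, ?_⟩
  intro ι U _ _ F hc
  refine Copy.step_gen δ (fun n => (kids n).filter (· ≠ δ)) (by simp) L.length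
    (fun i j u => F i u (L.get j)) (fun i u => ?_) hc
  have key : (List.ofFn fun j => F i u (L.get j)) = L.map (F i u) := by
    conv_rhs => rw [← List.ofFn_get L]
    rw [List.map_ofFn]
    rfl
  rw [key]
  simp [Vale.Agent.Lib.P058.X3.rd, kids_node, List.filter_filter]

/-- Reading through a map of index types. -/
def pull {K K' : Type} (θ : K → K') (Φ : (K → ℕ) → ℕ) : (K' → ℕ) → ℕ := fun f => Φ (fun k => f (θ k))

theorem CR.pull {K K' : Type} (θ : K → K') {Φ : (K → ℕ) → ℕ} (h : CR Φ) :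
    CR (pull θ Φ) := by
  obtain ⟨Y, i1, i2, k, hk⟩ := h
  exact ⟨Y, i1, i2, fun y => θ (k y), fun ι U _ _ F hc =>
    hk ι U (fun i u x => F i u (θ x)) hc⟩

/-- The reading at the identity. -/
def idF {K : Type} [One K] : (K → ℕ) → ℕ := fun f => f 1

theorem CR.idF {K : Type} [One K] : CR (idF (K := K)) := by
  refine ⟨Unit, inferInstance, inferInstance, fun _ => 1, ?_⟩
  intro ι U _ _ F hc
  exact Copy.reindex (M := fun (p : ι × Unit) u => F p.1 u 1) (Equiv.prodPUnit ι).symm hc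

/-- Applying a functional to a column. -/
def ap {K T : Type} (act : K → T → T) (Φ : (K → ℕ) → ℕ) (c : T → ℕ) : T → ℕ :=
  fun t => Φ (fun k => c (act k t))

theorem ap_cmp {K T : Type} [Mul K] (act : K → T → T)
    (hact : ∀ g' g t, act (g' * g) t = act g' (act g t)) (Φ₂ Φ₁ : (K → ℕ) → ℕ) (c : T → ℕ) :
    ap act (cmp Φ₂ Φ₁) c = ap act Φ₂ (ap act Φ₁ c) := by
  funext t
  simp [ap, cmp, hact]

theorem ap_id {K T : Type} [One K] (act : K → T → T) (h1 : ∀ t, act 1 t = t) (c : T → ℕ) :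
    ap act idF c = c := by
  funext t
  simp [ap, idF, h1]

/-- Every column can be made invariant. -/
def R0 {K T : Type} (act : K → T → T) : Prop :=
  ∀ z : T → ℕ, ∃ Φ, CR Φ ∧ ∀ k t, ap act Φ z (act k t) = ap act Φ z t

/-- The sequential orbit lemma: equivariant slices can be treated one after another. -/
theorem cover {K X T S : Type} [Monoid K] [Fintype S] (actX : K → X → X) (actT : K → T → T)
    (hT : ∀ g' g t, actT (g' * g) t = actT g' (actT g t))
    (ψ : S → X → T) (hψ : ∀ s k x, ψ s (actX k x) = actT k (ψ s x)) (hR : R0 actX) (c : T → ℕ) :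
    ∃ Φ, CR Φ ∧ ∀ s k x, ap actT Φ c (ψ s (actX k x)) = ap actT Φ c (ψ s x) := by
  classical
  suffices H : ∀ A : Finset S, ∃ Φ, CR Φ ∧ ∀ s ∈ A, ∀ k x,
      ap actT Φ c (ψ s (actX k x)) = ap actT Φ c (ψ s x) by
    obtain ⟨Φ, h1, h2⟩ := H Finset.univ
    exact ⟨Φ, h1, fun s => h2 s (Finset.mem_univ s)⟩
  intro A
  induction A using Finset.induction_on with
  | empty => exact ⟨idF, CR.idF, by simp⟩
  | insert s₁ A _ ih =>
    obtain ⟨Φ₀, h0, ih⟩ := ih
    set c₀ := ap actT Φ₀ c with hc₀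
    obtain ⟨Φ₁, h1, h2⟩ := hR (fun x => c₀ (ψ s₁ x))
    refine ⟨cmp Φ₁ Φ₀, h1.cmp h0, ?_⟩
    rw [ap_cmp actT hT, ← hc₀]
    have key : ∀ s y, ap actT Φ₁ c₀ (ψ s y) = ap actX Φ₁ (fun x => c₀ (ψ s x)) y := by
      intro s y
      simp only [ap, hψ]
    intro s hs k x
    rw [key, key]
    rcases Finset.mem_insert.mp hs with rfl | hA
    · exact h2 k x
    · have h3 := ih s hA
      simp only [ap]
      congr 1
      funext k'
      rw [h3 k' (actX k x), h3 k']
      exact h3 k x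

/-! ### Cyclic reduction -/

section neck

variable {T : Type}

/-- The powers of `g`, indexed additively. -/
def actN (g : T → T) (n : Multiplicative ℕ) (t : T) : T := g^[Multiplicative.toAdd n] t

theorem actN_mul (g : T → T) (a b : Multiplicative ℕ) (t : T) :
    actN g (a * b) t = actN g a (actN g b t) := by
  simp [actN, Function.iterate_add_apply]

theorem actN_one (g : T → T) (t : T) : actN g 1 t = t := rfl

/-- The list of the first `d` powers. -/
def pws (d : ℕ) : List (Multiplicative ℕ) := (List.range d).map Multiplicative.ofAdd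

theorem rd_step (g : T → T) (d : ℕ) (c : T → ℕ) (t : T) (δ : ℕ) (hδ : c t = δ)
    (hd : g^[d + 1] t = t) :
    ap (actN g) (rd δ (pws (d + 1))) c (g t) = ap (actN g) (rd δ (pws (d + 1))) c t := by
  simp only [ap, rd, pws, List.map_map]
  congr 1
  have h1 : List.map ((fun k => c (actN g k (g t))) ∘ Multiplicative.ofAdd) (List.range (d + 1))
      = List.map (fun n => c (g^[n + 1] t)) (List.range d) ++ [δ] := by
    rw [List.range_succ, List.map_append]
    simp only [List.map_cons, List.map_nil, Function.comp, actN, toAdd_ofAdd]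
    congr 1
    rw [← Function.iterate_succ_apply, hd, hδ]
  have h2 : List.map ((fun k => c (actN g k t)) ∘ Multiplicative.ofAdd) (List.range (d + 1))
      = δ :: List.map (fun n => c (g^[n + 1] t)) (List.range d) := by
    rw [List.range_succ_eq_map, List.map_cons, List.map_map]
    simp only [Function.comp, actN, toAdd_ofAdd, Function.iterate_zero, id, hδ]
    rfl
  rw [h1, h2]
  simp [List.filter_append]

/-- One orbit of `g`. -/
theorem neck_orbit (g : T → T) (d : ℕ) (hd : ∀ t, g^[d + 1] t = t) (c : T → ℕ) (t₀ : T) :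
    ∃ Φ, CR Φ ∧ ∀ n, ap (actN g) Φ c (g^[n] t₀) = ap (actN g) Φ c t₀ := by
  have H : ∀ r : ℕ, ∃ Φ, CR Φ ∧ ∀ i ≤ r, ap (actN g) Φ c (g^[i] t₀) = ap (actN g) Φ c t₀ := by
    intro r
    induction r with
    | zero =>
      exact ⟨idF, CR.idF, fun i hi => by
        obtain rfl : i = 0 := by omega
        rfl⟩
    | succ r ih =>
      obtain ⟨Φ₀, h0, ih⟩ := ih
      set c₀ := ap (actN g) Φ₀ c with hc₀
      let δ := c₀ t₀
      refine ⟨cmp (rd δ (pws (d + 1))) Φ₀,
        (CR.rd δ _ (by simp [pws])).cmp h0, ?_⟩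
      rw [ap_cmp _ (actN_mul g), ← hc₀]
      have key : ∀ i ≤ r + 1, ap (actN g) (rd δ (pws (d + 1))) c₀ (g^[i] t₀)
          = ap (actN g) (rd δ (pws (d + 1))) c₀ t₀ := by
        intro i
        induction i with
        | zero => intro _; rfl
        | succ i ihi =>
          intro hi
          rw [← ihi (by omega), Function.iterate_succ_apply']
          exact rd_step g d c₀ _ δ (ih i (by omega)) (hd _)
      exact key
  obtain ⟨Φ, h1, h2⟩ := H d
  refine ⟨Φ, h1, fun n => ?_⟩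
  have hper : g^[n] t₀ = g^[n % (d + 1)] t₀ :=
    (Function.IsPeriodicPt.iterate_mod_apply (hd t₀) n).symm
  rw [hper]
  exact h2 _ (Nat.lt_succ_iff.mp (Nat.mod_lt n (Nat.succ_pos d)))

/-- All orbits of `g`. -/
theorem neck_all [Fintype T] (g : T → T) (d : ℕ) (hd : ∀ t, g^[d + 1] t = t) (c : T → ℕ) :
    ∃ Φ, CR Φ ∧ ∀ t, ap (actN g) Φ c (g t) = ap (actN g) Φ c t := by
  classical
  suffices H : ∀ A : Finset T, ∃ Φ, CR Φ ∧ ∀ t ∈ A, ∀ n,
      ap (actN g) Φ c (g^[n] t) = ap (actN g) Φ c t by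
    obtain ⟨Φ, h1, h2⟩ := H Finset.univ
    exact ⟨Φ, h1, fun t => h2 t (Finset.mem_univ t) 1⟩
  intro A
  induction A using Finset.induction_on with
  | empty => exact ⟨idF, CR.idF, by simp⟩
  | insert t₁ A _ ih =>
    obtain ⟨Φ₀, h0, ih⟩ := ih
    set c₀ := ap (actN g) Φ₀ c with hc₀
    obtain ⟨Φ₁, h1, h2⟩ := neck_orbit g d hd c₀ t₁
    refine ⟨cmp Φ₁ Φ₀, h1.cmp h0, ?_⟩
    rw [ap_cmp _ (actN_mul g), ← hc₀]
    intro t ht n
    rcases Finset.mem_insert.mp ht with rfl | hA
    · exact h2 n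
    · have h3 := ih t hA
      simp only [ap, actN]
      congr 1
      funext k
      rw [← Function.iterate_add_apply, h3, h3]

end neck

/-! ### Triples -/

/-- Left action of permutations on triples. -/
def tact {α : Type} (π : Equiv.Perm α) (t : Fin 3 → α) : Fin 3 → α := fun j => π (t j)

theorem tact_mul {α : Type} (g' g : Equiv.Perm α) (t : Fin 3 → α) :
    tact (g' * g) t = tact g' (tact g t) := rfl

theorem tact_one {α : Type} (t : Fin 3 → α) : tact (1 : Equiv.Perm α) t = t := rfl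

theorem tact_pow {α : Type} (γ : Equiv.Perm α) (n : ℕ) (t : Fin 3 → α) :
    (tact γ)^[n] t = tact (γ ^ n) t := by
  induction n with
  | zero => rfl
  | succ n ih =>
    rw [Function.iterate_succ_apply', ih, pow_succ']
    rfl

/-- Property `R`: every column on triples of `α` can be made invariant under permutations of `α`. -/
def R (α : Type) : Prop := R0 (tact (α := α))

/-- A cyclic reduction on triples, as a functional of permutations. -/
theorem neck_perm {α : Type} [Fintype α] [DecidableEq α] (γ : Equiv.Perm α) (d : ℕ)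
    (hγ : γ ^ (d + 1) = 1) (c : (Fin 3 → α) → ℕ) :
    ∃ Φ : (Multiplicative ℕ → ℕ) → ℕ, CR Φ ∧
      ∀ t, ap (actN (tact γ)) Φ c (tact γ t) = ap (actN (tact γ)) Φ c t := by
  refine neck_all (tact γ) d (fun t => ?_) c
  rw [tact_pow, hγ, tact_one]

theorem ap_pull_pow {α : Type} (γ : Equiv.Perm α) (Φ : (Multiplicative ℕ → ℕ) → ℕ)
    (c : (Fin 3 → α) → ℕ) (t : Fin 3 → α) :
    ap tact (pull (fun n : Multiplicative ℕ => γ ^ (Multiplicative.toAdd n)) Φ) c t
      = ap (actN (tact γ)) Φ c t := by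
  simp [ap, pull, actN, tact_pow]

theorem R_two : R (Fin 2) := by
  intro z
  obtain ⟨Φ, h1, h2⟩ := neck_perm (Equiv.swap (0 : Fin 2) 1) 1 (by decide) z
  refine ⟨pull (fun n : Multiplicative ℕ => (Equiv.swap (0 : Fin 2) 1) ^ (Multiplicative.toAdd n)) Φ,
    h1.pull _, fun k t => ?_⟩
  rw [ap_pull_pow, ap_pull_pow]
  have hk : k = 1 ∨ k = Equiv.swap (0 : Fin 2) 1 := by
    revert k
    decide
  rcases hk with rfl | rfl
  · rfl
  · exact h2 t

theorem R_three : R (Fin 3) := by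
  intro z
  let h : Equiv.Perm (Fin 3) := finRotate 3
  let τ : Equiv.Perm (Fin 3) := Equiv.swap 0 1
  obtain ⟨Φ₁, a1, a2⟩ := neck_perm h 2 (by decide) z
  let Θ₁ := pull (fun n : Multiplicative ℕ => h ^ (Multiplicative.toAdd n)) Φ₁
  have Θ₁cr : CR Θ₁ := a1.pull _
  set c₁ := ap tact Θ₁ z with hc₁
  have inv1 : ∀ t, c₁ (tact h t) = c₁ t := by
    intro t
    rw [hc₁, ap_pull_pow, ap_pull_pow]
    exact a2 t
  obtain ⟨Φ₂, b1, b2⟩ := neck_perm τ 1 (by decide) c₁
  let Θ₂ := pull (fun n : Multiplicative ℕ => τ ^ (Multiplicative.toAdd n)) Φ₂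
  have Θ₂cr : CR Θ₂ := b1.pull _
  refine ⟨cmp Θ₂ Θ₁, Θ₂cr.cmp Θ₁cr, ?_⟩
  rw [ap_cmp _ tact_mul, ← hc₁]
  have inv2 : ∀ t, ap tact Θ₂ c₁ (tact τ t) = ap tact Θ₂ c₁ t := by
    intro t
    simp only [Θ₂]
    rw [ap_pull_pow, ap_pull_pow]
    exact b2 t
  have inv3 : ∀ t, ap tact Θ₂ c₁ (tact h t) = ap tact Θ₂ c₁ t := by
    intro t
    simp only [ap, pull, Θ₂]
    congr 1
    funext n
    rcases Nat.even_or_odd' (Multiplicative.toAdd n) with ⟨m, hm | hm⟩
    · have h0 : τ ^ (2 * m) = 1 := by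
        rw [pow_mul]
        have : τ ^ 2 = 1 := by decide
        rw [this, one_pow]
      rw [hm, h0, tact_one, tact_one]
      exact inv1 t
    · have h0 : τ ^ (2 * m + 1) = τ := by
        rw [pow_succ, pow_mul]
        have : τ ^ 2 = 1 := by decide
        rw [this, one_pow, one_mul]
      rw [hm, h0]
      have hrel : τ * h = h * h * τ := by decide
      have e1 : tact τ (tact h t) = tact h (tact h (tact τ t)) := by
        rw [← tact_mul, hrel]
        rfl
      rw [e1, inv1, inv1]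
  intro k t
  have hk : ∃ i j : Fin 3, j.val < 2 ∧ k = h ^ i.val * τ ^ j.val := by
    revert k
    decide
  obtain ⟨i, j, -, rfl⟩ := hk
  have pw : ∀ (i : ℕ) t, ap tact Θ₂ c₁ (tact (h ^ i) t) = ap tact Θ₂ c₁ t := by
    intro i
    induction i with
    | zero => intro t; rfl
    | succ i ih =>
      intro t
      rw [pow_succ', tact_mul, inv3, ih]
  have pw' : ∀ (j : ℕ) t, ap tact Θ₂ c₁ (tact (τ ^ j) t) = ap tact Θ₂ c₁ t := by
    intro j
    induction j with
    | zero => intro t; rfl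
    | succ j ih =>
      intro t
      rw [pow_succ', tact_mul, inv2, ih]
  rw [tact_mul, pw, pw']

end Vale.Agent.Lib.P058.X3
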