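import Vale.Agent.Lib.P058.X3Wreath

/-! # P058: the affine plane step -/

namespace Vale.Agent.Lib.P058.X3

open Finset

section plane

variable {F : Type} [Field F] [DecidableEq F]

/-- The direction of the line through two points. -/
def dirF (u v : F × F) : Option F :=
  if u.1 = v.1 then none else some ((u.2 - v.2) / (u.1 - v.1))

/-- A linear bijection carrying the class of slope `m` to the vertical class. -/
def gd : Option F → Equiv.Perm (F × F)
  | none => 1
  | some m =>
    { toFun := fun p => (p.2 - m * p.1, p.1)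
      invFun := fun p => (p.2, p.1 + m * p.2)
      left_inv := by
        rintro ⟨x, y⟩
        simp
      right_inv := by
        rintro ⟨x, y⟩
        simp }

omit [DecidableEq F] in
theorem gd_some_fst (m : F) (p : F × F) : (gd (some m) p).1 = p.2 - m * p.1 := rfl

omit [DecidableEq F] in
theorem gd_none_fst (p : F × F) : (gd (none : Option F) p).1 = p.1 := rfl

/-- Two distinct points are on a common line of class `d` exactly when `d` is their direction. -/
theorem gd_fst_iff {u v : F × F} (h : u ≠ v) (d : Option F) :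
    (gd d u).1 = (gd d v).1 ↔ dirF u v = d := by
  cases d with
  | none =>
    rw [gd_none_fst, gd_none_fst]
    unfold dirF
    by_cases h1 : u.1 = v.1 <;> simp [h1]
  | some m =>
    rw [gd_some_fst, gd_some_fst]
    unfold dirF
    by_cases h1 : u.1 = v.1
    · simp only [h1, if_true, reduceCtorEq, iff_false]
      intro h2
      apply h
      refine Prod.ext h1 ?_
      exact sub_left_injective h2
    · have h3 : u.1 - v.1 ≠ 0 := sub_ne_zero.mpr h1
      simp only [h1, if_false, Option.some.injEq]
      rw [div_eq_iff h3]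
      constructor
      · intro h2
        linear_combination h2
      · intro h2
        linear_combination h2

/-- The three directions of a triple. -/
def tauD (t : Fin 3 → F × F) : Fin 3 → Option F :=
  ![dirF (t 0) (t 1), dirF (t 0) (t 2), dirF (t 1) (t 2)]

/-- The three directions are either distinct or all equal. -/
theorem tauD_cases (t : Fin 3 → F × F) (hi : Function.Injective t) :
    Function.Injective (tauD t) ∨ ∀ j k, tauD t j = tauD t k := by
  have h01 : t 0 ≠ t 1 := fun h => by simpa using hi h
  have h02 : t 0 ≠ t 2 := fun h => by simpa using hi h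
  have h12 : t 1 ≠ t 2 := fun h => by simpa using hi h
  have e0 : tauD t 0 = dirF (t 0) (t 1) := rfl
  have e1 : tauD t 1 = dirF (t 0) (t 2) := rfl
  have e2 : tauD t 2 = dirF (t 1) (t 2) := rfl
  by_cases a : tauD t 0 = tauD t 1
  · right
    -- all three points on a line of class `tauD t 0`
    have x1 := (gd_fst_iff h01 (tauD t 0)).mpr e0.symm
    have x2 := (gd_fst_iff h02 (tauD t 0)).mpr (by rw [a, e1])
    have x3 := (gd_fst_iff h12 (tauD t 0)).mp (by rw [← x1, x2])
    have b : tauD t 2 = tauD t 0 := x3
    intro j k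
    fin_cases j <;> fin_cases k <;> simp [a, b]
  · by_cases c : tauD t 0 = tauD t 2
    · right
      have x1 := (gd_fst_iff h01 (tauD t 0)).mpr e0.symm
      have x3 := (gd_fst_iff h12 (tauD t 0)).mpr (by rw [c, e2])
      have x2 := (gd_fst_iff h02 (tauD t 0)).mp (by rw [x1, x3])
      exact absurd (x2.symm) a
    · by_cases d : tauD t 1 = tauD t 2
      · right
        have x2 := (gd_fst_iff h02 (tauD t 1)).mpr e1.symm
        have x3 := (gd_fst_iff h12 (tauD t 1)).mpr (by rw [d, e2])
        have x1 := (gd_fst_iff h01 (tauD t 1)).mp (by rw [x2, x3])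
        exact absurd x1 a
      · left
        intro j k hjk
        fin_cases j <;> fin_cases k <;> first | rfl | (exfalso; simp_all [eq_comm]) 

/-- Equal direction keys give equal class patterns. -/
theorem class_pattern (t t' : Fin 3 → F × F) (hi : Function.Injective t)
    (hi' : Function.Injective t') (d d' : Option F)
    (h : ∀ i, tauD t i = d ↔ tauD t' i = d') (j k : Fin 3) :
    (tact (gd d) t j).1 = (tact (gd d) t k).1 ↔ (tact (gd d') t' j).1 = (tact (gd d') t' k).1 := by
  have key : ∀ (t : Fin 3 → F × F), Function.Injective t → ∀ d : Option F,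
      ((gd d (t 0)).1 = (gd d (t 1)).1 ↔ tauD t 0 = d) ∧
      ((gd d (t 0)).1 = (gd d (t 2)).1 ↔ tauD t 1 = d) ∧
      ((gd d (t 1)).1 = (gd d (t 2)).1 ↔ tauD t 2 = d) := by
    intro t hi d
    have h01 : t 0 ≠ t 1 := fun h => by simpa using hi h
    have h02 : t 0 ≠ t 2 := fun h => by simpa using hi h
    have h12 : t 1 ≠ t 2 := fun h => by simpa using hi h
    exact ⟨gd_fst_iff h01 d, gd_fst_iff h02 d, gd_fst_iff h12 d⟩
  have p01 : (gd d (t 0)).1 = (gd d (t 1)).1 ↔ (gd d' (t' 0)).1 = (gd d' (t' 1)).1 :=
    ((key t hi d).1.trans (h 0)).trans (key t' hi' d').1.symm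
  have p02 : (gd d (t 0)).1 = (gd d (t 2)).1 ↔ (gd d' (t' 0)).1 = (gd d' (t' 2)).1 :=
    ((key t hi d).2.1.trans (h 1)).trans (key t' hi' d').2.1.symm
  have p12 : (gd d (t 1)).1 = (gd d (t 2)).1 ↔ (gd d' (t' 1)).1 = (gd d' (t' 2)).1 :=
    ((key t hi d).2.2.trans (h 2)).trans (key t' hi' d').2.2.symm
  fin_cases j <;> fin_cases k
  · exact ⟨fun _ => rfl, fun _ => rfl⟩
  · exact p01
  · exact p02
  · exact (eq_comm.trans p01).trans eq_comm
  · exact ⟨fun _ => rfl, fun _ => rfl⟩
  · exact p12
  · exact (eq_comm.trans p02).trans eq_comm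
  · exact (eq_comm.trans p12).trans eq_comm
  · exact ⟨fun _ => rfl, fun _ => rfl⟩

/-- The outer step: reading the classes with the reduction of the directions. -/
theorem outer {D' : Type} [Fintype F] [Fintype D'] [DecidableEq D'] (hD : R D')
    (ιD : Option F ↪ D') (c₂ : (Fin 3 → F × F) → ℕ)
    (hc₂ : ∀ t t', Function.Injective t → Function.Injective t' →
      (∀ j k, (t j).1 = (t k).1 ↔ (t' j).1 = (t' k).1) → c₂ t = c₂ t') :
    ∃ Ω : (Equiv.Perm (F × F) → ℕ) → ℕ, CR Ω ∧ ∀ t t', Function.Injective t →
      Function.Injective t' → (Function.Injective (tauD t) ↔ Function.Injective (tauD t')) →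
      ap tact Ω c₂ t = ap tact Ω c₂ t' := by
  classical
  let key : (Fin 3 → F × F) → Option F → (Fin 3 → Bool) := fun t d j => decide (tauD t j = d)
  have hkey : ∀ t t' d d', Function.Injective t → Function.Injective t' → key t d = key t' d' →
      c₂ (tact (gd d) t) = c₂ (tact (gd d') t') := by
    intro t t' d d' hi hi' h
    refine hc₂ _ _ (fun a b hab => hi ((gd d).injective hab))
      (fun a b hab => hi' ((gd d').injective hab))
      (class_pattern t t' hi hi' d d' fun i => ?_)
    have := congrFun h i
    simpa [key] using this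
  let dom := {p : (Fin 3 → F × F) × Option F // Function.Injective p.1}
  let fk : dom → (Fin 3 → Bool) := fun p => key p.1.1 p.1.2
  let gk : dom → ℕ := fun p => c₂ (tact (gd p.1.2) p.1.1)
  have hfact : Function.FactorsThrough gk fk := fun p q h => hkey _ _ _ _ p.2 q.2 h
  let β : (Fin 3 → Bool) → ℕ := Function.extend fk gk (fun _ => 0)
  have hβ : ∀ t d, Function.Injective t → β (key t d) = c₂ (tact (gd d) t) :=
    fun t d hi => hfact.extend_apply _ (⟨(t, d), hi⟩ : dom)
  let d₀ : D' := ιD none
  let e : (Fin 3 → D') → ℕ := fun τ => β (fun j => decide (τ j = d₀))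
  obtain ⟨Φ, hΦ, hinv⟩ := hD e
  obtain ⟨Y, iY, ⟨y₀⟩, k, hk⟩ := hΦ
  let ρ : Equiv.Perm D' := Equiv.swap (ιD none) ((k y₀)⁻¹ d₀)
  let dirOf : Equiv.Perm D' → D' := fun π => (π * ρ)⁻¹ d₀
  have hy₀ : ∃ d, ιD d = dirOf (k y₀) := by
    refine ⟨none, ?_⟩
    simp only [dirOf, mul_inv_rev]
    show ιD none = ρ⁻¹ ((k y₀)⁻¹ d₀)
    have : ρ⁻¹ = ρ := Equiv.swap_inv _ _
    rw [this]
    simp [ρ]
  let v : ℕ := β (fun _ => false)
  let Fh : (Equiv.Perm (F × F) → ℕ) → Equiv.Perm D' → ℕ := fun f π =>
    if h : ∃ d, ιD d = dirOf π then f (gd (Classical.choose h)) else v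
  have hFh : ∀ t, Function.Injective t → ∀ π : Equiv.Perm D',
      Fh (fun γ => c₂ (tact γ t)) π = e (tact π (tact ρ (fun j => ιD (tauD t j)))) := by
    intro t hi π
    have hdec : ∀ j, decide (π (ρ (ιD (tauD t j))) = d₀) = decide (ιD (tauD t j) = dirOf π) := by
      intro j
      apply decide_eq_decide.mpr
      constructor
      · intro h
        show ιD (tauD t j) = (π * ρ)⁻¹ d₀
        rw [Equiv.Perm.eq_inv_iff_eq]
        exact h
      · intro h
        rw [h]
        show (π * ρ) ((π * ρ)⁻¹ d₀) = d₀
        simp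
    have e_eq : e (tact π (tact ρ fun j => ιD (tauD t j)))
        = β (fun j => decide (ιD (tauD t j) = dirOf π)) := by
      show β _ = _
      congr 1
      funext j
      exact hdec j
    rw [e_eq]
    show (if h : ∃ d, ιD d = dirOf π then c₂ (tact (gd (Classical.choose h)) t) else v) = _
    by_cases h : ∃ d, ιD d = dirOf π
    · rw [dif_pos h]
      have hch := Classical.choose_spec h
      have : (fun j => decide (ιD (tauD t j) = dirOf π)) = key t (Classical.choose h) := by
        funext j
        simp only [key]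
        apply decide_eq_decide.mpr
        constructor
        · intro h'
          exact ιD.injective (h'.trans hch.symm)
        · intro h'
          rw [h']
          exact hch
      rw [this, hβ _ _ hi]
    · rw [dif_neg h]
      have : (fun j => decide (ιD (tauD t j) = dirOf π)) = fun _ => false := by
        funext j
        simp only [decide_eq_false_iff_not]
        exact fun h' => h ⟨_, h'⟩
      rw [this]
  refine ⟨fun f => Φ (Fh f), ?_, ?_⟩
  · -- copy reduction
    let Y' := {y : Y // ∃ d, ιD d = dirOf (k y)}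
    refine ⟨Y', inferInstance, ⟨⟨y₀, hy₀⟩⟩, fun y => gd (Classical.choose y.2), ?_⟩
    intro ι U _ _ G hc
    have h1 := hk ι U (fun i u π => Fh (G i u) π) hc
    have h2 := Copy.drop (ι' := ι × Y') (fun p => (p.1, p.2.1))
      (fun p q h => by
        have h' : (p.1, p.2.1) = (q.1, q.2.1) := h
        have h1 : p.1 = q.1 := (Prod.mk.inj h').1
        have h2 : p.2.1 = q.2.1 := (Prod.mk.inj h').2
        exact Prod.ext h1 (Subtype.ext h2)) v
      (by
        rintro ⟨i, y⟩ hp u
        have : ¬ ∃ d, ιD d = dirOf (k y) := by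
          intro hd
          exact hp ⟨(i, ⟨y, hd⟩), rfl⟩
        simp only [Fh, dif_neg this]) h1
    convert h2 using 3 with p u
    simp only [Fh, dif_pos p.2.2]
  · intro t t' hi hi' htri
    have hev : ∀ t, Function.Injective t →
        ap tact (fun f => Φ (Fh f)) c₂ t = ap tact Φ e (fun j => ιD (tauD t j)) := by
      intro t hi
      have h1 : ap tact (fun f => Φ (Fh f)) c₂ t = ap tact Φ e (tact ρ (fun j => ιD (tauD t j))) := by
        simp only [ap]
        congr 1
        funext π
        exact hFh t hi π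
      rw [h1, hinv]
    rw [hev t hi, hev t' hi']
    -- same kernels
    have hker : ∀ j k', ιD (tauD t j) = ιD (tauD t k') ↔ ιD (tauD t' j) = ιD (tauD t' k') := by
      intro j k'
      rw [ιD.injective.eq_iff, ιD.injective.eq_iff]
      rcases tauD_cases t hi with h | h
      · have h' := htri.mp h
        rw [h.eq_iff, h'.eq_iff]
      · rcases tauD_cases t' hi' with h' | h'
        · exfalso
          have h'' := htri.mpr h'
          have := h'' (h 0 1)
          simp at this
        · exact ⟨fun _ => h' _ _, fun _ => h _ _⟩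
    obtain ⟨ρ', hρ'⟩ := exists_perm_of_ker _ _ hker
    have : (fun j => ιD (tauD t' j)) = tact ρ' (fun j => ιD (tauD t j)) := by
      funext j
      exact (hρ' j).symm
    rw [this, hinv]

/-- Reading all permutations finishes a column with two values on the injective triples. -/
theorem top_read [Fintype F] (Z : (Fin 3 → F × F) → ℕ)
    (hZ : ∀ t t', Function.Injective t → Function.Injective t' →
      (Function.Injective (tauD t) ↔ Function.Injective (tauD t')) → Z t = Z t') :
    ∃ Φ : (Equiv.Perm (F × F) → ℕ) → ℕ, CR Φ ∧ ∀ t t', Function.Injective t →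
      Function.Injective t' → ap tact Φ Z t = ap tact Φ Z t' := by
  classical
  let v : ℕ := if h : ∃ t, Function.Injective t ∧ Function.Injective (tauD t) then
    Z (Classical.choose h) else 0
  let w : ℕ := if h : ∃ t, Function.Injective t ∧ ¬ Function.Injective (tauD t) then
    Z (Classical.choose h) else 0
  have hvw : ∀ t, Function.Injective t → Z t = v ∨ Z t = w := by
    intro t hi
    by_cases h : Function.Injective (tauD t)
    · left
      have hex : ∃ t, Function.Injective t ∧ Function.Injective (tauD t) := ⟨t, hi, h⟩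
      have hs := Classical.choose_spec hex
      simp only [v, dif_pos hex]
      exact hZ _ _ hi hs.1 ⟨fun _ => hs.2, fun _ => h⟩
    · right
      have hex : ∃ t, Function.Injective t ∧ ¬ Function.Injective (tauD t) := ⟨t, hi, h⟩
      have hs := Classical.choose_spec hex
      simp only [w, dif_pos hex]
      exact hZ _ _ hi hs.1 ⟨fun a => absurd a h, fun a => absurd a hs.2⟩
  let L : List (Equiv.Perm (F × F)) := Finset.univ.toList
  have hL : L ≠ [] := by
    intro h
    have : (1 : Equiv.Perm (F × F)) ∈ L := by simp [L]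
    simp [h] at this
  refine ⟨rd v L, CR.rd v L hL, fun t t' hi hi' => ?_⟩
  simp only [ap, rd]
  congr 1
  -- a permutation carrying `t` to `t'`
  obtain ⟨κ, hκ⟩ := exists_perm_of_ker t t' (fun j k => by rw [hi.eq_iff, hi'.eq_iff])
  have ht' : t' = tact κ t := by
    funext j
    exact (hκ j).symm
  have hperm : (L.map fun γ => Z (tact γ t')).Perm (L.map fun γ => Z (tact γ t)) := by
    have h1 : (L.map fun γ => Z (tact γ t')) = (L.map (· * κ)).map fun γ => Z (tact γ t) := by
      rw [List.map_map, ht']
      rfl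
    rw [h1]
    refine List.Perm.map _ ?_
    refine (List.perm_ext_iff_of_nodup ((Finset.nodup_toList _).map (mul_left_injective κ))
      (Finset.nodup_toList _)).mpr fun γ => ?_
    simp only [List.mem_map, L, Finset.mem_toList, Finset.mem_univ, true_and, iff_true]
    exact ⟨γ * κ⁻¹, by simp⟩
  have hfil := hperm.filter (fun x => decide (x ≠ v))
  have hall : ∀ t, Function.Injective t → ∀ x ∈ (L.map fun γ => Z (tact γ t)).filter
      (fun x => decide (x ≠ v)), x = w := by
    intro t hi x hx
    simp only [List.mem_filter, List.mem_map, decide_eq_true_eq] at hx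
    obtain ⟨⟨γ, -, rfl⟩, hne⟩ := hx
    rcases hvw _ (fun a b hab => hi (γ.injective hab) : Function.Injective (tact γ t)) with h | h
    · exact absurd h hne
    · exact h
  have e1 := List.eq_replicate_iff.mpr ⟨rfl, hall t hi⟩
  have e2 := List.eq_replicate_iff.mpr ⟨rfl, hall t' hi'⟩
  rw [e1, e2, hfil.length_eq]

/-- The plane step on injective triples. -/
theorem plane_inj {D' : Type} [Fintype F] [Fintype D'] [DecidableEq D'] (hF : R F) (hD : R D')
    (ιD : Option F ↪ D') (c : (Fin 3 → F × F) → ℕ) :
    ∃ Φ : (Equiv.Perm (F × F) → ℕ) → ℕ, CR Φ ∧ ∀ t t', Function.Injective t →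
      Function.Injective t' → ap tact Φ c t = ap tact Φ c t' := by
  obtain ⟨Φ₀, h0, hl, ht⟩ := inner hF c
  set c₂ := ap tact Φ₀ c with hc₂
  obtain ⟨Ω, h1, hΩ⟩ := outer hD ιD c₂ (fun t t' hi hi' hk => pattern c₂ hl ht t t' hi hi' hk)
  set Z := ap tact Ω c₂ with hZ
  obtain ⟨Φ₂, h2, hΦ₂⟩ := top_read Z hΩ
  refine ⟨cmp Φ₂ (cmp Ω Φ₀), h2.cmp (h1.cmp h0), ?_⟩
  rw [ap_cmp _ tact_mul, ap_cmp _ tact_mul, ← hc₂, ← hZ]
  exact hΦ₂

/-- From injective triples to all triples. -/
theorem R_of_inj {α : Type} [Fintype α] [DecidableEq α] (h3 : 3 ≤ Fintype.card α)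
    (h : ∀ c : (Fin 3 → α) → ℕ, ∃ Φ : (Equiv.Perm α → ℕ) → ℕ, CR Φ ∧ ∀ t t',
      Function.Injective t → Function.Injective t' → ap tact Φ c t = ap tact Φ c t') : R α := by
  classical
  intro c
  let X := {t : Fin 3 → α // Function.Injective t}
  let actX : Equiv.Perm α → X → X := fun π x =>
    ⟨tact π x.1, fun a b hab => x.2 (π.injective hab)⟩
  have hR : R0 actX := by
    intro z
    let z' : (Fin 3 → α) → ℕ := fun t => if hi : Function.Injective t then z ⟨t, hi⟩ else 0
    obtain ⟨Φ, h1, h2⟩ := h z'
    refine ⟨Φ, h1, fun k x => ?_⟩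
    have key : ∀ y : X, ap actX Φ z y = ap tact Φ z' y.1 := by
      intro y
      simp only [ap]
      congr 1
      funext k'
      have hi : Function.Injective (tact k' y.1) := (actX k' y).2
      simp only [z', dif_pos hi]
      rfl
    rw [key, key]
    exact h2 _ _ (actX k x).2 x.2
  let ψ : (Fin 3 → Fin 3) → X → (Fin 3 → α) := fun p x j => x.1 (p j)
  obtain ⟨Φ, h1, h2⟩ := cover actX tact tact_mul ψ (fun s k x => rfl) hR c
  refine ⟨Φ, h1, fun k t => ?_⟩
  -- every triple factors through an injective one
  obtain ⟨x, p, hx⟩ : ∃ (x : X) (p : Fin 3 → Fin 3), t = ψ p x := by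
    let A : Finset α := Finset.univ.image t
    have hA : A.card ≤ 3 := by
      have := Finset.card_image_le (s := Finset.univ) (f := t)
      simpa using this
    obtain ⟨B, hAB, hB⟩ := Finset.exists_superset_card_eq hA h3
    let e : Fin 3 ≃ {a // a ∈ B} := (Finset.equivFinOfCardEq hB).symm
    refine ⟨⟨fun j => (e j).1, fun a b hab => e.injective (Subtype.ext hab)⟩,
      fun j => e.symm ⟨t j, hAB (Finset.mem_image_of_mem t (Finset.mem_univ j))⟩, ?_⟩
    funext j
    simp [ψ]
  rw [hx]
  exact h2 p k x

/-- The recursion. -/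
theorem R_plane {D' : Type} [Fintype F] [Fintype D'] [DecidableEq D'] (hF : R F) (hD : R D')
    (ιD : Option F ↪ D') : R (F × F) := by
  refine R_of_inj ?_ (plane_inj hF hD ιD)
  have h2 : 1 < Fintype.card F := Fintype.one_lt_card
  rw [Fintype.card_prod]
  nlinarith

end plane

end Vale.Agent.Lib.P058.X3
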